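import Crest.Agent.R141.FinTrial2
import Crest.Agent.R141.Red0

-- ▼ part R141/Bridge36
section

/-!
Row 141, bridge between the independent-path recursion `ThetaInd` (section 3.5) and the
trial functional (section 3.6).

Context: a finite path space `Om` with kernels `Kk n : Om → Om → ℝ` (`Kk n` = conditional law
given `F_{t_{J-n}}`, `n = 0..J`), a finite nonempty set of sites `I`, spins `sg : I → Om → Bool`.
The trial is the chain on `I × Om` started from a uniform site and the fixed node `w0`.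
-/

set_option autoImplicit false

open MeasureTheory

namespace Crest.Agent.R141.Br

open Crest.ProbabilityR.Diluted

/-- The multi-affine extension of `W0 : (S → Bool) → ℝ` at the messages `y`. -/
noncomputable def multiAff {S : Type*} [Fintype S] [DecidableEq S] (W0 : (S → Bool) → ℝ)
    (y : S → ℝ) : ℝ :=
  ∑ σ : S → Bool, W0 σ * ∏ l, tilt (y l) (σ l)

/-- The cavity weight of one new site as a function of the neighbouring spins. -/
noncomputable def siteW {p k : ℕ} (h : ℝ) (θs : Fin k → Inter p)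
    (σ : Fin k × Fin (p - 1) → Bool) : ℝ :=
  (1 / 2) * ∑ ε : Bool, Real.exp (h * spinVal ε + ∑ j : Fin k,
    θs j (fun ℓ => if h : ℓ.val < p - 1 then σ (j, ⟨ℓ.val, h⟩) else ε))


theorem tilt_pos (x : ℝ) (s : Bool) : 0 < tilt x s := by
  unfold tilt
  have := Real.cosh_pos x
  positivity


theorem edgeTerm_eq_multiAff {p : ℕ} (θ : Inter p) (x : Fin p → ℝ) :
    edgeTerm θ x = multiAff (fun σ => Real.exp (θ σ)) x := rfl

theorem siteTerm_eq_multiAff {p k : ℕ} (h : ℝ) (θs : Fin k → Inter p)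
    (x : Fin k → Fin (p - 1) → ℝ) :
    siteTerm h θs x = multiAff (siteW h θs) (fun jl : Fin k × Fin (p - 1) => x jl.1 jl.2) := by
  classical
  unfold siteTerm multiAff siteW
  have hpos : ∀ (j : Fin k) (ε : Bool), 0 < ∑ s' : Fin (p - 1) → Bool,
      Real.exp (θs j (fun ℓ => if h : ℓ.val < p - 1 then s' ⟨ℓ.val, h⟩ else ε)) *
      ∏ ℓ, tilt (x j ℓ) (s' ℓ) := fun j ε =>
    Finset.sum_pos (fun s' _ => mul_pos (Real.exp_pos _)
      (Finset.prod_pos fun ℓ _ => tilt_pos _ _)) Finset.univ_nonempty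
  have hexp : ∀ ε : Bool, Real.exp (h * spinVal ε + ∑ j : Fin k, siteMessage (θs j) (x j) ε) =
      Real.exp (h * spinVal ε) * ∏ j : Fin k, ∑ s' : Fin (p - 1) → Bool,
      Real.exp (θs j (fun ℓ => if h : ℓ.val < p - 1 then s' ⟨ℓ.val, h⟩ else ε)) *
      ∏ ℓ, tilt (x j ℓ) (s' ℓ) := by
    intro ε
    rw [Real.exp_add, Real.exp_sum]
    congr 1
    refine Finset.prod_congr rfl fun j _ => ?_
    unfold siteMessage
    rw [Real.exp_log (hpos j ε)]
  simp only [hexp]
  have hprod : ∀ ε : Bool, (∏ j : Fin k, ∑ s' : Fin (p - 1) → Bool,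
      Real.exp (θs j (fun ℓ => if h : ℓ.val < p - 1 then s' ⟨ℓ.val, h⟩ else ε)) *
      ∏ ℓ, tilt (x j ℓ) (s' ℓ)) = ∑ σ : Fin k × Fin (p - 1) → Bool,
      Real.exp (∑ j : Fin k, θs j (fun ℓ => if h : ℓ.val < p - 1 then σ (j, ⟨ℓ.val, h⟩) else ε)) *
      ∏ jl : Fin k × Fin (p - 1), tilt (x jl.1 jl.2) (σ jl) := by
    intro ε
    rw [Finset.prod_univ_sum]
    rw [Fintype.piFinset_univ]
    refine Fintype.sum_equiv (Equiv.curry (Fin k) (Fin (p - 1)) Bool).symm _ _ fun t => ?_
    rw [Finset.prod_mul_distrib, Real.exp_sum, Fintype.prod_prod_type]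
    rfl
  simp only [hprod]
  simp only [Finset.mul_sum, Finset.sum_mul]
  rw [Finset.sum_comm]
  refine Finset.sum_congr rfl fun σ _ => ?_
  refine Finset.sum_congr rfl fun ε _ => ?_
  rw [Real.exp_add]
  ring

/-! ### The context -/

/-- Magnetization of the site `i` at the node `w`. -/
noncomputable def magK {Om I : Type*} [Fintype Om] (Kk : ℕ → Om → Om → ℝ) (sg : I → Om → Bool)
    (i : I) (w : Om) : ℝ := ∑ w', Kk 0 w w' * spinVal (sg i w')

/-- The independent-path recursion for a general finite slot set `S`. -/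
noncomputable def thInd {Om I S : Type*} [Fintype Om] [Fintype S] [DecidableEq S]
    (Kk : ℕ → Om → Om → ℝ) (sg : I → Om → Bool)
    (f : ℕ → ℝ → ℝ) (W0 : (S → Bool) → ℝ) (site : S → I) : ℕ → (S → Om) → ℝ
  | 0, w => W0 (fun l => sg (site l) (w l))
  | n + 1, w => f n (∑ w' : S → Om, (∏ l, Kk n (w l) (w' l)) * thInd Kk sg f W0 site n w')

theorem tilt_artanh {M : ℝ} (h1 : -1 < M) (h2 : M < 1) (b : Bool) :
    tilt ((1 / 2) * Real.log ((1 + M) / (1 - M))) b = (1 + spinVal b * M) / 2 := by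
  have hA : 0 < 1 + M := by linarith
  have hB : 0 < 1 - M := by linarith
  set y := (1 / 2) * Real.log ((1 + M) / (1 - M)) with hy
  have h2y : Real.exp (2 * y) = (1 + M) / (1 - M) := by
    rw [hy, show 2 * ((1 / 2) * Real.log ((1 + M) / (1 - M))) =
      Real.log ((1 + M) / (1 - M)) by ring, Real.exp_log (div_pos hA hB)]
  have hyy : Real.exp y * Real.exp y = (1 + M) / (1 - M) := by
    rw [← Real.exp_add, ← two_mul, h2y]
  have hyn : Real.exp (-y) * Real.exp y = 1 := by
    rw [← Real.exp_add]; simp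
  have he : 0 < Real.exp y := Real.exp_pos y
  have hen : 0 < Real.exp (-y) := Real.exp_pos _
  have hyy' : Real.exp y * Real.exp y * (1 - M) = 1 + M := by
    rw [hyy]; field_simp
  unfold tilt
  rw [Real.cosh_eq]
  have hden : Real.exp y + Real.exp (-y) ≠ 0 := by positivity
  cases b
  · simp only [spinVal, Bool.false_eq_true, if_false, mul_neg, mul_one, neg_mul, one_mul]
    rw [div_eq_div_iff (by positivity) (by norm_num)]
    have : Real.exp (-y) * 2 = (1 + -M) * (Real.exp y + Real.exp (-y)) := by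
      have h3 : Real.exp y * (Real.exp (-y) * 2) =
        Real.exp y * ((1 + -M) * (Real.exp y + Real.exp (-y))) := by
        nlinarith [hyy', hyn]
      exact mul_left_cancel₀ he.ne' h3
    linarith
  · simp only [spinVal, if_true, mul_one, one_mul]
    rw [div_eq_div_iff (by positivity) (by norm_num)]
    have : Real.exp y * 2 = (1 + M) * (Real.exp y + Real.exp (-y)) := by
      have h3 : Real.exp y * (Real.exp y * 2) =
        Real.exp y * ((1 + M) * (Real.exp y + Real.exp (-y))) := by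
        have : Real.exp y * Real.exp y = (1 + M) / (1 - M) := hyy
        have h4 : Real.exp y * ((1 + M) * (Real.exp y + Real.exp (-y))) =
          (1 + M) * (Real.exp y * Real.exp y + Real.exp (-y) * Real.exp y) := by ring
        rw [h4, hyn, show Real.exp y * (Real.exp y * 2) = 2 * (Real.exp y * Real.exp y) by ring,
          this]
        field_simp
        ring
      exact mul_left_cancel₀ he.ne' h3
    linarith

theorem magK_bounds {Om I : Type*} [Fintype Om] [Nonempty Om] (Kk : ℕ → Om → Om → ℝ)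
    (hK0 : ∀ n w w', 0 ≤ Kk n w w') (hK1 : ∀ n w, ∑ w', Kk n w w' = 1)
    (sg : I → Om → Bool) (i : I) (w : Om)
    (ht : ∃ w', 0 < Kk 0 w w' ∧ sg i w' = true) (hf : ∃ w', 0 < Kk 0 w w' ∧ sg i w' = false) :
    -1 < magK Kk sg i w ∧ magK Kk sg i w < 1 := by
  have hs : ∀ b : Bool, -1 ≤ spinVal b ∧ spinVal b ≤ 1 := by
    intro b; cases b <;> simp [spinVal]
  constructor
  · obtain ⟨a, ha, hat⟩ := ht
    unfold magK
    have : ∑ w', Kk 0 w w' * (-1) < ∑ w', Kk 0 w w' * spinVal (sg i w') := by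
      refine Finset.sum_lt_sum (fun w' _ => mul_le_mul_of_nonneg_left (hs _).1 (hK0 _ _ _))
        ⟨a, Finset.mem_univ _, ?_⟩
      rw [hat]
      simp only [spinVal, if_true]
      nlinarith
    rw [← Finset.sum_mul, hK1] at this
    linarith
  · obtain ⟨a, ha, haf⟩ := hf
    unfold magK
    have : ∑ w', Kk 0 w w' * spinVal (sg i w') < ∑ w', Kk 0 w w' * 1 := by
      refine Finset.sum_lt_sum (fun w' _ => mul_le_mul_of_nonneg_left (hs _).2 (hK0 _ _ _))
        ⟨a, Finset.mem_univ _, ?_⟩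
      rw [haf]
      simp only [spinVal, Bool.false_eq_true, if_false]
      nlinarith
    rw [← Finset.sum_mul, hK1] at this
    linarith

/-- Pushing a product law forward slot by slot. -/
theorem sum_prod_push {Om S : Type*} [Fintype Om] [Fintype S] [DecidableEq S]
    (q : S → Om → ℝ) (g : S → Om → Bool) (W0 : (S → Bool) → ℝ) :
    ∑ w' : S → Om, (∏ l, q l (w' l)) * W0 (fun l => g l (w' l)) =
      ∑ σ : S → Bool, W0 σ * ∏ l, ∑ w', if g l w' = σ l then q l w' else 0 := by
  classical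
  have h1 : ∀ σ : S → Bool, (∏ l, ∑ w', if g l w' = σ l then q l w' else 0) =
      ∑ w' : S → Om, ∏ l, if g l (w' l) = σ l then q l (w' l) else 0 := by
    intro σ
    rw [Finset.prod_univ_sum, Fintype.piFinset_univ]
  simp only [h1, Finset.mul_sum]
  rw [Finset.sum_comm]
  refine Finset.sum_congr rfl fun w' _ => ?_
  rw [Finset.sum_eq_single (fun l => g l (w' l))]
  · simp only [if_true]
    ring
  · intro σ _ hσ
    have : ∃ l, ¬ g l (w' l) = σ l := by
      by_contra hcon
      push Not at hcon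
      exact hσ (funext fun l => (hcon l).symm)
    obtain ⟨l, hl⟩ := this
    rw [Finset.prod_eq_zero (Finset.mem_univ l)]
    · simp
    · simp [hl]
  · intro h
    exact absurd (Finset.mem_univ _) h

theorem sum_kernel_eq_tilt {Om I : Type*} [Fintype Om] (Kk : ℕ → Om → Om → ℝ)
    (hK1 : ∀ n w, ∑ w', Kk n w w' = 1) (sg : I → Om → Bool) (i : I) (w : Om)
    (h : -1 < magK Kk sg i w ∧ magK Kk sg i w < 1) (b : Bool) :
    (∑ w', if sg i w' = b then Kk 0 w w' else 0) =
      tilt ((1 / 2) * Real.log ((1 + magK Kk sg i w) / (1 - magK Kk sg i w))) b := by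
  rw [tilt_artanh h.1 h.2]
  unfold magK
  rw [eq_div_iff (by norm_num), Finset.mul_sum, ← hK1 0 w, ← Finset.sum_add_distrib,
    Finset.sum_mul]
  refine Finset.sum_congr rfl fun w' _ => ?_
  cases b <;> cases hs : sg i w' <;> simp [spinVal] <;> ring

/-! ### The chain on `I × Om` -/

open Classical in
/-- Transition weights of the trial chain: the site is kept, the node moves with `Kk (J - j)`. -/
noncomputable def chK {Om I : Type*} (J : ℕ) (Kk : ℕ → Om → Om → ℝ) :
    ℕ → I × Om → I × Om → ℝ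
  | 0, a, b => if a = b then 1 else 0
  | j + 1, a, b => if a.1 = b.1 then Kk (J - j) a.2 b.2 else 0

theorem chK_nonneg {Om I : Type*} (J : ℕ) (Kk : ℕ → Om → Om → ℝ)
    (hK0 : ∀ n w w', 0 ≤ Kk n w w') (j : ℕ) (a b : I × Om) : 0 ≤ chK J Kk j a b := by
  cases j with
  | zero => simp only [chK]; split_ifs <;> norm_num
  | succ j =>
    simp only [chK]
    split_ifs
    · exact hK0 _ _ _
    · exact le_refl _

theorem chK_sum {Om I : Type*} [Fintype Om] [Fintype I] (J : ℕ) (Kk : ℕ → Om → Om → ℝ)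
    (hK1 : ∀ n w, ∑ w', Kk n w w' = 1) (j : ℕ) (a : I × Om) : ∑ b, chK J Kk j a b = 1 := by
  classical
  cases j with
  | zero => simp [chK]
  | succ j =>
    simp only [chK]
    rw [Fintype.sum_prod_type]
    rw [Finset.sum_eq_single a.1]
    · simp [hK1]
    · intro i _ hi
      simp [Ne.symm hi]
    · intro h
      exact absurd (Finset.mem_univ _) h

theorem sum_chK {Om I S : Type*} [Fintype Om] [Fintype I] [Fintype S] [DecidableEq S]
    (J : ℕ) (Kk : ℕ → Om → Om → ℝ) (j : ℕ) (site : S → I) (w : S → Om)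
    (F : (S → I × Om) → ℝ) :
    ∑ s' : S → I × Om, (∏ l, chK J Kk (j + 1) (site l, w l) (s' l)) * F s' =
      ∑ w' : S → Om, (∏ l, Kk (J - j) (w l) (w' l)) * F (fun l => (site l, w' l)) := by
  classical
  rw [← Equiv.sum_comp (Equiv.arrowProdEquivProdArrow S (fun _ => I) (fun _ => Om)).symm,
    Fintype.sum_prod_type]
  rw [Finset.sum_eq_single site]
  · refine Finset.sum_congr rfl fun w' _ => ?_
    simp only [Equiv.arrowProdEquivProdArrow, Equiv.coe_fn_symm_mk, chK, if_true]
  · intro si _ hsi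
    have : ∃ l, ¬ si l = site l := by
      by_contra hcon
      push Not at hcon
      exact hsi (funext hcon)
    obtain ⟨l, hl⟩ := this
    refine Finset.sum_eq_zero fun w' _ => ?_
    rw [Finset.prod_eq_zero (Finset.mem_univ l), zero_mul]
    exact if_neg (fun h : site l = si l => hl (Eq.symm h))
  · intro h
    exact absurd (Finset.mem_univ _) h

theorem nestPM_pos {A L : Type*} [Fintype A] [Fintype L] [DecidableEq L]
    (κ : ℕ → A → A → ℝ) (hκ0 : ∀ j a b, 0 ≤ κ j a b) (hκ1 : ∀ j a, ∑ b, κ j a b = 1)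
    (m : ℕ → ℝ) (W : (L → A) → ℝ) (hW : ∀ s, 0 < W s) (n j : ℕ) (s : L → A) :
    0 < nestPM κ m W n j s := by
  induction n generalizing j s with
  | zero => exact hW s
  | succ n ih =>
    simp only [nestPM]
    apply Real.rpow_pos_of_pos
    have hne : ∃ s' : L → A, 0 < ∏ ω, κ (j + 1) (s ω) (s' ω) := by
      by_contra hcon
      push Not at hcon
      have h1 : ∑ s' : L → A, ∏ ω, κ (j + 1) (s ω) (s' ω) ≤ 0 :=
        Finset.sum_nonpos fun s' _ => hcon s'
      rw [sum_prod_kernel hκ1] at h1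
      linarith
    obtain ⟨s', hs'⟩ := hne
    exact Finset.sum_pos' (fun s' _ => mul_nonneg (prod_kernel_nonneg hκ0 _ _ _)
      (Real.rpow_nonneg (ih _ _).le _)) ⟨s', Finset.mem_univ _,
        mul_pos hs' (Real.rpow_pos_of_pos (ih _ _) _)⟩

/-- The nonlinearities of the recursion `ThetaInd` corresponding to the exponents
`mm 0 < ... < mm (J-1)`. -/
noncomputable def fExp (J : ℕ) (mm : ℕ → ℝ) (n : ℕ) (s : ℝ) : ℝ :=
  if n = 0 then s ^ (mm (J - 1))
  else if n < J then s ^ (mm (J - n - 1) / mm (J - n))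
  else (1 / mm 0) * Real.log s

section main

variable {Om I : Type*} [Fintype Om] [Fintype I]

/-- The message of the final state of the chain. -/
noncomputable def msgK (Kk : ℕ → Om → Om → ℝ) (sg : I → Om → Bool) (a : I × Om) : ℝ :=
  (1 / 2) * Real.log ((1 + magK Kk sg a.1 a.2) / (1 - magK Kk sg a.1 a.2))

omit [Fintype I] in
theorem sum_K0_eq_multiAff {S : Type*} [Fintype S] [DecidableEq S] (Kk : ℕ → Om → Om → ℝ)
    (hK1 : ∀ n w, ∑ w', Kk n w w' = 1) (sg : I → Om → Bool)
    (hmag : ∀ i w, -1 < magK Kk sg i w ∧ magK Kk sg i w < 1)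
    (W0 : (S → Bool) → ℝ) (site : S → I) (w : S → Om) :
    ∑ w' : S → Om, (∏ l, Kk 0 (w l) (w' l)) * W0 (fun l => sg (site l) (w' l)) =
      multiAff W0 (fun l => msgK Kk sg (site l, w l)) := by
  rw [sum_prod_push (fun l w' => Kk 0 (w l) w') (fun l w' => sg (site l) w')]
  unfold multiAff
  refine Finset.sum_congr rfl fun σ _ => ?_
  congr 1
  refine Finset.prod_congr rfl fun l _ => ?_
  exact sum_kernel_eq_tilt Kk hK1 sg (site l) (w l) (hmag _ _) (σ l)

theorem thInd_eq_nestPM_rpow {S : Type*} [Fintype S] [DecidableEq S] (J : ℕ)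
    (Kk : ℕ → Om → Om → ℝ)
    (hK0 : ∀ n w w', 0 ≤ Kk n w w') (hK1 : ∀ n w, ∑ w', Kk n w w' = 1) (sg : I → Om → Bool)
    (hmag : ∀ i w, -1 < magK Kk sg i w ∧ magK Kk sg i w < 1) (mm : ℕ → ℝ)
    (W0 : (S → Bool) → ℝ) (hW0 : ∀ s, 0 < W0 s) (site : S → I) (n : ℕ) (hn : n < J)
    (w : S → Om) :
    thInd Kk sg (fExp J mm) W0 site (n + 1) w =
      (nestPM (chK J Kk) mm (fun s => multiAff W0 (fun l => msgK Kk sg (s l))) n (J - n)
        (fun l => (site l, w l))) ^ (mm (J - n - 1)) := by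
  classical
  have hWx : ∀ s : S → I × Om, 0 < multiAff W0 (fun l => msgK Kk sg (s l)) := fun s =>
    Finset.sum_pos (fun σ _ => mul_pos (hW0 _) (Finset.prod_pos fun _ _ => tilt_pos _ _))
      Finset.univ_nonempty
  induction n generalizing w with
  | zero =>
    simp only [thInd, nestPM, fExp, if_true, Nat.sub_zero]
    rw [sum_K0_eq_multiAff Kk hK1 sg hmag]
  | succ n ih =>
    have ih' := fun w' => ih (by omega) w'
    rw [thInd]
    simp only [ih']
    have hlev : J - n = (J - (n + 1)) + 1 := by omega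
    have hidx : J - (J - (n + 1)) = n + 1 := by omega
    have hnest : nestPM (chK J Kk) mm (fun s => multiAff W0 (fun l => msgK Kk sg (s l)))
        (n + 1) (J - (n + 1)) (fun l => (site l, w l)) =
        (∑ w' : S → Om, (∏ l, Kk (n + 1) (w l) (w' l)) *
          (nestPM (chK J Kk) mm (fun s => multiAff W0 (fun l => msgK Kk sg (s l))) n (J - n)
            (fun l => (site l, w' l))) ^ (mm (J - n - 1))) ^ (1 / mm (J - n - 1)) := by
      rw [nestPM, sum_chK J Kk (J - (n + 1)) site w]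
      rw [hidx, hlev]
      rfl
    have hnn : 0 ≤ ∑ w' : S → Om, (∏ l, Kk (n + 1) (w l) (w' l)) *
          (nestPM (chK J Kk) mm (fun s => multiAff W0 (fun l => msgK Kk sg (s l))) n (J - n)
            (fun l => (site l, w' l))) ^ (mm (J - n - 1)) :=
      Finset.sum_nonneg fun w' _ => mul_nonneg (Finset.prod_nonneg fun _ _ => hK0 _ _ _)
        (Real.rpow_nonneg (nestPM_nonneg _ (chK_nonneg J Kk hK0) mm _ (fun s => (hWx s).le) _ _ _)
          _)
    rw [hnest]
    unfold fExp
    rw [if_neg (Nat.succ_ne_zero n), if_pos hn]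
    rw [← Real.rpow_mul hnn]
    congr 1
    have e1 : J - (n + 1) = J - n - 1 := by omega
    rw [e1]
    ring

/-- `log nestPM = ThetaInd` at the root. -/
theorem log_nestPM_eq_thInd {S : Type*} [Fintype S] [DecidableEq S] (J : ℕ) (hJ : 1 ≤ J)
    (Kk : ℕ → Om → Om → ℝ)
    (hK0 : ∀ n w w', 0 ≤ Kk n w w') (hK1 : ∀ n w, ∑ w', Kk n w w' = 1) (sg : I → Om → Bool)
    (hmag : ∀ i w, -1 < magK Kk sg i w ∧ magK Kk sg i w < 1) (mm : ℕ → ℝ)
    (W0 : (S → Bool) → ℝ) (hW0 : ∀ s, 0 < W0 s) (site : S → I)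
    (w : S → Om) :
    Real.log (nestPM (chK J Kk) mm (fun s => multiAff W0 (fun l => msgK Kk sg (s l))) J 0
        (fun l => (site l, w l))) = thInd Kk sg (fExp J mm) W0 site (J + 1) w := by
  classical
  have hWx : ∀ s : S → I × Om, 0 < multiAff W0 (fun l => msgK Kk sg (s l)) := fun s =>
    Finset.sum_pos (fun σ _ => mul_pos (hW0 _) (Finset.prod_pos fun _ _ => tilt_pos _ _))
      Finset.univ_nonempty
  obtain ⟨n, rfl⟩ : ∃ n, J = n + 1 := ⟨J - 1, by omega⟩
  have h1 := fun w' => thInd_eq_nestPM_rpow (n + 1) Kk hK0 hK1 sg hmag mm W0 hW0 site n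
    (by omega) w'
  have e1 : n + 1 - n - 1 = 0 := by omega
  have e2 : n + 1 - n = 1 := by omega
  rw [thInd]
  simp only [h1, e2, Nat.sub_self]
  rw [nestPM, sum_chK (n + 1) Kk 0 site w]
  unfold fExp
  rw [if_neg (Nat.succ_ne_zero n), if_neg (by omega), Nat.sub_zero, zero_add]
  rw [Real.log_rpow]
  have hpos : ∀ s, 0 < nestPM (chK (n + 1) Kk) mm
      (fun s => multiAff W0 (fun l => msgK Kk sg (s l))) n 1 s := fun s =>
    nestPM_pos _ (chK_nonneg _ Kk hK0) (chK_sum _ Kk hK1) mm _ hWx _ _ _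
  have hne : ∃ w' : S → Om, 0 < ∏ l, Kk (n + 1) (w l) (w' l) := by
    by_contra hcon
    push Not at hcon
    have h1 : ∑ w' : S → Om, ∏ l, Kk (n + 1) (w l) (w' l) ≤ 0 :=
      Finset.sum_nonpos fun w' _ => hcon w'
    rw [sum_prod_kernel (κ := Kk) hK1] at h1
    linarith
  obtain ⟨w', hw'⟩ := hne
  exact Finset.sum_pos' (fun w' _ => mul_nonneg (Finset.prod_nonneg fun _ _ => hK0 _ _ _)
      (Real.rpow_nonneg (hpos _).le _)) ⟨w', Finset.mem_univ _,
        mul_pos hw' (Real.rpow_pos_of_pos (hpos _) _)⟩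

/-- **The trial of a context.** One measurable `X` realizes all independent-path recursions
started at a uniform site and the fixed node `w0`. -/
theorem exists_trial_of_context [Nonempty I] (J : ℕ) (hJ : 1 ≤ J)
    (Kk : ℕ → Om → Om → ℝ)
    (hK0 : ∀ n w w', 0 ≤ Kk n w w') (hK1 : ∀ n w, ∑ w', Kk n w w' = 1) (sg : I → Om → Bool)
    (hmag : ∀ i w, -1 < magK Kk sg i w ∧ magK Kk sg i w < 1) (mm : ℕ → ℝ) (w0 : Om) :
    ∃ X : (Fin (J + 1) → unitInterval) → ℝ, Measurable X ∧
      ∀ (S : Type) [Fintype S] [DecidableEq S] (W0 : (S → Bool) → ℝ), (∀ s, 0 < W0 s) →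
        ∫ u, Real.log (powerMeans (fun d : Fin J => mm d)
            (fun u' => multiAff W0 (fun l => X (u' l))) u) ∂(uniformArrays S J) =
          ((Fintype.card (S → I) : ℝ)⁻¹ *
            ∑ site : S → I, thInd Kk sg (fExp J mm) W0 site (J + 1) (fun _ => w0)) := by
  classical
  have hI : (0 : ℝ) < Fintype.card I := by exact_mod_cast Fintype.card_pos
  obtain ⟨X, hX, hF⟩ := exists_finTrial (A := I × Om) J
    (fun a => if a.2 = w0 then (Fintype.card I : ℝ)⁻¹ else 0) (chK J Kk)
    (fun a => by split_ifs <;> positivity)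
    (by
      rw [Fintype.sum_prod_type]
      simp only [Finset.sum_ite_eq', Finset.mem_univ, if_true, Finset.sum_const, Finset.card_univ,
        nsmul_eq_mul]
      field_simp)
    (fun j a b => chK_nonneg J Kk hK0 j a b) (fun j a => chK_sum J Kk hK1 j a) (msgK Kk sg)
  refine ⟨X, hX, fun S _ _ W0 hW0 => ?_⟩
  rw [hF S mm (fun y => multiAff W0 y) Real.log]
  rw [← Equiv.sum_comp (Equiv.arrowProdEquivProdArrow S (fun _ => I) (fun _ => Om)).symm,
    Fintype.sum_prod_type, Finset.mul_sum]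
  refine Finset.sum_congr rfl fun site _ => ?_
  rw [Finset.sum_eq_single (fun _ => w0)]
  · simp only [Equiv.arrowProdEquivProdArrow, Equiv.coe_fn_symm_mk, if_true, Finset.prod_const,
      Finset.card_univ]
    rw [log_nestPM_eq_thInd J hJ Kk hK0 hK1 sg hmag mm W0 hW0 site (fun _ => w0)]
    congr 1
    rw [Fintype.card_fun, Nat.cast_pow, inv_pow]
  · intro w _ hw
    have : ∃ l, ¬ w l = w0 := by
      by_contra hcon
      push Not at hcon
      exact hw (funext hcon)
    obtain ⟨l, hl⟩ := this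
    rw [Finset.prod_eq_zero (Finset.mem_univ l), zero_mul]
    exact if_neg (fun h : w l = w0 => hl h)
  · intro h
    exact absurd (Finset.mem_univ _) h


end main

/-! ### Products over disjoint slots -/

/-- Nested power means of a product over a finite family of groups of labels. -/
theorem nestPM_prod {A ι T : Type*} [Fintype A] [Fintype ι] [DecidableEq ι] [Fintype T]
    [DecidableEq T]
    (κ : ℕ → A → A → ℝ) (hκ0 : ∀ j a b, 0 ≤ κ j a b) (m : ℕ → ℝ)
    (W : ι → (T → A) → ℝ) (hW : ∀ i s, 0 ≤ W i s) (n j : ℕ) (s : ι × T → A) :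
    nestPM κ m (fun s : ι × T → A => ∏ i, W i (fun t => s (i, t))) n j s =
      ∏ i, nestPM κ m (W i) n j (fun t => s (i, t)) := by
  classical
  induction n generalizing j s with
  | zero => rfl
  | succ n ih =>
    simp only [nestPM, ih]
    have hnn : ∀ (i : ι) (t : T → A), 0 ≤ nestPM κ m (W i) n (j + 1) t := fun i t =>
      nestPM_nonneg κ hκ0 m (W i) (hW i) _ _ _
    rw [Real.finsetProd_rpow _ _ (fun i _ => Finset.sum_nonneg fun s' _ =>
      mul_nonneg (prod_kernel_nonneg hκ0 _ _ _) (Real.rpow_nonneg (hnn _ _) _))]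
    congr 1
    rw [Finset.prod_univ_sum, Fintype.piFinset_univ]
    refine Fintype.sum_equiv (Equiv.curry ι T A) _ _ fun s' => ?_
    rw [Finset.prod_mul_distrib, ← Real.finsetProd_rpow _ _ (fun i _ => hnn _ _),
      Fintype.prod_prod_type]
    rfl

theorem multiAff_prod {ι T : Type*} [Fintype ι] [DecidableEq ι] [Fintype T] [DecidableEq T]
    (W : ι → (T → Bool) → ℝ) (y : ι × T → ℝ) :
    multiAff (fun σ : ι × T → Bool => ∏ i, W i (fun t => σ (i, t))) y =
      ∏ i, multiAff (W i) (fun t => y (i, t)) := by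
  classical
  unfold multiAff
  rw [Finset.prod_univ_sum, Fintype.piFinset_univ]
  refine Fintype.sum_equiv (Equiv.curry ι T Bool) _ _ fun s' => ?_
  rw [Finset.prod_mul_distrib, Fintype.prod_prod_type]
  rfl

theorem multiAff_pos {S : Type*} [Fintype S] [DecidableEq S] (W0 : (S → Bool) → ℝ)
    (hW0 : ∀ s, 0 < W0 s) (y : S → ℝ) : 0 < multiAff W0 y :=
  Finset.sum_pos (fun σ _ => mul_pos (hW0 _) (Finset.prod_pos fun _ _ => tilt_pos _ _))
    Finset.univ_nonempty

/-- `ThetaInd` at the root of a product over disjoint groups of slots is the sum. -/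
theorem thInd_prod {Om I ι T : Type*} [Fintype Om] [Fintype I] [Fintype ι] [DecidableEq ι]
    [Fintype T] [DecidableEq T] (J : ℕ) (hJ : 1 ≤ J)
    (Kk : ℕ → Om → Om → ℝ)
    (hK0 : ∀ n w w', 0 ≤ Kk n w w') (hK1 : ∀ n w, ∑ w', Kk n w w' = 1) (sg : I → Om → Bool)
    (hmag : ∀ i w, -1 < magK Kk sg i w ∧ magK Kk sg i w < 1) (mm : ℕ → ℝ)
    (W : ι → (T → Bool) → ℝ) (hW : ∀ i s, 0 < W i s) (site : ι × T → I) (w : ι × T → Om) :
    thInd Kk sg (fExp J mm) (fun σ : ι × T → Bool => ∏ i, W i (fun t => σ (i, t))) site (J + 1) w =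
      ∑ i, thInd Kk sg (fExp J mm) (W i) (fun t => site (i, t)) (J + 1) (fun t => w (i, t)) := by
  rw [← log_nestPM_eq_thInd J hJ Kk hK0 hK1 sg hmag mm _
    (fun s => Finset.prod_pos fun i _ => hW i _) site w]
  simp only [← log_nestPM_eq_thInd J hJ Kk hK0 hK1 sg hmag mm _ (hW _)]
  have h1 := nestPM_prod (chK J Kk) (chK_nonneg J Kk hK0) mm
    (fun (i : ι) (s : T → I × Om) => multiAff (W i) (fun t => msgK Kk sg (s t)))
    (fun i s => (multiAff_pos (W i) (hW i) _).le) J 0 (fun l : ι × T => (site l, w l))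
  have h2 : (fun s : ι × T → I × Om => multiAff (fun σ : ι × T → Bool => ∏ i, W i (fun t => σ (i, t)))
      (fun l => msgK Kk sg (s l))) = fun s : ι × T → I × Om =>
      ∏ i, multiAff (W i) (fun t => msgK Kk sg (s (i, t))) := by
    funext s
    exact multiAff_prod W _
  rw [h2, h1, Real.log_prod]
  intro i _
  exact (nestPM_pos _ (chK_nonneg J Kk hK0) (chK_sum J Kk hK1) mm _
    (fun s => multiAff_pos (W i) (hW i) _) _ _ _).ne'

end Crest.Agent.R141.Br
private theorem rz_a1fe3639e1 : type_of% @_root_.Crest.Agent.R141.Br.chK.eq_1 := @_root_.Crest.Agent.R141.Br.chK.eq_1 -- L221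
private theorem rz_76d8eff9d9 : type_of% @_root_.Crest.Agent.R141.Br.thInd.eq_def := @_root_.Crest.Agent.R141.Br.thInd.eq_def -- L99
private theorem rz_652603b625 : type_of% @_root_.Crest.Agent.R141.Br.thInd.eq_1 := @_root_.Crest.Agent.R141.Br.thInd.eq_1 -- L99
end

-- ▼ part R141/Bridge36b

/-!
Row 141, bridge 3.5 → 3.6, part b: reindexing of the slots, the skeleton exponents
`m_j = j/(J+1)`, and the nonlinearities `fExp` for these exponents.
-/

set_option autoImplicit false

open MeasureTheory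

namespace Crest.Agent.R141.Br

open Crest.ProbabilityR.Diluted

/-- Reindexing the slots of the independent-path recursion. -/
theorem thInd_reindex {Om I S S' : Type*} [Fintype Om] [Fintype S] [DecidableEq S]
    [Fintype S'] [DecidableEq S'] (e : S ≃ S')
    (Kk : ℕ → Om → Om → ℝ) (sg : I → Om → Bool) (f : ℕ → ℝ → ℝ) (W0 : (S → Bool) → ℝ)
    (site : S' → I) (n : ℕ) (w : S' → Om) :
    thInd Kk sg f (fun σ : S' → Bool => W0 (fun l => σ (e l))) site n w =
      thInd Kk sg f W0 (fun l => site (e l)) n (fun l => w (e l)) := by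
  induction n generalizing w with
  | zero => rfl
  | succ n ih =>
    simp only [thInd, ih]
    congr 1
    refine Fintype.sum_equiv (Equiv.arrowCongr e (Equiv.refl Om)).symm _ _ fun w' => ?_
    congr 1
    rw [← Equiv.prod_comp e]
    rfl


/-- The skeleton exponents `m_{j+1} = (j+1)/(J+1)`. -/
noncomputable def mSk (J : ℕ) (j : ℕ) : ℝ := ((j : ℝ) + 1) / ((J : ℝ) + 1)

theorem mSk_pos (J j : ℕ) : 0 < mSk J j := by unfold mSk; positivity

theorem admissible_mSk (J : ℕ) : AdmissibleExponents (fun d : Fin J => mSk J d) := by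
  refine ⟨fun a b hab => ?_, fun d => ⟨mSk_pos J d, ?_⟩⟩
  · have h : (a : ℕ) < (b : ℕ) := hab
    have h' : ((a : ℕ) : ℝ) < ((b : ℕ) : ℝ) := by exact_mod_cast h
    simp only [mSk]
    rw [div_lt_div_iff_of_pos_right (by positivity)]
    linarith
  · have h : (d : ℕ) < J := d.isLt
    have h' : ((d : ℕ) : ℝ) < (J : ℝ) := by exact_mod_cast h
    unfold mSk
    rw [div_lt_one (by positivity)]
    linarith

theorem mSk_last (J : ℕ) (hJ : 1 ≤ J) : mSk J (J - 1) = (J : ℝ) / ((J : ℝ) + 1) := by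
  unfold mSk
  congr 1
  rw [Nat.cast_sub hJ]
  ring

theorem mSk_ratio (J n : ℕ) (hn : n < J) :
    mSk J (J - n - 1) / mSk J (J - n) = ((J : ℝ) - n) / ((J : ℝ) - n + 1) := by
  unfold mSk
  have h1 : ((J - n - 1 : ℕ) : ℝ) = (J : ℝ) - n - 1 := by
    rw [Nat.cast_sub (by omega), Nat.cast_sub (by omega)]; norm_num
  have h2 : ((J - n : ℕ) : ℝ) = (J : ℝ) - n := by
    rw [Nat.cast_sub (by omega)]
  rw [h1, h2]
  have h3 : (0 : ℝ) < (J : ℝ) + 1 := by positivity
  have h4 : (0 : ℝ) < (J : ℝ) - n + 1 := by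
    have : (n : ℝ) < J := by exact_mod_cast hn
    linarith
  field_simp
  ring

/-- The explicit nonlinearities for the skeleton exponents. -/
theorem fExp_mSk (J : ℕ) (hJ : 1 ≤ J) (n : ℕ) (s : ℝ) :
    fExp J (mSk J) n s = if n = 0 then s ^ ((J : ℝ) / ((J : ℝ) + 1))
      else if n < J then s ^ (((J : ℝ) - n) / ((J : ℝ) - n + 1))
      else ((J : ℝ) + 1) * Real.log s := by
  unfold fExp
  by_cases h0 : n = 0
  · rw [if_pos h0, if_pos h0, mSk_last J hJ]
  · rw [if_neg h0, if_neg h0]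
    by_cases h1 : n < J
    · rw [if_pos h1, if_pos h1, mSk_ratio J n h1]
    · rw [if_neg h1, if_neg h1]
      unfold mSk
      simp

end Crest.Agent.R141.Br
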