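import Crest.Agent.R141.Sys

-- ▼ part R141/F4
section

/-!
Row 141 (S0192), Part L, fact (F4): comparison of the enriched systems on `N + 1` and on `N`
sites (helper639).
-/

set_option autoImplicit false

namespace Crest.Agent.R141

open Finset

noncomputable section

namespace F4

variable (p : Par) (N : ℕ)

/-- labels of one site -/
abbrev Lb (p : Par) : Type := Fin p.nb → Fin p.nc → Fin p.Q

/-- add a site with spin `x.1` and labels `x.2` -/
def glue (ω : Om p N) (x : Bool × Lb p) : Om p (N + 1) :=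
  (Fin.snoc (α := fun _ => Bool) ω.1 x.1,
    Fin.snoc (α := fun _ => Fin p.nb → Fin p.nc → Fin p.Q) ω.2.1 x.2, ω.2.2)

/-- forget the last site -/
def prj (w : Om p (N + 1)) : Om p N :=
  (fun i => w.1 i.castSucc, fun i => w.2.1 i.castSucc, w.2.2)

/-- the last site -/
def lst (w : Om p (N + 1)) : Bool × Lb p := (w.1 (Fin.last N), w.2.1 (Fin.last N))

@[simp] theorem prj_glue (ω : Om p N) (x : Bool × Lb p) : prj p N (glue p N ω x) = ω := by
  obtain ⟨a, b, c⟩ := ω
  simp [prj, glue]

@[simp] theorem lst_glue (ω : Om p N) (x : Bool × Lb p) : lst p N (glue p N ω x) = x := by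
  obtain ⟨a, b⟩ := x
  simp [lst, glue]

@[simp] theorem glue_prj_lst (w : Om p (N + 1)) : glue p N (prj p N w) (lst p N w) = w := by
  obtain ⟨a, b, c⟩ := w
  unfold glue prj lst
  refine Prod.ext ?_ (Prod.ext ?_ rfl)
  · exact Fin.snoc_init_self (α := fun _ => Bool) a
  · exact Fin.snoc_init_self (α := fun _ => Fin p.nb → Fin p.nc → Fin p.Q) b

/-- the decomposition as an equivalence -/
def glueE : Om p N × (Bool × Lb p) ≃ Om p (N + 1) where
  toFun x := glue p N x.1 x.2
  invFun w := (prj p N w, lst p N w)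
  left_inv x := by simp
  right_inv w := by simp

theorem sum_glue (f : Om p (N + 1) → ℝ) :
    ∑ w, f w = ∑ ω : Om p N, ∑ x : Bool × Lb p, f (glue p N ω x) := by
  rw [← Equiv.sum_comp (glueE p N) f, Fintype.sum_prod_type]
  rfl

/-- agreement of the last site -/
def Rl (k : ℕ) (x x' : Bool × Lb p) : Prop :=
  (∀ (b : Fin p.nb) (g : Fin p.nc), p.mt g ≤ k → x.2 b g = x'.2 b g) ∧ (p.L ≤ k → x.1 = x'.1)

theorem rel_glue (k : ℕ) (ω ω' : Om p N) (x x' : Bool × Lb p) :
    (fil p (N + 1)).F k (glue p N ω x) (glue p N ω' x') ↔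
      (fil p N).F k ω ω' ∧ Rl p k x x' := by
  rw [fil_rel, fil_rel]
  unfold frel Rl glue
  constructor
  · rintro ⟨h1, h2, h3⟩
    refine ⟨⟨fun i b g hg => ?_, h2, fun hL => ?_⟩, fun b g hg => ?_, fun hL => ?_⟩
    · simpa using h1 i.castSucc b g hg
    · have h4 : Fin.snoc (α := fun _ => Bool) ω.1 x.1 = Fin.snoc (α := fun _ => Bool) ω'.1 x'.1 :=
        h3 hL
      exact (Fin.snoc_injective2 h4).1
    · simpa using h1 (Fin.last N) b g hg
    · have h4 : Fin.snoc (α := fun _ => Bool) ω.1 x.1 = Fin.snoc (α := fun _ => Bool) ω'.1 x'.1 :=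
        h3 hL
      exact (Fin.snoc_injective2 h4).2
  · rintro ⟨⟨h1, h2, h3⟩, h4, h5⟩
    refine ⟨fun i b g hg => ?_, h2, fun hL => ?_⟩
    · refine Fin.lastCases ?_ (fun j => ?_) i
      · simpa using h4 b g hg
      · simpa using h1 j b g hg
    · simp only
      rw [h3 hL, h5 hL]

open scoped Classical in
theorem sum_cls_glue (k : ℕ) (ω : Om p N) (x : Bool × Lb p) (h : Om p (N + 1) → ℝ) :
    ∑ w ∈ univ.filter (fun w => (fil p (N + 1)).F k (glue p N ω x) w), h w =
      ∑ ω' ∈ univ.filter (fun ω' => (fil p N).F k ω ω'),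
        ∑ x' ∈ univ.filter (fun x' => Rl p k x x'), h (glue p N ω' x') := by
  rw [Finset.sum_filter, sum_glue, Finset.sum_filter]
  refine Finset.sum_congr rfl fun ω' _ => ?_
  rw [Finset.sum_filter]
  by_cases h1 : (fil p N).F k ω ω'
  · rw [if_pos h1]
    refine Finset.sum_congr rfl fun x' _ => ?_
    by_cases h2 : Rl p k x x'
    · rw [if_pos h2, if_pos ((rel_glue p N k ω ω' x x').2 ⟨h1, h2⟩)]
    · rw [if_neg h2, if_neg (fun h3 => h2 ((rel_glue p N k ω ω' x x').1 h3).2)]
  · rw [if_neg h1]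
    exact Finset.sum_eq_zero fun x' _ => if_neg (fun h3 => h1 ((rel_glue p N k ω ω' x x').1 h3).1)

open scoped Classical in
theorem sum_Rl_spin {k : ℕ} (hk : k < p.L) (x : Bool × Lb p) (F : Bool → ℝ) :
    ∑ x' ∈ univ.filter (fun x' => Rl p k x x'), F x'.1 =
      ((univ.filter (fun x' => Rl p k x x')).card : ℝ) * ((F true + F false) / 2) := by
  have hset : univ.filter (fun x' => Rl p k x x') = (univ : Finset Bool) ×ˢ
      univ.filter (fun lam : Lb p => ∀ (b : Fin p.nb) (g : Fin p.nc), p.mt g ≤ k →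
        x.2 b g = lam b g) := by
    ext ⟨ε, lam⟩
    simp only [Finset.mem_filter, Finset.mem_univ, true_and, Finset.mem_product]
    unfold Rl
    constructor
    · intro h; exact h.1
    · intro h; exact ⟨h, fun hL => absurd hL (not_le.2 hk)⟩
  rw [hset, Finset.sum_product, Finset.card_product]
  simp only [Finset.sum_const, nsmul_eq_mul, Fintype.sum_bool, Finset.card_univ, Fintype.card_bool]
  push_cast
  ring

open scoped Classical in
theorem card_Rl_pos (k : ℕ) (x : Bool × Lb p) :
    (0 : ℝ) < ((univ.filter (fun x' => Rl p k x x')).card : ℝ) := by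
  have : x ∈ univ.filter (fun x' => Rl p k x x') := by
    simp only [Finset.mem_filter, Finset.mem_univ, true_and]
    exact ⟨fun _ _ _ => rfl, fun _ => rfl⟩
  exact_mod_cast Finset.card_pos.2 ⟨x, this⟩

/-- conditional expectation of a function which depends on the last site only through its spin -/
theorem cE_glue {k : ℕ} (hk : k < p.L) (f : Om p (N + 1) → ℝ) (F : Om p N → Bool → ℝ)
    (hf : ∀ ω x, f (glue p N ω x) = F ω x.1) (ω : Om p N) (x : Bool × Lb p) :
    cE (prior p (N + 1)) ((fil p (N + 1)).F k) f (glue p N ω x) =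
      cE (prior p N) ((fil p N).F k) (fun ω' => (F ω' true + F ω' false) / 2) ω := by
  classical
  have hc1 : (0 : ℝ) < (Fintype.card (Om p (N + 1)) : ℝ)⁻¹ :=
    inv_pos.2 (by exact_mod_cast Fintype.card_pos)
  have hc2 : (0 : ℝ) < (Fintype.card (Om p N) : ℝ)⁻¹ :=
    inv_pos.2 (by exact_mod_cast Fintype.card_pos)
  have hR := card_Rl_pos p k x
  unfold cE prior
  rw [sum_cls_glue, sum_cls_glue]
  have e1 : ∀ ω' : Om p N, ∑ x' ∈ univ.filter (fun x' => Rl p k x x'),
      (Fintype.card (Om p (N + 1)) : ℝ)⁻¹ * f (glue p N ω' x') =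
      ((Fintype.card (Om p (N + 1)) : ℝ)⁻¹ *
        ((univ.filter (fun x' => Rl p k x x')).card : ℝ)) *
        ((F ω' true + F ω' false) / 2) := by
    intro ω'
    rw [← Finset.mul_sum, Finset.sum_congr rfl fun x' _ => hf ω' x', sum_Rl_spin p hk x (F ω')]
    ring
  have e2 : ∀ ω' : Om p N, ∑ x' ∈ univ.filter (fun x' => Rl p k x x'),
      (Fintype.card (Om p (N + 1)) : ℝ)⁻¹ =
      ((Fintype.card (Om p (N + 1)) : ℝ)⁻¹ *
        ((univ.filter (fun x' => Rl p k x x')).card : ℝ)) * 1 := by
    intro ω'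
    rw [Finset.sum_const, nsmul_eq_mul]; ring
  rw [Finset.sum_congr rfl fun ω' _ => e1 ω', Finset.sum_congr rfl fun ω' _ => e2 ω',
    ← Finset.mul_sum, ← Finset.mul_sum, ← Finset.mul_sum]
  have hcls : (0 : ℝ) < ∑ ω' ∈ univ.filter (fun ω' => (fil p N).F k ω ω'), (1 : ℝ) := by
    rw [Finset.sum_const, nsmul_eq_mul, mul_one]
    have : ω ∈ univ.filter (fun ω' => (fil p N).F k ω ω') := by
      simp only [Finset.mem_filter, Finset.mem_univ, true_and]
      exact ((fil p N).F k).refl ω
    exact_mod_cast Finset.card_pos.2 ⟨ω, this⟩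
  have e3 : ∑ ω' ∈ univ.filter (fun ω' => (fil p N).F k ω ω'),
      (Fintype.card (Om p N) : ℝ)⁻¹ = (Fintype.card (Om p N) : ℝ)⁻¹ *
        ∑ ω' ∈ univ.filter (fun ω' => (fil p N).F k ω ω'), (1 : ℝ) := by
    rw [Finset.mul_sum]; simp
  rw [e3, mul_div_mul_left _ _ (mul_pos hc1 hR).ne', mul_div_mul_left _ _ hc2.ne']

theorem eE_prj (g : Om p N → ℝ) :
    eE (prior p (N + 1)) (fun w => g (prj p N w)) = eE (prior p N) g := by
  have h0 : (fil p (N + 1)).F 0 = ⊤ := fil_zero p (N + 1)
  have hL : 0 < p.L := by unfold Par.L; omega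
  obtain ⟨ω⟩ := omNonempty p N
  obtain ⟨lam⟩ : Nonempty (Lb p) := ⟨fun _ _ => p.z⟩
  have h := cE_glue p N hL (fun w => g (prj p N w)) (fun ω _ => g ω) (by intro ω x; simp) ω
    (true, lam)
  rw [h0, fil_zero, eE_top (prior_isProb p (N + 1)), eE_top (prior_isProb p N)] at h
  rw [h]
  congr 1
  funext ω'
  ring

/-- reduced Hamiltonian: the last spin is summed out -/
def Hred (H : (Fin (N + 1) → Bool) → ℝ) (s : Fin N → Bool) : ℝ :=
  Real.log (∑ e : Bool, Real.exp (H (Fin.snoc (α := fun _ => Bool) s e)))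

theorem exp_Hred (H : (Fin (N + 1) → Bool) → ℝ) (s : Fin N → Bool) :
    Real.exp (Hred N H s) = Real.exp (H (Fin.snoc (α := fun _ => Bool) s true)) +
      Real.exp (H (Fin.snoc (α := fun _ => Bool) s false)) := by
  unfold Hred
  rw [Fintype.sum_bool, Real.exp_log (by positivity)]

/-- log-weight without the gadgets of the last site -/
def UP (H : (Fin (N + 1) → Bool) → ℝ) (d : DD p N) (w : Om p (N + 1)) : ℝ :=
  H w.1 + WW p N d (prj p N w)

/-- log-weight of the gadgets of the last site -/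
def GG (w : Om p (N + 1)) : ℝ := ∑ b, gfac p (N + 1) (Fin.last N) b w

/-- lift of a coordinate -/
def liftO (o : Option (Crd p N)) : Option (Crd p (N + 1)) :=
  o.map (fun c => (c.1.castSucc, c.2))

/-- lift of the outer randomness -/
def liftD (d : DD p N) : DD p (N + 1) := fun k => liftO p N (d k)

theorem cfac_lift (o : Option (Crd p N)) (k : Stp p) (w : Om p (N + 1)) :
    cfac p (N + 1) (liftO p N o) k w = cfac p N o k (prj p N w) := by
  rcases o with _ | ⟨i, c⟩
  · rfl
  · rcases c with _ | b <;> rfl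

theorem UU_lift (H : (Fin (N + 1) → Bool) → ℝ) (d : DD p N) (w : Om p (N + 1)) :
    UU p (N + 1) H (liftD p N d) w = UP p N H d w + GG p N w := by
  unfold UU UP GG WW
  rw [Fin.sum_univ_castSucc]
  have e1 : ∑ k, cfac p (N + 1) (liftD p N d k) k w = ∑ k, cfac p N (d k) k (prj p N w) :=
    Finset.sum_congr rfl fun k _ => cfac_lift p N (d k) k w
  have e2 : ∑ i : Fin N, ∑ b, gfac p (N + 1) i.castSucc b w =
      ∑ i, ∑ b, gfac p N i b (prj p N w) := rfl
  rw [e1, e2]
  ring

/-- the projection lemma: for `k < L` the functional of `UP` only sees the first `N` sites -/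
theorem A_glue (H : (Fin (N + 1) → Bool) → ℝ) (d : DD p N) {k : ℕ} (hk : k < p.L) :
    ∀ (ω : Om p N) (x : Bool × Lb p),
      A (prior p (N + 1)) (fil p (N + 1)) p.xs (UP p N H d) k (glue p N ω x) =
        A (prior p N) (fil p N) p.xs (UU p N (Hred N H) d) k ω - Real.log 2 := by
  have hP1 := prior_isProb p (N + 1)
  have hP := prior_isProb p N
  have hx := p.xs_expo.pos
  obtain ⟨j, hj⟩ : ∃ j, k + j + 1 = p.L := ⟨p.L - 1 - k, by omega⟩
  induction j generalizing k with
  | zero =>
    intro ω x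
    have hL1 : k + 1 = p.L := by omega
    have hA1 : A (prior p (N + 1)) (fil p (N + 1)) p.xs (UP p N H d) p.L = UP p N H d :=
      A_of_ge (𝓕 := fil p (N + 1)) (UP p N H d) (le_refl p.L)
    have hA2 : A (prior p N) (fil p N) p.xs (UU p N (Hred N H) d) p.L = UU p N (Hred N H) d :=
      A_of_ge (𝓕 := fil p N) (UU p N (Hred N H) d) (le_refl p.L)
    rw [A_step hP1 hx, A_step hP hx, hL1, hA1, hA2]
    unfold pm
    rw [p.xs_last le_rfl]
    simp only [one_mul, div_one]
    rw [cE_glue p N hk (fun w => Real.exp (UP p N H d w))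
      (fun ω' ε => Real.exp (H (Fin.snoc (α := fun _ => Bool) ω'.1 ε)) * Real.exp (WW p N d ω'))
      (by intro ω' x'; rw [← Real.exp_add]; simp only [UP, prj_glue]; rfl)]
    have e : (fun ω' : Om p N => (Real.exp (H (Fin.snoc (α := fun _ => Bool) ω'.1 true)) *
        Real.exp (WW p N d ω') + Real.exp (H (Fin.snoc (α := fun _ => Bool) ω'.1 false)) *
        Real.exp (WW p N d ω')) / 2) = fun ω' => (1 / 2) * Real.exp (UU p N (Hred N H) d ω') := by
      funext ω'
      unfold UU
      rw [Real.exp_add, exp_Hred]; ring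
    rw [e, cE_smul, Real.log_mul (by norm_num) (cE_pos hP (fun _ => Real.exp_pos _) ω).ne',
      one_div, Real.log_inv]
    ring
  | succ j ih =>
    intro ω x
    rw [A_step hP1 hx, A_step hP hx]
    have hk1 : k + 1 < p.L := by omega
    have ih' := ih hk1 (by omega)
    unfold pm
    rw [cE_glue p N hk
      (fun w => Real.exp (p.xs (k + 1) * A (prior p (N + 1)) (fil p (N + 1)) p.xs
        (UP p N H d) (k + 1) w))
      (fun ω' _ => Real.exp (p.xs (k + 1) * (A (prior p N) (fil p N) p.xs
        (UU p N (Hred N H) d) (k + 1) ω' - Real.log 2)))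
      (by intro ω' x'; rw [ih' ω' x'])]
    have e : (fun ω' : Om p N => (Real.exp (p.xs (k + 1) * (A (prior p N) (fil p N) p.xs
        (UU p N (Hred N H) d) (k + 1) ω' - Real.log 2)) + Real.exp (p.xs (k + 1) *
        (A (prior p N) (fil p N) p.xs (UU p N (Hred N H) d) (k + 1) ω' - Real.log 2))) / 2) =
        fun ω' => Real.exp (-(p.xs (k + 1) * Real.log 2)) * Real.exp (p.xs (k + 1) *
        A (prior p N) (fil p N) p.xs (UU p N (Hred N H) d) (k + 1) ω') := by
      funext ω'
      rw [← Real.exp_add]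
      ring_nf
    rw [e, cE_smul, Real.log_mul (Real.exp_pos _).ne' (cE_pos hP (fun _ => Real.exp_pos _) ω).ne',
      Real.log_exp]
    have := (hx (k + 1)).ne'
    field_simp
    ring

/-- the path sum of `UP` does not see the labels of the last site -/
theorem S_glue (H : (Fin (N + 1) → Bool) → ℝ) (d : DD p N) (ω : Om p N) (ε : Bool)
    (lam lam' : Lb p) :
    S (prior p (N + 1)) (fil p (N + 1)) p.xs (UP p N H d) 0 p.L (glue p N ω (ε, lam)) =
      S (prior p (N + 1)) (fil p (N + 1)) p.xs (UP p N H d) 0 p.L (glue p N ω (ε, lam')) := by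
  have key : ∀ l, l ≤ p.L →
      A (prior p (N + 1)) (fil p (N + 1)) p.xs (UP p N H d) l (glue p N ω (ε, lam)) =
      A (prior p (N + 1)) (fil p (N + 1)) p.xs (UP p N H d) l (glue p N ω (ε, lam')) := by
    intro l hl
    rcases Nat.lt_or_ge l p.L with h | h
    · rw [A_glue p N H d h, A_glue p N H d h]
    · rw [A_of_ge (𝓕 := fil p (N + 1)) (UP p N H d) h]
      unfold UP
      rw [prj_glue, prj_glue]
      rfl
  unfold S
  refine Finset.sum_congr rfl fun l hl => ?_
  rw [Finset.mem_Ico] at hl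
  rw [key (l + 1) (by omega), key l (by omega)]

/-- expectation of a function of the last site under the law tilted by `UP` -/
theorem eE_tl_lst_le (H : (Fin (N + 1) → Bool) → ℝ) (d : DD p N) (F : Bool → Lb p → ℝ) (B : ℝ)
    (hF : ∀ ε, ∑ lam, F ε lam ≤ (Fintype.card (Lb p) : ℝ) * B) :
    eE (tl (prior p (N + 1)) (fil p (N + 1)) p.xs (UP p N H d))
      (fun w => F (lst p N w).1 (lst p N w).2) ≤ B := by
  have hP1 := prior_isProb p (N + 1)
  have hQ := tl_isProb (𝓕 := fil p (N + 1)) hP1 p.xs_expo.pos (UP p N H d)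
  set lam0 : Lb p := fun _ _ => p.z
  set c : ℝ := (Fintype.card (Om p (N + 1)) : ℝ)⁻¹ with hc
  have hc0 : 0 ≤ c := by positivity
  set s : Om p N → Bool → ℝ := fun ω ε => Real.exp (S (prior p (N + 1)) (fil p (N + 1)) p.xs
    (UP p N H d) 0 p.L (glue p N ω (ε, lam0))) with hs
  have htl : ∀ ω ε lam, tl (prior p (N + 1)) (fil p (N + 1)) p.xs (UP p N H d)
      (glue p N ω (ε, lam)) = c * s ω ε := by
    intro ω ε lam
    unfold tl
    rw [hs]
    simp only
    rw [← S_glue p N H d ω ε lam lam0]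
    rfl
  have h1 : ∀ G : Bool → Lb p → ℝ, eE (tl (prior p (N + 1)) (fil p (N + 1)) p.xs (UP p N H d))
      (fun w => G (lst p N w).1 (lst p N w).2) =
      ∑ ω : Om p N, ∑ ε : Bool, (c * s ω ε) * ∑ lam, G ε lam := by
    intro G
    unfold eE
    rw [sum_glue]
    refine Finset.sum_congr rfl fun ω _ => ?_
    rw [Fintype.sum_prod_type]
    refine Finset.sum_congr rfl fun ε _ => ?_
    rw [Finset.mul_sum]
    refine Finset.sum_congr rfl fun lam _ => ?_
    simp only [htl, lst_glue]
  have h2 := h1 (fun _ _ => 1)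
  rw [eE_const hQ] at h2
  rw [h1]
  calc ∑ ω : Om p N, ∑ ε : Bool, (c * s ω ε) * ∑ lam, F ε lam
      ≤ ∑ ω : Om p N, ∑ ε : Bool, (c * s ω ε) * ((Fintype.card (Lb p) : ℝ) * B) := by
        refine Finset.sum_le_sum fun ω _ => Finset.sum_le_sum fun ε _ => ?_
        exact mul_le_mul_of_nonneg_left (hF ε) (mul_nonneg hc0 (Real.exp_pos _).le)
    _ = B * ∑ ω : Om p N, ∑ ε : Bool, (c * s ω ε) * ∑ _lam : Lb p, (1 : ℝ) := by
        rw [Finset.mul_sum]
        refine Finset.sum_congr rfl fun ω _ => ?_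
        rw [Finset.mul_sum]
        refine Finset.sum_congr rfl fun ε _ => ?_
        rw [Finset.sum_const, Finset.card_univ, nsmul_eq_mul]
        ring
    _ = B := by rw [← h2, mul_one]

/-- number of labels with `present` -/
theorem sum_vb (b : Fin p.nb) : (p.Q : ℝ) * ∑ lam : Fin p.nc → Fin p.Q, vb p b lam =
    (Fintype.card (Fin p.nc → Fin p.Q) : ℝ) := by
  classical
  have h1 : ∀ q : Fin p.Q, ∑ lam : Fin p.nc → Fin p.Q, vb p b lam =
      ∑ lam : Fin p.nc → Fin p.Q, (if lam (p.lev b) = q then (1 : ℝ) else 0) := by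
    intro q
    rw [← Equiv.sum_comp (Equiv.arrowCongr (Equiv.refl (Fin p.nc)) (Equiv.swap q p.z))
      (fun lam => vb p b lam)]
    refine Finset.sum_congr rfl fun lam _ => ?_
    unfold vb
    simp only [Equiv.arrowCongr_apply, Equiv.refl_symm, Equiv.coe_refl, Function.comp_apply, id]
    have : Equiv.swap q p.z (lam (p.lev b)) = p.z ↔ lam (p.lev b) = q := by
      rw [Equiv.swap_apply_eq_iff, Equiv.swap_apply_right]
    simp only [this]
  have h2 : (p.Q : ℝ) * ∑ lam : Fin p.nc → Fin p.Q, vb p b lam =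
      ∑ q : Fin p.Q, ∑ lam : Fin p.nc → Fin p.Q, (if lam (p.lev b) = q then (1 : ℝ) else 0) := by
    rw [← Finset.sum_congr rfl fun q _ => h1 q, Finset.sum_const, Finset.card_univ,
      Fintype.card_fin, nsmul_eq_mul]
  rw [h2, Finset.sum_comm]
  simp

/-- product bound for the average over the labels of one site -/
theorem sum_prod_le (h : Fin p.nb → (Fin p.nc → Fin p.Q) → ℝ) (h0 : ∀ b lam, 0 ≤ h b lam)
    (h1 : ∀ b lam, h b lam ≤ 1 + vb p b lam) :
    ∑ lam : Lb p, ∏ b, h b (lam b) ≤
      (Fintype.card (Lb p) : ℝ) * Real.exp ((p.nb : ℝ) / p.Q) := by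
  have hQ : (0 : ℝ) < p.Q := by
    have := p.hQ
    have : 0 < p.Q := by omega
    exact_mod_cast this
  have hb : ∀ b, ∑ lam : Fin p.nc → Fin p.Q, h b lam ≤
      (Fintype.card (Fin p.nc → Fin p.Q) : ℝ) * Real.exp (1 / p.Q) := by
    intro b
    calc ∑ lam : Fin p.nc → Fin p.Q, h b lam ≤ ∑ lam : Fin p.nc → Fin p.Q, (1 + vb p b lam) :=
          Finset.sum_le_sum fun lam _ => h1 b lam
      _ = (Fintype.card (Fin p.nc → Fin p.Q) : ℝ) * (1 + 1 / p.Q) := by
          rw [Finset.sum_add_distrib, Finset.sum_const, Finset.card_univ, nsmul_eq_mul, mul_one,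
            mul_add, mul_one, ← sum_vb p b]
          field_simp
      _ ≤ _ := by
          refine mul_le_mul_of_nonneg_left ?_ (Nat.cast_nonneg _)
          have := Real.add_one_le_exp (1 / (p.Q : ℝ))
          linarith
  have e : ∑ lam : Lb p, ∏ b, h b (lam b) = ∏ b, ∑ lam : Fin p.nc → Fin p.Q, h b lam := by
    rw [Fintype.prod_sum]
  rw [e]
  calc ∏ b, ∑ lam : Fin p.nc → Fin p.Q, h b lam
      ≤ ∏ _b : Fin p.nb, (Fintype.card (Fin p.nc → Fin p.Q) : ℝ) * Real.exp (1 / p.Q) :=
        Finset.prod_le_prod (fun b _ => Finset.sum_nonneg fun lam _ => h0 b lam) fun b _ => hb b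
    _ = _ := by
        rw [Finset.prod_const, Finset.card_univ, Fintype.card_fin, mul_pow, ← Real.exp_nat_mul,
          Fintype.card_fun (α := Fin p.nb), Fintype.card_fin]
        push_cast
        congr 2
        ring

theorem gval_abs_le_vb (b : Fin p.nb) (lam : Fin p.nc → Fin p.Q) :
    |gval p b lam| ≤ (1 / 2) * vb p b lam := by
  unfold gval vb
  split_ifs
  · rw [mul_one]; exact tval_abs p _ _ _ (p.good b)
  · simp

/-- the gadgets of the last site cost at most `nb / Q` -/
theorem A_GG_le (H : (Fin (N + 1) → Bool) → ℝ) (d : DD p N) (w : Om p (N + 1)) :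
    |A (tl (prior p (N + 1)) (fil p (N + 1)) p.xs (UP p N H d)) (fil p (N + 1)) p.xs
      (GG p N) 0 w| ≤ (p.nb : ℝ) / p.Q := by
  have hP1 := prior_isProb p (N + 1)
  have hx := p.xs_expo
  have hQ := tl_isProb (𝓕 := fil p (N + 1)) hP1 hx.pos (UP p N H d)
  set P' := tl (prior p (N + 1)) (fil p (N + 1)) p.xs (UP p N H d) with hP'
  have hpos : ∀ b (lam : Fin p.nc → Fin p.Q) (ε : Bool), 0 < 1 + gval p b lam * sv ε := by
    intro b lam ε
    have h1 := gval_abs p b lam
    have h2 : |gval p b lam * sv ε| ≤ 1 / 2 := by rw [abs_mul, sv_abs, mul_one]; exact h1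
    have := (abs_le.mp h2).1
    linarith
  have hGG : ∀ w, GG p N w = ∑ b, Real.log (1 + gval p b ((lst p N w).2 b) * sv (lst p N w).1) :=
    fun w => rfl
  have hexp : ∀ w, Real.exp (GG p N w) =
      ∏ b, (1 + gval p b ((lst p N w).2 b) * sv (lst p N w).1) := by
    intro w
    rw [hGG, Real.exp_sum]
    exact Finset.prod_congr rfl fun b _ => Real.exp_log (hpos _ _ _)
  have hexp' : ∀ w, Real.exp (-(GG p N w)) =
      ∏ b, (1 + gval p b ((lst p N w).2 b) * sv (lst p N w).1)⁻¹ := by
    intro w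
    rw [Real.exp_neg, hexp, Finset.prod_inv_distrib]
  have hup : eE P' (fun w => Real.exp (GG p N w)) ≤ Real.exp ((p.nb : ℝ) / p.Q) := by
    have e : (fun w => Real.exp (GG p N w)) = fun w =>
        (fun (ε : Bool) (lam : Lb p) => ∏ b, (1 + gval p b (lam b) * sv ε)) (lst p N w).1
          (lst p N w).2 := by
      funext w; exact hexp w
    rw [e]
    refine eE_tl_lst_le p N H d (fun (ε : Bool) (lam : Lb p) => ∏ b, (1 + gval p b (lam b) * sv ε))
      (Real.exp ((p.nb : ℝ) / p.Q)) fun ε => ?_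
    refine sum_prod_le p (fun b lam => 1 + gval p b lam * sv ε) (fun b lam => (hpos b lam ε).le)
      fun b lam => ?_
    have h1 := gval_abs_le_vb p b lam
    have h2 : |gval p b lam * sv ε| ≤ (1 / 2) * vb p b lam := by
      rw [abs_mul, sv_abs, mul_one]; exact h1
    have h3 := (abs_le.mp h2).2
    have h4 : 0 ≤ vb p b lam := by unfold vb; split_ifs <;> norm_num
    linarith
  have hlo : eE P' (fun w => Real.exp (-(GG p N w))) ≤ Real.exp ((p.nb : ℝ) / p.Q) := by
    have e : (fun w => Real.exp (-(GG p N w))) = fun w =>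
        (fun (ε : Bool) (lam : Lb p) => ∏ b, (1 + gval p b (lam b) * sv ε)⁻¹) (lst p N w).1
          (lst p N w).2 := by
      funext w; exact hexp' w
    rw [e]
    refine eE_tl_lst_le p N H d
      (fun (ε : Bool) (lam : Lb p) => ∏ b, (1 + gval p b (lam b) * sv ε)⁻¹)
      (Real.exp ((p.nb : ℝ) / p.Q)) fun ε => ?_
    refine sum_prod_le p (fun b lam => (1 + gval p b lam * sv ε)⁻¹)
      (fun b lam => (inv_pos.2 (hpos b lam ε)).le) fun b lam => ?_
    have h1 := gval_abs_le_vb p b lam
    have h2 : |gval p b lam * sv ε| ≤ (1 / 2) * vb p b lam := by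
      rw [abs_mul, sv_abs, mul_one]; exact h1
    have h3 := abs_le.mp h2
    have h4 : vb p b lam = 0 ∨ vb p b lam = 1 := by unfold vb; split_ifs <;> simp
    rw [inv_le_comm₀ (hpos b lam ε) (by rcases h4 with h | h <;> rw [h] <;> norm_num)]
    rcases h4 with h | h
    · rw [h] at h3 ⊢
      norm_num at h3 ⊢
      linarith [h3.1]
    · rw [h] at h3 ⊢
      norm_num at h3 ⊢
      linarith [h3.1]
  have h0 : (fil p (N + 1)).F 0 = ⊤ := fil_zero p (N + 1)
  rw [abs_le]
  constructor
  · have h1 := cE_le_A (𝓕 := fil p (N + 1)) hQ hx.pos (GG p N) 0 w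
    refine le_trans ?_ h1
    have h2 := exp_cE_le hQ ((fil p (N + 1)).F 0) (fun a => -(GG p N a)) w
    rw [h0, eE_top hQ (fun a => Real.exp (-(GG p N a)))] at h2
    have h3 := h2.trans hlo
    rw [Real.exp_le_exp] at h3
    have h4 : cE P' ⊤ (fun a => -(GG p N a)) w = -cE P' ⊤ (GG p N) w := by
      have := cE_smul P' ⊤ (-1) (GG p N) w
      simpa using this
    rw [h4] at h3
    rw [h0]
    linarith
  · have h1 := A_le_log (𝓕 := fil p (N + 1)) hQ hx (GG p N) 0 w
    refine h1.trans ?_
    rw [h0, eE_top hQ, ← Real.log_exp ((p.nb : ℝ) / p.Q)]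
    refine Real.log_le_log ?_ hup
    have := cE_pos hQ (r := ⊤) (f := fun a => Real.exp (GG p N a)) (fun _ => Real.exp_pos _) w
    rwa [eE_top hQ] at this

/-- (F4), pointwise form -/
theorem Phi_lift (H : (Fin (N + 1) → Bool) → ℝ) (d : DD p N) :
    |Phi p (N + 1) H (liftD p N d) - Phi p N (Hred N H) d| ≤ (p.nb : ℝ) / p.Q := by
  have hP1 := prior_isProb p (N + 1)
  have hx := p.xs_expo
  have hL : 0 < p.L := by unfold Par.L; omega
  have e1 : UU p (N + 1) H (liftD p N d) = fun w => UP p N H d w + GG p N w := by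
    funext w; exact UU_lift p N H d w
  have e2 : A (prior p (N + 1)) (fil p (N + 1)) p.xs (UU p (N + 1) H (liftD p N d)) 0 =
      fun w => (A (prior p N) (fil p N) p.xs (UU p N (Hred N H) d) 0 (prj p N w) +
        (-Real.log 2)) + A (tl (prior p (N + 1)) (fil p (N + 1)) p.xs (UP p N H d))
          (fil p (N + 1)) p.xs (GG p N) 0 w := by
    funext w
    rw [e1, A_cocycle hP1 hx.pos (UP p N H d) (GG p N) 0 w]
    congr 1
    have := A_glue p N H d hL (prj p N w) (lst p N w)
    rw [glue_prj_lst] at this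
    rw [this]; ring
  have e3 : Phi p (N + 1) H (liftD p N d) - Phi p N (Hred N H) d =
      eE (prior p (N + 1)) (fun w => A (tl (prior p (N + 1)) (fil p (N + 1)) p.xs (UP p N H d))
          (fil p (N + 1)) p.xs (GG p N) 0 w) := by
    unfold Phi
    rw [e2, eE_add, eE_add, eE_const hP1, eE_prj]
    push_cast
    ring
  rw [e3]
  refine (eE_abs_le hP1 _).trans (eE_le_of_le hP1 fun w => A_GG_le p N H d w)

end F4

end

end Crest.Agent.R141
end

-- ▼ part R141/F4c

/-!
Row 141 (S0192), Part L, fact (F4): coupling of the outer randomness on `N + 1` and on `N` sites,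
and the averaged comparison `EPhi_succ` (helper639).
-/

set_option autoImplicit false

namespace Crest.Agent.R141

open Finset

noncomputable section

namespace F4

variable (p : Par) (N : ℕ)

/-- coupling kernel: a coordinate of the last site is replaced by a uniform coordinate -/
def ker : Option (Crd p (N + 1)) → Option (Crd p N) → ℝ
  | none, none => 1
  | none, some _ => 0
  | some _, none => 0
  | some c, some c' => if c.1 = Fin.last N then ((N : ℝ) * ((p.nb : ℝ) + 1))⁻¹
      else if c = (c'.1.castSucc, c'.2) then 1 else 0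

/-- indicator that the coordinate belongs to the last site -/
def isl : Option (Crd p (N + 1)) → ℝ
  | none => 0
  | some c => if c.1 = Fin.last N then 1 else 0

theorem isl_nonneg (o : Option (Crd p (N + 1))) : 0 ≤ isl p N o := by
  rcases o with _ | c
  · exact le_rfl
  · unfold isl; dsimp only; split_ifs <;> norm_num

theorem ker_nonneg (o : Option (Crd p (N + 1))) (o' : Option (Crd p N)) : 0 ≤ ker p N o o' := by
  rcases o with _ | c <;> rcases o' with _ | c'
  · exact zero_le_one
  · exact le_rfl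
  · exact le_rfl
  · unfold ker
    dsimp only
    split_ifs
    · positivity
    · norm_num
    · norm_num

theorem sum_ker {N : ℕ} (hN : 0 < N) (o : Option (Crd p (N + 1))) : ∑ o', ker p N o o' = 1 := by
  have hN' : (0 : ℝ) < N := by exact_mod_cast hN
  rw [Fintype.sum_option]
  rcases o with _ | ⟨i, b⟩
  · simp [ker]
  · refine Fin.lastCases ?_ (fun j => ?_) i
    · simp only [ker, if_true, Finset.sum_const, Finset.card_univ, Fintype.card_prod,
        Fintype.card_fin, Fintype.card_option, nsmul_eq_mul, zero_add]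
      push_cast
      field_simp
    · have h1 : ∀ c' : Crd p N, ker p N (some (j.castSucc, b)) (some c') =
          if c' = (j, b) then 1 else 0 := by
        intro c'
        unfold ker
        dsimp only
        rw [if_neg (Fin.castSucc_lt_last j).ne]
        by_cases h : c' = (j, b)
        · rw [if_pos h, h, if_pos rfl]
        · rw [if_neg h, if_neg]
          intro h2
          apply h
          have h3 := Prod.ext_iff.1 h2
          simp only [Fin.castSucc_inj] at h3
          exact Prod.ext h3.1.symm h3.2.symm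
      rw [Finset.sum_congr rfl fun c' _ => h1 c']
      simp [ker]

theorem sum_dw1_ker {N : ℕ} (hN : 0 < N) (o' : Option (Crd p N)) :
    ∑ o, dw1 p (N + 1) o * ker p N o o' = dw1 p N o' := by
  have hN' : (0 : ℝ) < N := by exact_mod_cast hN
  rw [Fintype.sum_option]
  rcases o' with _ | ⟨j, b⟩
  · simp [ker, dw1]
  · rw [Fintype.sum_prod_type, Fin.sum_univ_castSucc]
    have h1 : ∀ (i : Fin N) (c : Option (Fin p.nb)),
        dw1 p (N + 1) (some (i.castSucc, c)) * ker p N (some (i.castSucc, c)) (some (j, b)) =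
        if c = b then (if i = j then 1 / (2 * (((N + 1 : ℕ) : ℝ) * ((p.nb : ℝ) + 1))) else 0)
          else 0 := by
      intro i c
      unfold ker dw1
      dsimp only
      rw [if_neg (Fin.castSucc_lt_last i).ne]
      by_cases hc : c = b
      · by_cases hi : i = j
        · rw [if_pos hc, if_pos hi, hc, hi, if_pos rfl, mul_one]
        · rw [if_pos hc, if_neg hi, if_neg, mul_zero]
          intro h2
          have h3 := Prod.ext_iff.1 h2
          simp only [Fin.castSucc_inj] at h3
          exact hi h3.1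
      · rw [if_neg hc, if_neg, mul_zero]
        intro h2
        exact hc (Prod.ext_iff.1 h2).2
    have h2 : ∀ c : Option (Fin p.nb),
        dw1 p (N + 1) (some (Fin.last N, c)) * ker p N (some (Fin.last N, c)) (some (j, b)) =
        1 / (2 * (((N + 1 : ℕ) : ℝ) * ((p.nb : ℝ) + 1))) * ((N : ℝ) * ((p.nb : ℝ) + 1))⁻¹ := by
      intro c
      unfold ker dw1
      dsimp only
      rw [if_pos rfl]
    rw [Finset.sum_congr rfl fun c _ => h2 c,
      Finset.sum_congr rfl fun i _ => Finset.sum_congr rfl fun c _ => h1 i c]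
    simp only [Finset.sum_ite_eq', Finset.mem_univ, if_true, Finset.sum_const, Finset.card_univ,
      Fintype.card_option, Fintype.card_fin, nsmul_eq_mul]
    unfold ker dw1
    dsimp only
    push_cast
    field_simp
    ring

theorem sum_dw1_isl (N : ℕ) : ∑ o, dw1 p (N + 1) o * isl p N o = 1 / (2 * ((N : ℝ) + 1)) := by
  rw [Fintype.sum_option, Fintype.sum_prod_type, Fin.sum_univ_castSucc]
  have h1 : ∀ (i : Fin N) (c : Option (Fin p.nb)),
      dw1 p (N + 1) (some (i.castSucc, c)) * isl p N (some (i.castSucc, c)) = 0 := by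
    intro i c
    unfold isl
    dsimp only
    rw [if_neg (Fin.castSucc_lt_last i).ne, mul_zero]
  have h2 : ∀ c : Option (Fin p.nb),
      dw1 p (N + 1) (some (Fin.last N, c)) * isl p N (some (Fin.last N, c)) =
      1 / (2 * (((N + 1 : ℕ) : ℝ) * ((p.nb : ℝ) + 1))) := by
    intro c
    unfold isl dw1
    dsimp only
    rw [if_pos rfl, mul_one]
  rw [Finset.sum_congr rfl fun c _ => h2 c,
    Finset.sum_congr rfl fun i _ => Finset.sum_congr rfl fun c _ => h1 i c]
  simp only [Finset.sum_const, Finset.card_univ,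
      Fintype.card_option, Fintype.card_fin, nsmul_eq_mul]
  unfold isl
  push_cast
  field_simp
  ring

/-- under the kernel, a mismatch only occurs for coordinates of the last site -/
theorem ker_mismatch (o : Option (Crd p (N + 1))) (o' : Option (Crd p N))
    (h : ker p N o o' ≠ 0) (h' : o ≠ liftO p N o') : isl p N o = 1 := by
  rcases o with _ | c <;> rcases o' with _ | c'
  · exact absurd rfl h'
  · exact absurd rfl h
  · exact absurd rfl h
  · unfold ker at h
    dsimp only at h
    unfold isl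
    dsimp only
    by_cases hc : c.1 = Fin.last N
    · rw [if_pos hc]
    · rw [if_neg hc] at h
      by_cases h2 : c = (c'.1.castSucc, c'.2)
      · exfalso; apply h'; rw [h2]; rfl
      · rw [if_neg h2] at h; exact absurd rfl h

/-- one coin costs at most `τ` -/
theorem cfac_mem (M : ℕ) (o : Option (Crd p M)) (k : Stp p) (w : Om p M) :
    0 ≤ cfac p M o k w ∧ cfac p M o k w ≤ p.τ := by
  rcases o with _ | c
  · exact ⟨le_rfl, p.hτ0.le⟩
  · unfold cfac
    dsimp only
    have h0 := cv_nonneg p M c w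
    have h1 := cv_le_one p M c w
    have hτ := p.hτ0
    split_ifs
    · rw [one_mul]
      exact ⟨mul_nonneg hτ.le h0, mul_le_of_le_one_right hτ.le h1⟩
    · rw [zero_mul, mul_zero]; exact ⟨le_rfl, hτ.le⟩

/-- dependence of the enriched free energy on the outer randomness -/
theorem Phi_outer (M : ℕ) (H : (Fin M → Bool) → ℝ) (d e : DD p M) (m : Stp p → ℝ)
    (hm0 : ∀ k, 0 ≤ m k) (hm : ∀ k, d k ≠ e k → m k = 1) :
    |Phi p M H d - Phi p M H e| ≤ p.τ * ∑ k, m k := by
  have hP := prior_isProb p M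
  have hτ := p.hτ0
  have h1 : ∀ w, |UU p M H d w - UU p M H e w| ≤ p.τ * ∑ k, m k := by
    intro w
    have e1 : UU p M H d w - UU p M H e w =
        ∑ k, (cfac p M (d k) k w - cfac p M (e k) k w) := by
      unfold UU WW
      rw [Finset.sum_sub_distrib]; ring
    rw [e1, Finset.mul_sum]
    refine (Finset.abs_sum_le_sum_abs _ _).trans (Finset.sum_le_sum fun k _ => ?_)
    by_cases hk : d k = e k
    · rw [hk, sub_self, abs_zero]; exact mul_nonneg hτ.le (hm0 k)
    · rw [hm k hk, mul_one, abs_le]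
      have a1 := cfac_mem p M (d k) k w
      have a2 := cfac_mem p M (e k) k w
      constructor <;> linarith [a1.1, a1.2, a2.1, a2.2]
  unfold Phi
  have e2 : (M : ℝ) * Real.log 2 + eE (prior p M) (A (prior p M) (fil p M) p.xs (UU p M H d) 0) -
      ((M : ℝ) * Real.log 2 + eE (prior p M) (A (prior p M) (fil p M) p.xs (UU p M H e) 0)) =
      eE (prior p M) (fun w => A (prior p M) (fil p M) p.xs (UU p M H d) 0 w -
        A (prior p M) (fil p M) p.xs (UU p M H e) 0 w) := by
    rw [eE_sub]; ring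
  rw [e2]
  exact (eE_abs_le hP _).trans (eE_le_of_le hP fun w =>
    A_sub_abs_le (𝓕 := fil p M) hP p.xs_expo.pos h1 0 w)

/-- product kernel -/
def Ker (d : DD p (N + 1)) (d' : DD p N) : ℝ := ∏ k, ker p N (d k) (d' k)

theorem Ker_nonneg (d : DD p (N + 1)) (d' : DD p N) : 0 ≤ Ker p N d d' :=
  Finset.prod_nonneg fun k _ => ker_nonneg p N (d k) (d' k)

theorem sum_Ker {N : ℕ} (hN : 0 < N) (d : DD p (N + 1)) : ∑ d', Ker p N d d' = 1 := by
  unfold Ker
  rw [← Fintype.prod_sum (fun (k : Stp p) (o' : Option (Crd p N)) => ker p N (d k) o')]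
  simp [sum_ker p hN]

theorem sum_dw_Ker {N : ℕ} (hN : 0 < N) (d' : DD p N) :
    ∑ d, dw p (N + 1) d * Ker p N d d' = dw p N d' := by
  unfold dw Ker
  simp only [← Finset.prod_mul_distrib]
  rw [← Fintype.prod_sum (fun (k : Stp p) (o : Option (Crd p (N + 1))) =>
    dw1 p (N + 1) o * ker p N o (d' k))]
  exact Finset.prod_congr rfl fun k _ => sum_dw1_ker p hN (d' k)

/-- marginal of the outer randomness -/
theorem Ed_coord {M : ℕ} (hM : 0 < M) (g : Option (Crd p M) → ℝ) (k : Stp p) :
    Ed p M (fun d => g (d k)) = ∑ o, dw1 p M o * g o := by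
  classical
  unfold Ed dw
  have h1 : ∀ d : DD p M, (∏ j, dw1 p M (d j)) * g (d k) =
      ∏ j, (dw1 p M (d j) * if j = k then g (d j) else 1) := by
    intro d
    rw [Finset.prod_mul_distrib]
    congr 1
    rw [Finset.prod_ite_eq' univ k (fun j => g (d j))]
    simp
  rw [Finset.sum_congr rfl fun d _ => h1 d,
    ← Fintype.prod_sum (fun (j : Stp p) (o : Option (Crd p M)) =>
      (dw1 p M o * if j = k then g o else 1))]
  rw [Finset.prod_eq_single k]
  · simp
  · intro j _ hj
    simp only [if_neg hj, mul_one]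
    exact dw1_sum p hM
  · intro h; exact absurd (Finset.mem_univ k) h

/-- (F4): averaged comparison of the systems on `N + 1` and on `N` sites; this is input (A3) of
the cavity step. -/
theorem EPhi_succ {N : ℕ} (hN : 0 < N) (H : (Fin (N + 1) → Bool) → ℝ) :
    |EPhi p (N + 1) H - EPhi p N (Hred N H)| ≤
      (p.nb : ℝ) / p.Q + (p.nc * p.T : ℝ) / ((N : ℝ) + 1) := by
  set M : DD p (N + 1) → DD p N → ℝ := fun d d' => dw p (N + 1) d * Ker p N d d' with hMdef
  have hM0 : ∀ d d', 0 ≤ M d d' := fun d d' =>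
    mul_nonneg (dw_nonneg p (N + 1) d) (Ker_nonneg p N d d')
  have e1 : EPhi p (N + 1) H = ∑ d, ∑ d', M d d' * Phi p (N + 1) H d := by
    unfold EPhi Ed
    refine Finset.sum_congr rfl fun d _ => ?_
    rw [← Finset.sum_mul, hMdef]
    simp only
    rw [← Finset.mul_sum, sum_Ker p hN, mul_one]
  have e2 : EPhi p N (Hred N H) = ∑ d, ∑ d', M d d' * Phi p N (Hred N H) d' := by
    unfold EPhi Ed
    rw [Finset.sum_comm]
    refine Finset.sum_congr rfl fun d' _ => ?_
    rw [← Finset.sum_mul, hMdef]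
    simp only
    rw [sum_dw_Ker p hN]
  have e3 : EPhi p (N + 1) H - EPhi p N (Hred N H) =
      ∑ d, ∑ d', M d d' * (Phi p (N + 1) H d - Phi p N (Hred N H) d') := by
    rw [e1, e2, ← Finset.sum_sub_distrib]
    refine Finset.sum_congr rfl fun d _ => ?_
    rw [← Finset.sum_sub_distrib]
    exact Finset.sum_congr rfl fun d' _ => by ring
  have e4 : ∀ d d', |M d d' * (Phi p (N + 1) H d - Phi p N (Hred N H) d')| ≤
      M d d' * (p.τ * (∑ k, isl p N (d k)) + (p.nb : ℝ) / p.Q) := by
    intro d d'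
    rw [abs_mul, abs_of_nonneg (hM0 d d')]
    by_cases hK : Ker p N d d' = 0
    · rw [hMdef]; simp only [hK, mul_zero, zero_mul]; exact le_rfl
    · refine mul_le_mul_of_nonneg_left ?_ (hM0 d d')
      have h1 : |Phi p (N + 1) H d - Phi p (N + 1) H (liftD p N d')| ≤
          p.τ * ∑ k, isl p N (d k) := by
        refine Phi_outer p (N + 1) H d (liftD p N d') (fun k => isl p N (d k))
          (fun k => isl_nonneg p N (d k)) fun k hk => ?_
        refine ker_mismatch p N (d k) (d' k) ?_ hk
        intro h0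
        exact hK (Finset.prod_eq_zero (Finset.mem_univ k) h0)
      have h2 := Phi_lift p N H d'
      calc |Phi p (N + 1) H d - Phi p N (Hred N H) d'|
          = |(Phi p (N + 1) H d - Phi p (N + 1) H (liftD p N d')) +
              (Phi p (N + 1) H (liftD p N d') - Phi p N (Hred N H) d')| := by congr 1; ring
        _ ≤ _ := (abs_add_le _ _).trans (add_le_add h1 h2)
  rw [e3]
  refine (Finset.abs_sum_le_sum_abs _ _).trans ?_
  refine (Finset.sum_le_sum fun d _ => (Finset.abs_sum_le_sum_abs _ _).trans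
    (Finset.sum_le_sum fun d' _ => e4 d d')).trans ?_
  have e5 : ∑ d, ∑ d', M d d' * (p.τ * (∑ k, isl p N (d k)) + (p.nb : ℝ) / p.Q) =
      Ed p (N + 1) (fun d => p.τ * (∑ k, isl p N (d k)) + (p.nb : ℝ) / p.Q) := by
    unfold Ed
    refine Finset.sum_congr rfl fun d _ => ?_
    rw [← Finset.sum_mul, hMdef]
    simp only
    rw [← Finset.mul_sum, sum_Ker p hN, mul_one]
  rw [e5, Ed_add, Ed_smul, Ed_const p (Nat.succ_pos N), Ed_sum]
  rw [Finset.sum_congr rfl fun k _ => (Ed_coord p (Nat.succ_pos N) (isl p N) k).trans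
    (sum_dw1_isl p N)]
  rw [Finset.sum_const, Finset.card_univ, Fintype.card_prod, Fintype.card_fin, Fintype.card_fin,
    nsmul_eq_mul, add_comm]
  refine add_le_add le_rfl ?_
  push_cast
  have hT : (0 : ℝ) ≤ (p.nc : ℝ) * p.T := by positivity
  have hN1 : (0 : ℝ) < (N : ℝ) + 1 := by positivity
  have e6 : p.τ * ((p.nc : ℝ) * p.T * (1 / (2 * ((N : ℝ) + 1)))) =
      (p.τ / 2) * ((p.nc : ℝ) * p.T / ((N : ℝ) + 1)) := by field_simp
  rw [e6]
  have hτ := p.hτ1
  exact mul_le_of_le_one_left (by positivity) (by linarith)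

end F4

end

end Crest.Agent.R141
private theorem rz_412dc748a3 : type_of% @_root_.Crest.Agent.R141.F4.ker.eq_1 := @_root_.Crest.Agent.R141.F4.ker.eq_1 -- L21
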