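import Mathlib
import Crest.Prelude.Def_DilutedSpinGlass

/-!
# Row 141: basic facts on `powerMeans` (helper494)

For `W` measurable with `0 < a ≤ W ≤ b`: measurability, bounds, monotonicity, homogeneity and the
1-Lipschitz property of `log ∘ powerMeans`.
-/

set_option autoImplicit false
set_option linter.unusedSectionVars false

open MeasureTheory Crest.ProbabilityR.Diluted

namespace Crest.Agent.R141

variable {L : Type*} [Fintype L] {r : ℕ}

/-- replace the level-`lvl` uniforms -/
def upd (lvl : Fin (r + 1)) (u : L → Fin (r + 1) → unitInterval) (v : L → unitInterval) :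
    L → Fin (r + 1) → unitInterval := fun ω j => if j = lvl then v ω else u ω j

theorem pmStep_def (m : ℝ) (lvl : Fin (r + 1)) (W : (L → Fin (r + 1) → unitInterval) → ℝ)
    (u : L → Fin (r + 1) → unitInterval) :
    pmStep m lvl W u = (∫ v : L → unitInterval, (W (upd lvl u v)) ^ m
      ∂(Measure.pi fun _ : L => (volume : Measure unitInterval))) ^ (1 / m) := rfl

theorem measurable_upd (lvl : Fin (r + 1)) :
    Measurable (fun q : (L → Fin (r + 1) → unitInterval) × (L → unitInterval) =>
      upd lvl q.1 q.2) := by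
  refine measurable_pi_lambda _ fun ω => measurable_pi_lambda _ fun j => ?_
  unfold upd
  by_cases h : j = lvl
  · simp only [h, if_true]
    exact (measurable_pi_apply ω).comp measurable_snd
  · simp only [h, if_false]
    exact (measurable_pi_apply j).comp ((measurable_pi_apply ω).comp measurable_fst)

theorem measurable_pmStep {m : ℝ} {lvl : Fin (r + 1)}
    {W : (L → Fin (r + 1) → unitInterval) → ℝ} (hW : Measurable W) :
    Measurable (pmStep m lvl W) := by
  have h1 : StronglyMeasurable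
      (fun q : (L → Fin (r + 1) → unitInterval) × (L → unitInterval) =>
        (W (upd lvl q.1 q.2)) ^ m) :=
    ((hW.comp (measurable_upd lvl)).pow_const m).stronglyMeasurable
  have h2 := h1.integral_prod_right'
    (ν := (Measure.pi fun _ : L => (volume : Measure unitInterval)))
  exact h2.measurable.pow_const _

/-- integrability of `W ^ m` along a level -/
theorem integrable_upd {a b m : ℝ} (lvl : Fin (r + 1)) (hm : 0 < m) (ha : 0 < a)
    {W : (L → Fin (r + 1) → unitInterval) → ℝ} (hW : Measurable W)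
    (hWa : ∀ u, a ≤ W u) (hWb : ∀ u, W u ≤ b) (u : L → Fin (r + 1) → unitInterval) :
    Integrable (fun v => (W (upd lvl u v)) ^ m)
      (Measure.pi fun _ : L => (volume : Measure unitInterval)) := by
  have hmeas : Measurable (fun v : L → unitInterval => (W (upd lvl u v)) ^ m) :=
    (hW.comp ((measurable_upd lvl).comp (measurable_const.prodMk measurable_id))).pow_const m
  refine Integrable.of_bound hmeas.aestronglyMeasurable (b ^ m) (Filter.Eventually.of_forall ?_)
  intro v
  have h0 : 0 ≤ W (upd lvl u v) := ha.le.trans (hWa _)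
  rw [Real.norm_of_nonneg (Real.rpow_nonneg h0 m)]
  exact Real.rpow_le_rpow h0 (hWb _) hm.le

theorem pmStep_le_of_le {a b a' b' m c : ℝ} {lvl : Fin (r + 1)} (hm : 0 < m) (ha : 0 < a)
    (ha' : 0 < a') (hc : 0 < c)
    {W W' : (L → Fin (r + 1) → unitInterval) → ℝ} (hW : Measurable W) (hW' : Measurable W')
    (hWa : ∀ u, a ≤ W u) (hWb : ∀ u, W u ≤ b) (hWa' : ∀ u, a' ≤ W' u) (hWb' : ∀ u, W' u ≤ b')
    (h : ∀ u, W u ≤ c * W' u) (u : L → Fin (r + 1) → unitInterval) :
    pmStep m lvl W u ≤ c * pmStep m lvl W' u := by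
  rw [pmStep_def, pmStep_def]
  have hi := integrable_upd lvl hm ha hW hWa hWb u
  have hi' := integrable_upd lvl hm ha' hW' hWa' hWb' u
  have hnn' : 0 ≤ ∫ v : L → unitInterval, (W' (upd lvl u v)) ^ m
      ∂(Measure.pi fun _ : L => (volume : Measure unitInterval)) :=
    integral_nonneg fun v => Real.rpow_nonneg (ha'.le.trans (hWa' _)) m
  have hnn : 0 ≤ ∫ v : L → unitInterval, (W (upd lvl u v)) ^ m
      ∂(Measure.pi fun _ : L => (volume : Measure unitInterval)) :=
    integral_nonneg fun v => Real.rpow_nonneg (ha.le.trans (hWa _)) m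
  have hle : ∫ v : L → unitInterval, (W (upd lvl u v)) ^ m
      ∂(Measure.pi fun _ : L => (volume : Measure unitInterval)) ≤
      c ^ m * ∫ v : L → unitInterval, (W' (upd lvl u v)) ^ m
      ∂(Measure.pi fun _ : L => (volume : Measure unitInterval)) := by
    rw [← integral_const_mul]
    refine integral_mono hi (hi'.const_mul _) fun v => ?_
    have h0 : 0 ≤ W (upd lvl u v) := ha.le.trans (hWa _)
    calc (W (upd lvl u v)) ^ m ≤ (c * W' (upd lvl u v)) ^ m :=
          Real.rpow_le_rpow h0 (h _) hm.le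
      _ = c ^ m * (W' (upd lvl u v)) ^ m :=
          Real.mul_rpow hc.le (ha'.le.trans (hWa' _))
  calc (∫ v : L → unitInterval, (W (upd lvl u v)) ^ m
      ∂(Measure.pi fun _ : L => (volume : Measure unitInterval))) ^ (1 / m)
      ≤ (c ^ m * ∫ v : L → unitInterval, (W' (upd lvl u v)) ^ m
      ∂(Measure.pi fun _ : L => (volume : Measure unitInterval))) ^ (1 / m) :=
        Real.rpow_le_rpow hnn hle (by positivity)
    _ = c * (∫ v : L → unitInterval, (W' (upd lvl u v)) ^ m
      ∂(Measure.pi fun _ : L => (volume : Measure unitInterval))) ^ (1 / m) := by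
        rw [Real.mul_rpow (Real.rpow_nonneg hc.le _) hnn', ← Real.rpow_mul hc.le,
          mul_one_div_cancel hm.ne', Real.rpow_one]

theorem pmStep_const {m c : ℝ} {lvl : Fin (r + 1)} (hm : 0 < m) (hc : 0 ≤ c)
    (u : L → Fin (r + 1) → unitInterval) :
    pmStep m lvl (fun _ : L → Fin (r + 1) → unitInterval => c) u = c := by
  rw [pmStep_def]
  simp only [integral_const, probReal_univ, smul_eq_mul, one_mul]
  rw [← Real.rpow_mul hc, mul_one_div_cancel hm.ne', Real.rpow_one]

theorem pmStep_bounds {a b m : ℝ} {lvl : Fin (r + 1)} (hm : 0 < m) (ha : 0 < a)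
    {W : (L → Fin (r + 1) → unitInterval) → ℝ} (hW : Measurable W)
    (hWa : ∀ u, a ≤ W u) (hWb : ∀ u, W u ≤ b) (u : L → Fin (r + 1) → unitInterval) :
    a ≤ pmStep m lvl W u ∧ pmStep m lvl W u ≤ b := by
  have hab : a ≤ b := (hWa u).trans (hWb u)
  have hb : 0 < b := ha.trans_le hab
  constructor
  · have := pmStep_le_of_le (m := m) (lvl := lvl) (W := fun _ => a) (W' := W) (c := 1) hm ha ha
      one_pos measurable_const hW (fun _ => le_rfl) (fun _ => le_rfl) hWa hWb
      (fun u => by simpa using hWa u) u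
    rw [pmStep_const hm ha.le, one_mul] at this
    exact this
  · have := pmStep_le_of_le (m := m) (lvl := lvl) (W := W) (W' := fun _ => b) (c := 1) hm ha hb
      one_pos hW measurable_const hWa hWb (fun _ => le_rfl) (fun _ => le_rfl)
      (fun u => by simpa using hWb u) u
    rw [pmStep_const hm hb.le, one_mul] at this
    exact this

/-- `powerMeans` over an arbitrary list of levels -/
noncomputable def pmList (m : Fin r → ℝ) (l : List (Fin r))
    (W : (L → Fin (r + 1) → unitInterval) → ℝ) : (L → Fin (r + 1) → unitInterval) → ℝ :=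
  l.foldr (fun d acc => pmStep (m d) d.succ acc) W

theorem powerMeans_eq_pmList (m : Fin r → ℝ) (W : (L → Fin (r + 1) → unitInterval) → ℝ) :
    powerMeans m W = pmList m (List.finRange r) W := rfl

theorem pmList_props {m : Fin r → ℝ} (hm : ∀ d, 0 < m d) (l : List (Fin r)) {a b : ℝ}
    (ha : 0 < a) {W : (L → Fin (r + 1) → unitInterval) → ℝ} (hW : Measurable W)
    (hWa : ∀ u, a ≤ W u) (hWb : ∀ u, W u ≤ b) :
    Measurable (pmList m l W) ∧ (∀ u, a ≤ pmList m l W u) ∧ (∀ u, pmList m l W u ≤ b) := by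
  induction l with
  | nil => exact ⟨hW, hWa, hWb⟩
  | cons d l ih =>
    obtain ⟨h1, h2, h3⟩ := ih
    refine ⟨measurable_pmStep h1, fun u => ?_, fun u => ?_⟩
    · exact (pmStep_bounds (hm d) ha h1 h2 h3 u).1
    · exact (pmStep_bounds (hm d) ha h1 h2 h3 u).2

theorem pmList_le_of_le {m : Fin r → ℝ} (hm : ∀ d, 0 < m d) (l : List (Fin r))
    {a b a' b' c : ℝ} (ha : 0 < a) (ha' : 0 < a') (hc : 0 < c)
    {W W' : (L → Fin (r + 1) → unitInterval) → ℝ} (hW : Measurable W) (hW' : Measurable W')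
    (hWa : ∀ u, a ≤ W u) (hWb : ∀ u, W u ≤ b) (hWa' : ∀ u, a' ≤ W' u) (hWb' : ∀ u, W' u ≤ b')
    (h : ∀ u, W u ≤ c * W' u) (u : L → Fin (r + 1) → unitInterval) :
    pmList m l W u ≤ c * pmList m l W' u := by
  induction l generalizing u with
  | nil => exact h u
  | cons d l ih =>
    obtain ⟨h1, h2, h3⟩ := pmList_props hm l ha hW hWa hWb
    obtain ⟨h1', h2', h3'⟩ := pmList_props hm l ha' hW' hWa' hWb'
    exact pmStep_le_of_le (hm d) ha ha' hc h1 h1' h2 h3 h2' h3' ih u

/-! ### `powerMeans` -/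


theorem measurable_powerMeans' {m : Fin r → ℝ}
    {W : (L → Fin (r + 1) → unitInterval) → ℝ} (hW : Measurable W) :
    Measurable (powerMeans m W) := by
  rw [powerMeans_eq_pmList]
  induction (List.finRange r) with
  | nil => exact hW
  | cons d l ih => exact measurable_pmStep ih

theorem le_powerMeans {m : Fin r → ℝ} (hm : ∀ d, 0 < m d) {a b : ℝ}
    (ha : 0 < a) {W : (L → Fin (r + 1) → unitInterval) → ℝ} (hW : Measurable W)
    (hWa : ∀ u, a ≤ W u) (hWb : ∀ u, W u ≤ b) (u : L → Fin (r + 1) → unitInterval) :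
    a ≤ powerMeans m W u :=
  (pmList_props hm _ ha hW hWa hWb).2.1 u

theorem powerMeans_le {m : Fin r → ℝ} (hm : ∀ d, 0 < m d) {a b : ℝ}
    (ha : 0 < a) {W : (L → Fin (r + 1) → unitInterval) → ℝ} (hW : Measurable W)
    (hWa : ∀ u, a ≤ W u) (hWb : ∀ u, W u ≤ b) (u : L → Fin (r + 1) → unitInterval) :
    powerMeans m W u ≤ b :=
  (pmList_props hm _ ha hW hWa hWb).2.2 u

theorem powerMeans_le_mul {m : Fin r → ℝ} (hm : ∀ d, 0 < m d)
    {a b a' b' c : ℝ} (ha : 0 < a) (ha' : 0 < a') (hc : 0 < c)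
    {W W' : (L → Fin (r + 1) → unitInterval) → ℝ} (hW : Measurable W) (hW' : Measurable W')
    (hWa : ∀ u, a ≤ W u) (hWb : ∀ u, W u ≤ b) (hWa' : ∀ u, a' ≤ W' u) (hWb' : ∀ u, W' u ≤ b')
    (h : ∀ u, W u ≤ c * W' u) (u : L → Fin (r + 1) → unitInterval) :
    powerMeans m W u ≤ c * powerMeans m W' u :=
  pmList_le_of_le hm _ ha ha' hc hW hW' hWa hWb hWa' hWb' h u

/-- homogeneity -/
theorem powerMeans_const_mul {m : Fin r → ℝ} (hm : ∀ d, 0 < m d)
    {a b c : ℝ} (ha : 0 < a) (hc : 0 < c)
    {W : (L → Fin (r + 1) → unitInterval) → ℝ} (hW : Measurable W)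
    (hWa : ∀ u, a ≤ W u) (hWb : ∀ u, W u ≤ b) (u : L → Fin (r + 1) → unitInterval) :
    powerMeans m (fun u => c * W u) u = c * powerMeans m W u := by
  have hcW : ∀ u, c * a ≤ c * W u := fun u => mul_le_mul_of_nonneg_left (hWa u) hc.le
  have hcW' : ∀ u, c * W u ≤ c * b := fun u => mul_le_mul_of_nonneg_left (hWb u) hc.le
  refine le_antisymm ?_ ?_
  · exact powerMeans_le_mul hm (mul_pos hc ha) ha hc (hW.const_mul c) hW hcW hcW' hWa hWb
      (fun u => le_rfl) u
  · have := powerMeans_le_mul (W := W) (W' := fun u => c * W u) hm ha (mul_pos hc ha)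
      (inv_pos.mpr hc) hW (hW.const_mul c) hWa hWb hcW hcW'
      (fun u => by rw [← mul_assoc, inv_mul_cancel₀ hc.ne', one_mul]) u
    calc c * powerMeans m W u ≤ c * (c⁻¹ * powerMeans m (fun u => c * W u) u) :=
          mul_le_mul_of_nonneg_left this hc.le
      _ = powerMeans m (fun u => c * W u) u := by
          rw [← mul_assoc, mul_inv_cancel₀ hc.ne', one_mul]

/-- `log ∘ powerMeans` is 1-Lipschitz for the sup distance of `log W`. -/
theorem abs_log_powerMeans_sub_le {m : Fin r → ℝ} (hm : ∀ d, 0 < m d)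
    {a b a' b' δ : ℝ} (ha : 0 < a) (ha' : 0 < a')
    {W W' : (L → Fin (r + 1) → unitInterval) → ℝ} (hW : Measurable W) (hW' : Measurable W')
    (hWa : ∀ u, a ≤ W u) (hWb : ∀ u, W u ≤ b) (hWa' : ∀ u, a' ≤ W' u) (hWb' : ∀ u, W' u ≤ b')
    (h : ∀ u, |Real.log (W u) - Real.log (W' u)| ≤ δ) (u : L → Fin (r + 1) → unitInterval) :
    |Real.log (powerMeans m W u) - Real.log (powerMeans m W' u)| ≤ δ := by
  have key : ∀ {x y : ℝ}, 0 < x → 0 < y → |Real.log x - Real.log y| ≤ δ → x ≤ Real.exp δ * y := by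
    intro x y hx hy hxy
    have h1 : Real.log x ≤ δ + Real.log y := by linarith [(abs_le.mp hxy).2]
    calc x = Real.exp (Real.log x) := (Real.exp_log hx).symm
      _ ≤ Real.exp (δ + Real.log y) := Real.exp_le_exp.mpr h1
      _ = Real.exp δ * y := by rw [Real.exp_add, Real.exp_log hy]
  have hp : 0 < powerMeans m W u := ha.trans_le (le_powerMeans hm ha hW hWa hWb u)
  have hp' : 0 < powerMeans m W' u := ha'.trans_le (le_powerMeans hm ha' hW' hWa' hWb' u)
  have h1 := powerMeans_le_mul (m := m) hm ha ha' (Real.exp_pos δ) hW hW' hWa hWb hWa' hWb'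
    (fun u => key (ha.trans_le (hWa u)) (ha'.trans_le (hWa' u)) (h u)) u
  have h2 := powerMeans_le_mul (m := m) hm ha' ha (Real.exp_pos δ) hW' hW hWa' hWb' hWa hWb
    (fun u => key (ha'.trans_le (hWa' u)) (ha.trans_le (hWa u)) (by rw [abs_sub_comm]; exact h u)) u
  have l1 := Real.log_le_log hp h1
  have l2 := Real.log_le_log hp' h2
  rw [Real.log_mul (Real.exp_pos δ).ne' hp'.ne', Real.log_exp] at l1
  rw [Real.log_mul (Real.exp_pos δ).ne' hp.ne', Real.log_exp] at l2
  rw [abs_le]
  constructor <;> linarith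

end Crest.Agent.R141
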