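import Crest.Agent.R141.RedBasic
import Crest.Agent.R141.Red0

/-!
R141, reduction to finitely supported laws, part 2: the pressure is Lipschitz in the laws;
simple-function approximation of integrable laws.
-/

set_option autoImplicit false

namespace Crest.Agent.R141.Red

open MeasureTheory Crest.ProbabilityR.Diluted

/-! ### Poisson weights -/

theorem poissonWeight_nonneg {lam : ℝ} (h : 0 ≤ lam) (n : ℕ) : 0 ≤ poissonWeight lam n := by
  unfold poissonWeight; positivity

theorem hasSum_poissonWeight (lam : ℝ) : HasSum (poissonWeight lam) 1 := by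
  have h := (NormedSpace.expSeries_div_hasSum_exp lam).mul_left (Real.exp (-lam))
  have e1 : (fun n : ℕ => Real.exp (-lam) * (lam ^ n / (n.factorial : ℝ))) = poissonWeight lam := by
    funext n; unfold poissonWeight; rw [mul_div_assoc]
  have e2 : Real.exp (-lam) * NormedSpace.exp lam = 1 := by
    rw [← Real.exp_eq_exp_ℝ, ← Real.exp_add]; simp
  rw [e1, e2] at h
  exact h

theorem poissonWeight_succ_mul (lam : ℝ) (n : ℕ) :
    poissonWeight lam (n + 1) * ((n + 1 : ℕ) : ℝ) = lam * poissonWeight lam n := by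
  unfold poissonWeight
  rw [Nat.factorial_succ, pow_succ]
  push_cast
  have h1 : ((n : ℝ) + 1) ≠ 0 := by positivity
  have h2 : ((n.factorial : ℕ) : ℝ) ≠ 0 := by positivity
  field_simp

theorem hasSum_poissonWeight_mul (lam : ℝ) :
    HasSum (fun n : ℕ => poissonWeight lam n * (n : ℝ)) lam := by
  rw [← hasSum_nat_add_iff' 1]
  simp only [poissonWeight_succ_mul, Finset.range_one, Finset.sum_singleton, Nat.cast_zero,
    mul_zero, sub_zero]
  simpa using (hasSum_poissonWeight lam).mul_left lam

/-- a series bounded by an affine function against the Poisson weights. -/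
theorem summable_poisson_of_le {lam : ℝ} (hlam : 0 ≤ lam) {f : ℕ → ℝ} {a b : ℝ}
    (h : ∀ n, |f n| ≤ a * n + b) : Summable (fun n => poissonWeight lam n * f n) := by
  refine Summable.of_norm_bounded (g := fun n : ℕ => a * (poissonWeight lam n * (n : ℝ)) +
    b * poissonWeight lam n) ?_ fun n => ?_
  · exact ((hasSum_poissonWeight_mul lam).summable.mul_left a).add
      ((hasSum_poissonWeight lam).summable.mul_left b)
  · rw [Real.norm_eq_abs, abs_mul, abs_of_nonneg (poissonWeight_nonneg hlam n)]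
    calc poissonWeight lam n * |f n| ≤ poissonWeight lam n * (a * n + b) :=
          mul_le_mul_of_nonneg_left (h n) (poissonWeight_nonneg hlam n)
      _ = _ := by ring

theorem tsum_poisson_le {lam : ℝ} (hlam : 0 ≤ lam) {f : ℕ → ℝ} {a b : ℝ}
    (h : ∀ n, |f n| ≤ a * n + b) : |∑' n, poissonWeight lam n * f n| ≤ a * lam + b := by
  have hs := summable_poisson_of_le hlam h
  have hg : HasSum (fun n : ℕ => a * (poissonWeight lam n * (n : ℝ)) +
      b * poissonWeight lam n) (a * lam + b * 1) :=
    ((hasSum_poissonWeight_mul lam).mul_left a).add ((hasSum_poissonWeight lam).mul_left b)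
  have hle : ∀ n : ℕ, |poissonWeight lam n * f n| ≤ a * (poissonWeight lam n * (n : ℝ)) +
      b * poissonWeight lam n := fun n => by
    rw [abs_mul, abs_of_nonneg (poissonWeight_nonneg hlam n)]
    calc poissonWeight lam n * |f n| ≤ poissonWeight lam n * (a * n + b) :=
          mul_le_mul_of_nonneg_left (h n) (poissonWeight_nonneg hlam n)
      _ = _ := by ring
  have := tsum_of_norm_bounded (f := fun n => poissonWeight lam n * f n) hg
    (fun n => by rw [Real.norm_eq_abs]; exact hle n)
  rw [Real.norm_eq_abs] at this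
  linarith

/-! ### averages of `logPartition` -/

/-- the average of `logPartition` over the index tuples. -/
noncomputable def avgLP (N : ℕ) {p M : ℕ} (z : (Fin M → Inter p) × (Fin N → ℝ)) : ℝ :=
  (Fintype.card (Fin M → Fin p → Fin N) : ℝ)⁻¹ *
    ∑ idx : Fin M → Fin p → Fin N, logPartition N z.1 idx z.2

theorem continuous_avgLP (N : ℕ) {p M : ℕ} :
    Continuous (avgLP N : (Fin M → Inter p) × (Fin N → ℝ) → ℝ) :=
  continuous_const.mul (continuous_finsetSum _ fun idx _ => continuous_logPartition N idx)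

/-- averages over a finite type of quantities bounded by `c`. -/
theorem abs_avg_le {ι : Type*} [Fintype ι] (f : ι → ℝ) {c : ℝ} (hc : 0 ≤ c)
    (h : ∀ i, |f i| ≤ c) : |(Fintype.card ι : ℝ)⁻¹ * ∑ i, f i| ≤ c := by
  rw [abs_mul, abs_of_nonneg (by positivity : (0 : ℝ) ≤ (Fintype.card ι : ℝ)⁻¹)]
  rcases Nat.eq_zero_or_pos (Fintype.card ι) with h0 | h0
  · rw [h0]; simpa using hc
  · have h1 : |∑ i, f i| ≤ (Fintype.card ι : ℝ) * c := by
      refine (Finset.abs_sum_le_sum_abs _ _).trans ?_
      refine (Finset.sum_le_sum fun i _ => h i).trans ?_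
      rw [Finset.sum_const, Finset.card_univ, nsmul_eq_mul]
    have h2 : (0 : ℝ) < Fintype.card ι := by exact_mod_cast h0
    calc (Fintype.card ι : ℝ)⁻¹ * |∑ i, f i| ≤ (Fintype.card ι : ℝ)⁻¹ * (Fintype.card ι * c) :=
          mul_le_mul_of_nonneg_left h1 (by positivity)
      _ = c := by field_simp

theorem avgLP_lipschitz (N : ℕ) {p M : ℕ} (z z' : (Fin M → Inter p) × (Fin N → ℝ)) :
    |avgLP N z - avgLP N z'| ≤
      ∑ k, supNorm (z.1 k - z'.1 k) + ∑ i, |z.2 i - z'.2 i| := by
  unfold avgLP
  rw [← mul_sub, ← Finset.sum_sub_distrib]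
  refine abs_avg_le _ ?_ fun idx => logPartition_lipschitz N _ _ idx _ _
  exact add_nonneg (Finset.sum_nonneg fun _ _ => supNorm_nonneg _)
    (Finset.sum_nonneg fun _ _ => abs_nonneg _)

theorem abs_avgLP_le (N : ℕ) {p M : ℕ} (z : (Fin M → Inter p) × (Fin N → ℝ)) :
    |avgLP N z| ≤ N * Real.log 2 + (∑ k, supNorm (z.1 k) + ∑ i, |z.2 i|) := by
  unfold avgLP
  refine abs_avg_le _ ?_ fun idx => abs_logPartition_le N _ idx _
  have h1 : (0 : ℝ) ≤ N * Real.log 2 := mul_nonneg (Nat.cast_nonneg _) (Real.log_nonneg one_le_two)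
  exact add_nonneg h1 (add_nonneg (Finset.sum_nonneg fun _ _ => supNorm_nonneg _)
    (Finset.sum_nonneg fun _ _ => abs_nonneg _))

section Integrals

variable {p : ℕ} (μ : Measure (Inter p)) [IsProbabilityMeasure μ] (ν : Measure ℝ)
  [IsProbabilityMeasure ν]

theorem integrable_sum_eval {ι E : Type*} [Fintype ι] [MeasurableSpace E] (μ : Measure E)
    [IsProbabilityMeasure μ] {f : E → ℝ} (hf : Integrable f μ) :
    Integrable (fun x : ι → E => ∑ k, f (x k)) (Measure.pi fun _ : ι => μ) :=
  integrable_finsetSum _ fun k _ => integrable_comp_eval (μ := fun _ : ι => μ) (i := k) hf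

theorem integral_sum_eval {ι E : Type*} [Fintype ι] [MeasurableSpace E] (μ : Measure E)
    [IsProbabilityMeasure μ] {f : E → ℝ} (hf : Integrable f μ) :
    ∫ x : ι → E, ∑ k, f (x k) ∂(Measure.pi fun _ : ι => μ) = Fintype.card ι * ∫ x, f x ∂μ := by
  rw [integral_finsetSum _ fun k _ => integrable_comp_eval (μ := fun _ : ι => μ) (i := k) hf]
  have : ∀ k : ι, ∫ x : ι → E, f (x k) ∂(Measure.pi fun _ : ι => μ) = ∫ x, f x ∂μ := fun k =>
    integral_comp_eval (μ := fun _ : ι => μ) (i := k) hf.aestronglyMeasurable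
  rw [Finset.sum_congr rfl fun k _ => this k, Finset.sum_const, Finset.card_univ, nsmul_eq_mul]

/-- the finite-volume integral for given `M`. -/
noncomputable def lpInt (p : ℕ) (μ : Measure (Inter p)) (ν : Measure ℝ) (N M : ℕ) : ℝ :=
  ∫ θs, ∫ hs, avgLP N (p := p) (M := M) (θs, hs) ∂(Measure.pi fun _ : Fin N => ν)
    ∂(Measure.pi fun _ : Fin M => μ)

theorem pressure_eq (p : ℕ) (α : ℝ) (μ : Measure (Inter p)) (ν : Measure ℝ) (N : ℕ) :
    pressure p α μ ν N = (1 / (N : ℝ)) * ∑' M : ℕ, poissonWeight (α * N) M * lpInt p μ ν N M := rfl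

theorem integrable_of_bound {N M : ℕ} {g : (Fin M → Inter p) × (Fin N → ℝ) → ℝ}
    (hg : Measurable g) {φ : Inter p → ℝ} {ψ : ℝ → ℝ} (c : ℝ) (hφ : Integrable φ μ)
    (hψ : Integrable ψ ν)
    (h : ∀ z, |g z| ≤ c + (∑ k, φ (z.1 k) + ∑ i, ψ (z.2 i))) :
    Integrable g ((Measure.pi fun _ : Fin M => μ).prod (Measure.pi fun _ : Fin N => ν)) := by
  refine Integrable.mono' (g := fun z => c + (∑ k, φ (z.1 k) + ∑ i, ψ (z.2 i))) ?_
    hg.aestronglyMeasurable (Filter.Eventually.of_forall fun z => by
      rw [Real.norm_eq_abs]; exact h z)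
  exact (integrable_const c).add
    (((integrable_sum_eval μ hφ).comp_fst _).add ((integrable_sum_eval ν hψ).comp_snd _))

/-- the finite-volume integral for the image laws. -/
theorem lpInt_map {φ : Inter p → Inter p} {ψ : ℝ → ℝ} (hφ : Measurable φ) (hψ : Measurable ψ)
    (N M : ℕ) :
    lpInt p (μ.map φ) (ν.map ψ) N M =
      ∫ θs, ∫ hs, avgLP N (p := p) (M := M) (fun k => φ (θs k), fun i => ψ (hs i))
        ∂(Measure.pi fun _ : Fin N => ν) ∂(Measure.pi fun _ : Fin M => μ) := by
  have : IsProbabilityMeasure (μ.map φ) := Measure.isProbabilityMeasure_map hφ.aemeasurable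
  have : IsProbabilityMeasure (ν.map ψ) := Measure.isProbabilityMeasure_map hψ.aemeasurable
  unfold lpInt
  have e1 : (Measure.pi fun _ : Fin M => μ.map φ) =
      (Measure.pi fun _ : Fin M => μ).map (fun x i => φ (x i)) :=
    (Measure.pi_map_pi (μ := fun _ : Fin M => μ) (f := fun _ => φ)
      fun _ => hφ.aemeasurable).symm
  have e2 : (Measure.pi fun _ : Fin N => ν.map ψ) =
      (Measure.pi fun _ : Fin N => ν).map (fun x i => ψ (x i)) :=
    (Measure.pi_map_pi (μ := fun _ : Fin N => ν) (f := fun _ => ψ)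
      fun _ => hψ.aemeasurable).symm
  have m1 : Measurable (fun (x : Fin M → Inter p) i => φ (x i)) :=
    measurable_pi_lambda _ fun i => hφ.comp (measurable_pi_apply i)
  have m2 : Measurable (fun (x : Fin N → ℝ) i => ψ (x i)) :=
    measurable_pi_lambda _ fun i => hψ.comp (measurable_pi_apply i)
  have hin : ∀ θs : Fin M → Inter p,
      ∫ hs, avgLP N (θs, hs) ∂(Measure.pi fun _ : Fin N => ν.map ψ) =
        ∫ hs, avgLP N (θs, fun i => ψ (hs i)) ∂(Measure.pi fun _ : Fin N => ν) := by
    intro θs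
    rw [e2, integral_map m2.aemeasurable]
    exact ((continuous_avgLP N).comp (by fun_prop :
      Continuous fun hs : Fin N → ℝ => (θs, hs))).measurable.aestronglyMeasurable
  simp only [hin]
  rw [e1, integral_map m1.aemeasurable]
  have h3 : Measurable (fun z : (Fin M → Inter p) × (Fin N → ℝ) =>
      avgLP N (z.1, fun i => ψ (z.2 i))) :=
    (continuous_avgLP N).measurable.comp (measurable_fst.prodMk (m2.comp measurable_snd))
  exact (h3.stronglyMeasurable.integral_prod_right'
    (ν := Measure.pi fun _ : Fin N => ν)).aestronglyMeasurable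

theorem lpInt_sub_le {φ : Inter p → Inter p} {ψ : ℝ → ℝ} (hφ : Measurable φ) (hψ : Measurable ψ)
    (hμ : Integrable (fun θ => supNorm θ) μ) (hν : Integrable (fun x : ℝ => x) ν)
    (hμ' : Integrable (fun θ => supNorm (θ - φ θ)) μ) (hν' : Integrable (fun x => |x - ψ x|) ν)
    (N M : ℕ) :
    |lpInt p μ ν N M - lpInt p (μ.map φ) (ν.map ψ) N M| ≤
      (∫ θ, supNorm (θ - φ θ) ∂μ) * M + N * ∫ x, |x - ψ x| ∂ν := by
  rw [lpInt_map μ ν hφ hψ]
  unfold lpInt
  have m1 : Measurable (fun (x : Fin M → Inter p) i => φ (x i)) :=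
    measurable_pi_lambda _ fun i => hφ.comp (measurable_pi_apply i)
  have m2 : Measurable (fun (x : Fin N → ℝ) i => ψ (x i)) :=
    measurable_pi_lambda _ fun i => hψ.comp (measurable_pi_apply i)
  have hg1 : Measurable (avgLP N : (Fin M → Inter p) × (Fin N → ℝ) → ℝ) :=
    (continuous_avgLP N).measurable
  have hg2 : Measurable (fun z : (Fin M → Inter p) × (Fin N → ℝ) =>
      avgLP N (fun k => φ (z.1 k), fun i => ψ (z.2 i))) :=
    hg1.comp ((m1.comp measurable_fst).prodMk (m2.comp measurable_snd))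
  have i1 := integrable_of_bound μ ν hg1 (N * Real.log 2) hμ hν.abs (abs_avgLP_le N)
  have hb : Integrable (fun θ => supNorm θ + supNorm (θ - φ θ)) μ := hμ.add hμ'
  have hb2 : Integrable (fun x : ℝ => |x| + |x - ψ x|) ν := hν.abs.add hν'
  have i2 := integrable_of_bound μ ν hg2 (N * Real.log 2) hb hb2 (fun z => by
    refine (abs_avgLP_le N _).trans ?_
    have s1 : ∀ k, supNorm (φ (z.1 k)) ≤ supNorm (z.1 k) + supNorm (z.1 k - φ (z.1 k)) := by
      intro k
      have h := supNorm_sub_le (z.1 k) (z.1 k - φ (z.1 k))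
      rwa [sub_sub_cancel] at h
    have s2 : ∀ i, |ψ (z.2 i)| ≤ |z.2 i| + |z.2 i - ψ (z.2 i)| := by
      intro i
      have h := abs_sub (z.2 i) (z.2 i - ψ (z.2 i))
      rwa [sub_sub_cancel] at h
    have t1 := Finset.sum_le_sum fun k (_ : k ∈ Finset.univ) => s1 k
    have t2 := Finset.sum_le_sum fun i (_ : i ∈ Finset.univ) => s2 i
    simp only
    linarith)
  rw [← integral_prod _ i1, ← integral_prod _ i2, ← integral_sub i1 i2]
  refine (abs_integral_le_integral_abs).trans ?_
  have i3 : Integrable (fun z : (Fin M → Inter p) × (Fin N → ℝ) =>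
      (∑ k, supNorm (z.1 k - φ (z.1 k))) + ∑ i, |z.2 i - ψ (z.2 i)|)
      ((Measure.pi fun _ : Fin M => μ).prod (Measure.pi fun _ : Fin N => ν)) :=
    ((integrable_sum_eval μ hμ').comp_fst _).add ((integrable_sum_eval ν hν').comp_snd _)
  refine (integral_mono (i1.sub i2).abs i3 fun z => avgLP_lipschitz N _ _).trans ?_
  rw [integral_add ((integrable_sum_eval μ hμ').comp_fst _) ((integrable_sum_eval ν hν').comp_snd _)]
  rw [integral_fun_fst (f := fun x : Fin M → Inter p => ∑ k, supNorm (x k - φ (x k))),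
    integral_fun_snd (f := fun x : Fin N → ℝ => ∑ i, |x i - ψ (x i)|),
    integral_sum_eval μ hμ', integral_sum_eval ν hν']
  simp [mul_comm]

theorem abs_lpInt_le (hμ : Integrable (fun θ => supNorm θ) μ) (hν : Integrable (fun x : ℝ => x) ν)
    (N M : ℕ) :
    |lpInt p μ ν N M| ≤
      (∫ θ, supNorm θ ∂μ) * M + N * (Real.log 2 + ∫ x, |x| ∂ν) := by
  unfold lpInt
  have hg1 : Measurable (avgLP N : (Fin M → Inter p) × (Fin N → ℝ) → ℝ) :=
    (continuous_avgLP N).measurable
  have i1 := integrable_of_bound μ ν hg1 (N * Real.log 2) hμ hν.abs (abs_avgLP_le N)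
  rw [← integral_prod _ i1]
  refine (abs_integral_le_integral_abs).trans ?_
  have i3 : Integrable (fun z : (Fin M → Inter p) × (Fin N → ℝ) =>
      (∑ k, supNorm (z.1 k)) + ∑ i, |z.2 i|)
      ((Measure.pi fun _ : Fin M => μ).prod (Measure.pi fun _ : Fin N => ν)) :=
    ((integrable_sum_eval μ hμ).comp_fst _).add ((integrable_sum_eval ν hν.abs).comp_snd _)
  refine (integral_mono i1.abs ((integrable_const (N * Real.log 2)).add i3)
    fun z => abs_avgLP_le N _).trans ?_
  simp only [Pi.add_apply]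
  rw [integral_add (integrable_const _) i3,
    integral_add ((integrable_sum_eval μ hμ).comp_fst _) ((integrable_sum_eval ν hν.abs).comp_snd _)]
  rw [integral_fun_fst (f := fun x : Fin M → Inter p => ∑ k, supNorm (x k)),
    integral_fun_snd (f := fun x : Fin N → ℝ => ∑ i, |x i|),
    integral_sum_eval μ hμ, integral_sum_eval ν hν.abs]
  simp only [integral_const, probReal_univ, smul_eq_mul, one_mul, Fintype.card_fin]
  linarith


/-- **the pressure is Lipschitz in the laws.** -/
theorem pressure_sub_le {α : ℝ} (hα : 0 ≤ α) {φ : Inter p → Inter p} {ψ : ℝ → ℝ}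
    (hφ : Measurable φ) (hψ : Measurable ψ)
    (hμ : Integrable (fun θ => supNorm θ) μ) (hν : Integrable (fun x : ℝ => x) ν)
    (hμ' : Integrable (fun θ => supNorm (θ - φ θ)) μ) (hν' : Integrable (fun x => |x - ψ x|) ν)
    {N : ℕ} (hN : 1 ≤ N) :
    |pressure p α μ ν N - pressure p α (μ.map φ) (ν.map ψ) N| ≤
      α * (∫ θ, supNorm (θ - φ θ) ∂μ) + ∫ x, |x - ψ x| ∂ν := by
  have : IsProbabilityMeasure (μ.map φ) := Measure.isProbabilityMeasure_map hφ.aemeasurable
  have : IsProbabilityMeasure (ν.map ψ) := Measure.isProbabilityMeasure_map hψ.aemeasurable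
  have hN' : (0 : ℝ) < N := by exact_mod_cast hN
  have hlam : 0 ≤ α * N := by positivity
  have h1 := tsum_poisson_le hlam (fun M => by
    have := lpInt_sub_le μ ν hφ hψ hμ hν hμ' hν' N M
    exact this)
  have s1 := summable_poisson_of_le hlam (abs_lpInt_le μ ν hμ hν N)
  have hμ2 : Integrable (fun θ => supNorm θ) (μ.map φ) := by
    rw [integrable_map_measure measurable_supNorm.aestronglyMeasurable hφ.aemeasurable]
    refine Integrable.mono' (hμ.add hμ') (measurable_supNorm.comp hφ).aestronglyMeasurable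
      (Filter.Eventually.of_forall fun θ => ?_)
    have h := supNorm_sub_le θ (θ - φ θ)
    rw [sub_sub_cancel] at h
    rw [Real.norm_eq_abs, Function.comp_apply, abs_of_nonneg (supNorm_nonneg _)]
    exact h
  have hν2 : Integrable (fun x : ℝ => x) (ν.map ψ) := by
    refine (integrable_map_measure (f := ψ) (g := fun x : ℝ => x)
      measurable_id.aestronglyMeasurable hψ.aemeasurable).2 ?_
    refine Integrable.mono' (hν.abs.add hν') hψ.aestronglyMeasurable
      (Filter.Eventually.of_forall fun x => ?_)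
    have h := abs_sub x (x - ψ x)
    rw [sub_sub_cancel] at h
    rw [Real.norm_eq_abs]
    exact h
  have s2 := summable_poisson_of_le hlam (abs_lpInt_le (μ.map φ) (ν.map ψ) hμ2 hν2 N)
  have e : pressure p α μ ν N - pressure p α (μ.map φ) (ν.map ψ) N =
      (1 / (N : ℝ)) * ∑' M : ℕ, poissonWeight (α * N) M *
        (lpInt p μ ν N M - lpInt p (μ.map φ) (ν.map ψ) N M) := by
    rw [pressure_eq, pressure_eq, ← mul_sub, ← s1.tsum_sub s2]
    congr 2
    funext M
    ring
  rw [e, abs_mul, abs_of_nonneg (by positivity : (0 : ℝ) ≤ 1 / (N : ℝ))]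
  calc _ ≤ 1 / (N : ℝ) * ((∫ θ, supNorm (θ - φ θ) ∂μ) * (α * N) + N * ∫ x, |x - ψ x| ∂ν) :=
        mul_le_mul_of_nonneg_left h1 (by positivity)
    _ = _ := by field_simp

end Integrals

/-! ### simple approximation -/

/-- the image law of a simple function is a finitely supported law with positive weights. -/
theorem map_simple_eq_finMeasure {E : Type} [MeasurableSpace E] [MeasurableSingletonClass E]
    (μ : Measure E) [IsProbabilityMeasure μ] (g : SimpleFunc E E) :
    ∃ (K : Type) (_ : Fintype K) (w : K → ℝ) (x : K → E), (∀ k, 0 < w k) ∧ ∑ k, w k = 1 ∧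
      μ.map g = finMeasure w x := by
  classical
  let S : Finset E := g.range.filter (fun y => 0 < (μ.map g).real {y})
  have hprob : IsProbabilityMeasure (μ.map g) :=
    Measure.isProbabilityMeasure_map g.measurable.aemeasurable
  have hzero : (μ.map g) (↑S : Set E)ᶜ = 0 := by
    have h1 : ((↑S : Set E)ᶜ) ⊆ (↑g.range : Set E)ᶜ ∪
        ⋃ y ∈ g.range.filter (fun y => ¬ 0 < (μ.map g).real {y}), {y} := by
      intro y hy
      by_cases hr : y ∈ g.range
      · right
        simp only [Set.mem_iUnion, Finset.mem_filter, Set.mem_singleton_iff, exists_prop]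
        refine ⟨y, ⟨hr, fun hpos => hy ?_⟩, rfl⟩
        exact Finset.mem_coe.2 (Finset.mem_filter.2 ⟨hr, hpos⟩)
      · left
        exact fun h => hr (Finset.mem_coe.1 h)
    refine measure_mono_null h1 (measure_union_null ?_ ?_)
    · rw [Measure.map_apply g.measurable (Finset.measurableSet _).compl]
      have : g ⁻¹' (↑g.range : Set E)ᶜ = ∅ := by
        ext z
        simp
      rw [this, measure_empty]
    · refine (measure_biUnion_null_iff (Finset.countable_toSet _)).2 fun y hy => ?_
      have h2 := (Finset.mem_filter.1 hy).2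
      have h3 : (μ.map g).real {y} = 0 := le_antisymm (not_lt.1 h2) measureReal_nonneg
      exact (measureReal_eq_zero_iff).1 h3
  have heq : μ.map g = finMeasure (fun k : S => (μ.map g).real {(k : E)}) (fun k : S => (k : E)) := by
    refine Measure.ext fun s hs => ?_
    unfold finMeasure
    rw [Measure.finsetSum_apply]
    have h1 : (μ.map g) s = (μ.map g) (s ∩ ↑S) := by
      refine le_antisymm ?_ (measure_mono Set.inter_subset_left)
      calc (μ.map g) s ≤ (μ.map g) ((s ∩ ↑S) ∪ (↑S : Set E)ᶜ) := by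
            refine measure_mono fun y hy => ?_
            by_cases h : y ∈ (↑S : Set E)
            · exact Or.inl ⟨hy, h⟩
            · exact Or.inr h
        _ ≤ (μ.map g) (s ∩ ↑S) + (μ.map g) (↑S : Set E)ᶜ := measure_union_le _ _
        _ = (μ.map g) (s ∩ ↑S) := by rw [hzero, add_zero]
    rw [h1]
    have h2 : s ∩ ↑S = ⋃ y ∈ S.filter (fun y => y ∈ s), {y} := by
      ext y
      simp only [Set.mem_inter_iff, Finset.mem_coe, Set.mem_iUnion, Finset.mem_filter,
        Set.mem_singleton_iff, exists_prop, exists_eq_right']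
      tauto
    rw [h2, measure_biUnion_finset (fun a _ b _ hab => by simpa using hab)
      (fun y _ => measurableSet_singleton y)]
    rw [Finset.sum_filter, ← Finset.sum_coe_sort S (fun y => if y ∈ s then (μ.map g) {y} else 0)]
    refine Finset.sum_congr rfl fun k _ => ?_
    rw [Measure.smul_apply, Measure.dirac_apply' _ hs, ofReal_measureReal (measure_ne_top _ _)]
    by_cases hk : (k : E) ∈ s
    · simp [hk]
    · simp [hk]
  refine ⟨S, inferInstance, fun k => (μ.map g).real {(k : E)}, fun k => (k : E),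
    fun k => (Finset.mem_filter.1 k.2).2, ?_, heq⟩
  have h1 : (finMeasure (fun k : S => (μ.map g).real {(k : E)}) (fun k : S => (k : E))) Set.univ
      = 1 := by rw [← heq]; exact measure_univ
  unfold finMeasure at h1
  rw [Measure.finsetSum_apply] at h1
  simp only [Measure.smul_apply, measure_univ, smul_eq_mul, mul_one] at h1
  rw [← ENNReal.ofReal_sum_of_nonneg (fun k _ => measureReal_nonneg)] at h1
  have := congrArg ENNReal.toReal h1
  rw [ENNReal.toReal_ofReal (Finset.sum_nonneg fun k _ => measureReal_nonneg),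
    ENNReal.toReal_one] at this
  exact this

theorem exists_simple_approx {E : Type} [NormedAddCommGroup E] [MeasurableSpace E] [BorelSpace E]
    [SecondCountableTopology E] (μ : Measure E) [IsProbabilityMeasure μ]
    (h : Integrable (fun x : E => ‖x‖) μ) {ε : ℝ} (hε : 0 < ε) :
    ∃ g : SimpleFunc E E, Integrable (fun x => ‖x - g x‖) μ ∧ ∫ x, ‖x - g x‖ ∂μ ≤ ε := by
  have hid : Integrable (id : E → E) μ :=
    (integrable_norm_iff (f := (id : E → E)) measurable_id.aestronglyMeasurable).1 h
  obtain ⟨g, hg, hg2⟩ := (memLp_one_iff_integrable.2 hid).exists_simpleFunc_eLpNorm_sub_lt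
    ENNReal.one_ne_top (ε := ENNReal.ofReal ε) (by simpa using hε)
  have hint : Integrable (fun x => x - g x) μ := hid.sub (memLp_one_iff_integrable.1 hg2)
  refine ⟨g, hint.norm, ?_⟩
  have e1 : eLpNorm ((id : E → E) - ⇑g) 1 μ = ENNReal.ofReal (∫ x, ‖x - g x‖ ∂μ) := by
    rw [eLpNorm_one_eq_lintegral_enorm, ofReal_integral_norm_eq_lintegral_enorm hint]
    rfl
  rw [e1] at hg
  exact ((ENNReal.ofReal_lt_ofReal_iff hε).1 hg).le

/-- **approximation of an interaction law** by finitely supported laws. -/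
theorem exists_finMeasure_approx_inter {p : ℕ} (μ : Measure (Inter p)) [IsProbabilityMeasure μ]
    (h : Integrable (fun θ => supNorm θ) μ) {ε : ℝ} (hε : 0 < ε) :
    ∃ φ : Inter p → Inter p, Measurable φ ∧ Integrable (fun θ => supNorm (θ - φ θ)) μ ∧
      ∫ θ, supNorm (θ - φ θ) ∂μ ≤ ε ∧
      ∃ (K : Type) (_ : Fintype K) (w : K → ℝ) (x : K → Inter p), (∀ k, 0 < w k) ∧
        ∑ k, w k = 1 ∧ μ.map φ = finMeasure w x := by
  have h' : Integrable (fun θ : Inter p => ‖θ‖) μ := by
    refine h.congr (Filter.Eventually.of_forall fun θ => supNorm_eq_norm θ)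
  obtain ⟨g, hg1, hg2⟩ := exists_simple_approx μ h' hε
  refine ⟨g, g.measurable, ?_, ?_, map_simple_eq_finMeasure μ g⟩
  · exact hg1.congr (Filter.Eventually.of_forall fun θ => (supNorm_eq_norm _).symm)
  · refine le_trans (le_of_eq ?_) hg2
    exact integral_congr_ae (Filter.Eventually.of_forall fun θ => supNorm_eq_norm _)

/-- **approximation of a field law** by finitely supported laws. -/
theorem exists_finMeasure_approx_real (ν : Measure ℝ) [IsProbabilityMeasure ν]
    (h : Integrable (fun x : ℝ => x) ν) {ε : ℝ} (hε : 0 < ε) :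
    ∃ ψ : ℝ → ℝ, Measurable ψ ∧ Integrable (fun x => |x - ψ x|) ν ∧
      ∫ x, |x - ψ x| ∂ν ≤ ε ∧
      ∃ (K : Type) (_ : Fintype K) (w : K → ℝ) (x : K → ℝ), (∀ k, 0 < w k) ∧
        ∑ k, w k = 1 ∧ ν.map ψ = finMeasure w x := by
  obtain ⟨g, hg1, hg2⟩ := exists_simple_approx ν h.norm hε
  exact ⟨g, g.measurable, hg1, hg2, map_simple_eq_finMeasure ν g⟩

end Crest.Agent.R141.Red
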