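import Crest.Agent.R141.Sys

/-!
Row 141, Part L, (F3) and the averaging step of (F4)/(A3) (helper585).

* `abs_Phi_sub_outer_le` : changing the outer randomness changes `Phi` by at most `τ * card Stp`.
* `abs_Phi_sub_le`, `abs_EPhi_sub_le` : (F3), Lipschitz in the Hamiltonian.
* `Ed_compare` : comparison of the averages over the outer randomness of sizes `N + 1` and `N`.
* `EPhi_compare` : from the fixed-`d` comparison to `EPhi`.
-/

set_option autoImplicit false

namespace Crest.Agent.R141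

open Finset

variable (p : Par)




/-- comparison of `Phi` from a uniform comparison of the log-weights. -/
theorem abs_Phi_sub_le_of_UU (N : ℕ) (H H' : (Fin N → Bool) → ℝ) (d d' : DD p N) {a : ℝ}
    (h : ∀ ω, |UU p N H d ω - UU p N H' d' ω| ≤ a) : |Phi p N H d - Phi p N H' d'| ≤ a := by
  unfold Phi
  have h1 : (N : ℝ) * Real.log 2 + eE (prior p N) (A (prior p N) (fil p N) p.xs (UU p N H d) 0) -
      ((N : ℝ) * Real.log 2 + eE (prior p N) (A (prior p N) (fil p N) p.xs (UU p N H' d') 0)) =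
      eE (prior p N) (fun ω => A (prior p N) (fil p N) p.xs (UU p N H d) 0 ω -
        A (prior p N) (fil p N) p.xs (UU p N H' d') 0 ω) := by
    rw [eE_sub]; ring
  rw [h1]
  refine (eE_abs_le (prior_isProb p N) _).trans ?_
  refine eE_le_of_le (prior_isProb p N) fun ω => ?_
  exact A_sub_abs_le (prior_isProb p N) p.xs_expo.pos h 0 ω


/-- (F3). -/
theorem abs_Phi_sub_le (N : ℕ) (H H' : (Fin N → Bool) → ℝ) (d : DD p N) {a : ℝ}
    (h : ∀ s, |H s - H' s| ≤ a) : |Phi p N H d - Phi p N H' d| ≤ a := by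
  refine abs_Phi_sub_le_of_UU p N H H' d d fun ω => ?_
  have h2 : UU p N H d ω - UU p N H' d ω = H ω.1 - H' ω.1 := by
    unfold UU; ring
  rw [h2]
  exact h ω.1

theorem Ed_sub (N : ℕ) (f g : DD p N → ℝ) :
    Ed p N (fun d => f d - g d) = Ed p N f - Ed p N g := by
  simp [Ed, mul_sub, sum_sub_distrib]

theorem abs_Ed_le {N : ℕ} (hN : 0 < N) {f : DD p N → ℝ} {c : ℝ} (h : ∀ d, |f d| ≤ c) :
    |Ed p N f| ≤ c := by
  unfold Ed
  refine (Finset.abs_sum_le_sum_abs _ _).trans ?_
  have h1 : ∑ d, dw p N d * c = c := by rw [← Finset.sum_mul, dw_sum p hN, one_mul]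
  refine (Finset.sum_le_sum fun d _ => ?_).trans h1.le
  rw [abs_mul, abs_of_nonneg (dw_nonneg p N d)]
  exact mul_le_mul_of_nonneg_left (h d) (dw_nonneg p N d)

/-- (F3) for the averaged free energy (assumption (A2) of the cavity step). -/
theorem abs_EPhi_sub_le {N : ℕ} (hN : 0 < N) (H H' : (Fin N → Bool) → ℝ) {a : ℝ}
    (h : ∀ s, |H s - H' s| ≤ a) : |EPhi p N H - EPhi p N H'| ≤ a := by
  unfold EPhi
  rw [← Ed_sub]
  exact abs_Ed_le p hN fun d => abs_Phi_sub_le p N H H' d h

/-! ### the embedding of the outer randomness -/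










end Crest.Agent.R141
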