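import Crest.Agent.R141.Pois
import Crest.Agent.R141.Red0
import Crest.Agent.R141.RedP
import Mathlib
import Crest.Agent.R141.Red4
import Crest.Agent.R141.Asm0
import Crest.Agent.R141.Bridge36b
import Crest.Agent.R141.Red3
import Crest.Agent.R141.Asm1
import Crest.Agent.R141.SysA3
import Crest.Agent.R141.F4c

-- ▼ part R141/Cavity0
section

/-!
# Row 141, section 4: the abstract cavity step, part 0 (helper552)

Hamiltonians, reduction of the last spin, combinatorics of the index tuples.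
-/

set_option autoImplicit false

open Crest.ProbabilityR.Diluted Crest.Agent.R141.Pois

namespace Crest.Agent.R141.Cav

/-- Hamiltonians on `N` spins. -/
abbrev Ham (N : ℕ) : Type := (Fin N → Bool) → ℝ

/-- `log Σ_s exp (H s)`. -/
noncomputable def logZ (N : ℕ) (H : Ham N) : ℝ := Real.log (∑ s, Real.exp (H s))

/-- Sum out the last spin. -/
noncomputable def red {N : ℕ} (H : Ham (N + 1)) : Ham N :=
  fun s => Real.log (∑ e : Bool, Real.exp (H (Fin.snoc s e)))

/-- The field Hamiltonian. -/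
noncomputable def fieldH {N : ℕ} (hs : Fin N → ℝ) : Ham N := fun s => ∑ i, hs i * spinVal (s i)

/-- The Hamiltonian of one edge. -/
def edgeH {p N : ℕ} (θ : Inter p) (I : Fin p → Fin N) : Ham N := fun s => θ (fun l => s (I l))

/-- The field on the last site. -/
noncomputable def siteF (N : ℕ) (x : ℝ) : Ham (N + 1) := fun s => x * spinVal (s (Fin.last N))

/-- Hamiltonians on `N` spins as Hamiltonians on `N+1` spins. -/
def lift (N : ℕ) : Ham N →+ Ham (N + 1) where
  toFun H := fun s => H (fun i => s i.castSucc)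
  map_zero' := rfl
  map_add' _ _ := rfl

theorem lift_apply {N : ℕ} (H : Ham N) (s : Fin (N + 1) → Bool) :
    lift N H s = H (fun i => s i.castSucc) := rfl

/-- The edge on `N+1` spins with the slots in `A` at the last site and the others at the sites
`I m < N`. -/
def cavA {p N : ℕ} (θ : Inter p) (A : Finset (Fin p)) (I : Fin p → Fin N) : Ham (N + 1) :=
  fun s => θ (fun m => if m ∈ A then s (Fin.last N) else s (I m).castSucc)

theorem norm_le_of_forall {N : ℕ} {H : Ham N} {a : ℝ} (ha : 0 ≤ a) (h : ∀ s, |H s| ≤ a) :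
    ‖H‖ ≤ a := by
  rw [pi_norm_le_iff_of_nonneg ha]
  intro s
  rw [Real.norm_eq_abs]
  exact h s

theorem abs_le_norm {N : ℕ} (H : Ham N) (s : Fin N → Bool) : |H s| ≤ ‖H‖ := by
  rw [← Real.norm_eq_abs]
  exact norm_le_pi_norm H s

theorem log_sum_exp_le {ι : Type} [Fintype ι] [Nonempty ι] {f g : ι → ℝ} {a : ℝ}
    (h : ∀ i, f i ≤ g i + a) :
    Real.log (∑ i, Real.exp (f i)) ≤ Real.log (∑ i, Real.exp (g i)) + a := by
  have h1 : 0 < ∑ i, Real.exp (f i) := Finset.sum_pos (fun i _ => Real.exp_pos _)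
    Finset.univ_nonempty
  have h2 : 0 < ∑ i, Real.exp (g i) := Finset.sum_pos (fun i _ => Real.exp_pos _)
    Finset.univ_nonempty
  have h3 : ∑ i, Real.exp (f i) ≤ (∑ i, Real.exp (g i)) * Real.exp a := by
    rw [Finset.sum_mul]
    refine Finset.sum_le_sum fun i _ => ?_
    rw [← Real.exp_add]
    exact Real.exp_le_exp.2 (h i)
  calc Real.log (∑ i, Real.exp (f i)) ≤ Real.log ((∑ i, Real.exp (g i)) * Real.exp a) :=
        Real.log_le_log h1 h3
    _ = Real.log (∑ i, Real.exp (g i)) + a := by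
        rw [Real.log_mul h2.ne' (Real.exp_pos a).ne', Real.log_exp]

theorem abs_log_sum_exp_sub_le {ι : Type} [Fintype ι] [Nonempty ι] {f g : ι → ℝ} {a : ℝ}
    (h : ∀ i, |f i - g i| ≤ a) :
    |Real.log (∑ i, Real.exp (f i)) - Real.log (∑ i, Real.exp (g i))| ≤ a := by
  rw [abs_le]
  constructor
  · have := log_sum_exp_le (f := g) (g := f) (a := a) fun i => by
      have := abs_le.1 (h i); linarith [this.1, this.2]
    linarith
  · have := log_sum_exp_le (f := f) (g := g) (a := a) fun i => by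
      have := abs_le.1 (h i); linarith [this.1, this.2]
    linarith

theorem logZ_lip (N : ℕ) : LipG 1 (logZ N) := by
  intro H H'
  rw [one_mul]
  exact abs_log_sum_exp_sub_le fun s => abs_le_norm (H - H') s

theorem norm_red_sub_le {N : ℕ} (H H' : Ham (N + 1)) : ‖red H - red H'‖ ≤ ‖H - H'‖ := by
  refine norm_le_of_forall (norm_nonneg _) fun s => ?_
  exact abs_log_sum_exp_sub_le fun e => abs_le_norm (H - H') _

/-- The Lipschitz hypothesis in pointwise form. -/
def PLip {N : ℕ} (Ψ : Ham N → ℝ) : Prop :=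
  ∀ H H' : Ham N, ∀ a : ℝ, (∀ s, |H s - H' s| ≤ a) → |Ψ H - Ψ H'| ≤ a

theorem PLip.lipG {N : ℕ} {Ψ : Ham N → ℝ} (h : PLip Ψ) : LipG 1 Ψ := by
  intro H H'
  rw [one_mul]
  exact h H H' _ fun s => abs_le_norm (H - H') s

theorem lip_comp_red {N : ℕ} {Ψ : Ham N → ℝ} (h : LipG 1 Ψ) :
    LipG 1 (fun H : Ham (N + 1) => Ψ (red H)) := by
  intro H H'
  refine (h _ _).trans ?_
  rw [one_mul, one_mul]
  exact norm_red_sub_le H H'

theorem norm_lift_sub {N : ℕ} (H H' : Ham N) : ‖lift N H - lift N H'‖ ≤ ‖H - H'‖ := by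
  refine norm_le_of_forall (norm_nonneg _) fun s => ?_
  exact abs_le_norm (H - H') _

/-! ### Index tuples -/

theorem sum_tuple_prod {p N : ℕ} (hN : 0 < N) (g : Fin p → Fin (N + 1) → ℝ) :
    ∑ I : Fin p → Fin (N + 1), ∏ l, g l (I l) =
      ∑ A : Finset (Fin p), ((N : ℝ)⁻¹) ^ A.card *
        ∑ I : Fin p → Fin N, ∏ l, g l (if l ∈ A then Fin.last N else (I l).castSucc) := by
  have hN' : (N : ℝ) ≠ 0 := by positivity
  have h1 : ∑ I : Fin p → Fin (N + 1), ∏ l, g l (I l) = ∏ l, ∑ i, g l i := by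
    rw [Finset.prod_univ_sum]
    simp [Fintype.piFinset_univ]
  have h2 : ∀ A : Finset (Fin p), ∑ I : Fin p → Fin N,
      ∏ l, g l (if l ∈ A then Fin.last N else (I l).castSucc) =
      ∏ l, ∑ i : Fin N, g l (if l ∈ A then Fin.last N else i.castSucc) := by
    intro A
    rw [Finset.prod_univ_sum]
    simp [Fintype.piFinset_univ]
  rw [h1]
  simp only [h2]
  have h3 : ∀ l, ∑ i : Fin (N + 1), g l i = g l (Fin.last N) + ∑ i : Fin N, g l i.castSucc := by
    intro l
    rw [Fin.sum_univ_castSucc, add_comm]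
  simp only [h3]
  rw [Finset.prod_add, ← Finset.powerset_univ]
  refine Finset.sum_congr rfl fun A _ => ?_
  have h4 : ∏ l, ∑ i : Fin N, g l (if l ∈ A then Fin.last N else i.castSucc) =
      (∏ l ∈ A, ∑ i : Fin N, g l (if l ∈ A then Fin.last N else i.castSucc)) *
      ∏ l ∈ Finset.univ \ A, ∑ i : Fin N, g l (if l ∈ A then Fin.last N else i.castSucc) := by
    rw [mul_comm, Finset.prod_sdiff (Finset.subset_univ A)]
  rw [h4]
  have h5 : ∏ l ∈ A, ∑ i : Fin N, g l (if l ∈ A then Fin.last N else i.castSucc) =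
      (N : ℝ) ^ A.card * ∏ l ∈ A, g l (Fin.last N) := by
    rw [← Finset.prod_const, ← Finset.prod_mul_distrib]
    refine Finset.prod_congr rfl fun l hl => ?_
    simp [hl]
  have h6 : ∏ l ∈ Finset.univ \ A, ∑ i : Fin N, g l (if l ∈ A then Fin.last N else i.castSucc) =
      ∏ l ∈ Finset.univ \ A, ∑ i : Fin N, g l i.castSucc := by
    refine Finset.prod_congr rfl fun l hl => ?_
    have : l ∉ A := (Finset.mem_sdiff.1 hl).2
    simp [this]
  rw [h5, h6, ← mul_assoc, ← mul_assoc, ← mul_pow, inv_mul_cancel₀ hN', one_pow, one_mul]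

/-- Sum over tuples in `[N+1]^p` in redundant coordinates. -/
theorem sum_tuple {p N : ℕ} (hN : 0 < N) (f : (Fin p → Fin (N + 1)) → ℝ) :
    ∑ I : Fin p → Fin (N + 1), f I =
      ∑ A : Finset (Fin p), ((N : ℝ)⁻¹) ^ A.card *
        ∑ I : Fin p → Fin N, f (fun l => if l ∈ A then Fin.last N else (I l).castSucc) := by
  have key : ∀ I : Fin p → Fin (N + 1), f I =
      ∑ J : Fin p → Fin (N + 1), f J * ∏ l, (if I l = J l then (1 : ℝ) else 0) := by
    intro I
    rw [Finset.sum_eq_single I]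
    · simp
    · intro J _ hJ
      have : ∃ l, ¬ (I l = J l) := by
        by_contra hcon
        push Not at hcon
        exact hJ (funext fun l => (hcon l).symm)
      obtain ⟨l, hl⟩ := this
      rw [Finset.prod_eq_zero (Finset.mem_univ l) (by simp [hl]), mul_zero]
    · intro h
      exact absurd (Finset.mem_univ I) h
  calc ∑ I : Fin p → Fin (N + 1), f I
      = ∑ I : Fin p → Fin (N + 1), ∑ J : Fin p → Fin (N + 1),
          f J * ∏ l, (if I l = J l then (1 : ℝ) else 0) :=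
        Finset.sum_congr rfl fun I _ => key I
    _ = ∑ J : Fin p → Fin (N + 1), f J * ∑ I : Fin p → Fin (N + 1),
          ∏ l, (if I l = J l then (1 : ℝ) else 0) := by
        rw [Finset.sum_comm]
        simp only [Finset.mul_sum]
    _ = ∑ J : Fin p → Fin (N + 1), f J * ∑ A : Finset (Fin p), ((N : ℝ)⁻¹) ^ A.card *
          ∑ I : Fin p → Fin N,
            ∏ l, (if (if l ∈ A then Fin.last N else (I l).castSucc) = J l then (1 : ℝ) else 0) := by
        refine Finset.sum_congr rfl fun J _ => ?_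
        rw [sum_tuple_prod hN fun l i => if i = J l then (1 : ℝ) else 0]
    _ = ∑ A : Finset (Fin p), ((N : ℝ)⁻¹) ^ A.card * ∑ I : Fin p → Fin N,
          ∑ J : Fin p → Fin (N + 1), f J *
            ∏ l, (if (if l ∈ A then Fin.last N else (I l).castSucc) = J l
              then (1 : ℝ) else 0) := by
        simp only [Finset.mul_sum]
        rw [Finset.sum_comm]
        refine Finset.sum_congr rfl fun A _ => ?_
        rw [Finset.sum_comm]
        refine Finset.sum_congr rfl fun I _ => Finset.sum_congr rfl fun J _ => ?_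
        ring
    _ = _ := by
        refine Finset.sum_congr rfl fun A _ => ?_
        congr 1
        refine Finset.sum_congr rfl fun I _ => ?_
        exact (key fun l => if l ∈ A then Fin.last N else (I l).castSucc).symm

end Crest.Agent.R141.Cav
end

-- ▼ part R141/Cavity1
section

/-!
# Row 141, section 4: the abstract cavity step, part 1 (helper552)

Edge operators, their splitting, and the one-step inequality.
-/

set_option autoImplicit false

open Crest.ProbabilityR.Diluted Crest.Agent.R141.Pois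

namespace Crest.Agent.R141.Cav

variable {p : ℕ} {K K' : Type} [Fintype K] [Fintype K']

/-- weights of the edges on `N` spins -/
noncomputable def ve (p N : ℕ) (w : K → ℝ) : K × (Fin p → Fin N) → ℝ :=
  fun q => w q.1 * ((N : ℝ)⁻¹) ^ p

/-- The operator "add one random edge" on `N` spins. -/
noncomputable def KE (N : ℕ) (w : K → ℝ) (θ : K → Inter p) : Module.End ℝ (Ham N → ℝ) :=
  Kop (ve p N w) (fun q => edgeH (θ q.1) q.2)

/-- The operator "add one random edge with exactly the slots of `A` at the last site". -/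
noncomputable def KA (N : ℕ) (w : K → ℝ) (θ : K → Inter p) (A : Finset (Fin p)) :
    Module.End ℝ (Ham (N + 1) → ℝ) :=
  Kop (ve p N w) (fun q => cavA (θ q.1) A q.2)

/-- The operator "add one random edge with one uniformly chosen slot at the last site". -/
noncomputable def KO (N : ℕ) (w : K → ℝ) (θ : K → Inter p) :
    Module.End ℝ (Ham (N + 1) → ℝ) :=
  Kop (fun q : K × Fin p × (Fin p → Fin N) => w q.1 * (p : ℝ)⁻¹ * ((N : ℝ)⁻¹) ^ p)
    (fun q => cavA (θ q.1) {q.2.1} q.2.2)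

/-- The coefficient of the slot set of cardinality `j`. -/
noncomputable def cA (p N j : ℕ) : ℝ := (N : ℝ) ^ p * ((N : ℝ)⁻¹) ^ j * ((N + 1 : ℝ)⁻¹) ^ p

theorem KE_succ {N : ℕ} (hN : 0 < N) (w : K → ℝ) (θ : K → Inter p) :
    KE (N + 1) w θ = ∑ A : Finset (Fin p), cA p N A.card • KA N w θ A := by
  have hN' : (N : ℝ) ≠ 0 := by positivity
  refine LinearMap.ext fun G => ?_
  funext e
  rw [LinearMap.sum_apply, Finset.sum_apply]
  simp only [LinearMap.smul_apply, Pi.smul_apply, smul_eq_mul, KE, KA, Kop_apply, ve]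
  rw [Fintype.sum_prod_type]
  simp only [Fintype.sum_prod_type]
  have h1 : ∀ k : K, ∑ I : Fin p → Fin (N + 1), w k * (((N + 1 : ℕ) : ℝ)⁻¹) ^ p *
      G (e + edgeH (θ k) I) = ∑ A : Finset (Fin p), cA p N A.card *
        ∑ I : Fin p → Fin N, w k * ((N : ℝ)⁻¹) ^ p * G (e + cavA (θ k) A I) := by
    intro k
    rw [← Finset.mul_sum, sum_tuple hN, Finset.mul_sum]
    refine Finset.sum_congr rfl fun A _ => ?_
    rw [← Finset.mul_sum]
    have h2 : ∀ I : Fin p → Fin N,
        edgeH (θ k) (fun l => if l ∈ A then Fin.last N else (I l).castSucc) =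
          cavA (θ k) A I := by
      intro I
      funext s
      simp only [edgeH, cavA, apply_ite s]
    simp only [h2, cA]
    have h3 : (N : ℝ) ^ p * ((N : ℝ)⁻¹) ^ p = 1 := by
      rw [← mul_pow, mul_inv_cancel₀ hN', one_pow]
    push_cast
    calc w k * ((N + 1 : ℝ)⁻¹) ^ p * (((N : ℝ)⁻¹) ^ A.card *
          ∑ I : Fin p → Fin N, G (e + cavA (θ k) A I))
        = ((N : ℝ) ^ p * ((N : ℝ)⁻¹) ^ p) * (w k * ((N + 1 : ℝ)⁻¹) ^ p * (((N : ℝ)⁻¹) ^ A.card *
          ∑ I : Fin p → Fin N, G (e + cavA (θ k) A I))) := by rw [h3, one_mul]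
      _ = _ := by ring
  rw [Finset.sum_congr rfl fun k _ => h1 k, Finset.sum_comm]
  exact Finset.sum_congr rfl fun A _ => by rw [Finset.mul_sum]

theorem KO_eq {N : ℕ} (hp : 0 < p) (w : K → ℝ) (θ : K → Inter p) :
    (p : ℝ) • KO N w θ = ∑ l : Fin p, KA N w θ {l} := by
  have hp' : (p : ℝ) ≠ 0 := by positivity
  refine LinearMap.ext fun G => ?_
  funext e
  rw [LinearMap.sum_apply, Finset.sum_apply]
  simp only [LinearMap.smul_apply, Pi.smul_apply, smul_eq_mul, KO, KA, Kop_apply, ve]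
  simp only [Fintype.sum_prod_type]
  rw [Finset.mul_sum]
  rw [Finset.sum_comm]
  refine Finset.sum_congr rfl fun k _ => ?_
  rw [Finset.mul_sum]
  refine Finset.sum_congr rfl fun l _ => ?_
  rw [Finset.mul_sum]
  refine Finset.sum_congr rfl fun I _ => ?_
  field_simp

theorem sum_ve {N : ℕ} (hN : 0 < N) {w : K → ℝ} (hw1 : ∑ k, w k = 1) :
    ∑ q : K × (Fin p → Fin N), ve p N w q = 1 := by
  have hN' : (N : ℝ) ≠ 0 := by positivity
  rw [Fintype.sum_prod_type]
  simp only [ve, Finset.sum_const, Finset.card_univ, Fintype.card_fun, Fintype.card_fin,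
    nsmul_eq_mul]
  push_cast
  have : ∀ k, (N : ℝ) ^ p * (w k * ((N : ℝ)⁻¹) ^ p) = w k := by
    intro k
    rw [mul_left_comm, ← mul_pow, mul_inv_cancel₀ hN', one_pow, mul_one]
  simp only [this, hw1]

theorem ve_nonneg {N : ℕ} {w : K → ℝ} (hw : ∀ k, 0 ≤ w k) (q : K × (Fin p → Fin N)) :
    0 ≤ ve p N w q := mul_nonneg (hw _) (by positivity)

theorem sum_mul_norm_le {ι : Type} [Fintype ι] {E : Type} [SeminormedAddCommGroup E]
    {v : ι → ℝ} {x : ι → E} (hv : ∀ i, 0 ≤ v i) (hv1 : ∑ i, v i = 1) {B : ℝ}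
    (hx : ∀ i, ‖x i‖ ≤ B) : ∑ i, v i * ‖x i‖ ≤ B := by
  calc ∑ i, v i * ‖x i‖ ≤ ∑ i, v i * B :=
        Finset.sum_le_sum fun i _ => mul_le_mul_of_nonneg_left (hx i) (hv i)
    _ = B := by rw [← Finset.sum_mul, hv1, one_mul]

variable {w : K → ℝ} {θ : K → Inter p} {B : ℝ}

theorem isShift_KE {N : ℕ} (hN : 0 < N) (hw : ∀ k, 0 ≤ w k) (hw1 : ∑ k, w k = 1)
    (hB0 : 0 ≤ B) (hθ : ∀ k s, |θ k s| ≤ B) : IsShift 1 B (KE N w θ) :=
  isShift_Kop (ve_nonneg hw) (sum_ve hN hw1) (sum_mul_norm_le (ve_nonneg hw) (sum_ve hN hw1)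
    fun _ => norm_le_of_forall hB0 fun _ => hθ _ _)

theorem isShift_KA {N : ℕ} (hN : 0 < N) (hw : ∀ k, 0 ≤ w k) (hw1 : ∑ k, w k = 1)
    (hB0 : 0 ≤ B) (hθ : ∀ k s, |θ k s| ≤ B) (A : Finset (Fin p)) :
    IsShift 1 B (KA N w θ A) :=
  isShift_Kop (ve_nonneg hw) (sum_ve hN hw1) (sum_mul_norm_le (ve_nonneg hw) (sum_ve hN hw1)
    fun _ => norm_le_of_forall hB0 fun _ => hθ _ _)

theorem isShift_KO {N : ℕ} (hp : 0 < p) (hN : 0 < N) (hw : ∀ k, 0 ≤ w k) (hw1 : ∑ k, w k = 1)
    (hB0 : 0 ≤ B) (hθ : ∀ k s, |θ k s| ≤ B) : IsShift 1 B (KO N w θ) := by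
  have hp' : (p : ℝ) ≠ 0 := by positivity
  have h1 : IsShift (∑ _l : Fin p, (1 : ℝ)) (∑ _l : Fin p, B) (∑ l : Fin p, KA N w θ {l}) :=
    IsShift.sum Finset.univ fun l _ => isShift_KA hN hw hw1 hB0 hθ {l}
  rw [← KO_eq hp] at h1
  have h2 := h1.smul (c := (p : ℝ)⁻¹) (by positivity)
  rw [smul_smul, inv_mul_cancel₀ hp', one_smul] at h2
  have e1 : (p : ℝ)⁻¹ * ∑ _l : Fin p, (1 : ℝ) = 1 := by
    simp [inv_mul_cancel₀ hp']
  have e2 : (p : ℝ)⁻¹ * ∑ _l : Fin p, B = B := by
    simp only [Finset.sum_const, Finset.card_univ, Fintype.card_fin, nsmul_eq_mul]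
    rw [← mul_assoc, inv_mul_cancel₀ hp', one_mul]
  rwa [e1, e2] at h2

theorem IsShift.mass_unique {E : Type} [SeminormedAddCommGroup E] {m B m' B' : ℝ}
    {K : Module.End ℝ (E → ℝ)} (h : IsShift m B K) (h' : IsShift m' B' K) : m = m' := by
  have h1 := h.const 1 0
  have h2 := h'.const 1 0
  rw [h1] at h2
  simpa using h2

/-- The ratio `(N/(N+1))^(p-1)`. -/
noncomputable def rho (p N : ℕ) : ℝ := ((N : ℝ) * (N + 1 : ℝ)⁻¹) ^ (p - 1)

theorem rho_nonneg (p N : ℕ) : 0 ≤ rho p N := by unfold rho; positivity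

theorem q_le_one (N : ℕ) : (N : ℝ) * (N + 1 : ℝ)⁻¹ ≤ 1 := by
  rw [mul_inv_le_iff₀ (by positivity)]
  linarith

theorem rho_le_one (p N : ℕ) : rho p N ≤ 1 :=
  pow_le_one₀ (by positivity) (q_le_one N)

theorem cA_zero (hp : 0 < p) (N : ℕ) : (N + 1 : ℝ) * cA p N 0 = N * rho p N := by
  obtain ⟨n, rfl⟩ : ∃ n, p = n + 1 := ⟨p - 1, by omega⟩
  have h : (N + 1 : ℝ) ≠ 0 := by positivity
  simp only [cA, rho, pow_zero, mul_one, Nat.add_sub_cancel, mul_pow, pow_succ]
  field_simp

theorem cA_one (hp : 0 < p) {N : ℕ} (hN : 0 < N) : (N + 1 : ℝ) * cA p N 1 = rho p N := by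
  obtain ⟨n, rfl⟩ : ∃ n, p = n + 1 := ⟨p - 1, by omega⟩
  have h : (N + 1 : ℝ) ≠ 0 := by positivity
  have hN' : (N : ℝ) ≠ 0 := by positivity
  simp only [cA, rho, Nat.add_sub_cancel, mul_pow, pow_succ]
  field_simp

theorem cA_nonneg (p N j : ℕ) : 0 ≤ cA p N j := by unfold cA; positivity

theorem cA_le {N : ℕ} (hN : 0 < N) {j : ℕ} (hj : 2 ≤ j) (hjp : j ≤ p) :
    (N + 1 : ℝ) * cA p N j ≤ (N + 1 : ℝ)⁻¹ := by
  obtain ⟨n, rfl⟩ : ∃ n, p = n + j := ⟨p - j, by omega⟩
  have h : (N + 1 : ℝ) ≠ 0 := by positivity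
  have hN' : (N : ℝ) ≠ 0 := by positivity
  have h1 : cA (n + j) N j = ((N : ℝ) * (N + 1 : ℝ)⁻¹) ^ n * ((N + 1 : ℝ)⁻¹) ^ j := by
    have : (N : ℝ) ^ j * ((N : ℝ)⁻¹) ^ j = 1 := by
      rw [← mul_pow, mul_inv_cancel₀ hN', one_pow]
    rw [cA, pow_add, mul_assoc ((N : ℝ) ^ n), this, mul_one, mul_pow, pow_add]
    ring
  have h2 : ((N : ℝ) * (N + 1 : ℝ)⁻¹) ^ n ≤ 1 := pow_le_one₀ (by positivity) (q_le_one N)
  have h3 : ((N + 1 : ℝ)⁻¹) ^ j ≤ ((N + 1 : ℝ)⁻¹) ^ 2 := by
    refine pow_le_pow_of_le_one (by positivity) ?_ hj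
    rw [inv_le_one_iff₀]; right; linarith [Nat.cast_nonneg (α := ℝ) N]
  calc (N + 1 : ℝ) * cA (n + j) N j ≤ (N + 1 : ℝ) * (1 * ((N + 1 : ℝ)⁻¹) ^ 2) := by
        rw [h1]; gcongr
    _ = (N + 1 : ℝ)⁻¹ := by field_simp

/-- The rest operator: edges with at least two slots at the last site. -/
noncomputable def KR (α : ℝ) (N : ℕ) (w : K → ℝ) (θ : K → Inter p) :
    Module.End ℝ (Ham (N + 1) → ℝ) :=
  ∑ A ∈ Finset.univ.filter (fun A : Finset (Fin p) => 2 ≤ A.card),
    (α * (N + 1) * cA p N A.card) • KA N w θ A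

theorem KE_split {α : ℝ} (hp : 0 < p) {N : ℕ} (hN : 0 < N) :
    (α * (N + 1)) • KE (N + 1) w θ =
      KR α N w θ + ((α * N * rho p N) • KA N w θ ∅ + (α * p * rho p N) • KO N w θ) := by
  have h1 : (α * (N + 1)) • KE (N + 1) w θ =
      ∑ A : Finset (Fin p), (α * (N + 1) * cA p N A.card) • KA N w θ A := by
    rw [KE_succ hN, Finset.smul_sum]
    simp only [smul_smul]
  rw [h1, ← Finset.sum_filter_add_sum_filter_not Finset.univ
    (fun A : Finset (Fin p) => 2 ≤ A.card)]
  congr 1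
  rw [← Finset.sum_filter_add_sum_filter_not
    (Finset.univ.filter (fun A : Finset (Fin p) => ¬ 2 ≤ A.card)) (fun A => A.card = 0)]
  congr 1
  · have : (Finset.univ.filter (fun A : Finset (Fin p) => ¬ 2 ≤ A.card)).filter
        (fun A => A.card = 0) = {∅} := by
      ext A
      simp only [Finset.mem_filter, Finset.mem_univ, true_and, Finset.mem_singleton,
        Finset.card_eq_zero]
      constructor
      · exact fun h => h.2
      · rintro rfl
        simp
    rw [this, Finset.sum_singleton, Finset.card_empty, mul_assoc α, cA_zero hp, mul_assoc]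
  · have : ∀ A ∈ (Finset.univ.filter (fun A : Finset (Fin p) => ¬ 2 ≤ A.card)).filter
        (fun A => ¬ A.card = 0), A.card = 1 := by
      intro A hA
      simp only [Finset.mem_filter, Finset.mem_univ, true_and] at hA
      omega
    have h2 : ∑ A ∈ (Finset.univ.filter (fun A : Finset (Fin p) => ¬ 2 ≤ A.card)).filter
        (fun A => ¬ A.card = 0), (α * (N + 1) * cA p N A.card) • KA N w θ A =
        ∑ l : Fin p, (α * rho p N) • KA N w θ {l} := by
      symm
      refine Finset.sum_bij (fun l _ => ({l} : Finset (Fin p))) ?_ ?_ ?_ ?_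
      · intro l _
        simp
      · intro l _ l' _ h
        exact Finset.singleton_injective h
      · intro A hA
        obtain ⟨l, hl⟩ := Finset.card_eq_one.1 (this A hA)
        exact ⟨l, Finset.mem_univ l, hl.symm⟩
      · intro l _
        rw [Finset.card_singleton, mul_assoc α, cA_one hp hN]
    rw [h2, ← Finset.smul_sum, ← KO_eq hp, smul_smul]
    congr 1
    ring

theorem isShift_KR {α : ℝ} (hα : 0 ≤ α) {N : ℕ} (hN : 0 < N) (hw : ∀ k, 0 ≤ w k)
    (hw1 : ∑ k, w k = 1) (hB0 : 0 ≤ B) (hθ : ∀ k s, |θ k s| ≤ B) :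
    ∃ m, IsShift m (2 ^ p * α * (N + 1 : ℝ)⁻¹ * B) (KR α N w θ) := by
  have h1 := IsShift.sum (Finset.univ.filter (fun A : Finset (Fin p) => 2 ≤ A.card))
    (m := fun A => α * (N + 1) * cA p N A.card * 1)
    (B := fun A => α * (N + 1) * cA p N A.card * B)
    (K := fun A => (α * (N + 1) * cA p N A.card) • KA N w θ A)
    (fun A _ => (isShift_KA hN hw hw1 hB0 hθ A).smul
      (mul_nonneg (by positivity) (cA_nonneg _ _ _)))
  refine ⟨_, h1.mono_B ?_⟩
  calc ∑ A ∈ Finset.univ.filter (fun A : Finset (Fin p) => 2 ≤ A.card),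
        α * (N + 1) * cA p N A.card * B
      ≤ ∑ A ∈ Finset.univ.filter (fun A : Finset (Fin p) => 2 ≤ A.card),
        α * (N + 1 : ℝ)⁻¹ * B := by
        refine Finset.sum_le_sum fun A hA => ?_
        rw [mul_assoc α]
        refine mul_le_mul_of_nonneg_right (mul_le_mul_of_nonneg_left ?_ hα) hB0
        refine cA_le hN (Finset.mem_filter.1 hA).2 ?_
        simpa using Finset.card_le_univ A
    _ ≤ ∑ A : Finset (Fin p), α * (N + 1 : ℝ)⁻¹ * B :=
        Finset.sum_le_sum_of_subset_of_nonneg (Finset.filter_subset _ _)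
          fun _ _ _ => by positivity
    _ = 2 ^ p * α * (N + 1 : ℝ)⁻¹ * B := by
        rw [Finset.sum_const, Finset.card_univ, Fintype.card_finset, Fintype.card_fin,
          nsmul_eq_mul]
        push_cast
        ring

end Crest.Agent.R141.Cav
end

-- ▼ part R141/Cavity2
section

/-!
# Row 141, section 4: the abstract cavity step, part 2 (helper552)

The one-step inequality `LL (N+1) - LL N ≥ inf g_N - errors`.
-/

set_option autoImplicit false
set_option linter.unusedSectionVars false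

open Crest.ProbabilityR.Diluted Crest.Agent.R141.Pois

namespace Crest.Agent.R141.Cav

section general
variable {E : Type} [SeminormedAddCommGroup E]

theorem LipG.sum {ι : Type} (s : Finset ι) {L : ℝ} {v : ι → ℝ} (hv : ∀ i, 0 ≤ v i)
    {G : ι → E → ℝ} (hG : ∀ i, LipG L (G i)) :
    LipG (∑ i ∈ s, v i * L) (fun e => ∑ i ∈ s, v i * G i e) := by
  intro a b
  rw [← Finset.sum_sub_distrib, Finset.sum_mul]
  refine (Finset.abs_sum_le_sum_abs _ _).trans (Finset.sum_le_sum fun i _ => ?_)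
  rw [← mul_sub, abs_mul, abs_of_nonneg (hv i), mul_assoc]
  exact mul_le_mul_of_nonneg_left (hG i a b) (hv i)

theorem LipG.wsum {ι : Type} [Fintype ι] {L : ℝ} {v : ι → ℝ} (hv : ∀ i, 0 ≤ v i)
    (hv1 : ∑ i, v i = 1) {G : ι → E → ℝ} (hG : ∀ i, LipG L (G i)) :
    LipG L (fun e => ∑ i, v i * G i e) := by
  have := LipG.sum Finset.univ hv hG
  rwa [← Finset.sum_mul, hv1, one_mul] at this

theorem LipG.smul {L : ℝ} {G : E → ℝ} (hG : LipG L G) {c : ℝ} (hc : 0 ≤ c) :
    LipG (c * L) (fun e => c * G e) := by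
  intro a b
  rw [← mul_sub, abs_mul, abs_of_nonneg hc, mul_assoc]
  exact mul_le_mul_of_nonneg_left (hG a b) hc

theorem Top_sum {ι : Type} (s : Finset ι) {m B : ℝ} {K : Module.End ℝ (E → ℝ)}
    (h : IsShift m B K) {L : ℝ} (hL : 0 ≤ L) {v : ι → ℝ} (hv : ∀ i, 0 ≤ v i)
    {G : ι → E → ℝ} (hG : ∀ i, LipG L (G i)) (e : E) :
    Top m K (fun e => ∑ i ∈ s, v i * G i e) e = ∑ i ∈ s, v i * Top m K (G i) e := by
  classical
  induction s using Finset.induction_on with
  | empty =>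
    simp only [Finset.sum_empty]
    exact Top_const h 0 e
  | insert a s ha ih =>
    simp only [Finset.sum_insert ha]
    rw [← ih, ← Top_smul]
    exact Top_add h (mul_nonneg (hv a) hL) (LipG.smul (hG a) (hv a))
      (Finset.sum_nonneg fun i _ => mul_nonneg (hv i) hL) (LipG.sum s hv hG) e

theorem Top_add_const {m B : ℝ} {K : Module.End ℝ (E → ℝ)}
    (h : IsShift m B K) {L : ℝ} (hL : 0 ≤ L) {G : E → ℝ} (hG : LipG L G) (c : ℝ) (e : E) :
    Top m K (fun e => G e + c) e = Top m K G e + c := by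
  have := Top_add h hL hG le_rfl (LipG.const c) e
  rw [Top_const h c e] at this
  exact this

/-- monotonicity with an additive error -/
theorem Top_le_add {m B : ℝ} {K : Module.End ℝ (E → ℝ)}
    (h : IsShift m B K) {L : ℝ} (hL : 0 ≤ L) {G : E → ℝ} (hG : LipG L G) {L' : ℝ} (hL' : 0 ≤ L')
    {G' : E → ℝ} (hG' : LipG L' G') (c : ℝ) (hle : ∀ e, G e ≤ G' e + c) (e : E) :
    Top m K G e ≤ Top m K G' e + c := by
  rw [← Top_add_const h hL' hG' c e]
  exact Top_mono h hL hG hL' (hG'.add_const c) hle e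

end general

variable {p : ℕ} {K K' : Type} [Fintype K] [Fintype K']

/-- Average over the fields of the compound Poisson average of `Ψ`. -/
noncomputable def LL (α : ℝ) (N : ℕ) (w : K → ℝ) (θ : K → Inter p) (w' : K' → ℝ) (h : K' → ℝ)
    (Ψ : Ham N → ℝ) : ℝ :=
  ∑ is : Fin N → K', (∏ i, w' (is i)) *
    Top (α * N) ((α * N) • KE N w θ) Ψ (fieldH fun i => h (is i))

/-- site part of the cavity functional -/
noncomputable def siteG (α : ℝ) (N : ℕ) (w : K → ℝ) (θ : K → Inter p) (w' : K' → ℝ) (h : K' → ℝ)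
    (Ψ : Ham N → ℝ) (H : Ham N) : ℝ :=
  ∑ k, w' k * Top (α * p) ((α * p) • KO N w θ) (fun H' => Ψ (red H'))
    (lift N H + siteF N (h k))

/-- edge part of the cavity functional -/
noncomputable def edgeG (α : ℝ) (N : ℕ) (w : K → ℝ) (θ : K → Inter p)
    (Ψ : Ham N → ℝ) (H : Ham N) : ℝ :=
  Top (α * (p - 1)) ((α * (p - 1)) • KE N w θ) Ψ H

/-- the error of the one-step inequality -/
noncomputable def errN (p : ℕ) (α B : ℝ) (N : ℕ) : ℝ :=
  2 ^ p * α * (N + 1 : ℝ)⁻¹ * B + (α * p - α * p * rho p N) * B +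
    (α * (p - 1) - (α * N - α * N * rho p N)) * B

theorem geom_rho (p N : ℕ) :
    (N : ℝ) - N * rho p N = ∑ i ∈ Finset.range (p - 1), ((N : ℝ) * (N + 1 : ℝ)⁻¹) ^ (i + 1) := by
  set q : ℝ := (N : ℝ) * (N + 1 : ℝ)⁻¹ with hq
  have h : (N + 1 : ℝ) ≠ 0 := by positivity
  have h1 : (N : ℝ) * (1 - q) = q := by
    rw [hq]; field_simp; ring
  have h2 : (∑ i ∈ Finset.range (p - 1), q ^ i) * (1 - q) = 1 - q ^ (p - 1) := by
    have := geom_sum_mul_neg q (p - 1)
    exact this
  calc (N : ℝ) - N * rho p N = N * (1 - q ^ (p - 1)) := by rw [rho]; ring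
    _ = (N * (1 - q)) * ∑ i ∈ Finset.range (p - 1), q ^ i := by rw [← h2]; ring
    _ = ∑ i ∈ Finset.range (p - 1), q ^ (i + 1) := by
        rw [h1, Finset.mul_sum]
        exact Finset.sum_congr rfl fun i _ => by rw [pow_succ]; ring

theorem sub_rho_nonneg (p N : ℕ) : 0 ≤ (N : ℝ) - N * rho p N := by
  rw [geom_rho]
  exact Finset.sum_nonneg fun i _ => by positivity

theorem sub_rho_le {p : ℕ} (hp : 0 < p) (N : ℕ) : (N : ℝ) - N * rho p N ≤ p - 1 := by
  rw [geom_rho]
  calc ∑ i ∈ Finset.range (p - 1), ((N : ℝ) * (N + 1 : ℝ)⁻¹) ^ (i + 1)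
      ≤ ∑ i ∈ Finset.range (p - 1), (1 : ℝ) :=
        Finset.sum_le_sum fun i _ => pow_le_one₀ (by positivity) (q_le_one N)
    _ = p - 1 := by
        rw [Finset.sum_const, Finset.card_range, nsmul_eq_mul, mul_one, Nat.cast_sub hp]
        simp

theorem tendsto_q : Filter.Tendsto (fun N : ℕ => (N : ℝ) * (N + 1 : ℝ)⁻¹) Filter.atTop
    (nhds 1) := by
  have := tendsto_natCast_div_add_atTop (1 : ℝ)
  simpa [div_eq_mul_inv] using this

theorem tendsto_errN {p : ℕ} (hp : 0 < p) (α B : ℝ) :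
    Filter.Tendsto (errN p α B) Filter.atTop (nhds 0) := by
  have h1 : Filter.Tendsto (fun N : ℕ => (N + 1 : ℝ)⁻¹) Filter.atTop (nhds 0) :=
    tendsto_inv_atTop_zero.comp (tendsto_natCast_atTop_atTop.atTop_add tendsto_const_nhds)
  have h2 : Filter.Tendsto (rho p) Filter.atTop (nhds 1) := by
    have := tendsto_q.pow (p - 1)
    rw [one_pow] at this
    exact this
  have h3 : Filter.Tendsto (fun N : ℕ => (N : ℝ) - N * rho p N) Filter.atTop
      (nhds ((p : ℝ) - 1)) := by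
    simp only [geom_rho]
    have : Filter.Tendsto (fun N : ℕ => ∑ i ∈ Finset.range (p - 1),
        ((N : ℝ) * (N + 1 : ℝ)⁻¹) ^ (i + 1)) Filter.atTop
        (nhds (∑ i ∈ Finset.range (p - 1), (1 : ℝ) ^ (i + 1))) :=
      tendsto_finsetSum _ fun i _ => tendsto_q.pow (i + 1)
    simpa [Nat.cast_sub hp] using this
  have h4 : Filter.Tendsto (fun N : ℕ => 2 ^ p * α * (N + 1 : ℝ)⁻¹ * B +
      (α * p - α * p * rho p N) * B +
      (α * (p - 1) - α * ((N : ℝ) - N * rho p N)) * B) Filter.atTop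
      (nhds (2 ^ p * α * 0 * B + (α * p - α * p * 1) * B +
        (α * (p - 1) - α * ((p : ℝ) - 1)) * B)) :=
    (((h1.const_mul (2 ^ p * α)).mul_const B).add
      ((tendsto_const_nhds.sub (h2.const_mul (α * p))).mul_const B)).add
      ((tendsto_const_nhds.sub (h3.const_mul α)).mul_const B)
  have h5 : 2 ^ p * α * 0 * B + (α * p - α * p * 1) * B +
        (α * (p - 1) - α * ((p : ℝ) - 1)) * B = 0 := by ring
  rw [h5] at h4
  refine h4.congr fun N => ?_
  rw [errN]
  ring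

theorem fieldH_snoc {N : ℕ} (hs : Fin N → ℝ) (x : ℝ) :
    fieldH (Fin.snoc hs x : Fin (N + 1) → ℝ) = lift N (fieldH hs) + siteF N x := by
  funext s
  simp only [fieldH, Pi.add_apply, lift_apply, siteF, Fin.sum_univ_castSucc, Fin.snoc_castSucc,
    Fin.snoc_last]

theorem cavA_empty {N : ℕ} (θ : Inter p) (I : Fin p → Fin N) :
    cavA θ ∅ I = lift N (edgeH θ I) := by
  funext s
  simp [cavA, lift_apply, edgeH]

theorem KA_empty (N : ℕ) (w : K → ℝ) (θ : K → Inter p) :
    KA N w θ ∅ = Kop (ve p N w) (fun q => lift N (edgeH (θ q.1) q.2)) := by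
  unfold KA
  simp only [cavA_empty]

variable {w : K → ℝ} {θ : K → Inter p} {w' : K' → ℝ} {h : K' → ℝ} {B : ℝ}

/-- one-step inequality, for a fixed configuration of the first `N` fields -/
theorem step_aux {α : ℝ} (hα : 0 ≤ α) (hp : 0 < p) {N : ℕ} (hN : 0 < N) (hw : ∀ k, 0 ≤ w k)
    (hw1 : ∑ k, w k = 1) (hw' : ∀ k, 0 ≤ w' k) (hw1' : ∑ k, w' k = 1)
    (hB0 : 0 ≤ B) (hθ : ∀ k s, |θ k s| ≤ B)
    {Ψ : Ham N → ℝ} {Ψ' : Ham (N + 1) → ℝ} (hΨ : LipG 1 Ψ) (hΨ' : LipG 1 Ψ') {e₁ : ℝ}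
    (hA3 : ∀ H, Ψ (red H) ≤ Ψ' H + e₁) {c' : ℝ}
    (hc : ∀ H, c' ≤ siteG α N w θ w' h Ψ H - edgeG α N w θ Ψ H) (H : Ham N) :
    Top (α * N) ((α * N) • KE N w θ) Ψ H + c' - e₁ - errN p α B N ≤
      ∑ k, w' k * Top (α * (N + 1)) ((α * (N + 1)) • KE (N + 1) w θ) Ψ'
        (lift N H + siteF N (h k)) := by
  set r := rho p N with hr
  have hr0 : 0 ≤ r := rho_nonneg p N
  have hr1 : r ≤ 1 := rho_le_one p N
  set G : Ham (N + 1) → ℝ := fun H' => Ψ (red H') with hG
  have hGl : LipG 1 G := lip_comp_red hΨ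
  have h01 : (0 : ℝ) ≤ 1 := zero_le_one
  -- shift facts
  have sE := isShift_KE (p := p) hN hw hw1 hB0 hθ
  have sE' := isShift_KE (p := p) (N := N + 1) (Nat.succ_pos N) hw hw1 hB0 hθ
  have sO := isShift_KO hp hN hw hw1 hB0 hθ
  have sA := isShift_KA hN hw hw1 hB0 hθ (∅ : Finset (Fin p))
  obtain ⟨mR, sR⟩ := isShift_KR (p := p) hα hN hw hw1 hB0 hθ
  have hαN : 0 ≤ α * N := by positivity
  have hl0 : 0 ≤ α * N * r := by positivity
  have hl1 : 0 ≤ α * p * r := by positivity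
  have sTot : IsShift (α * (N + 1) * 1) (α * (N + 1) * B) ((α * (N + 1)) • KE (N + 1) w θ) :=
    sE'.smul (by positivity)
  have sAl : IsShift (α * N * r) (α * N * r * B) ((α * N * r) • KA N w θ ∅) := by
    simpa using sA.smul hl0
  have sOl : IsShift (α * p * r) (α * p * r * B) ((α * p * r) • KO N w θ) := by
    simpa using sO.smul hl1
  have sOi : IsShift (α * p) (α * p * B) ((α * p) • KO N w θ) := by
    simpa using sO.smul (c := α * p) (by positivity)
  have sEl : IsShift (α * N * r) (α * N * r * B) ((α * N * r) • KE N w θ) := by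
    simpa using sE.smul hl0
  have hsplit := KE_split (p := p) (α := α) (w := w) (θ := θ) hp hN
  rw [← hr] at hsplit
  have hmass : α * (N + 1) = mR + (α * N * r + α * p * r) := by
    have h2 := sR.add (sAl.add sOl)
    rw [← hsplit] at h2
    have := IsShift.mass_unique sTot h2
    linarith
  -- lower bound of the total operator
  have hlow : ∀ (x : Ham (N + 1)), Top (α * N * r) ((α * N * r) • KA N w θ ∅)
      (Top (α * p * r) ((α * p * r) • KO N w θ) G) x - e₁ - 2 ^ p * α * (N + 1 : ℝ)⁻¹ * B ≤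
      Top (α * (N + 1)) ((α * (N + 1)) • KE (N + 1) w θ) Ψ' x := by
    intro x
    have h1 : Top (α * (N + 1)) ((α * (N + 1)) • KE (N + 1) w θ) G x ≤
        Top (α * (N + 1)) ((α * (N + 1)) • KE (N + 1) w θ) Ψ' x + e₁ := by
      refine Top_le_add (m := α * (N + 1)) (B := α * (N + 1) * B) ?_ h01 hGl h01 hΨ' e₁ hA3 x
      simpa using sTot
    rw [hsplit, hmass] at h1
    rw [hsplit, hmass]
    rw [Top_comp sR (sAl.add sOl) h01 hGl x] at h1
    have h2 := Top_abs_sub_le sR h01 (Top_lip (sAl.add sOl) h01 hGl) x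
    rw [Top_comp sAl sOl h01 hGl x] at h2
    have h3 := (abs_le.1 h2).1
    linarith
  -- the cavity functions
  set U : K' → Ham N → ℝ := fun k e' => Top (α * p) ((α * p) • KO N w θ) G
    (lift N e' + siteF N (h k)) with hU
  have liftLip : ∀ (F : Ham (N + 1) → ℝ), LipG 1 F → ∀ c, LipG 1 (fun e' : Ham N =>
      F (lift N e' + c)) := by
    intro F hF c a b
    refine (hF _ _).trans ?_
    rw [one_mul, one_mul, add_sub_add_right_eq_sub]
    exact norm_lift_sub a b
  have hUl : ∀ k, LipG 1 (U k) := fun k => liftLip _ (Top_lip sOi h01 hGl) _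
  have hsite : ∀ k, Top (α * N * r) ((α * N * r) • KE N w θ) (U k) H -
      (α * p - α * p * r) * B ≤
      Top (α * N * r) ((α * N * r) • KA N w θ ∅) (Top (α * p * r) ((α * p * r) • KO N w θ) G)
        (lift N H + siteF N (h k)) := by
    intro k
    rw [KA_empty, Top_map]
    have hX : Top (α * N * r) ((α * N * r) • Kop (ve p N w) fun i => edgeH (θ i.1) i.2) (U k) H ≤
        Top (α * N * r) ((α * N * r) • Kop (ve p N w) fun i => edgeH (θ i.1) i.2)
          (fun e' => Top (α * p * r) ((α * p * r) • KO N w θ) G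
            (lift N e' + siteF N (h k))) H + (α * p - α * p * r) * B := by
      refine Top_le_add sEl h01 (hUl k) h01 (liftLip _ (Top_lip sOl h01 hGl) _) _ ?_ H
      intro e'
      have hle : α * p * r ≤ α * p := by
        calc α * p * r ≤ α * p * 1 := mul_le_mul_of_nonneg_left hr1 (by positivity)
          _ = α * p := mul_one _
      have := Top_rate sO hl1 hle h01 hGl (lift N e' + siteF N (h k))
      have := (abs_le.1 this).2
      linarith
    have hKE : KE N w θ = Kop (ve p N w) fun i => edgeH (θ i.1) i.2 := rfl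
    rw [hKE]
    linarith
  -- sum over the last field
  have hsum : Top (α * N * r) ((α * N * r) • KE N w θ) (fun e' => ∑ k, w' k * U k e') H -
      (α * p - α * p * r) * B - e₁ - 2 ^ p * α * (N + 1 : ℝ)⁻¹ * B ≤
      ∑ k, w' k * Top (α * (N + 1)) ((α * (N + 1)) • KE (N + 1) w θ) Ψ'
        (lift N H + siteF N (h k)) := by
    rw [Top_sum Finset.univ sEl h01 hw' hUl H]
    have hc2 : ∀ d : ℝ, d = ∑ k, w' k * d := fun d => by rw [← Finset.sum_mul, hw1', one_mul]
    calc ∑ k, w' k * Top (α * N * r) ((α * N * r) • KE N w θ) (U k) H -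
          (α * p - α * p * r) * B - e₁ - 2 ^ p * α * (N + 1 : ℝ)⁻¹ * B
        = ∑ k, w' k * Top (α * N * r) ((α * N * r) • KE N w θ) (U k) H -
          ∑ k, w' k * ((α * p - α * p * r) * B + e₁ + 2 ^ p * α * (N + 1 : ℝ)⁻¹ * B) := by
          rw [← hc2]; ring
      _ = ∑ k, w' k * (Top (α * N * r) ((α * N * r) • KE N w θ) (U k) H -
          ((α * p - α * p * r) * B + e₁ + 2 ^ p * α * (N + 1 : ℝ)⁻¹ * B)) := by
          rw [← Finset.sum_sub_distrib]
          exact Finset.sum_congr rfl fun k _ => by ring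
      _ ≤ _ := by
          refine Finset.sum_le_sum fun k _ => mul_le_mul_of_nonneg_left ?_ (hw' k)
          have h1 := hsite k
          have h2 := hlow (lift N H + siteF N (h k))
          linarith
  -- the edge part
  have hsub : 0 ≤ α * N - α * N * r := by
    have := mul_nonneg hα (sub_rho_nonneg p N)
    rw [← hr] at this
    linarith
  have hsubl : α * N - α * N * r ≤ α * (p - 1) := by
    have := mul_le_mul_of_nonneg_left (sub_rho_le hp N) hα
    rw [← hr] at this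
    linarith
  have sE2 : IsShift (α * N - α * N * r) ((α * N - α * N * r) * B)
      ((α * N - α * N * r) • KE N w θ) := by simpa using sE.smul hsub
  have sE3 : IsShift (α * (p - 1)) (α * (p - 1) * B)
      ((α * (p - 1)) • KE N w θ) := by
    simpa using sE.smul (c := α * ((p : ℝ) - 1)) (hsub.trans hsubl)
  have hedge : Top (α * N) ((α * N) • KE N w θ) Ψ H ≤
      Top (α * N * r) ((α * N * r) • KE N w θ) (edgeG α N w θ Ψ) H +
        (α * (p - 1) - (α * N - α * N * r)) * B := by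
    have h1 := Top_comp sEl sE2 h01 hΨ H
    rw [← add_smul, add_sub_cancel] at h1
    rw [h1]
    refine Top_le_add sEl h01 (Top_lip sE2 h01 hΨ) h01 (Top_lip sE3 h01 hΨ) _ ?_ H
    intro e
    have := Top_rate sE hsub hsubl h01 hΨ e
    have := (abs_le.1 this).1
    have hee : edgeG α N w θ Ψ e = Top (α * (p - 1)) ((α * (p - 1)) • KE N w θ) Ψ e := rfl
    linarith
  have hfin : Top (α * N * r) ((α * N * r) • KE N w θ) (edgeG α N w θ Ψ) H + c' ≤
      Top (α * N * r) ((α * N * r) • KE N w θ) (fun e' => ∑ k, w' k * U k e') H := by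
    have hedgeL : LipG 1 (edgeG α N w θ Ψ) := Top_lip sE3 h01 hΨ
    rw [← Top_add_const sEl h01 hedgeL c' H]
    refine Top_mono sEl h01 (hedgeL.add_const c') h01
      (LipG.wsum hw' hw1' hUl) ?_ H
    intro e
    have h1 := hc e
    have h2 : siteG α N w θ w' h Ψ e = ∑ k, w' k * U k e := rfl
    rw [h2] at h1
    show edgeG α N w θ Ψ e + c' ≤ ∑ k, w' k * U k e
    linarith
  unfold errN
  rw [← hr]
  linarith

theorem LL_step {α : ℝ} (hα : 0 ≤ α) (hp : 0 < p) {N : ℕ} (hN : 0 < N) (hw : ∀ k, 0 ≤ w k)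
    (hw1 : ∑ k, w k = 1) (hw' : ∀ k, 0 ≤ w' k) (hw1' : ∑ k, w' k = 1)
    (hB0 : 0 ≤ B) (hθ : ∀ k s, |θ k s| ≤ B)
    {Ψ : Ham N → ℝ} {Ψ' : Ham (N + 1) → ℝ} (hΨ : LipG 1 Ψ) (hΨ' : LipG 1 Ψ') {e₁ : ℝ}
    (hA3 : ∀ H, Ψ (red H) ≤ Ψ' H + e₁) {c' : ℝ}
    (hc : ∀ H, c' ≤ siteG α N w θ w' h Ψ H - edgeG α N w θ Ψ H) :
    LL α N w θ w' h Ψ + c' - e₁ - errN p α B N ≤ LL α (N + 1) w θ w' h Ψ' := by
  have hprod : ∑ is : Fin N → K', ∏ i, w' (is i) = 1 := by
    have := Finset.prod_univ_sum (fun _ : Fin N => (Finset.univ : Finset K')) (fun _ k => w' k)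
    rw [Fintype.piFinset_univ] at this
    rw [← this]
    simp [hw1']
  have h1 : LL α (N + 1) w θ w' h Ψ' = ∑ is : Fin N → K', (∏ i, w' (is i)) *
      ∑ k, w' k * Top (α * (N + 1)) ((α * (N + 1)) • KE (N + 1) w θ) Ψ'
        (lift N (fieldH fun i => h (is i)) + siteF N (h k)) := by
    unfold LL
    rw [← (Fin.snocEquiv (fun _ : Fin (N + 1) => K')).sum_comp, Fintype.sum_prod_type,
      Finset.sum_comm]
    refine Finset.sum_congr rfl fun is _ => ?_
    rw [Finset.mul_sum]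
    refine Finset.sum_congr rfl fun k _ => ?_
    have h2 : (fun i => h ((Fin.snocEquiv (fun _ : Fin (N + 1) => K')) (k, is) i)) =
        (Fin.snoc (fun i => h (is i)) (h k) : Fin (N + 1) → ℝ) := by
      funext i
      refine Fin.lastCases ?_ (fun i => ?_) i
      · simp [Fin.snocEquiv]
      · simp [Fin.snocEquiv]
    rw [h2, fieldH_snoc, Fin.prod_univ_castSucc]
    simp only [Fin.snocEquiv, Equiv.coe_fn_mk, Fin.snoc_castSucc, Fin.snoc_last]
    push_cast
    rw [mul_assoc]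
  rw [h1]
  have hc2 : ∀ d : ℝ, d = ∑ is : Fin N → K', (∏ i, w' (is i)) * d :=
    fun d => by rw [← Finset.sum_mul, hprod, one_mul]
  calc LL α N w θ w' h Ψ + c' - e₁ - errN p α B N
      = LL α N w θ w' h Ψ + ∑ is : Fin N → K', (∏ i, w' (is i)) *
          (c' - e₁ - errN p α B N) := by rw [← hc2]; ring
    _ = ∑ is : Fin N → K', (∏ i, w' (is i)) *
          (Top (α * N) ((α * N) • KE N w θ) Ψ (fieldH fun i => h (is i)) + c' - e₁ -
            errN p α B N) := by
        unfold LL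
        rw [← Finset.sum_add_distrib]
        exact Finset.sum_congr rfl fun is _ => by ring
    _ ≤ _ := Finset.sum_le_sum fun is _ => mul_le_mul_of_nonneg_left
        (step_aux hα hp hN hw hw1 hw' hw1' hB0 hθ hΨ hΨ' hA3 hc _)
        (Finset.prod_nonneg fun i _ => hw' _)

end Crest.Agent.R141.Cav
end

-- ▼ part R141/Num
section

/-!
R141, Part L: numeric lemmas for sections 4.1 and 4.3 of the blueprint (helper585).

* `exists_increment_le` : from `LL N ≈ N * F N` and `F N ≤ c` frequently, infinitely many small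
  increments `LL (N+1) - LL N ≤ c + 3 ε`.
* `poisson_compare_le`, `poisson_compare` : Poisson averages of functions of linear growth depend
  only on finitely many values (truncation), uniformly.
* `poisson_tsum_finset_sum` : exchange with finite sums.
-/

set_option autoImplicit false

namespace Crest.Agent.R141.Num

open Filter Crest.ProbabilityR.Diluted Crest.Agent.R141.Red

/-! ### small increments -/

/-- Section 4.1: infinitely many small increments. -/
theorem exists_increment_le {LL F : ℕ → ℝ} {c ε B : ℝ} (hε : 0 < ε)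
    (h1 : ∀ N : ℕ, LL N ≤ N * F N + (ε * N + B)) (h2 : ∃ᶠ N in atTop, F N ≤ c) (N0 : ℕ) :
    ∃ N : ℕ, N0 ≤ N ∧ LL (N + 1) - LL N ≤ c + 2 * ε := by
  by_contra hcon
  push Not at hcon
  -- linear growth
  have hgrow : ∀ n : ℕ, LL N0 + n * (c + 2 * ε) ≤ LL (N0 + n) := by
    intro n
    induction n with
    | zero => simp
    | succ n ih =>
      have := hcon (N0 + n) (Nat.le_add_right _ _)
      have e : N0 + (n + 1) = N0 + n + 1 := by ring
      rw [e]
      push_cast
      nlinarith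
  obtain ⟨M, hM⟩ := exists_nat_gt ((B - LL N0 + N0 * (c + 2 * ε)) / ε)
  obtain ⟨N, hN, hc⟩ := (Filter.frequently_atTop.1 h2) (max N0 M)
  have hN0 : N0 ≤ N := (le_max_left _ _).trans hN
  have hNM : M ≤ N := (le_max_right _ _).trans hN
  have h3 := hgrow (N - N0)
  rw [Nat.add_sub_cancel' hN0, Nat.cast_sub hN0] at h3
  have h4 := h1 N
  have h5 : (N : ℝ) * F N ≤ N * c := mul_le_mul_of_nonneg_left hc (Nat.cast_nonneg _)
  have h6 : (M : ℝ) ≤ N := by exact_mod_cast hNM
  rw [div_lt_iff₀ hε] at hM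
  have h7 : (M : ℝ) * ε ≤ N * ε := mul_le_mul_of_nonneg_right h6 hε.le
  nlinarith

/-! ### Poisson truncation -/

/-- tail of the Poisson law against an affine function. -/
theorem exists_tail {lam : ℝ} (hlam : 0 ≤ lam) (a b : ℝ) {ε : ℝ} (hε : 0 < ε) :
    ∃ k0 : ℕ, |(∑' k, poissonWeight lam k * (a * k + b)) -
      ∑ k ∈ Finset.range k0, poissonWeight lam k * (a * k + b)| ≤ ε := by
  have hs : Summable (fun k : ℕ => poissonWeight lam k * (a * k + b)) := by
    refine summable_poisson_of_le hlam (a := |a|) (b := |b|) fun n => ?_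
    calc |a * n + b| ≤ |a * n| + |b| := abs_add_le _ _
      _ = |a| * n + |b| := by rw [abs_mul, abs_of_nonneg (Nat.cast_nonneg n : (0 : ℝ) ≤ n)]
  have h := hs.hasSum.tendsto_sum_nat
  rw [Metric.tendsto_atTop] at h
  obtain ⟨k0, hk0⟩ := h ε hε
  refine ⟨k0, ?_⟩
  have := (hk0 k0 le_rfl).le
  rwa [Real.dist_eq, abs_sub_comm] at this

/-- One-sided comparison of Poisson averages: up to `ε`, only the values at `k < k0` matter. -/
theorem poisson_compare_le {lam : ℝ} (hlam : 0 ≤ lam) (a b : ℝ) {ε : ℝ} (hε : 0 < ε) :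
    ∃ k0 : ℕ, ∃ δ : ℝ, 0 < δ ∧ ∀ G G' : ℕ → ℝ, (∀ k : ℕ, |G k| ≤ a * k + b) →
      (∀ k : ℕ, |G' k| ≤ a * k + b) → (∀ k < k0, G k ≤ G' k + δ) →
      ∑' k, poissonWeight lam k * G k ≤ ∑' k, poissonWeight lam k * G' k + ε := by
  obtain ⟨k0, hk0⟩ := exists_tail hlam (2 * a) (2 * b) (half_pos hε)
  refine ⟨k0, ε / 2, half_pos hε, fun G G' hG hG' h => ?_⟩
  have hsG := summable_poisson_of_le hlam hG
  have hsG' := summable_poisson_of_le hlam hG'
  -- the bounding sequence
  set g : ℕ → ℝ := fun k => poissonWeight lam k * (2 * a * k + 2 * b) with hg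
  have hg0 : ∀ k : ℕ, 0 ≤ a * k + b := fun k => (abs_nonneg _).trans (hG k)
  have hsg : Summable g := by
    refine summable_poisson_of_le hlam (a := 2 * a) (b := 2 * b) fun n => ?_
    have := hg0 n
    rw [abs_of_nonneg (by linarith)]
  have hterm : ∀ k : ℕ, poissonWeight lam k * G k - poissonWeight lam k * G' k ≤
      ε / 2 * poissonWeight lam k + (if k < k0 then 0 else g k) := by
    intro k
    have hw := poissonWeight_nonneg hlam k
    rw [← mul_sub]
    by_cases hk : k < k0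
    · simp only [hk, if_true, add_zero]
      have := h k hk
      nlinarith
    · simp only [hk, if_false]
      have h1 := abs_le.1 (hG k)
      have h2 := abs_le.1 (hG' k)
      have h3 : G k - G' k ≤ 2 * a * k + 2 * b := by linarith [h1.2, h2.1]
      have h4 : poissonWeight lam k * (G k - G' k) ≤ g k := mul_le_mul_of_nonneg_left h3 hw
      have h5 : 0 ≤ ε / 2 * poissonWeight lam k := by positivity
      linarith
  have hs1 : Summable (fun k => ε / 2 * poissonWeight lam k) :=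
    (hasSum_poissonWeight lam).summable.mul_left _
  have hs2 : Summable (fun k => if k < k0 then 0 else g k) := by
    have hfin : Summable (fun k => if k < k0 then g k else 0) := by
      refine summable_of_ne_finset_zero (s := Finset.range k0) fun k hk => ?_
      rw [Finset.mem_range] at hk
      simp [hk]
    refine (hsg.sub hfin).congr fun k => ?_
    by_cases hk : k < k0 <;> simp [hk]
  have htail : ∑' k, (if k < k0 then 0 else g k) ≤ ε / 2 := by
    have hfin : HasSum (fun k => if k < k0 then g k else 0) (∑ k ∈ Finset.range k0, g k) := by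
      have : ∑ k ∈ Finset.range k0, g k =
          ∑ k ∈ Finset.range k0, (if k < k0 then g k else 0) := by
        refine Finset.sum_congr rfl fun k hk => ?_
        rw [Finset.mem_range] at hk
        simp [hk]
      rw [this]
      refine hasSum_sum_of_ne_finset_zero fun k hk => ?_
      rw [Finset.mem_range] at hk
      simp [hk]
    have hsub := hsg.hasSum.sub hfin
    have e : (fun k => g k - if k < k0 then g k else 0) = fun k => if k < k0 then 0 else g k := by
      funext k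
      by_cases hk : k < k0 <;> simp [hk]
    rw [e] at hsub
    rw [hsub.tsum_eq]
    exact (le_abs_self _).trans hk0
  have hmain : ∑' k, (poissonWeight lam k * G k - poissonWeight lam k * G' k) ≤
      ∑' k, (ε / 2 * poissonWeight lam k + (if k < k0 then 0 else g k)) :=
    Summable.tsum_le_tsum hterm (hsG.sub hsG') (hs1.add hs2)
  rw [hsG.tsum_sub hsG', hs1.tsum_add hs2, tsum_mul_left, (hasSum_poissonWeight lam).tsum_eq] at hmain
  linarith

/-- Two-sided comparison of Poisson averages. -/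
theorem poisson_compare {lam : ℝ} (hlam : 0 ≤ lam) (a b : ℝ) {ε : ℝ} (hε : 0 < ε) :
    ∃ k0 : ℕ, ∃ δ : ℝ, 0 < δ ∧ ∀ G G' : ℕ → ℝ, (∀ k : ℕ, |G k| ≤ a * k + b) →
      (∀ k : ℕ, |G' k| ≤ a * k + b) → (∀ k < k0, |G k - G' k| ≤ δ) →
      |∑' k, poissonWeight lam k * G k - ∑' k, poissonWeight lam k * G' k| ≤ ε := by
  obtain ⟨k0, δ, hδ, H⟩ := poisson_compare_le hlam a b hε
  refine ⟨k0, δ, hδ, fun G G' hG hG' h => ?_⟩
  rw [abs_le]
  constructor
  · have := H G' G hG' hG fun k hk => by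
      have := (abs_le.1 (h k hk)).1
      linarith
    linarith
  · have := H G G' hG hG' fun k hk => by
      have := (abs_le.1 (h k hk)).2
      linarith
    linarith

/-- Exchange of a Poisson average with a finite weighted sum. -/
theorem poisson_tsum_finset_sum {lam : ℝ} (hlam : 0 ≤ lam) {ι : Type*} (s : Finset ι)
    (P : ι → ℝ) (G : ι → ℕ → ℝ) (a b : ι → ℝ) (hG : ∀ i ∈ s, ∀ k : ℕ, |G i k| ≤ a i * k + b i) :
    ∑' k, poissonWeight lam k * ∑ i ∈ s, P i * G i k =
      ∑ i ∈ s, P i * ∑' k, poissonWeight lam k * G i k := by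
  have h : ∀ i ∈ s, Summable fun k => P i * (poissonWeight lam k * G i k) := fun i hi =>
    (summable_poisson_of_le hlam (hG i hi)).mul_left _
  have e : (fun k => poissonWeight lam k * ∑ i ∈ s, P i * G i k) =
      fun k => ∑ i ∈ s, P i * (poissonWeight lam k * G i k) := by
    funext k
    rw [Finset.mul_sum]
    exact Finset.sum_congr rfl fun i _ => by ring
  rw [e, Summable.tsum_finsetSum h]
  exact Finset.sum_congr rfl fun i _ => tsum_mul_left

/-- Poisson average of `k * c`. -/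
theorem poisson_tsum_mul_const (lam c : ℝ) :
    ∑' k : ℕ, poissonWeight lam k * ((k : ℝ) * c) = lam * c := by
  have h := (hasSum_poissonWeight_mul lam).mul_right c
  rw [← h.tsum_eq]
  exact tsum_congr fun k => by ring

/-- Poisson average of a constant. -/
theorem poisson_tsum_const (lam c : ℝ) : ∑' k : ℕ, poissonWeight lam k * c = c := by
  rw [tsum_mul_right, (hasSum_poissonWeight lam).tsum_eq, one_mul]

/-- An average at most `c` has an element at most `c`. -/
theorem exists_le_of_weighted_sum_le {ι : Type*} [Fintype ι] (P Q : ι → ℝ) (hP : ∀ i, 0 ≤ P i)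
    (hP1 : ∑ i, P i = 1) {c : ℝ} (h : ∑ i, P i * Q i ≤ c) : ∃ i, Q i ≤ c := by
  by_contra hcon
  push Not at hcon
  have h1 : c < ∑ i, P i * Q i := by
    have h2 : ∑ i, P i * c = c := by rw [← Finset.sum_mul, hP1, one_mul]
    have hex : ∃ i, 0 < P i := by
      by_contra hn
      push Not at hn
      have : ∑ i, P i ≤ 0 := Finset.sum_nonpos fun i _ => hn i
      linarith
    obtain ⟨i, hi⟩ := hex
    calc c = ∑ i, P i * c := h2.symm
      _ < ∑ i, P i * Q i := Finset.sum_lt_sum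
        (fun j _ => mul_le_mul_of_nonneg_left (hcon j).le (hP j))
        ⟨i, Finset.mem_univ _, mul_lt_mul_of_pos_left (hcon i) hi⟩
  linarith

end Crest.Agent.R141.Num
end

-- ▼ part R141/Cavity3
section

/-!
# Row 141, section 4: the abstract cavity step, part 3 (helper552)

The cavity step `cavity_abs` and the explicit formulas for `siteG`, `edgeG`.
-/

set_option autoImplicit false
set_option linter.unusedSectionVars false

open Crest.ProbabilityR.Diluted Crest.Agent.R141.Pois Filter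

namespace Crest.Agent.R141.Cav

variable {p : ℕ} {K K' : Type} [Fintype K] [Fintype K']
variable {w : K → ℝ} {θ : K → Inter p} {w' : K' → ℝ} {h : K' → ℝ} {B : ℝ}

/-- **The abstract cavity step.** -/
theorem cavity_abs {α : ℝ} (hα : 0 ≤ α) (hp : 0 < p) (hw : ∀ k, 0 ≤ w k)
    (hw1 : ∑ k, w k = 1) (hw' : ∀ k, 0 ≤ w' k) (hw1' : ∑ k, w' k = 1)
    (Ψ : (N : ℕ) → Ham N → ℝ) (Nst : ℕ) {c ε C : ℝ} (hε : 0 < ε) {r : ℕ → ℝ}
    (hr : Tendsto r atTop (nhds 0))
    (A1 : ∀ N, Nst ≤ N → ∀ H, Ψ N H ≤ logZ N H + (ε * N + C))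
    (A2 : ∀ N, Nst ≤ N → LipG 1 (Ψ N))
    (A3 : ∀ N, Nst ≤ N → ∀ H : Ham (N + 1), Ψ N (red H) ≤ Ψ (N + 1) H + (ε + r N))
    (hfreq : ∃ᶠ N in atTop, LL α N w θ w' h (logZ N) ≤ N * c) (N0 : ℕ) :
    ∃ N, N0 ≤ N ∧ ∃ H : Ham N,
      siteG α N w θ w' h (Ψ N) H - edgeG α N w θ (Ψ N) H ≤ c + 4 * ε := by
  classical
  -- a bound for the interactions
  obtain ⟨B, hB0, hθ⟩ : ∃ B : ℝ, 0 ≤ B ∧ ∀ k s, |θ k s| ≤ B := by
    refine ⟨∑ k, ‖θ k‖, Finset.sum_nonneg fun k _ => norm_nonneg _, fun k s => ?_⟩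
    have h1 : ‖θ k s‖ ≤ ‖θ k‖ := norm_le_pi_norm (θ k) s
    rw [Real.norm_eq_abs] at h1
    exact h1.trans (Finset.single_le_sum (f := fun k => ‖θ k‖) (fun k _ => norm_nonneg _)
      (Finset.mem_univ k))
  have hprod : ∀ N : ℕ, ∑ is : Fin N → K', ∏ i, w' (is i) = 1 := by
    intro N
    have := Finset.prod_univ_sum (fun _ : Fin N => (Finset.univ : Finset K')) (fun _ k => w' k)
    rw [Fintype.piFinset_univ] at this
    rw [← this]
    simp [hw1']
  -- comparison of `LL Ψ` and `LL log Z`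
  have hcmp : ∀ N, Nst ≤ N → 0 < N →
      LL α N w θ w' h (Ψ N) ≤ LL α N w θ w' h (logZ N) + (ε * N + C) := by
    intro N hN hN0
    have sE : IsShift (α * N) (α * N * B) ((α * N) • KE N w θ) := by
      simpa using (isShift_KE (p := p) hN0 hw hw1 hB0 hθ).smul (c := α * N) (by positivity)
    have hc2 : ∀ d : ℝ, d = ∑ is : Fin N → K', (∏ i, w' (is i)) * d :=
      fun d => by rw [← Finset.sum_mul, hprod, one_mul]
    rw [hc2 (ε * N + C)]
    unfold LL
    rw [← Finset.sum_add_distrib]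
    refine Finset.sum_le_sum fun is _ => ?_
    rw [← mul_add]
    refine mul_le_mul_of_nonneg_left ?_ (Finset.prod_nonneg fun i _ => hw' _)
    exact Top_le_add sE zero_le_one (A2 N hN) zero_le_one (logZ_lip N) _ (A1 N hN) _
  -- threshold
  set Nst' := max Nst 1 with hNst'
  set LLf : ℕ → ℝ := fun N => LL α N w θ w' h (Ψ N) with hLLf
  set Ff : ℕ → ℝ := fun N => LL α N w θ w' h (logZ N) / N with hFf
  set C' : ℝ := |C| + ∑ N ∈ Finset.range Nst', |LLf N - N * Ff N - ε * N| with hC'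
  have hS0 : 0 ≤ ∑ N ∈ Finset.range Nst', |LLf N - N * Ff N - ε * N| :=
    Finset.sum_nonneg fun _ _ => abs_nonneg _
  have h1 : ∀ N : ℕ, LLf N ≤ N * Ff N + (ε * N + C') := by
    intro N
    by_cases hN : Nst' ≤ N
    · have hN1 : Nst ≤ N := (le_max_left _ _).trans hN
      have hN2 : 0 < N := (le_max_right _ _).trans hN
      have hN3 : (N : ℝ) ≠ 0 := by positivity
      have h2 := hcmp N hN1 hN2
      have h3 : (N : ℝ) * Ff N = LL α N w θ w' h (logZ N) := by
        rw [hFf]; field_simp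
      rw [h3]
      have := le_abs_self C
      simp only [hLLf, hC']
      linarith
    · have hmem : N ∈ Finset.range Nst' := Finset.mem_range.2 (not_le.1 hN)
      have h2 : |LLf N - N * Ff N - ε * N| ≤
          ∑ N ∈ Finset.range Nst', |LLf N - N * Ff N - ε * N| :=
        Finset.single_le_sum (f := fun N => |LLf N - N * Ff N - ε * N|)
          (fun _ _ => abs_nonneg _) hmem
      have h3 := le_abs_self (LLf N - N * Ff N - ε * N)
      have h4 := abs_nonneg C
      rw [hC']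
      linarith
  have h2 : ∃ᶠ N in atTop, Ff N ≤ c := by
    have hpos : ∀ᶠ N : ℕ in atTop, 0 < N := eventually_gt_atTop 0
    refine (hfreq.and_eventually hpos).mono fun N hN => ?_
    have hN3 : (0 : ℝ) < N := by exact_mod_cast hN.2
    rw [hFf]
    show LL α N w θ w' h (logZ N) / N ≤ c
    rw [div_le_iff₀ hN3, mul_comm]
    exact hN.1
  -- small errors
  have herr : Tendsto (fun N => r N + errN p α B N) atTop (nhds 0) := by
    have := hr.add (tendsto_errN hp α B)
    rwa [add_zero] at this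
  obtain ⟨N1, hN1⟩ := (Metric.tendsto_atTop.1 herr) ε hε
  obtain ⟨N, hN, hinc⟩ := Num.exists_increment_le hε h1 h2 (max (max N0 Nst') N1)
  have hN0' : N0 ≤ N := ((le_max_left _ _).trans (le_max_left _ _)).trans hN
  have hNst1 : Nst' ≤ N := ((le_max_right _ _).trans (le_max_left _ _)).trans hN
  have hNst2 : Nst ≤ N := (le_max_left _ _).trans hNst1
  have hNpos : 0 < N := (le_max_right _ _).trans hNst1
  have hN1' : N1 ≤ N := (le_max_right _ _).trans hN
  refine ⟨N, hN0', ?_⟩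
  by_contra hcon
  push Not at hcon
  have hstep := LL_step (h := h) hα hp hNpos hw hw1 hw' hw1' hB0 hθ (A2 N hNst2)
    (A2 (N + 1) (hNst2.trans (Nat.le_succ N))) (A3 N hNst2) (c' := c + 4 * ε)
    fun H => (hcon H).le
  have h3 := hN1 N hN1'
  rw [Real.dist_eq, sub_zero] at h3
  have h4 := (abs_lt.1 h3).2
  simp only [hLLf] at hinc
  linarith

/-! ### Explicit formulas -/

/-- Logarithm of the cavity factor: `log Σ_e exp (x e + Σ_j θ_j (spins of I_j, slot l_j = e))`. -/
noncomputable def cavU {N M : ℕ} (x : ℝ) (θs : Fin M → Inter p) (ls : Fin M → Fin p)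
    (Is : Fin M → Fin p → Fin N) : Ham N := fun s =>
  Real.log (∑ e : Bool, Real.exp (x * spinVal e +
    ∑ j, θs j (fun m => if m = ls j then e else s (Is j m))))

/-- Sum of the edge Hamiltonians. -/
noncomputable def edgeU {N M : ℕ} (θs : Fin M → Inter p) (Is : Fin M → Fin p → Fin N) : Ham N :=
  fun s => ∑ j, θs j (fun m => s (Is j m))

theorem red_lift {N M : ℕ} (H : Ham N) (x : ℝ) (θs : Fin M → Inter p) (ls : Fin M → Fin p)
    (Is : Fin M → Fin p → Fin N) :
    red (lift N H + siteF N x + ∑ j, cavA (θs j) {ls j} (Is j)) =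
      H + cavU x θs ls Is := by
  funext s
  simp only [red, Pi.add_apply, Finset.sum_apply, cavU, lift_apply, siteF, cavA,
    Finset.mem_singleton, Fin.snoc_castSucc, Fin.snoc_last]
  have h1 : ∀ e : Bool, Real.exp (H (fun i => s i) + x * spinVal e +
      ∑ j, θs j (fun m => if m = ls j then e else s (Is j m))) =
      Real.exp (H s) * Real.exp (x * spinVal e +
      ∑ j, θs j (fun m => if m = ls j then e else s (Is j m))) := by
    intro e
    rw [← Real.exp_add, add_assoc]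
  rw [Finset.sum_congr rfl fun e _ => h1 e, ← Finset.mul_sum, Real.log_mul (Real.exp_pos _).ne',
    Real.log_exp]
  exact (Finset.sum_pos (fun e _ => Real.exp_pos _) Finset.univ_nonempty).ne'

theorem siteG_eq (α : ℝ) (N : ℕ) (w : K → ℝ) (θ : K → Inter p) (w' : K' → ℝ) (h : K' → ℝ)
    (Ψ : Ham N → ℝ) (H : Ham N) :
    siteG α N w θ w' h Ψ H = ∑ k, w' k * ∑' M : ℕ, poissonWeight (α * p) M *
      ∑ i : Fin M → K × Fin p × (Fin p → Fin N),
        (∏ j, (w (i j).1 * (p : ℝ)⁻¹ * ((N : ℝ)⁻¹) ^ p)) *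
          Ψ (H + cavU (h k) (fun j => θ (i j).1) (fun j => (i j).2.1) (fun j => (i j).2.2)) := by
  unfold siteG KO
  refine Finset.sum_congr rfl fun k _ => ?_
  rw [Top_smul_Kop]
  congr 1
  refine tsum_congr fun M => ?_
  congr 1
  refine Finset.sum_congr rfl fun i _ => ?_
  rw [red_lift H (h k) (fun j => θ (i j).1) (fun j => (i j).2.1) (fun j => (i j).2.2)]

theorem edgeG_eq (α : ℝ) (N : ℕ) (w : K → ℝ) (θ : K → Inter p) (Ψ : Ham N → ℝ) (H : Ham N) :
    edgeG α N w θ Ψ H = ∑' M : ℕ, poissonWeight (α * (p - 1)) M *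
      ∑ i : Fin M → K × (Fin p → Fin N), (∏ j, (w (i j).1 * ((N : ℝ)⁻¹) ^ p)) *
        Ψ (H + edgeU (fun j => θ (i j).1) (fun j => (i j).2)) := by
  unfold edgeG KE
  rw [Top_smul_Kop]
  refine tsum_congr fun M => ?_
  congr 1
  refine Finset.sum_congr rfl fun i _ => ?_
  have : (∑ j, edgeH (θ (i j).1) (i j).2 : Ham N) =
      edgeU (fun j => θ (i j).1) (fun j => (i j).2) := by
    funext s
    rw [Finset.sum_apply]
    rfl
  rw [this]
  rfl

/-- Splitting a sum over `Fin M → K × X` with product weights. -/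
theorem sum_pair {M : ℕ} {X : Type} [Fintype X] (v : K → ℝ) (c : ℝ)
    (f : (Fin M → K) → (Fin M → X) → ℝ) :
    ∑ i : Fin M → K × X, (∏ j, (v (i j).1 * c)) * f (fun j => (i j).1) (fun j => (i j).2) =
      ∑ ks : Fin M → K, (∏ j, v (ks j)) * (c ^ M * ∑ xs : Fin M → X, f ks xs) := by
  rw [← (Equiv.arrowProdEquivProdArrow (Fin M) (fun _ => K) (fun _ => X)).symm.sum_comp,
    Fintype.sum_prod_type]
  refine Finset.sum_congr rfl fun ks _ => ?_
  rw [Finset.mul_sum, Finset.mul_sum]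
  refine Finset.sum_congr rfl fun xs _ => ?_
  simp only [Equiv.arrowProdEquivProdArrow, Equiv.coe_fn_symm_mk, Finset.prod_mul_distrib,
    Finset.prod_const, Finset.card_univ, Fintype.card_fin]
  ring

theorem LL_logZ_eq {α : ℝ} (hα : 0 ≤ α) {N : ℕ} (hw : ∀ k, 0 ≤ w k)
    (hw1 : ∑ k, w k = 1) (w' : K' → ℝ) (h : K' → ℝ) (hN : 0 < N) :
    LL α N w θ w' h (logZ N) = ∑' M : ℕ, poissonWeight (α * N) M *
      ∑ ks : Fin M → K, (∏ j, w (ks j)) * ∑ is : Fin N → K', (∏ i, w' (is i)) *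
        ((Fintype.card (Fin M → Fin p → Fin N) : ℝ)⁻¹ * ∑ idx : Fin M → Fin p → Fin N,
          logPartition N (fun j => θ (ks j)) idx (fun i => h (is i))) := by
  classical
  obtain ⟨B, hB0, hθ⟩ : ∃ B : ℝ, 0 ≤ B ∧ ∀ k s, |θ k s| ≤ B := by
    refine ⟨∑ k, ‖θ k‖, Finset.sum_nonneg fun k _ => norm_nonneg _, fun k s => ?_⟩
    have h1 : ‖θ k s‖ ≤ ‖θ k‖ := norm_le_pi_norm (θ k) s
    rw [Real.norm_eq_abs] at h1
    exact h1.trans (Finset.single_le_sum (f := fun k => ‖θ k‖) (fun k _ => norm_nonneg _)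
      (Finset.mem_univ k))
  have sE : IsShift (α * N) (α * N * B) ((α * N) • KE N w θ) := by
    simpa using (isShift_KE (p := p) hN hw hw1 hB0 hθ).smul (c := α * N) (by positivity)
  unfold LL Pois.Top
  simp only [← tsum_mul_left]
  rw [← Summable.tsum_finsetSum
    (fun is _ => (Top_summable sE zero_le_one (logZ_lip N) _).mul_left _)]
  refine tsum_congr fun M => ?_
  -- the term of index `M`
  have hterm : ∀ is : Fin N → K', Real.exp (-(α * N)) / (M.factorial : ℝ) *
      (((α * N) • KE N w θ) ^ M) (logZ N) (fieldH fun i => h (is i)) =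
      poissonWeight (α * N) M * ∑ ks : Fin M → K, (∏ j, w (ks j)) *
        ((Fintype.card (Fin M → Fin p → Fin N) : ℝ)⁻¹ * ∑ idx : Fin M → Fin p → Fin N,
          logPartition N (fun j => θ (ks j)) idx (fun i => h (is i))) := by
    intro is
    rw [smul_pow, LinearMap.smul_apply, Pi.smul_apply, KE, Kop_pow, smul_eq_mul, poissonWeight]
    have h1 := sum_pair (M := M) (X := Fin p → Fin N) w (((N : ℝ)⁻¹) ^ p)
      (fun ks idx => logPartition N (fun j => θ (ks j)) idx (fun i => h (is i)))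
    have h2 : (((N : ℝ)⁻¹) ^ p) ^ M = (Fintype.card (Fin M → Fin p → Fin N) : ℝ)⁻¹ := by
      rw [Fintype.card_fun, Fintype.card_fun, Fintype.card_fin, Fintype.card_fin,
        Fintype.card_fin]
      push_cast
      rw [inv_pow, inv_pow]
    rw [h2] at h1
    rw [← h1]
    have h3 : ∀ i : Fin M → K × (Fin p → Fin N),
        logZ N ((fieldH fun i => h (is i)) + ∑ j, edgeH (θ (i j).1) (i j).2) =
        logPartition N (fun j => θ (i j).1) (fun j => (i j).2) (fun i => h (is i)) := by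
      intro i
      unfold logZ logPartition
      congr 1
      refine Finset.sum_congr rfl fun s _ => ?_
      congr 1
      rw [Pi.add_apply, Finset.sum_apply, add_comm]
      rfl
    simp only [h3, ve]
    ring
  simp only [hterm]
  rw [Finset.mul_sum]
  simp only [Finset.mul_sum]
  rw [Finset.sum_comm]
  refine Finset.sum_congr rfl fun ks _ => Finset.sum_congr rfl fun is _ =>
    Finset.sum_congr rfl fun idx _ => ?_
  ring

end Crest.Agent.R141.Cav
end

-- ▼ part R141/RedF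
section

/-!
# Row 141: pressure / siteFun / edgeFun of finitely supported laws as finite sums (helper494)
-/

set_option autoImplicit false
set_option linter.unusedSectionVars false

open MeasureTheory Crest.ProbabilityR.Diluted

namespace Crest.Agent.R141.RedF

open Crest.Agent.R141.RedT

section General

variable {K : Type} [Fintype K] {E : Type} [MeasurableSpace E] [MeasurableSingletonClass E]

theorem finMeasure_apply (w : K → ℝ) (x : K → E) {s : Set E} (hs : MeasurableSet s) :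
    finMeasure w x s = ∑ k, ENNReal.ofReal (w k) * s.indicator 1 (x k) := by
  unfold finMeasure
  simp only [Measure.coe_finsetSum, Measure.coe_smul, Finset.sum_apply, Pi.smul_apply,
    smul_eq_mul, Measure.dirac_apply' _ hs]


theorem integral_finMeasure (w : K → ℝ) (x : K → E) (hw : ∀ k, 0 ≤ w k) (f : E → ℝ) :
    ∫ y, f y ∂(finMeasure w x) = ∑ k, w k * f (x k) := by
  unfold finMeasure
  rw [integral_finsetSum_measure]
  · refine Finset.sum_congr rfl fun k _ => ?_
    rw [integral_smul_measure, integral_dirac, ENNReal.toReal_ofReal (hw k), smul_eq_mul]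
  · intro k _
    refine Integrable.smul_measure ?_ ENNReal.ofReal_ne_top
    exact (integrable_dirac (by simp))

theorem pi_finMeasure {ι : Type} [Fintype ι] [DecidableEq ι] (w : K → ℝ) (x : K → E) (hw : ∀ k, 0 ≤ w k)
    (hs1 : ∑ k, w k = 1) :
    (Measure.pi fun _ : ι => finMeasure w x) =
      finMeasure (fun κ : ι → K => ∏ i, w (κ i)) (fun κ i => x (κ i)) := by

  have : IsProbabilityMeasure (finMeasure w x) := finMeasure_isProb hw hs1
  refine Measure.pi_eq fun s hs => ?_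
  have h1 : ∀ i, finMeasure w x (s i) = ∑ k, ENNReal.ofReal (w k) * (s i).indicator 1 (x k) :=
    fun i => finMeasure_apply w x (hs i)
  simp only [h1]
  rw [Finset.prod_univ_sum, Fintype.piFinset_univ]
  unfold finMeasure
  simp only [Measure.coe_finsetSum, Measure.coe_smul, Finset.sum_apply, Pi.smul_apply,
    smul_eq_mul, Measure.dirac_apply' _ (MeasurableSet.univ_pi hs)]
  refine Finset.sum_congr rfl fun κ _ => ?_
  rw [Finset.prod_mul_distrib, ENNReal.ofReal_prod_of_nonneg fun i _ => hw _]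
  congr 1
  by_cases h : (fun i => x (κ i)) ∈ Set.univ.pi s
  · rw [Set.indicator_of_mem h]
    refine (Finset.prod_eq_one fun i _ => ?_).symm
    rw [Set.indicator_of_mem (h i (Set.mem_univ i))]
    rfl
  · rw [Set.indicator_of_notMem h]
    simp only [Set.mem_pi, Set.mem_univ, true_imp_iff, not_forall] at h
    obtain ⟨i, hi⟩ := h
    refine (Finset.prod_eq_zero (Finset.mem_univ i) ?_).symm
    rw [Set.indicator_of_notMem hi]

theorem integral_pi_finMeasure {ι : Type} [Fintype ι] [DecidableEq ι] (w : K → ℝ) (x : K → E)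
    (hw : ∀ k, 0 ≤ w k) (hs1 : ∑ k, w k = 1) (f : (ι → E) → ℝ) :
    ∫ y, f y ∂(Measure.pi fun _ : ι => finMeasure w x) =
      ∑ κ : ι → K, (∏ i, w (κ i)) * f (fun i => x (κ i)) := by
  rw [pi_finMeasure w x hw hs1]
  exact integral_finMeasure _ _ (fun κ => Finset.prod_nonneg fun i _ => hw _) f

end General

variable {p : ℕ} {K K' : Type} [Fintype K] [Fintype K'] (w : K → ℝ) (θ : K → Inter p)
  (w' : K' → ℝ) (h : K' → ℝ)

theorem pressure_finMeasure (hw : ∀ k, 0 ≤ w k) (hs : ∑ k, w k = 1) (hw' : ∀ k, 0 ≤ w' k)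
    (hs' : ∑ k, w' k = 1) (α : ℝ) (N : ℕ) :
    pressure p α (finMeasure w θ) (finMeasure w' h) N =
      (1 / (N : ℝ)) * ∑' M : ℕ, poissonWeight (α * N) M *
        ∑ κ : Fin M → K, (∏ k, w (κ k)) * ∑ η : Fin N → K', (∏ i, w' (η i)) *
          ((Fintype.card (Fin M → Fin p → Fin N) : ℝ)⁻¹ *
            ∑ idx : Fin M → Fin p → Fin N,
              logPartition N (fun k => θ (κ k)) idx (fun i => h (η i))) := by
  unfold pressure
  congr 1
  refine tsum_congr fun M => ?_
  congr 1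
  rw [integral_pi_finMeasure w θ hw hs]
  refine Finset.sum_congr rfl fun κ _ => ?_
  rw [integral_pi_finMeasure w' h hw' hs']

theorem siteFun_finMeasure (hw : ∀ k, 0 ≤ w k) (hs : ∑ k, w k = 1) (hw' : ∀ k, 0 ≤ w' k)
    (lam : ℝ) (r : ℕ) (m : Fin r → ℝ) (X : (Fin (r + 1) → unitInterval) → ℝ) :
    siteFun p lam (finMeasure w θ) (finMeasure w' h) r m X =
      ∑' k : ℕ, poissonWeight lam k *
        ∑ κ : Fin k → K, (∏ j, w (κ j)) * ∑ η : K', w' η *
          siteInner p k r m X (fun j => θ (κ j)) (h η) := by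
  rw [siteFun_eq]
  refine tsum_congr fun k => ?_
  congr 1
  rw [integral_pi_finMeasure w θ hw hs]
  refine Finset.sum_congr rfl fun κ _ => ?_
  rw [integral_finMeasure w' h hw']

theorem siteFun_symMeasure (hw : ∀ k, 0 ≤ w k) (hs : ∑ k, w k = 1) (hw' : ∀ k, 0 ≤ w' k)
    (hp : 0 < p) (lam : ℝ) (r : ℕ) (m : Fin r → ℝ) (X : (Fin (r + 1) → unitInterval) → ℝ) :
    siteFun p lam (symMeasure w θ) (finMeasure w' h) r m X =
      ∑' k : ℕ, poissonWeight lam k *
        ∑ κ : Fin k → K × Fin p, (∏ j, (w (κ j).1 / p)) * ∑ η : K', w' η *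
          siteInner p k r m X (fun j => swapInter (κ j).2 (θ (κ j).1)) (h η) := by
  unfold symMeasure
  have hp' : (p : ℝ) ≠ 0 := by exact_mod_cast hp.ne'
  refine siteFun_finMeasure _ _ w' h (fun k => div_nonneg (hw _) (Nat.cast_nonneg _)) ?_ hw'
    lam r m X
  rw [Fintype.sum_prod_type]
  simp only [Finset.sum_const, Finset.card_univ, Fintype.card_fin, nsmul_eq_mul]
  rw [← hs]
  refine Finset.sum_congr rfl fun k _ => ?_
  field_simp

theorem edgeFun_finMeasure (hw : ∀ k, 0 ≤ w k) (r : ℕ) (m : Fin r → ℝ)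
    (X : (Fin (r + 1) → unitInterval) → ℝ) :
    edgeFun p (finMeasure w θ) r m X = ∑ k, w k * edgeInner p r m X (θ k) := by
  rw [edgeFun_eq, integral_finMeasure w θ hw]

end Crest.Agent.R141.RedF
end

-- ▼ part R141/Cavity4
section

/-!
# Row 141, section 4: the cavity step for the pressure (helper552)
-/

set_option autoImplicit false
set_option linter.unusedSectionVars false

open Crest.ProbabilityR.Diluted Crest.Agent.R141.Pois Filter

namespace Crest.Agent.R141.Cav

variable {p : ℕ} {K K' : Type} [Fintype K] [Fintype K']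
variable {w : K → ℝ} {θ : K → Inter p} {w' : K' → ℝ} {h : K' → ℝ}

theorem LL_logZ_pressure {α : ℝ} (hα : 0 ≤ α) (hw : ∀ k, 0 ≤ w k)
    (hw1 : ∑ k, w k = 1) (hw' : ∀ k, 0 ≤ w' k) (hw1' : ∑ k, w' k = 1) {N : ℕ} (hN : 0 < N) :
    LL α N w θ w' h (logZ N) = N * pressure p α (finMeasure w θ) (finMeasure w' h) N := by
  have hN' : (N : ℝ) ≠ 0 := by positivity
  have hX := RedF.pressure_finMeasure w θ w' h hw hw1 hw' hw1' α N
  rw [LL_logZ_eq hα hw hw1 w' h hN, hX, ← mul_assoc,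
    mul_one_div_cancel hN', one_mul]

/-- **The cavity step**, in terms of the pressure. -/
theorem cavity_pressure {α : ℝ} (hα : 0 ≤ α) (hp : 0 < p) (hw : ∀ k, 0 ≤ w k)
    (hw1 : ∑ k, w k = 1) (hw' : ∀ k, 0 ≤ w' k) (hw1' : ∑ k, w' k = 1)
    (Ψ : (N : ℕ) → Ham N → ℝ) (Nst : ℕ) {c ε C : ℝ} (hε : 0 < ε) {r : ℕ → ℝ}
    (hr : Tendsto r atTop (nhds 0))
    (A1 : ∀ N, Nst ≤ N → ∀ H, Ψ N H ≤ logZ N H + (ε * N + C))
    (A2 : ∀ N, Nst ≤ N → ∀ H H' : Ham N, ∀ a : ℝ, (∀ s, |H s - H' s| ≤ a) →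
      |Ψ N H - Ψ N H'| ≤ a)
    (A3 : ∀ N, Nst ≤ N → ∀ H : Ham (N + 1), Ψ N (red H) ≤ Ψ (N + 1) H + (ε + r N))
    (hfreq : ∃ᶠ N in atTop, pressure p α (finMeasure w θ) (finMeasure w' h) N ≤ c) (N0 : ℕ) :
    ∃ N, N0 ≤ N ∧ ∃ H : Ham N,
      siteG α N w θ w' h (Ψ N) H - edgeG α N w θ (Ψ N) H ≤ c + 4 * ε := by
  refine cavity_abs hα hp hw hw1 hw' hw1' Ψ Nst hε hr A1
    (fun N hN => PLip.lipG (A2 N hN)) A3 ?_ N0
  refine (hfreq.and_eventually (eventually_gt_atTop 0)).mono fun N hN => ?_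
  rw [LL_logZ_pressure hα hw hw1 hw' hw1' hN.2]
  exact mul_le_mul_of_nonneg_left hN.1 (Nat.cast_nonneg _)

end Crest.Agent.R141.Cav
end

-- ▼ part R141/AsmMag
section

/-!
# Row 141, Part L, assembly (helper552): magnetisations of the enriched system lie in `(-1,1)`
-/

set_option autoImplicit false

namespace Crest.Agent.R141.Asm

open Crest.Agent.R141.Fact Crest.Agent.R141.KerS

theorem kerS_pos {Ω : Type} [Fintype Ω] {P : Ω → ℝ} (hP : IsProb P) {r : Setoid Ω} {ω ω' : Ω}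
    (h : r ω ω') : 0 < kerS P r ω ω' := by
  unfold kerS
  rw [if_pos h]
  exact div_pos (hP.pos _) (cls_pos hP r ω)

theorem rel_update (p : Par) (N : ℕ) {k : ℕ} (hk : k < p.L) (ω : Om p N) (i : Fin N) (b : Bool) :
    (fil p N).F k ω (Function.update ω.1 i b, ω.2) := by
  rw [fil_rel]
  exact ⟨fun _ _ _ _ => rfl, fun _ _ _ => rfl, fun h => absurd h (not_le.2 hk)⟩

theorem hmag_sys (p : Par) (N : ℕ) (P : Om p N → ℝ) (hP : IsProb P) (R : ℕ → Setoid (Om p N))
    {k : ℕ} (hk : k < p.L) (hR : R 0 = (fil p N).F k) (i : Fin N) (ω : Om p N) :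
    -1 < Br.magK (fun n => kerS P (R n)) (sgN p N) i ω ∧
      Br.magK (fun n => kerS P (R n)) (sgN p N) i ω < 1 := by
  refine Br.magK_bounds (fun n => kerS P (R n)) (fun n => (isMarkov_kerS hP (R n)).nonneg)
    (fun n => (isMarkov_kerS hP (R n)).sum_one) (sgN p N) i ω ?_ ?_
  · refine ⟨(Function.update ω.1 i true, ω.2), ?_, ?_⟩
    · refine kerS_pos hP ?_
      rw [hR]
      exact rel_update p N hk ω i true
    · simp [sgN]
  · refine ⟨(Function.update ω.1 i false, ω.2), ?_, ?_⟩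
    · refine kerS_pos hP ?_
      rw [hR]
      exact rel_update p N hk ω i false
    · simp [sgN]

end Crest.Agent.R141.Asm
end

-- ▼ part R141/AsmSite
section

/-!
Row 141, sub-lemmas for the PartL assembly: the cavity field as `siteW`, averaging out the unused
slot, the edge terms, and the trial in terms of `siteInner`/`edgeInner`.
-/

set_option autoImplicit false

open MeasureTheory

namespace Crest.Agent.R141.Asm

open Crest.ProbabilityR.Diluted

/-- The slot of `θ` which is used as `m`-th old spin when the new spin sits in the slot `l`. -/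
def slotMap {p : ℕ} (l : Fin p) (m : Fin (p - 1)) : Fin p :=
  Equiv.swap l (lastSlot l) ⟨m.1, by omega⟩

theorem slotMap_ne {p : ℕ} (l : Fin p) (m : Fin (p - 1)) : slotMap l m ≠ l := by
  unfold slotMap
  intro h
  have h1 := congrArg (Equiv.swap l (lastSlot l)) h
  rw [Equiv.swap_apply_self, Equiv.swap_apply_left] at h1
  have h2 := congrArg Fin.val h1
  simp only [lastSlot] at h2
  have := m.2
  omega

theorem slotMap_injective {p : ℕ} (l : Fin p) : Function.Injective (slotMap l) := by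
  intro a b hab
  unfold slotMap at hab
  have h1 := (Equiv.swap l (lastSlot l)).injective hab
  have h2 := congrArg Fin.val h1
  exact Fin.ext h2

theorem swap_apply_self' {p : ℕ} (l : Fin p) {i : Fin p} (hi : i ≠ l) :
    (Equiv.swap l (lastSlot l) i).val < p - 1 := by
  have h1 : Equiv.swap l (lastSlot l) i ≠ lastSlot l := by
    intro h
    have h2 := congrArg (Equiv.swap l (lastSlot l)) h
    rw [Equiv.swap_apply_self, Equiv.swap_apply_right] at h2
    exact hi h2
  have h3 := (Equiv.swap l (lastSlot l) i).2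
  have h4 : (Equiv.swap l (lastSlot l) i).val ≠ p - 1 := fun h => h1 (Fin.ext h)
  omega

theorem cavU_eq_siteW {p N k : ℕ} (x : ℝ) (θs : Fin k → Inter p) (ls : Fin k → Fin p)
    (Is : Fin k → Fin p → Fin N) (s : Fin N → Bool) :
    Cav.cavU x θs ls Is s = Real.log 2 +
      Real.log (Br.siteW x (fun j => swapInter (ls j) (θs j))
        (fun jm => s (Is jm.1 (slotMap (ls jm.1) jm.2)))) := by
  have hpos : 0 < ∑ e : Bool, Real.exp (x * spinVal e +
      ∑ j, θs j (fun m => if m = ls j then e else s (Is j m))) :=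
    Finset.sum_pos (fun _ _ => Real.exp_pos _) Finset.univ_nonempty
  have h1 : Br.siteW x (fun j => swapInter (ls j) (θs j))
        (fun jm => s (Is jm.1 (slotMap (ls jm.1) jm.2))) =
      (1 / 2) * ∑ e : Bool, Real.exp (x * spinVal e +
      ∑ j, θs j (fun m => if m = ls j then e else s (Is j m))) := by
    unfold Br.siteW
    congr 1
    refine Finset.sum_congr rfl fun e _ => ?_
    congr 2
    refine Finset.sum_congr rfl fun j _ => ?_
    simp only [swapInter]
    congr 1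
    funext i
    by_cases hi : i = ls j
    · subst hi
      rw [if_pos rfl, dif_neg]
      rw [Equiv.swap_apply_left]
      simp [lastSlot]
    · rw [if_neg hi, dif_pos (swap_apply_self' (ls j) hi)]
      congr 2
      simp only [slotMap]
      exact Equiv.swap_apply_self _ _ _
  unfold Cav.cavU
  rw [h1, Real.log_mul (by norm_num) hpos.ne', one_div, Real.log_inv]
  ring

/-- `Option (Fin (p-1)) ≃ Fin p`, `none ↦ l`. -/
noncomputable def slotEquiv {p : ℕ} (l : Fin p) : Option (Fin (p - 1)) ≃ Fin p :=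
  Equiv.ofBijective (fun o => o.elim l (slotMap l)) (by
    rw [Fintype.bijective_iff_injective_and_card]
    refine ⟨?_, ?_⟩
    · intro a b hab
      cases a with
      | none =>
        cases b with
        | none => rfl
        | some b => exact absurd hab.symm (slotMap_ne l b)
      | some a =>
        cases b with
        | none => exact absurd hab (slotMap_ne l a)
        | some b => exact congrArg some (slotMap_injective l hab)
    · have := Fin.pos l
      rw [Fintype.card_option, Fintype.card_fin, Fintype.card_fin]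
      omega)

/-- Splitting the sites of one interaction: unused slot and used slots. -/
noncomputable def siteSplit {p : ℕ} (N : ℕ) (l : Fin p) :
    (Fin p → Fin N) ≃ Fin N × (Fin (p - 1) → Fin N) :=
  (Equiv.arrowCongr (slotEquiv l).symm (Equiv.refl (Fin N))).trans
    (Equiv.piOptionEquivProd (β := fun _ => Fin N))


theorem avg_slots {p N k : ℕ} (hN : 0 < N) (ls : Fin k → Fin p)
    (F : (Fin k × Fin (p - 1) → Fin N) → ℝ) :
    ((((N : ℝ)⁻¹) ^ p) ^ k) * ∑ Is : Fin k → Fin p → Fin N,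
        F (fun jm => Is jm.1 (slotMap (ls jm.1) jm.2)) =
      (Fintype.card (Fin k × Fin (p - 1) → Fin N) : ℝ)⁻¹ *
        ∑ site : Fin k × Fin (p - 1) → Fin N, F site := by
  have hN' : (0 : ℝ) < N := by exact_mod_cast hN
  have hsum : ∑ Is : Fin k → Fin p → Fin N, F (fun jm => Is jm.1 (slotMap (ls jm.1) jm.2)) =
      (N : ℝ) ^ k * ∑ site : Fin k × Fin (p - 1) → Fin N, F site := by
    let e : (Fin k → Fin p → Fin N) ≃ (Fin k → Fin N) × (Fin k × Fin (p - 1) → Fin N) :=
      ((Equiv.piCongrRight fun j => siteSplit N (ls j)).trans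
        (Equiv.arrowProdEquivProdArrow (Fin k) (fun _ => Fin N)
          (fun _ => Fin (p - 1) → Fin N))).trans
        (Equiv.prodCongr (Equiv.refl _) (Equiv.curry (Fin k) (Fin (p - 1)) (Fin N)).symm)
    have h1 : ∑ Is : Fin k → Fin p → Fin N, F (fun jm => Is jm.1 (slotMap (ls jm.1) jm.2)) =
        ∑ q : (Fin k → Fin N) × (Fin k × Fin (p - 1) → Fin N), F q.2 := by
      refine Fintype.sum_equiv e _ _ fun Is => ?_
      rfl
    rw [h1, Fintype.sum_prod_type]
    simp only [Finset.sum_const, Finset.card_univ, Fintype.card_fun, Fintype.card_fin,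
      nsmul_eq_mul, Nat.cast_pow]
  rw [hsum, ← mul_assoc]
  congr 1
  rw [Fintype.card_fun, Fintype.card_prod, Fintype.card_fin, Fintype.card_fin, Fintype.card_fin]
  rcases Nat.eq_zero_or_pos k with hk | hk
  · subst hk
    simp
  · have hp : 0 < p := Fin.pos (ls ⟨0, hk⟩)
    obtain ⟨q, rfl⟩ : ∃ q, p = q + 1 := ⟨p - 1, by omega⟩
    have e1 : q + 1 - 1 = q := by omega
    rw [e1, Nat.cast_pow, pow_succ, mul_pow, mul_assoc, ← mul_pow, inv_mul_cancel₀ hN'.ne',
      one_pow, mul_one, ← pow_mul, mul_comm q k, inv_pow]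

theorem avg_slots_edge {p N k : ℕ} (F : (Fin k × Fin p → Fin N) → ℝ) :
    ((((N : ℝ)⁻¹) ^ p) ^ k) * ∑ Is : Fin k → Fin p → Fin N, F (fun jm => Is jm.1 jm.2) =
      (Fintype.card (Fin k × Fin p → Fin N) : ℝ)⁻¹ *
        ∑ site : Fin k × Fin p → Fin N, F site := by
  have h1 : ∑ Is : Fin k → Fin p → Fin N, F (fun jm => Is jm.1 jm.2) =
      ∑ site : Fin k × Fin p → Fin N, F site :=
    Fintype.sum_equiv (Equiv.curry (Fin k) (Fin p) (Fin N)).symm _ _ fun _ => rfl
  rw [h1]
  congr 1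
  rw [Fintype.card_fun, Fintype.card_prod, Fintype.card_fin, Fintype.card_fin, Fintype.card_fin,
    Nat.cast_pow, ← pow_mul, mul_comm p k, inv_pow]

/-- The average of a function of one coordinate. -/
theorem avg_coord {ι T : Type*} [Fintype ι] [DecidableEq ι] [Fintype T] [Nonempty T] (j : ι)
    (g : T → ℝ) :
    (Fintype.card (ι → T) : ℝ)⁻¹ * ∑ f : ι → T, g (f j) = (Fintype.card T : ℝ)⁻¹ * ∑ t, g t := by
  have h1 : ∑ f : ι → T, g (f j) = ∑ q : T × ({i // i ≠ j} → T), g q.1 :=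
    Fintype.sum_equiv (Equiv.funSplitAt j T) _ _ fun _ => rfl
  have h2 : Fintype.card (ι → T) = Fintype.card T * Fintype.card ({i // i ≠ j} → T) := by
    rw [← Fintype.card_prod]
    exact Fintype.card_congr (Equiv.funSplitAt j T)
  have h3 : (0 : ℝ) < Fintype.card ({i // i ≠ j} → T) := by exact_mod_cast Fintype.card_pos
  rw [h1, h2, Fintype.sum_prod_type]
  simp only [Finset.sum_const, Finset.card_univ, nsmul_eq_mul]
  rw [← Finset.mul_sum, Nat.cast_mul, mul_inv, mul_assoc, inv_mul_cancel_left₀ h3.ne']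

theorem thInd_edges {Om I : Type*} [Fintype Om] [Fintype I] [Nonempty I] {p k : ℕ} (J : ℕ)
    (hJ : 1 ≤ J) (Kk : ℕ → Om → Om → ℝ)
    (hK0 : ∀ n w w', 0 ≤ Kk n w w') (hK1 : ∀ n w, ∑ w', Kk n w w' = 1) (sg : I → Om → Bool)
    (hmag : ∀ i w, -1 < Br.magK Kk sg i w ∧ Br.magK Kk sg i w < 1) (mm : ℕ → ℝ)
    (θs : Fin k → Inter p) (w0 : Om) :
    (Fintype.card (Fin k × Fin p → I) : ℝ)⁻¹ * ∑ site : Fin k × Fin p → I,
        Br.thInd Kk sg (Br.fExp J mm)
          (fun σ => Real.exp (∑ j, θs j (fun m => σ (j, m)))) site (J + 1) (fun _ => w0) =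
      ∑ j, (Fintype.card (Fin p → I) : ℝ)⁻¹ * ∑ site : Fin p → I,
        Br.thInd Kk sg (Br.fExp J mm) (fun σ => Real.exp (θs j σ)) site (J + 1)
          (fun _ => w0) := by
  have h1 : ∀ site : Fin k × Fin p → I,
      Br.thInd Kk sg (Br.fExp J mm)
          (fun σ => Real.exp (∑ j, θs j (fun m => σ (j, m)))) site (J + 1) (fun _ => w0) =
      ∑ j, Br.thInd Kk sg (Br.fExp J mm) (fun σ => Real.exp (θs j σ)) (fun t => site (j, t))
        (J + 1) (fun _ => w0) := by
    intro site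
    have := Br.thInd_prod J hJ Kk hK0 hK1 sg hmag mm
      (fun (j : Fin k) (σ : Fin p → Bool) => Real.exp (θs j σ)) (fun _ _ => Real.exp_pos _) site
      (fun _ => w0)
    rw [← this]
    congr 1
    funext σ
    rw [Real.exp_sum]
  simp only [h1]
  rw [Finset.sum_comm, Finset.mul_sum]
  refine Finset.sum_congr rfl fun j _ => ?_
  have hc : Fintype.card (Fin k × Fin p → I) = Fintype.card (Fin k → Fin p → I) :=
    Fintype.card_congr (Equiv.curry (Fin k) (Fin p) I)
  rw [hc]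
  rw [← avg_coord (ι := Fin k) (T := Fin p → I) j
    (fun site => Br.thInd Kk sg (Br.fExp J mm) (fun σ => Real.exp (θs j σ)) site
        (J + 1) (fun _ => w0))]
  congr 1
  exact Fintype.sum_equiv (Equiv.curry (Fin k) (Fin p) I) _ _ fun _ => rfl

/-- One trial function for all cavity expressions, in terms of `siteInner` and `edgeInner`. -/
theorem exists_trial_inner {Om I : Type} [Fintype Om] [Fintype I] [Nonempty I] (J : ℕ)
    (hJ : 1 ≤ J) (Kk : ℕ → Om → Om → ℝ)
    (hK0 : ∀ n w w', 0 ≤ Kk n w w') (hK1 : ∀ n w, ∑ w', Kk n w w' = 1) (sg : I → Om → Bool)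
    (hmag : ∀ i w, -1 < Br.magK Kk sg i w ∧ Br.magK Kk sg i w < 1) (mm : ℕ → ℝ) (w0 : Om) :
    ∃ X : (Fin (J + 1) → unitInterval) → ℝ, Measurable X ∧
      (∀ (p k : ℕ) (θs : Fin k → Inter p) (h : ℝ),
        RedT.siteInner p k J (fun d : Fin J => mm d) X θs h =
          (Fintype.card (Fin k × Fin (p - 1) → I) : ℝ)⁻¹ *
            ∑ site : Fin k × Fin (p - 1) → I,
              Br.thInd Kk sg (Br.fExp J mm) (Br.siteW h θs) site (J + 1) (fun _ => w0)) ∧
      (∀ (p : ℕ) (θ : Inter p),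
        RedT.edgeInner p J (fun d : Fin J => mm d) X θ =
          (Fintype.card (Fin p → I) : ℝ)⁻¹ * ∑ site : Fin p → I,
              Br.thInd Kk sg (Br.fExp J mm) (fun σ => Real.exp (θ σ)) site (J + 1)
                (fun _ => w0)) := by
  obtain ⟨X, hX, hF⟩ := Br.exists_trial_of_context J hJ Kk hK0 hK1 sg hmag mm w0
  refine ⟨X, hX, fun p k θs h => ?_, fun p θ => ?_⟩
  · unfold RedT.siteInner
    simp only [Br.siteTerm_eq_multiAff]
    refine hF (Fin k × Fin (p - 1)) (Br.siteW h θs) fun s => ?_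
    unfold Br.siteW
    have : 0 < ∑ ε : Bool, Real.exp (h * spinVal ε + ∑ j : Fin k,
        θs j (fun ℓ => if h : ℓ.val < p - 1 then s (j, ⟨ℓ.val, h⟩) else ε)) :=
      Finset.sum_pos (fun _ _ => Real.exp_pos _) Finset.univ_nonempty
    positivity
  · unfold RedT.edgeInner
    simp only [Br.edgeTerm_eq_multiAff]
    exact hF (Fin p) (fun σ => Real.exp (θ σ)) fun s => Real.exp_pos _



end Crest.Agent.R141.Asm
end

-- ▼ part R141/Trunc
section

/-!
Row 141, Part L, section 4.3: truncation of the Poisson sums (helper585).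

`site_side`, `edge_side` : to compare `siteG`, `edgeG` of a 1-Lipschitz functional `Ψ` with averages
of `siteFun`, `edgeFun` over finitely many trials, it is enough to compare the terms with fewer than
`k0` interactions up to `δ`; `k0, δ` depend only on `α, p, ε` and bounds of the interactions and
fields.
-/

set_option autoImplicit false
set_option linter.unusedSectionVars false

open MeasureTheory Filter Crest.ProbabilityR.Diluted

namespace Crest.Agent.R141.Trunc

open Crest.Agent.R141.Pois Crest.Agent.R141.Cav Crest.Agent.R141.RedT Crest.Agent.R141.RedF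
open Crest.Agent.R141.Red (poissonWeight_nonneg hasSum_poissonWeight summable_poisson_of_le)

/-! ### weighted averages -/

theorem wavg_const {ι : Type*} [Fintype ι] {a : ι → ℝ} (h1 : ∑ i, a i = 1) (c : ℝ) :
    ∑ i, a i * c = c := by rw [← Finset.sum_mul, h1, one_mul]

theorem abs_wavg_le {ι : Type*} [Fintype ι] {a : ι → ℝ} (h0 : ∀ i, 0 ≤ a i)
    (h1 : ∑ i, a i = 1) {f : ι → ℝ} {c : ℝ} (h : ∀ i, |f i| ≤ c) : |∑ i, a i * f i| ≤ c := by
  calc |∑ i, a i * f i| ≤ ∑ i, |a i * f i| := Finset.abs_sum_le_sum_abs _ _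
    _ ≤ ∑ i, a i * c := Finset.sum_le_sum fun i _ => by
        rw [abs_mul, abs_of_nonneg (h0 i)]
        exact mul_le_mul_of_nonneg_left (h i) (h0 i)
    _ = c := wavg_const h1 c

theorem wavg_sub {ι : Type*} [Fintype ι] (a f g : ι → ℝ) :
    ∑ i, a i * f i - ∑ i, a i * g i = ∑ i, a i * (f i - g i) := by
  rw [← Finset.sum_sub_distrib]
  exact Finset.sum_congr rfl fun i _ => by ring


theorem sum_prod_weights {κ : Type*} [Fintype κ] {a : κ → ℝ} (h1 : ∑ k, a k = 1) (M : ℕ) :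
    ∑ f : Fin M → κ, ∏ j, a (f j) = 1 := by
  classical
  have := Finset.prod_univ_sum (fun _ : Fin M => (Finset.univ : Finset κ)) (fun _ k => a k)
  rw [Fintype.piFinset_univ] at this
  rw [← this]
  simp [h1]

/-- the average over `Is`. -/
theorem avg_const {M N p : ℕ} (hN : 0 < N) (c : ℝ) :
    (((N : ℝ)⁻¹) ^ p) ^ M * ∑ _Is : Fin M → Fin p → Fin N, c = c := by
  have h : (0 : ℝ) < N := by exact_mod_cast hN
  rw [Finset.sum_const, Finset.card_univ, Fintype.card_fun, Fintype.card_fun, Fintype.card_fin,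
    Fintype.card_fin, Fintype.card_fin, nsmul_eq_mul, ← mul_assoc]
  push_cast
  rw [← mul_pow, ← mul_pow, inv_mul_cancel₀ h.ne', one_pow, one_pow, one_mul]

theorem abs_avg_le {M N p : ℕ} (hN : 0 < N) {f : (Fin M → Fin p → Fin N) → ℝ} {c : ℝ}
    (h : ∀ Is, |f Is| ≤ c) :
    |(((N : ℝ)⁻¹) ^ p) ^ M * ∑ Is : Fin M → Fin p → Fin N, f Is| ≤ c := by
  have h0 : (0 : ℝ) ≤ (((N : ℝ)⁻¹) ^ p) ^ M := by positivity
  calc |(((N : ℝ)⁻¹) ^ p) ^ M * ∑ Is : Fin M → Fin p → Fin N, f Is|
      = (((N : ℝ)⁻¹) ^ p) ^ M * |∑ Is : Fin M → Fin p → Fin N, f Is| := by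
        rw [abs_mul, abs_of_nonneg h0]
    _ ≤ (((N : ℝ)⁻¹) ^ p) ^ M * ∑ _Is : Fin M → Fin p → Fin N, c :=
        mul_le_mul_of_nonneg_left ((Finset.abs_sum_le_sum_abs _ _).trans
          (Finset.sum_le_sum fun Is _ => h Is)) h0
    _ = c := avg_const hN c

variable {p : ℕ} {K K' : Type} [Fintype K] [Fintype K']

/-! ### the general comparison -/

/-- Abstract form: Poisson sums of weighted averages. -/
theorem poisson_side {lam : ℝ} (hlam : 0 ≤ lam) (a b : ℝ) {ε : ℝ} (hε : 0 < ε) :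
    ∃ k0 : ℕ, ∃ δ : ℝ, 0 < δ ∧ ∀ (G : ℕ → ℝ) (Q : Type) [Fintype Q] (μ : Q → ℝ)
      (_ : ∀ q, 0 ≤ μ q) (_ : ∑ q, μ q = 1) (G' : Q → ℕ → ℝ),
      (∀ k : ℕ, |G k| ≤ a * k + b) → (∀ q, ∀ k : ℕ, |G' q k| ≤ a * k + b) →
      (∀ k < k0, |G k - ∑ q, μ q * G' q k| ≤ δ) →
      |∑' k, poissonWeight lam k * G k - ∑ q, μ q * ∑' k, poissonWeight lam k * G' q k| ≤ ε := by
  obtain ⟨k0, δ, hδ, H⟩ := Num.poisson_compare hlam a b hε
  refine ⟨k0, δ, hδ, fun G Q _ μ hμ0 hμ1 G' hG hG' h => ?_⟩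
  have h1 := H G (fun k => ∑ q, μ q * G' q k) hG
    (fun k => abs_wavg_le hμ0 hμ1 fun q => hG' q k) h
  rwa [Num.poisson_tsum_finset_sum hlam Finset.univ μ G' (fun _ => a) (fun _ => b)
    (fun q _ k => hG' q k)] at h1

/-! ### bounds -/

theorem abs_cavU_sub_le {N M : ℕ} {B Bh : ℝ} (x : ℝ) (hx : |x| ≤ Bh) (θs : Fin M → Inter p)
    (hθ : ∀ j s, |θs j s| ≤ B) (ls : Fin M → Fin p) (Is : Fin M → Fin p → Fin N)
    (s : Fin N → Bool) : |cavU x θs ls Is s - Real.log 2| ≤ B * M + Bh := by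
  have h2 : Real.log 2 = Real.log (∑ _e : Bool, Real.exp 0) := by simp
  unfold cavU
  rw [h2]
  refine abs_log_sum_exp_sub_le fun e => ?_
  rw [sub_zero]
  have h3 : |x * spinVal e| ≤ Bh := by
    rw [abs_mul, Red.abs_spinVal, mul_one]; exact hx
  have h4 : |∑ j, θs j (fun m => if m = ls j then e else s (Is j m))| ≤ B * M := by
    calc |∑ j, θs j (fun m => if m = ls j then e else s (Is j m))|
        ≤ ∑ j, |θs j (fun m => if m = ls j then e else s (Is j m))| :=
          Finset.abs_sum_le_sum_abs _ _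
      _ ≤ ∑ _j : Fin M, B := Finset.sum_le_sum fun j _ => hθ j _
      _ = B * M := by simp [mul_comm]
  calc |x * spinVal e + ∑ j, θs j (fun m => if m = ls j then e else s (Is j m))|
      ≤ |x * spinVal e| + |∑ j, θs j (fun m => if m = ls j then e else s (Is j m))| :=
        abs_add_le _ _
    _ ≤ B * M + Bh := by linarith

theorem abs_edgeU_le {N M : ℕ} {B : ℝ} (θs : Fin M → Inter p)
    (hθ : ∀ j s, |θs j s| ≤ B) (Is : Fin M → Fin p → Fin N)
    (s : Fin N → Bool) : |edgeU θs Is s| ≤ B * M := by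
  unfold edgeU
  calc |∑ j, θs j (fun m => s (Is j m))| ≤ ∑ j, |θs j (fun m => s (Is j m))| :=
        Finset.abs_sum_le_sum_abs _ _
    _ ≤ ∑ _j : Fin M, B := Finset.sum_le_sum fun j _ => hθ j _
    _ = B * M := by simp [mul_comm]

theorem nonneg_of_bound {θ : K → Inter p} [Nonempty K] {B : ℝ} (hθ : ∀ k s, |θ k s| ≤ B) :
    0 ≤ B :=
  (abs_nonneg _).trans (hθ (Classical.arbitrary K) (fun _ => true))

theorem nonempty_of_sum_eq_one {w : K → ℝ} (hw1 : ∑ k, w k = 1) : Nonempty K := by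
  by_contra h
  rw [not_nonempty_iff] at h
  simp at hw1

/-- a `1`-Lipschitz functional: constant shift of at most the sup distance. -/
theorem abs_psi_sub_le {N : ℕ} {Ψ : Ham N → ℝ} (hΨ : LipG 1 Ψ) (H V : Ham N) {a : ℝ}
    (ha : 0 ≤ a) (h : ∀ s, |V s| ≤ a) : |Ψ (H + V) - Ψ H| ≤ a := by
  have h1 := hΨ (H + V) H
  rw [add_sub_cancel_left, one_mul] at h1
  exact h1.trans (norm_le_of_forall ha h)

theorem abs_siteInner_le {k r : ℕ} {m : Fin r → ℝ} {X : (Fin (r + 1) → unitInterval) → ℝ}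
    (hm : ∀ d, 0 < m d) (hX : Measurable X) {B Bh : ℝ} (θs : Fin k → Inter p)
    (hθ : ∀ j s, |θs j s| ≤ B) {x : ℝ} (hx : |x| ≤ Bh) :
    |siteInner p k r m X θs x| ≤ B * k + Bh := by
  have h := (lipG_siteInner (p := p) (k := k) hm hX).abs_le θs x
  rw [siteInner_zero hm, abs_zero, zero_add] at h
  have h2 : ∑ j, supNorm (θs j) ≤ B * k := by
    calc ∑ j, supNorm (θs j) ≤ ∑ _j : Fin k, B :=
          Finset.sum_le_sum fun j _ => Red.supNorm_le (hθ j)
      _ = B * k := by simp [mul_comm]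
  linarith

/-! ### the site side -/

/-- The site weights: `w k / p` on `K × Fin p`. -/
theorem sum_siteWeights {w : K → ℝ} (hw1 : ∑ k, w k = 1) (hp : 0 < p) :
    ∑ a : K × Fin p, w a.1 / p = 1 := by
  have hp' : (p : ℝ) ≠ 0 := by exact_mod_cast hp.ne'
  rw [Fintype.sum_prod_type]
  simp only [Finset.sum_const, Finset.card_univ, Fintype.card_fin, nsmul_eq_mul]
  rw [← hw1]
  refine Finset.sum_congr rfl fun k _ => ?_
  field_simp

/-- reorganisation of the index type of `siteG`. -/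
theorem sum_site_index {M : ℕ} {X : Type} [Fintype X] (w : K → ℝ) (c : ℝ)
    (f : (Fin M → K × Fin p) → (Fin M → X) → ℝ) :
    ∑ i : Fin M → K × Fin p × X, (∏ j, (w (i j).1 * (p : ℝ)⁻¹ * c)) *
        f (fun j => ((i j).1, (i j).2.1)) (fun j => (i j).2.2) =
      ∑ κ : Fin M → K × Fin p, (∏ j, (w (κ j).1 / p)) *
        (c ^ M * ∑ xs : Fin M → X, f κ xs) := by
  rw [← sum_pair (K := K × Fin p) (X := X) (fun a => w a.1 / p) c f]
  refine Fintype.sum_equiv (Equiv.arrowCongr (Equiv.refl (Fin M))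
    (Equiv.prodAssoc K (Fin p) X).symm) _ _ fun i => ?_
  rfl

theorem siteG_sub_eq {α : ℝ} {N : ℕ} (hN : 0 < N) (hp : 0 < p) (w : K → ℝ)
    (hw0 : ∀ k, 0 ≤ w k) (hw1 : ∑ k, w k = 1) (θ : K → Inter p)
    (w' : K' → ℝ) (hw0' : ∀ k, 0 ≤ w' k) (hw1' : ∑ k, w' k = 1) (h : K' → ℝ)
    (Ψ : Ham N → ℝ) (hΨ : LipG 1 Ψ) (H : Ham N) (hα : 0 ≤ α) {B Bh : ℝ}
    (hθ : ∀ k s, |θ k s| ≤ B) (hh : ∀ k, |h k| ≤ Bh) :
    siteG α N w θ w' h Ψ H - Ψ H - Real.log 2 =
      ∑' M : ℕ, poissonWeight (α * p) M * ∑ κ : Fin M → K × Fin p, (∏ j, (w (κ j).1 / p)) *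
        ∑ η, w' η * ((((N : ℝ)⁻¹) ^ p) ^ M * ∑ Is : Fin M → Fin p → Fin N,
          (Ψ (H + cavU (h η) (fun j => θ (κ j).1) (fun j => (κ j).2) Is) - Ψ H - Real.log 2)) := by
  have hlam : 0 ≤ α * p := mul_nonneg hα (Nat.cast_nonneg p)
  have : Nonempty K := nonempty_of_sum_eq_one hw1
  have : Nonempty K' := nonempty_of_sum_eq_one hw1'
  have hB0 : 0 ≤ B := nonneg_of_bound hθ
  have hBh0 : 0 ≤ Bh := (abs_nonneg _).trans (hh (Classical.arbitrary K'))
  -- the inner averages, for a fixed field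
  set g : K' → ℕ → ℝ := fun η M => ∑ κ : Fin M → K × Fin p, (∏ j, (w (κ j).1 / p)) *
    ((((N : ℝ)⁻¹) ^ p) ^ M * ∑ Is : Fin M → Fin p → Fin N,
      (Ψ (H + cavU (h η) (fun j => θ (κ j).1) (fun j => (κ j).2) Is) - Ψ H - Real.log 2)) with hg
  have hwp0 : ∀ a : K × Fin p, 0 ≤ w a.1 / p := fun a => div_nonneg (hw0 _) (Nat.cast_nonneg _)
  have hwp1 := sum_siteWeights (p := p) hw1 hp
  have hκ0 : ∀ M (κ : Fin M → K × Fin p), 0 ≤ ∏ j, (w (κ j).1 / p) := fun M κ =>
    Finset.prod_nonneg fun j _ => hwp0 _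
  have hκ1 : ∀ M, ∑ κ : Fin M → K × Fin p, ∏ j, (w (κ j).1 / p) = 1 := fun M =>
    sum_prod_weights hwp1 M
  have hterm : ∀ η M (κ : Fin M → K × Fin p) (Is : Fin M → Fin p → Fin N),
      |Ψ (H + cavU (h η) (fun j => θ (κ j).1) (fun j => (κ j).2) Is) - Ψ H - Real.log 2| ≤
        B * M + (Bh + 2 * Real.log 2) := by
    intro η M κ Is
    have l2 : 0 ≤ Real.log 2 := Real.log_nonneg one_le_two
    have h1 : |Ψ (H + cavU (h η) (fun j => θ (κ j).1) (fun j => (κ j).2) Is) - Ψ H| ≤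
        B * M + Bh + Real.log 2 := by
      refine abs_psi_sub_le hΨ H _ (by positivity) fun s => ?_
      have h2 := abs_cavU_sub_le (h η) (hh η) (fun j => θ (κ j).1) (fun j s => hθ _ s)
        (fun j => (κ j).2) Is s
      have h3 := abs_add_le (cavU (h η) (fun j => θ (κ j).1) (fun j => (κ j).2) Is s -
        Real.log 2) (Real.log 2)
      rw [sub_add_cancel, abs_of_nonneg l2] at h3
      linarith
    have h3 := abs_sub (Ψ (H + cavU (h η) (fun j => θ (κ j).1) (fun j => (κ j).2) Is) - Ψ H)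
      (Real.log 2)
    rw [abs_of_nonneg l2] at h3
    linarith
  have hgb : ∀ η, ∀ M : ℕ, |g η M| ≤ B * M + (Bh + 2 * Real.log 2) := fun η M =>
    abs_wavg_le (hκ0 M) (hκ1 M) fun κ => abs_avg_le hN fun Is => hterm η M κ Is
  -- the explicit formula
  have h1 : siteG α N w θ w' h Ψ H = ∑ η, w' η * (∑' M : ℕ, poissonWeight (α * p) M * g η M +
      (Ψ H + Real.log 2)) := by
    rw [siteG_eq]
    refine Finset.sum_congr rfl fun η _ => ?_
    congr 1
    have h2 : ∀ M : ℕ, ∑ i : Fin M → K × Fin p × (Fin p → Fin N),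
        (∏ j, (w (i j).1 * (p : ℝ)⁻¹ * ((N : ℝ)⁻¹) ^ p)) *
          Ψ (H + cavU (h η) (fun j => θ (i j).1) (fun j => (i j).2.1) (fun j => (i j).2.2)) =
        g η M + (Ψ H + Real.log 2) := by
      intro M
      have h3 := sum_site_index (p := p) (M := M) (X := Fin p → Fin N) w (((N : ℝ)⁻¹) ^ p)
        (fun κ Is => Ψ (H + cavU (h η) (fun j => θ (κ j).1) (fun j => (κ j).2) Is))
      rw [h3, hg]
      have h4 : Ψ H + Real.log 2 = ∑ κ : Fin M → K × Fin p, (∏ j, (w (κ j).1 / p)) *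
          ((((N : ℝ)⁻¹) ^ p) ^ M * ∑ _Is : Fin M → Fin p → Fin N, (Ψ H + Real.log 2)) := by
        rw [avg_const hN, wavg_const (hκ1 M)]
      rw [h4]
      simp only
      rw [← Finset.sum_add_distrib]
      refine Finset.sum_congr rfl fun κ _ => ?_
      rw [← mul_add, ← mul_add, ← Finset.sum_add_distrib]
      congr 2
      refine Finset.sum_congr rfl fun Is _ => ?_
      ring
    simp only [h2, mul_add]
    have hs1 := summable_poisson_of_le hlam (hgb η)
    have hs2 : Summable fun M : ℕ => poissonWeight (α * p) M * Ψ H :=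
      (Red.hasSum_poissonWeight _).summable.mul_right _
    have hs3 : Summable fun M : ℕ => poissonWeight (α * p) M * Real.log 2 :=
      (Red.hasSum_poissonWeight _).summable.mul_right _
    rw [hs1.tsum_add (hs2.add hs3), hs2.tsum_add hs3, Num.poisson_tsum_const,
      Num.poisson_tsum_const]
  rw [h1]
  simp only [mul_add, Finset.sum_add_distrib]
  rw [wavg_const hw1', wavg_const hw1']
  rw [← Num.poisson_tsum_finset_sum hlam Finset.univ w' g (fun _ => B)
    (fun _ => Bh + 2 * Real.log 2) (fun η _ M => hgb η M)]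
  have h5 : ∀ M : ℕ, ∑ η, w' η * g η M = ∑ κ : Fin M → K × Fin p, (∏ j, (w (κ j).1 / p)) *
        ∑ η, w' η * ((((N : ℝ)⁻¹) ^ p) ^ M * ∑ Is : Fin M → Fin p → Fin N,
          (Ψ (H + cavU (h η) (fun j => θ (κ j).1) (fun j => (κ j).2) Is) - Ψ H - Real.log 2)) := by
    intro M
    simp only [hg, Finset.mul_sum]
    rw [Finset.sum_comm]
    refine Finset.sum_congr rfl fun κ _ => Finset.sum_congr rfl fun η _ =>
      Finset.sum_congr rfl fun Is _ => ?_
    ring
  simp only [h5]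
  ring

/-- **The site side.** -/
theorem site_side {α : ℝ} (hα : 0 ≤ α) (hp : 0 < p) {B Bh : ℝ} (hB : 0 ≤ B) (hBh : 0 ≤ Bh)
    {ε : ℝ} (hε : 0 < ε) :
    ∃ k0 : ℕ, ∃ δ : ℝ, 0 < δ ∧
      ∀ (K K' : Type) [Fintype K] [Fintype K'] (w : K → ℝ) (θ : K → Inter p) (w' : K' → ℝ)
        (h : K' → ℝ), (∀ k, 0 ≤ w k) → ∑ k, w k = 1 → (∀ k, 0 ≤ w' k) → ∑ k, w' k = 1 →
        (∀ k s, |θ k s| ≤ B) → (∀ k, |h k| ≤ Bh) →
      ∀ (N : ℕ), 0 < N → ∀ (Ψ : Ham N → ℝ), LipG 1 Ψ → ∀ (H : Ham N)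
        (Q : Type) [Fintype Q] (μ : Q → ℝ), (∀ q, 0 ≤ μ q) → ∑ q, μ q = 1 →
      ∀ (r : ℕ) (m : Fin r → ℝ), (∀ d, 0 < m d) →
        ∀ (X : Q → (Fin (r + 1) → unitInterval) → ℝ), (∀ q, Measurable (X q)) →
      (∀ k < k0, ∀ (κ : Fin k → K × Fin p) (η : K'),
        |(((N : ℝ)⁻¹) ^ p) ^ k * ∑ Is : Fin k → Fin p → Fin N,
          (Ψ (H + cavU (h η) (fun j => θ (κ j).1) (fun j => (κ j).2) Is) - Ψ H - Real.log 2) -
          ∑ q, μ q * siteInner p k r m (X q) (fun j => swapInter (κ j).2 (θ (κ j).1)) (h η)| ≤ δ) →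
      |siteG α N w θ w' h Ψ H - Ψ H - Real.log 2 -
        ∑ q, μ q * siteFun p (α * p) (symMeasure w θ) (finMeasure w' h) r m (X q)| ≤ ε := by
  have hlam : 0 ≤ α * p := mul_nonneg hα (Nat.cast_nonneg p)
  have l2 : 0 ≤ Real.log 2 := Real.log_nonneg one_le_two
  obtain ⟨k0, δ, hδ, HH⟩ := poisson_side hlam B (Bh + 2 * Real.log 2) hε
  refine ⟨k0, δ, hδ, ?_⟩
  intro K K' _ _ w θ w' h hw0 hw1 hw0' hw1' hθ hh N hN Ψ hΨ H Q _ μ hμ0 hμ1 r m hm X hX happ
  have : Nonempty K := nonempty_of_sum_eq_one hw1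
  have : Nonempty K' := nonempty_of_sum_eq_one hw1'
  have hwp0 : ∀ a : K × Fin p, 0 ≤ w a.1 / p := fun a => div_nonneg (hw0 _) (Nat.cast_nonneg _)
  have hκ0 : ∀ M (κ : Fin M → K × Fin p), 0 ≤ ∏ j, (w (κ j).1 / p) := fun M κ =>
    Finset.prod_nonneg fun j _ => hwp0 _
  have hκ1 : ∀ M, ∑ κ : Fin M → K × Fin p, ∏ j, (w (κ j).1 / p) = 1 := fun M =>
    sum_prod_weights (sum_siteWeights (p := p) hw1 hp) M
  set G : ℕ → ℝ := fun M => ∑ κ : Fin M → K × Fin p, (∏ j, (w (κ j).1 / p)) *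
        ∑ η, w' η * ((((N : ℝ)⁻¹) ^ p) ^ M * ∑ Is : Fin M → Fin p → Fin N,
          (Ψ (H + cavU (h η) (fun j => θ (κ j).1) (fun j => (κ j).2) Is) - Ψ H - Real.log 2))
    with hG
  set G' : Q → ℕ → ℝ := fun q M => ∑ κ : Fin M → K × Fin p, (∏ j, (w (κ j).1 / p)) *
        ∑ η, w' η * siteInner p M r m (X q) (fun j => swapInter (κ j).2 (θ (κ j).1)) (h η)
    with hG'
  have hterm : ∀ η M (κ : Fin M → K × Fin p) (Is : Fin M → Fin p → Fin N),
      |Ψ (H + cavU (h η) (fun j => θ (κ j).1) (fun j => (κ j).2) Is) - Ψ H - Real.log 2| ≤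
        B * M + (Bh + 2 * Real.log 2) := by
    intro η M κ Is
    have h1 : |Ψ (H + cavU (h η) (fun j => θ (κ j).1) (fun j => (κ j).2) Is) - Ψ H| ≤
        B * M + Bh + Real.log 2 := by
      refine abs_psi_sub_le hΨ H _ (by positivity) fun s => ?_
      have h2 := abs_cavU_sub_le (h η) (hh η) (fun j => θ (κ j).1) (fun j s => hθ _ s)
        (fun j => (κ j).2) Is s
      have h3 := abs_add_le (cavU (h η) (fun j => θ (κ j).1) (fun j => (κ j).2) Is s -
        Real.log 2) (Real.log 2)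
      rw [sub_add_cancel, abs_of_nonneg l2] at h3
      linarith
    have h3 := abs_sub (Ψ (H + cavU (h η) (fun j => θ (κ j).1) (fun j => (κ j).2) Is) - Ψ H)
      (Real.log 2)
    rw [abs_of_nonneg l2] at h3
    linarith
  have hGb : ∀ M : ℕ, |G M| ≤ B * M + (Bh + 2 * Real.log 2) := fun M =>
    abs_wavg_le (hκ0 M) (hκ1 M) fun κ => abs_wavg_le hw0' hw1' fun η =>
      abs_avg_le hN fun Is => hterm η M κ Is
  have hGb' : ∀ q, ∀ M : ℕ, |G' q M| ≤ B * M + (Bh + 2 * Real.log 2) := by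
    intro q M
    refine abs_wavg_le (hκ0 M) (hκ1 M) fun κ => abs_wavg_le hw0' hw1' fun η => ?_
    have := abs_siteInner_le (p := p) hm (hX q) (fun j => swapInter (κ j).2 (θ (κ j).1))
      (fun j s => hθ _ _) (hh η)
    linarith
  have hGG : ∀ k < k0, |G k - ∑ q, μ q * G' q k| ≤ δ := by
    intro k hk
    have h1 : G k - ∑ q, μ q * G' q k = ∑ κ : Fin k → K × Fin p, (∏ j, (w (κ j).1 / p)) *
        ∑ η, w' η * ((((N : ℝ)⁻¹) ^ p) ^ k * ∑ Is : Fin k → Fin p → Fin N,
          (Ψ (H + cavU (h η) (fun j => θ (κ j).1) (fun j => (κ j).2) Is) - Ψ H - Real.log 2) -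
          ∑ q, μ q * siteInner p k r m (X q) (fun j => swapInter (κ j).2 (θ (κ j).1)) (h η)) := by
      have h2 : ∑ q, μ q * G' q k = ∑ κ : Fin k → K × Fin p, (∏ j, (w (κ j).1 / p)) *
          ∑ η, w' η * ∑ q, μ q *
            siteInner p k r m (X q) (fun j => swapInter (κ j).2 (θ (κ j).1)) (h η) := by
        simp only [hG', Finset.mul_sum]
        rw [Finset.sum_comm]
        refine Finset.sum_congr rfl fun κ _ => ?_
        rw [Finset.sum_comm]
        refine Finset.sum_congr rfl fun η _ => Finset.sum_congr rfl fun q _ => ?_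
        ring
      rw [h2, hG]
      simp only
      rw [wavg_sub]
      refine Finset.sum_congr rfl fun κ _ => ?_
      rw [wavg_sub]
    rw [h1]
    exact abs_wavg_le (hκ0 k) (hκ1 k) fun κ => abs_wavg_le hw0' hw1' fun η => happ k hk κ η
  have h3 := HH G Q μ hμ0 hμ1 G' hGb hGb' hGG
  have h4 : ∀ q, siteFun p (α * p) (symMeasure w θ) (finMeasure w' h) r m (X q) =
      ∑' k, poissonWeight (α * p) k * G' q k := fun q =>
    siteFun_symMeasure w θ w' h hw0 hw1 hw0' hp (α * p) r m (X q)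
  simp only [h4]
  rw [siteG_sub_eq hN hp w hw0 hw1 θ w' hw0' hw1' h Ψ hΨ H hα hθ hh]
  exact h3

/-! ### the edge side -/

theorem edgeG_sub_eq {α : ℝ} {N : ℕ} (hN : 0 < N) (hp : 0 < p) (w : K → ℝ)
    (hw0 : ∀ k, 0 ≤ w k) (hw1 : ∑ k, w k = 1) (θ : K → Inter p)
    (Ψ : Ham N → ℝ) (hΨ : LipG 1 Ψ) (H : Ham N) (hα : 0 ≤ α) {B : ℝ}
    (hθ : ∀ k s, |θ k s| ≤ B) :
    edgeG α N w θ Ψ H - Ψ H =
      ∑' M : ℕ, poissonWeight (α * (p - 1)) M * ∑ κ : Fin M → K, (∏ j, w (κ j)) *
        ((((N : ℝ)⁻¹) ^ p) ^ M * ∑ Is : Fin M → Fin p → Fin N,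
          (Ψ (H + edgeU (fun j => θ (κ j)) Is) - Ψ H)) := by
  have hp1 : (0 : ℝ) ≤ (p : ℝ) - 1 := by
    have : (1 : ℝ) ≤ p := by exact_mod_cast hp
    linarith
  have hlam : 0 ≤ α * ((p : ℝ) - 1) := mul_nonneg hα hp1
  have : Nonempty K := nonempty_of_sum_eq_one hw1
  have hB0 : 0 ≤ B := nonneg_of_bound hθ
  set g : ℕ → ℝ := fun M => ∑ κ : Fin M → K, (∏ j, w (κ j)) *
        ((((N : ℝ)⁻¹) ^ p) ^ M * ∑ Is : Fin M → Fin p → Fin N,
          (Ψ (H + edgeU (fun j => θ (κ j)) Is) - Ψ H)) with hg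
  have hκ0 : ∀ M (κ : Fin M → K), 0 ≤ ∏ j, w (κ j) := fun M κ =>
    Finset.prod_nonneg fun j _ => hw0 _
  have hκ1 : ∀ M, ∑ κ : Fin M → K, ∏ j, w (κ j) = 1 := fun M => sum_prod_weights hw1 M
  have hgb : ∀ M : ℕ, |g M| ≤ B * M + 0 := fun M =>
    abs_wavg_le (hκ0 M) (hκ1 M) fun κ => abs_avg_le hN fun Is => by
      rw [add_zero]
      exact abs_psi_sub_le hΨ H _ (by positivity) fun s =>
        abs_edgeU_le (fun j => θ (κ j)) (fun j s => hθ _ s) Is s
  have h2 : ∀ M : ℕ, ∑ i : Fin M → K × (Fin p → Fin N), (∏ j, (w (i j).1 * ((N : ℝ)⁻¹) ^ p)) *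
        Ψ (H + edgeU (fun j => θ (i j).1) (fun j => (i j).2)) = g M + Ψ H := by
    intro M
    have h3 := sum_pair (K := K) (X := Fin p → Fin N) w (((N : ℝ)⁻¹) ^ p)
      (fun κ Is => Ψ (H + edgeU (M := M) (fun j => θ (κ j)) Is))
    rw [h3, hg]
    have h4 : Ψ H = ∑ κ : Fin M → K, (∏ j, w (κ j)) *
        ((((N : ℝ)⁻¹) ^ p) ^ M * ∑ _Is : Fin M → Fin p → Fin N, Ψ H) := by
      rw [avg_const hN, wavg_const (hκ1 M)]
    conv_rhs => rw [h4]
    simp only
    rw [← Finset.sum_add_distrib]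
    refine Finset.sum_congr rfl fun κ _ => ?_
    rw [← mul_add, ← mul_add, ← Finset.sum_add_distrib]
    congr 2
    refine Finset.sum_congr rfl fun Is _ => ?_
    rw [avg_const hN, wavg_const (hκ1 M)]
    ring
  rw [edgeG_eq]
  simp only [h2, mul_add]
  have hs1 := summable_poisson_of_le hlam hgb
  have hs2 : Summable fun M : ℕ => poissonWeight (α * ((p : ℝ) - 1)) M * Ψ H :=
    (Red.hasSum_poissonWeight _).summable.mul_right _
  rw [hs1.tsum_add hs2, Num.poisson_tsum_const]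
  ring

/-- **The edge side.** -/
theorem edge_side {α : ℝ} (hα : 0 ≤ α) (hp : 0 < p) {B : ℝ} (hB : 0 ≤ B)
    {ε : ℝ} (hε : 0 < ε) :
    ∃ k0 : ℕ, ∃ δ : ℝ, 0 < δ ∧
      ∀ (K : Type) [Fintype K] (w : K → ℝ) (θ : K → Inter p),
        (∀ k, 0 ≤ w k) → ∑ k, w k = 1 → (∀ k s, |θ k s| ≤ B) →
      ∀ (N : ℕ), 0 < N → ∀ (Ψ : Ham N → ℝ), LipG 1 Ψ → ∀ (H : Ham N)
        (Q : Type) [Fintype Q] (μ : Q → ℝ), (∀ q, 0 ≤ μ q) → ∑ q, μ q = 1 →
      ∀ (r : ℕ) (m : Fin r → ℝ), (∀ d, 0 < m d) →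
        ∀ (X : Q → (Fin (r + 1) → unitInterval) → ℝ), (∀ q, Measurable (X q)) →
      (∀ k < k0, ∀ (κ : Fin k → K),
        |(((N : ℝ)⁻¹) ^ p) ^ k * ∑ Is : Fin k → Fin p → Fin N,
          (Ψ (H + edgeU (fun j => θ (κ j)) Is) - Ψ H) -
          ∑ q, μ q * ∑ j, edgeInner p r m (X q) (θ (κ j))| ≤ δ) →
      |edgeG α N w θ Ψ H - Ψ H -
        α * ((p : ℝ) - 1) * ∑ q, μ q * edgeFun p (finMeasure w θ) r m (X q)| ≤ ε := by
  have hp1 : (0 : ℝ) ≤ (p : ℝ) - 1 := by
    have : (1 : ℝ) ≤ p := by exact_mod_cast hp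
    linarith
  have hlam : 0 ≤ α * ((p : ℝ) - 1) := mul_nonneg hα hp1
  obtain ⟨k0, δ, hδ, HH⟩ := poisson_side hlam B 0 hε
  refine ⟨k0, δ, hδ, ?_⟩
  intro K _ w θ hw0 hw1 hθ N hN Ψ hΨ H Q _ μ hμ0 hμ1 r m hm X hX happ
  have : Nonempty K := nonempty_of_sum_eq_one hw1
  have hκ0 : ∀ M (κ : Fin M → K), 0 ≤ ∏ j, w (κ j) := fun M κ =>
    Finset.prod_nonneg fun j _ => hw0 _
  have hκ1 : ∀ M, ∑ κ : Fin M → K, ∏ j, w (κ j) = 1 := fun M => sum_prod_weights hw1 M
  set G : ℕ → ℝ := fun M => ∑ κ : Fin M → K, (∏ j, w (κ j)) *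
        ((((N : ℝ)⁻¹) ^ p) ^ M * ∑ Is : Fin M → Fin p → Fin N,
          (Ψ (H + edgeU (fun j => θ (κ j)) Is) - Ψ H)) with hG
  set G' : Q → ℕ → ℝ := fun q M => ∑ κ : Fin M → K, (∏ j, w (κ j)) *
        ∑ j, edgeInner p r m (X q) (θ (κ j)) with hG'
  have hGb : ∀ M : ℕ, |G M| ≤ B * M + 0 := fun M =>
    abs_wavg_le (hκ0 M) (hκ1 M) fun κ => abs_avg_le hN fun Is => by
      rw [add_zero]
      exact abs_psi_sub_le hΨ H _ (by positivity) fun s =>
        abs_edgeU_le (fun j => θ (κ j)) (fun j s => hθ _ s) Is s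
  have hE : ∀ q k, |edgeInner p r m (X q) (θ k)| ≤ B := fun q k =>
    (abs_edgeInner_le hm (hX q) (θ k)).trans (Red.supNorm_le (hθ k))
  have hGb' : ∀ q, ∀ M : ℕ, |G' q M| ≤ B * M + 0 := by
    intro q M
    refine abs_wavg_le (hκ0 M) (hκ1 M) fun κ => ?_
    rw [add_zero]
    calc |∑ j, edgeInner p r m (X q) (θ (κ j))| ≤ ∑ j, |edgeInner p r m (X q) (θ (κ j))| :=
          Finset.abs_sum_le_sum_abs _ _
      _ ≤ ∑ _j : Fin M, B := Finset.sum_le_sum fun j _ => hE q _
      _ = B * M := by simp [mul_comm]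
  have hGG : ∀ k < k0, |G k - ∑ q, μ q * G' q k| ≤ δ := by
    intro k hk
    have h1 : G k - ∑ q, μ q * G' q k = ∑ κ : Fin k → K, (∏ j, w (κ j)) *
        ((((N : ℝ)⁻¹) ^ p) ^ k * ∑ Is : Fin k → Fin p → Fin N,
          (Ψ (H + edgeU (fun j => θ (κ j)) Is) - Ψ H) -
          ∑ q, μ q * ∑ j, edgeInner p r m (X q) (θ (κ j))) := by
      have h2 : ∑ q, μ q * G' q k = ∑ κ : Fin k → K, (∏ j, w (κ j)) *
          ∑ q, μ q * ∑ j, edgeInner p r m (X q) (θ (κ j)) := by
        simp only [hG']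
        simp only [Finset.mul_sum]
        rw [Finset.sum_comm]
        refine Finset.sum_congr rfl fun κ _ => Finset.sum_congr rfl fun q _ =>
          Finset.sum_congr rfl fun j _ => ?_
        ring
      rw [h2, hG]
      simp only
      rw [wavg_sub]
    rw [h1]
    exact abs_wavg_le (hκ0 k) (hκ1 k) fun κ => happ k hk κ
  have h3 := HH G Q μ hμ0 hμ1 G' hGb hGb' hGG
  -- the Poisson average of `G'`
  have h4 : ∀ q, ∑' k, poissonWeight (α * ((p : ℝ) - 1)) k * G' q k =
      α * ((p : ℝ) - 1) * edgeFun p (finMeasure w θ) r m (X q) := by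
    intro q
    rw [edgeFun_finMeasure w θ hw0]
    have h5 : ∀ M : ℕ, G' q M = (M : ℝ) * ∑ k, w k * edgeInner p r m (X q) (θ k) := by
      intro M
      simp only [hG', Finset.mul_sum]
      rw [Finset.sum_comm]
      have h6 : ∀ j : Fin M, ∑ κ : Fin M → K, (∏ i, w (κ i)) * edgeInner p r m (X q) (θ (κ j)) =
          ∑ k, w k * edgeInner p r m (X q) (θ k) := by
        intro j
        classical
        have h7 := Finset.prod_univ_sum (fun _ : Fin M => (Finset.univ : Finset K))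
          (fun i k => w k * (if i = j then edgeInner p r m (X q) (θ k) else 1))
        rw [Fintype.piFinset_univ] at h7
        have h8 : ∀ κ : Fin M → K, ∏ i, (w (κ i) *
            (if i = j then edgeInner p r m (X q) (θ (κ i)) else 1)) =
            (∏ i, w (κ i)) * edgeInner p r m (X q) (θ (κ j)) := by
          intro κ
          rw [Finset.prod_mul_distrib, Finset.prod_ite_eq' Finset.univ j]
          simp
        simp only [h8] at h7
        rw [← h7, ← Finset.mul_prod_erase Finset.univ _ (Finset.mem_univ j)]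
        have h9 : ∏ i ∈ Finset.univ.erase j, ∑ k, (w k *
            (if i = j then edgeInner p r m (X q) (θ k) else 1)) = 1 := by
          refine Finset.prod_eq_one fun i hi => ?_
          have : i ≠ j := Finset.ne_of_mem_erase hi
          simp [this, hw1]
        rw [h9, mul_one]
        simp
      rw [Finset.sum_congr rfl fun j _ => h6 j, Finset.sum_const, Finset.card_univ,
        Fintype.card_fin, nsmul_eq_mul, Finset.mul_sum]
    simp only [h5]
    exact Num.poisson_tsum_mul_const _ _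
  rw [edgeG_sub_eq hN hp w hw0 hw1 θ Ψ hΨ H hα hθ]
  have h10 : α * ((p : ℝ) - 1) * ∑ q, μ q * edgeFun p (finMeasure w θ) r m (X q) =
      ∑ q, μ q * ∑' k, poissonWeight (α * ((p : ℝ) - 1)) k * G' q k := by
    simp only [h4]
    rw [Finset.mul_sum]
    exact Finset.sum_congr rfl fun q _ => by ring
  rw [h10]
  exact h3

end Crest.Agent.R141.Trunc
end

-- ▼ part R141/Asm2

/-!
# Row 141, Part L, final assembly: `PartL` from `Sec23` (helper552)
-/

set_option autoImplicit false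

open MeasureTheory Crest.ProbabilityR.Diluted Crest.Agent.R141.Pois Filter

namespace Crest.Agent.R141.Asm

open Crest.Agent.R141.Fact Crest.Agent.R141.KerS Crest.Agent.R141.RedT

theorem EPhi_add_const (p : Par) {N : ℕ} (hN : 0 < N) (H : (Fin N → Bool) → ℝ) (c : ℝ) :
    EPhi p N (fun s => H s + c) = EPhi p N H + c := by
  have h1 := EPhi_add p N H (fun _ => c)
  have h2 : ∀ d, eE (prior p N) (A (PP p N H d) (fil p N) p.xs (fun _ => c) 0) = c := by
    intro d
    have h3 : A (PP p N H d) (fil p N) p.xs (fun _ => c) 0 = fun _ => c :=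
      funext fun ω => A_const (PP_isProb p N H d) p.xs_expo.pos c 0 ω
    rw [h3]
    exact eE_const (prior_isProb p N) c
  simp only [h2, Ed_const p hN] at h1
  linarith

/-- the pattern types -/
abbrev Pat (K K' : Type) (p k1 k2 : ℕ) : Type :=
  (Σ k : Fin k1, (Fin (k : ℕ) → K × Fin p) × K') ⊕ (Σ k : Fin k2, (Fin (k : ℕ) → K))

/-- the slots of a pattern -/
abbrev Slot {K K' : Type} {p k1 k2 : ℕ} : Pat K K' p k1 k2 → Type
  | Sum.inl a => Fin (a.1 : ℕ) × Fin (p - 1)
  | Sum.inr a => Fin (a.1 : ℕ) × Fin p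

instance {K K' : Type} {p k1 k2 : ℕ} (a : Pat K K' p k1 k2) : Fintype (Slot a) := by
  cases a <;> (dsimp only [Slot]; infer_instance)

instance {K K' : Type} {p k1 k2 : ℕ} (a : Pat K K' p k1 k2) : DecidableEq (Slot a) := by
  cases a <;> (dsimp only [Slot]; infer_instance)

/-- the function of a pattern -/
noncomputable def patW {K K' : Type} {p k1 k2 : ℕ} (θ : K → Inter p) (h : K' → ℝ) :
    (a : Pat K K' p k1 k2) → (Slot a → Bool) → ℝ
  | Sum.inl a => Br.siteW (h a.2.2) (fun j => swapInter (a.2.1 j).2 (θ (a.2.1 j).1))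
  | Sum.inr a => fun σ => Real.exp (∑ j, θ (a.2 j) (fun m => σ (j, m)))

theorem patW_pos {K K' : Type} {p k1 k2 : ℕ} (θ : K → Inter p) (h : K' → ℝ)
    (a : Pat K K' p k1 k2) (σ : Slot a → Bool) : 0 < patW θ h a σ := by
  cases a with
  | inl a =>
    simp only [patW, Br.siteW]
    have := Finset.sum_pos (s := (Finset.univ : Finset Bool)) (f := fun ε : Bool =>
      Real.exp (h a.2.2 * spinVal ε + ∑ j : Fin (a.1 : ℕ),
        swapInter (a.2.1 j).2 (θ (a.2.1 j).1)
          (fun ℓ => if h : ℓ.val < p - 1 then σ (j, ⟨ℓ.val, h⟩) else ε)))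
      (fun _ _ => Real.exp_pos _) Finset.univ_nonempty
    linarith
  | inr a => exact Real.exp_pos _

set_option maxHeartbeats 1600000 in
/-- **PART L** from the output of sections 2-3. -/
theorem partL_of_sec23 (h23 : Sec23) {p : ℕ} (hp : 0 < p) {α : ℝ} (hα : 0 ≤ α) : PartL p α := by
  classical
  intro K K' _ _ w θ w' h hw0 hw1 hw0' hw1' c hfreq ε hε
  have hw : ∀ k, 0 ≤ w k := fun k => (hw0 k).le
  have hw' : ∀ k, 0 ≤ w' k := fun k => (hw0' k).le
  obtain ⟨B, hB0, hθ⟩ : ∃ B : ℝ, 0 ≤ B ∧ ∀ k s, |θ k s| ≤ B := by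
    refine ⟨∑ k, ‖θ k‖, Finset.sum_nonneg fun k _ => norm_nonneg _, fun k s => ?_⟩
    have h1 : ‖θ k s‖ ≤ ‖θ k‖ := norm_le_pi_norm (θ k) s
    rw [Real.norm_eq_abs] at h1
    exact h1.trans (Finset.single_le_sum (f := fun k => ‖θ k‖) (fun k _ => norm_nonneg _)
      (Finset.mem_univ k))
  obtain ⟨Bh, hBh0, hhb⟩ : ∃ Bh : ℝ, 0 ≤ Bh ∧ ∀ k, |h k| ≤ Bh := by
    refine ⟨∑ k, |h k|, Finset.sum_nonneg fun k _ => abs_nonneg _, fun k => ?_⟩
    exact Finset.single_le_sum (f := fun k => |h k|) (fun k _ => abs_nonneg _)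
      (Finset.mem_univ k)
  obtain ⟨k1, δ1, hδ1, hsite0⟩ := Trunc.site_side (p := p) hα hp hB0 hBh0 (ε := ε / 8)
    (by positivity)
  have hsite := hsite0 K K' w θ w' h hw hw1 hw' hw1' hθ hhb
  obtain ⟨k2, δ2, hδ2, hedge0⟩ := Trunc.edge_side (p := p) hα hp hB0 (ε := ε / 8) (by positivity)
  have hedge := hedge0 K w θ hw hw1 hθ
  -- patterns
  set c0 : ℝ := ∑ a : Pat K K' p k1 k2, ∑ σ : Slot a → Bool, |Real.log (patW θ h a σ)| with hc0
  have hc : ∀ (a : Pat K K' p k1 k2) (σ : Slot a → Bool), |Real.log (patW θ h a σ)| ≤ c0 := by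
    intro a σ
    have h1 : |Real.log (patW θ h a σ)| ≤ ∑ σ : Slot a → Bool, |Real.log (patW θ h a σ)| :=
      Finset.single_le_sum (f := fun σ : Slot a → Bool => |Real.log (patW θ h a σ)|)
        (fun _ _ => abs_nonneg _) (Finset.mem_univ σ)
    refine h1.trans ?_
    exact Finset.single_le_sum
      (f := fun a : Pat K K' p k1 k2 => ∑ σ : Slot a → Bool, |Real.log (patW θ h a σ)|)
      (fun _ _ => Finset.sum_nonneg fun _ _ => abs_nonneg _) (Finset.mem_univ a)
  set δ0 : ℝ := min δ1 δ2 / 2 with hδ0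
  have hδ0pos : 0 < δ0 := by
    have := lt_min hδ1 hδ2
    positivity
  obtain ⟨J, hJ, hJc⟩ : ∃ J : ℕ, 1 ≤ J ∧
      15 * c0 ^ 2 * Real.exp (4 * c0) * (2 / ((J : ℝ) + 1)) ≤ δ0 := by
    obtain ⟨J, hJ⟩ := exists_nat_gt (15 * c0 ^ 2 * Real.exp (4 * c0) * 2 / δ0)
    refine ⟨max J 1, le_max_right _ _, ?_⟩
    rw [div_lt_iff₀ hδ0pos] at hJ
    have h1 : (J : ℝ) ≤ ((max J 1 : ℕ) : ℝ) := by exact_mod_cast le_max_left J 1
    have h2 : (0 : ℝ) < ((max J 1 : ℕ) : ℝ) + 1 := by positivity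
    rw [← mul_div_assoc, div_le_iff₀ h2]
    nlinarith
  obtain ⟨q, hq, N0, hN0⟩ := sys_compare h23 (A₀ := Pat K K' p k1 k2) Slot (patW θ h)
    (patW_pos θ h) c0 hc J hJ (ε := δ0) (ε' := ε / 16) hδ0pos (by positivity) hJc
  -- cavity
  have hr : Tendsto (fun N : ℕ => (q.nc * q.T : ℝ) / ((N : ℝ) + 1)) atTop (nhds 0) :=
    tendsto_const_nhds.div_atTop (tendsto_natCast_atTop_atTop.atTop_add tendsto_const_nhds)
  have A1 : ∀ N : ℕ, 1 ≤ N → ∀ H : (Fin N → Bool) → ℝ,
      EPhi q N H ≤ Cav.logZ N H + (ε / 16 * N + q.τ * Fintype.card (Stp q)) := by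
    intro N hN H
    have hpt : ∀ d, Phi q N H d ≤ Cav.logZ N H + (ε / 16 * N + q.τ * Fintype.card (Stp q)) := by
      intro d
      have h1 := (abs_le.1 (SysF.Phi_F2 q N H d)).2
      have h2 : (N : ℝ) * (q.nb * (q.Q : ℝ)⁻¹) ≤ ε / 16 * N := by
        rw [← div_eq_mul_inv, mul_comm]
        exact mul_le_mul_of_nonneg_right hq (Nat.cast_nonneg _)
      have h3 : Cav.logZ N H = Real.log (∑ s, Real.exp (H s)) := rfl
      rw [h3]
      linarith
    calc EPhi q N H ≤ Ed q N (fun _ => Cav.logZ N H + (ε / 16 * N + q.τ * Fintype.card (Stp q))) :=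
          Ed_mono q N hpt
      _ = _ := Ed_const q hN _
  have A2 : ∀ N : ℕ, 1 ≤ N → ∀ H H' : (Fin N → Bool) → ℝ, ∀ a : ℝ, (∀ s, |H s - H' s| ≤ a) →
      |EPhi q N H - EPhi q N H'| ≤ a := by
    intro N hN H H' a ha
    exact abs_EPhi_sub_le q hN H H' ha
  have A3 : ∀ N : ℕ, 1 ≤ N → ∀ H : (Fin (N + 1) → Bool) → ℝ, EPhi q N (Cav.red H) ≤
      EPhi q (N + 1) H + (ε / 16 + (q.nc * q.T : ℝ) / ((N : ℝ) + 1)) := by
    intro N hN H
    have h1 := (abs_le.1 (F4.EPhi_succ q (N := N) hN H)).1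
    have h2 : F4.Hred N H = Cav.red H := rfl
    rw [h2] at h1
    linarith
  obtain ⟨N, hN, H, hNH⟩ := Cav.cavity_pressure hα hp hw hw1 hw' hw1'
    (fun N => EPhi q N) 1 (by positivity) hr A1 A2 A3 hfreq (max N0 1)
  have hNpos : 0 < N := lt_of_lt_of_le Nat.one_pos ((le_max_right _ _).trans hN)
  have hNe : Nonempty (Fin N) := ⟨⟨0, hNpos⟩⟩
  obtain ⟨t, htW, hcmp⟩ := hN0 N ((le_max_left _ _).trans hN) H
  -- the trials
  set Kk : DD q N → ℕ → Om q N → Om q N → ℝ := fun d m =>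
    kerS (PP q N H d) ((fil q N).F (t d (J - m))) with hKk
  have hMk : ∀ d m, IsMarkov (Kk d m) := fun d m => isMarkov_kerS (PP_isProb q N H d) _
  have hmag : ∀ d, ∀ i w, -1 < Br.magK (Kk d) (sgN q N) i w ∧ Br.magK (Kk d) (sgN q N) i w < 1 := by
    intro d i w
    exact hmag_sys q N (PP q N H d) (PP_isProb q N H d) (fun m => (fil q N).F (t d (J - m)))
      (htW d).lt_L rfl i w
  have htrial : ∀ z : DD q N × Om q N, ∃ X : (Fin (J + 1) → unitInterval) → ℝ, Measurable X ∧
      (∀ (p k : ℕ) (θs : Fin k → Inter p) (h : ℝ),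
        siteInner p k J (fun d : Fin J => Br.mSk J d) X θs h =
          (Fintype.card (Fin k × Fin (p - 1) → Fin N) : ℝ)⁻¹ *
            ∑ site : Fin k × Fin (p - 1) → Fin N,
            Br.thInd (Kk z.1) (sgN q N) (Br.fExp J (Br.mSk J)) (Br.siteW h θs) site (J + 1)
              (fun _ => z.2)) ∧
      (∀ (p : ℕ) (θ : Inter p),
        edgeInner p J (fun d : Fin J => Br.mSk J d) X θ =
          (Fintype.card (Fin p → Fin N) : ℝ)⁻¹ * ∑ site : Fin p → Fin N,
            Br.thInd (Kk z.1) (sgN q N) (Br.fExp J (Br.mSk J)) (fun σ => Real.exp (θ σ)) site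
              (J + 1) (fun _ => z.2)) :=
    fun z => exists_trial_inner J hJ (Kk z.1) (fun n => (hMk z.1 n).nonneg)
      (fun n => (hMk z.1 n).sum_one) (sgN q N) (hmag z.1) (Br.mSk J) z.2
  choose X hXm hXs hXe using htrial
  set mu : DD q N × Om q N → ℝ := fun z => dw q N z.1 * PP q N H z.1 z.2 with hmu
  have hmu0 : ∀ z, 0 ≤ mu z := fun z =>
    mul_nonneg (dw_nonneg q N z.1) ((PP_isProb q N H z.1).pos z.2).le
  have hmu1 : ∑ z, mu z = 1 := by
    rw [Fintype.sum_prod_type]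
    simp only [hmu, ← Finset.mul_sum, (PP_isProb q N H _).sum, mul_one]
    exact dw_sum q hNpos
  have hΨL : LipG 1 (EPhi q N) :=
    Cav.PLip.lipG fun H H' a ha => abs_EPhi_sub_le q hNpos H H' ha
  have hm0 : ∀ d : Fin J, 0 < Br.mSk J d := fun d => Br.mSk_pos J d
  have hEd : ∀ f : DD q N → Om q N → ℝ, ∑ z, mu z * f z.1 z.2 =
      Ed q N (fun d => ∑ ω, PP q N H d ω * f d ω) := by
    intro f
    rw [Fintype.sum_prod_type]
    unfold Ed
    refine Finset.sum_congr rfl fun d _ => ?_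
    rw [Finset.mul_sum]
    refine Finset.sum_congr rfl fun ω _ => ?_
    simp only [hmu]
    ring
  have hle1 : 2 * δ0 ≤ δ1 := by
    have := min_le_left δ1 δ2
    rw [hδ0]; linarith
  have hle2 : 2 * δ0 ≤ δ2 := by
    have := min_le_right δ1 δ2
    rw [hδ0]; linarith
  -- site side
  have hS := hsite N hNpos (EPhi q N) hΨL H (DD q N × Om q N) mu hmu0 hmu1 J
    (fun d : Fin J => Br.mSk J d) hm0 X hXm (by
      intro k hk κ η
      set a : Pat K K' p k1 k2 := Sum.inl ⟨⟨k, hk⟩, κ, η⟩ with ha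
      have h1 := hcmp a
      have e1 : (((N : ℝ)⁻¹) ^ p) ^ k * ∑ Is : Fin k → Fin p → Fin N,
              (EPhi q N (H + Cav.cavU (h η) (fun j => θ (κ j).1) (fun j => (κ j).2) Is) -
                EPhi q N H - Real.log 2) =
          avg (fun i : Slot a → Fin N =>
            EPhi q N (fun s => H s + Real.log (patW θ h a (fun l => s (i l)))) - EPhi q N H) := by
        have h2 := avg_slots hNpos (fun j => (κ j).2) (fun site : Fin k × Fin (p - 1) → Fin N =>
          EPhi q N (fun s => H s + Real.log (Br.siteW (h η)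
            (fun j => swapInter (κ j).2 (θ (κ j).1)) (fun l => s (site l)))) - EPhi q N H)
        unfold avg
        refine Eq.trans ?_ h2
        congr 1
        refine Finset.sum_congr rfl fun Is _ => ?_
        have h3 : (H + Cav.cavU (h η) (fun j => θ (κ j).1) (fun j => (κ j).2) Is :
            (Fin N → Bool) → ℝ) = fun s => (H s + Real.log (Br.siteW (h η)
            (fun j => swapInter (κ j).2 (θ (κ j).1))
            (fun l => s (Is l.1 (slotMap (κ l.1).2 l.2))))) + Real.log 2 := by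
          funext s
          rw [Pi.add_apply, cavU_eq_siteW]
          ring
        rw [h3, EPhi_add_const q hNpos (fun s => H s + Real.log (Br.siteW (h η)
            (fun j => swapInter (κ j).2 (θ (κ j).1))
            (fun l => s (Is l.1 (slotMap (κ l.1).2 l.2)))))]
        ring
      have e2 : ∑ z, mu z * siteInner p k J (fun d : Fin J => Br.mSk J d) (X z)
              (fun j => swapInter (κ j).2 (θ (κ j).1)) (h η) =
          Ed q N (fun d => ∑ ω, PP q N H d ω * avg (fun i : Slot a → Fin N =>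
            Br.thInd (fun m => kerS (PP q N H d) ((fil q N).F (t d (J - m)))) (sgN q N)
              (Br.fExp J (Br.mSk J)) (patW θ h a) i (J + 1) (fun _ => ω))) := by
        rw [← hEd]
        refine Finset.sum_congr rfl fun z _ => ?_
        rw [hXs z]
        rfl
      rw [e1, e2]
      exact h1.trans hle1)
  -- edge side
  have hE := hedge N hNpos (EPhi q N) hΨL H (DD q N × Om q N) mu hmu0 hmu1 J
    (fun d : Fin J => Br.mSk J d) hm0 X hXm (by
      intro k hk κ
      set a : Pat K K' p k1 k2 := Sum.inr ⟨⟨k, hk⟩, κ⟩ with ha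
      have h1 := hcmp a
      have e1 : (((N : ℝ)⁻¹) ^ p) ^ k * ∑ Is : Fin k → Fin p → Fin N,
              (EPhi q N (H + Cav.edgeU (fun j => θ (κ j)) Is) - EPhi q N H) =
          avg (fun i : Slot a → Fin N =>
            EPhi q N (fun s => H s + Real.log (patW θ h a (fun l => s (i l)))) - EPhi q N H) := by
        have h2 := avg_slots_edge (fun site : Fin k × Fin p → Fin N =>
          EPhi q N (fun s => H s + Real.log (Real.exp (∑ j, θ (κ j) (fun m => s (site (j, m)))))) -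
            EPhi q N H)
        unfold avg
        refine Eq.trans ?_ h2
        congr 1
        refine Finset.sum_congr rfl fun Is _ => ?_
        have h3 : (H + Cav.edgeU (fun j => θ (κ j)) Is :
            (Fin N → Bool) → ℝ) = fun s => H s +
              Real.log (Real.exp (∑ j, θ (κ j) (fun m => s (Is j m)))) := by
          funext s
          rw [Pi.add_apply, Real.log_exp]
          rfl
        rw [h3]
      have e2 : ∑ z, mu z * ∑ j, edgeInner p J (fun d : Fin J => Br.mSk J d) (X z) (θ (κ j)) =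
          Ed q N (fun d => ∑ ω, PP q N H d ω * avg (fun i : Slot a → Fin N =>
            Br.thInd (fun m => kerS (PP q N H d) ((fil q N).F (t d (J - m)))) (sgN q N)
              (Br.fExp J (Br.mSk J)) (patW θ h a) i (J + 1) (fun _ => ω))) := by
        rw [← hEd]
        refine Finset.sum_congr rfl fun z _ => ?_
        congr 1
        have h4 := thInd_edges (I := Fin N) J hJ (Kk z.1) (fun n => (hMk z.1 n).nonneg)
          (fun n => (hMk z.1 n).sum_one) (sgN q N) (hmag z.1) (Br.mSk J)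
          (fun j => θ (κ j)) z.2
        refine Eq.trans ?_ h4.symm
        exact Finset.sum_congr rfl fun j _ => hXe z p (θ (κ j))
      rw [e1, e2]
      exact h1.trans hle2)
  -- conclusion
  set T : DD q N × Om q N → ℝ := fun z => Real.log 2 +
    siteFun p (α * p) (symMeasure w θ) (finMeasure w' h) J (fun d : Fin J => Br.mSk J d) (X z) -
    α * ((p : ℝ) - 1) * edgeFun p (finMeasure w θ) J (fun d : Fin J => Br.mSk J d) (X z) with hT
  have hTsum : ∑ z, mu z * T z ≤ c + ε := by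
    have h1 : ∑ z, mu z * T z = Real.log 2 +
        ∑ z, mu z * siteFun p (α * p) (symMeasure w θ) (finMeasure w' h) J
          (fun d : Fin J => Br.mSk J d) (X z) -
        α * ((p : ℝ) - 1) * ∑ z, mu z * edgeFun p (finMeasure w θ) J
          (fun d : Fin J => Br.mSk J d) (X z) := by
      have h2 : Real.log 2 = ∑ z, mu z * Real.log 2 := by rw [← Finset.sum_mul, hmu1, one_mul]
      conv_rhs => rw [h2]
      rw [Finset.mul_sum, ← Finset.sum_add_distrib, ← Finset.sum_sub_distrib]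
      refine Finset.sum_congr rfl fun z _ => ?_
      simp only [hT]
      ring
    rw [h1]
    have h3 := abs_le.1 hS
    have h4 := abs_le.1 hE
    linarith [h3.1, h3.2, h4.1, h4.2]
  obtain ⟨z, hz⟩ := Num.exists_le_of_weighted_sum_le mu T hmu0 hmu1 hTsum
  exact ⟨J, fun d : Fin J => Br.mSk J d, X z, Br.admissible_mSk J, hXm z, hz⟩

end Crest.Agent.R141.Asm
private theorem rz_d9a1303cd8 : type_of% @_root_.Crest.Agent.R141.Asm.patW.eq_1 := @_root_.Crest.Agent.R141.Asm.patW.eq_1 -- L50
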