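import Mathlib

/-!
Row 141, blueprint 2.6: the closure lemma.

A *context* is a type `Ω` with positive unital linear operators `E n` (conditional expectations) and
a function `σ : Ω → [-1,1]`.  Gadget trees of depth `n` have the uniform alphabet `Fin Q`.
-/

set_option autoImplicit false

namespace Crest.Agent.R141.Clo

open Finset

/-- Gadget trees of depth `n` with uniform alphabet `Fin Q`. -/
def Tree (Q : ℕ) : ℕ → Type
  | 0 => ℝ
  | n + 1 => Fin Q → Tree Q n

/-- All leaves are bounded by `1/2`. -/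
def Tree.Good {Q : ℕ} : (n : ℕ) → Tree Q n → Prop
  | 0, y => |(show ℝ from y)| ≤ 1 / 2
  | n + 1, Y => ∀ q : Fin Q, Tree.Good n (Y q)

/-- The zero tree. -/
def Tree.zero (Q : ℕ) : (n : ℕ) → Tree Q n
  | 0 => (0 : ℝ)
  | n + 1 => fun _ => Tree.zero Q n

theorem Tree.zero_good (Q : ℕ) : ∀ n, Tree.Good n (Tree.zero Q n)
  | 0 => by simp [Tree.Good, Tree.zero]
  | n + 1 => fun _ => Tree.zero_good Q n

/-- Shapes of depth `n`. -/
def Shape : ℕ → Type
  | 0 => Bool
  | n + 1 => List (Shape n)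

/-- A context. `E n` is the conditional expectation used to evaluate trees of depth `n`. -/
structure Ctx (Ω : Type) where
  E : ℕ → (Ω → ℝ) →ₗ[ℝ] (Ω → ℝ)
  mono : ∀ n (f g : Ω → ℝ), f ≤ g → E n f ≤ E n g
  one : ∀ n, E n 1 = 1
  σ : Ω → ℝ
  hσ : ∀ ω, |σ ω| ≤ 1

/-- The functional `B_n(Y)` of a tree. -/
noncomputable def Bfun {Ω : Type} (C : Ctx Ω) (ρ : ℕ → ℝ) (Q : ℕ) : (n : ℕ) → Tree Q n → Ω → ℝ
  | 0, y => fun ω => (1 + (show ℝ from y) * C.E 0 C.σ ω) ^ ρ 0
  | n + 1, Y => fun ω => ((Q : ℝ)⁻¹ * ∑ q : Fin Q, C.E (n + 1) (Bfun C ρ Q n (Y q)) ω) ^ ρ (n + 1)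

/-- The functional `V_n(s)` of a shape. -/
noncomputable def Vfun {Ω : Type} (C : Ctx Ω) : (n : ℕ) → Shape n → Ω → ℝ
  | 0, b => if (show Bool from b) then C.σ else 1
  | n + 1, l => fun ω => ((show List (Shape n) from l).map (fun s => C.E n (Vfun C n s) ω)).prod

/-- Points of contexts. -/
abbrev Pt : Type 1 := Σ Ω : Type, Ctx Ω × Ω

noncomputable def BX (ρ : ℕ → ℝ) (Q n : ℕ) (Y : Tree Q n) : Pt → ℝ :=
  fun x => Bfun x.2.1 ρ Q n Y x.2.2

noncomputable def VX (n : ℕ) (s : Shape n) : Pt → ℝ := fun x => Vfun x.2.1 n s x.2.2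

noncomputable def EX (n : ℕ) (F : Pt → ℝ) : Pt → ℝ :=
  fun x => x.2.1.E n (fun ω => F ⟨x.1, x.2.1, ω⟩) x.2.2

theorem EX_add (n : ℕ) (F G : Pt → ℝ) : EX n (F + G) = EX n F + EX n G := by
  funext x
  exact congrFun (map_add (x.2.1.E n) (fun ω => F ⟨x.1, x.2.1, ω⟩)
    (fun ω => G ⟨x.1, x.2.1, ω⟩)) x.2.2

theorem EX_smul (n : ℕ) (c : ℝ) (F : Pt → ℝ) : EX n (c • F) = c • EX n F := by
  funext x
  exact congrFun (map_smul (x.2.1.E n) c (fun ω => F ⟨x.1, x.2.1, ω⟩)) x.2.2

theorem EX_mono (n : ℕ) (F G : Pt → ℝ) (h : ∀ x, F x ≤ G x) (x : Pt) : EX n F x ≤ EX n G x :=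
  x.2.1.mono n _ _ (fun _ => h _) _

theorem EX_const (n : ℕ) (c : ℝ) (x : Pt) : EX n (fun _ => c) x = c := by
  have : (fun _ : x.1 => c) = c • (1 : x.1 → ℝ) := by funext; simp
  simp only [EX, this, map_smul, x.2.1.one]
  simp

theorem EX_le (n : ℕ) (F : Pt → ℝ) (c : ℝ) (h : ∀ x, F x ≤ c) (x : Pt) : EX n F x ≤ c := by
  have := EX_mono n F (fun _ => c) h x
  rwa [EX_const] at this

theorem le_EX (n : ℕ) (F : Pt → ℝ) (c : ℝ) (h : ∀ x, c ≤ F x) (x : Pt) : c ≤ EX n F x := by
  have := EX_mono n (fun _ => c) F h x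
  rwa [EX_const] at this

theorem EX_sub_abs (n : ℕ) (F G : Pt → ℝ) (c : ℝ) (h : ∀ x, |F x - G x| ≤ c) (x : Pt) :
    |EX n F x - EX n G x| ≤ c := by
  have h1 : EX n F = EX n (F - G) + EX n G := by
    rw [← EX_add]; congr 1; ring
  have h2 : EX n F x - EX n G x = EX n (F - G) x := by rw [h1]; simp
  rw [h2, abs_le]
  exact ⟨le_EX n _ _ (fun y => (abs_le.1 (h y)).1) x, EX_le n _ _ (fun y => (abs_le.1 (h y)).2) x⟩

theorem EX_abs_le (n : ℕ) (F : Pt → ℝ) (c : ℝ) (h : ∀ x, |F x| ≤ c) (x : Pt) : |EX n F x| ≤ c := by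
  rw [abs_le]
  exact ⟨le_EX n _ _ (fun y => (abs_le.1 (h y)).1) x, EX_le n _ _ (fun y => (abs_le.1 (h y)).2) x⟩

theorem BX_zero (ρ : ℕ → ℝ) (Q : ℕ) (y : Tree Q 0) (x : Pt) :
    BX ρ Q 0 y x = (1 + (show ℝ from y) * EX 0 (fun x => x.2.1.σ x.2.2) x) ^ ρ 0 := rfl

theorem BX_succ (ρ : ℕ → ℝ) (Q n : ℕ) (Y : Tree Q (n + 1)) (x : Pt) :
    BX ρ Q (n + 1) Y x = ((Q : ℝ)⁻¹ * ∑ q : Fin Q, EX (n + 1) (BX ρ Q n (Y q)) x) ^ ρ (n + 1) := rfl

theorem VX_succ (n : ℕ) (l : List (Shape n)) (x : Pt) :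
    VX (n + 1) l x = (l.map (fun s => EX n (VX n s) x)).prod := rfl

/-- The spin as a function on points. -/
noncomputable def sX : Pt → ℝ := fun x => x.2.1.σ x.2.2

theorem sX_abs (x : Pt) : |sX x| ≤ 1 := x.2.1.hσ _

theorem rpow_mem {t r : ℝ} (h1 : 1 / 2 ≤ t) (h2 : t ≤ 3 / 2) (hr0 : 0 < r) (hr1 : r < 1) :
    1 / 2 ≤ t ^ r ∧ t ^ r ≤ 3 / 2 := by
  have ht : 0 < t := by linarith
  constructor
  · by_cases h : 1 ≤ t
    · have := Real.one_le_rpow h hr0.le
      linarith
    · push Not at h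
      have : t ^ (1:ℝ) ≤ t ^ r := Real.rpow_le_rpow_of_exponent_ge ht h.le hr1.le
      rw [Real.rpow_one] at this
      linarith
  · by_cases h : 1 ≤ t
    · have : t ^ r ≤ t ^ (1:ℝ) := Real.rpow_le_rpow_of_exponent_le h hr1.le
      rw [Real.rpow_one] at this
      linarith
    · push Not at h
      have := Real.rpow_le_one ht.le h.le hr0.le
      linarith

theorem BX_mem {ρ : ℕ → ℝ} (hρ : ∀ n, 0 < ρ n ∧ ρ n < 1) {Q : ℕ} (hQ : 0 < Q) :
    ∀ (n : ℕ) (Y : Tree Q n), Tree.Good n Y → ∀ x, 1 / 2 ≤ BX ρ Q n Y x ∧ BX ρ Q n Y x ≤ 3 / 2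
  | 0, y, hy, x => by
    rw [BX_zero]
    have h1 : |EX 0 (fun x => x.2.1.σ x.2.2) x| ≤ 1 := EX_abs_le 0 _ 1 sX_abs x
    have h2 : |(show ℝ from y)| ≤ 1 / 2 := hy
    have h3 : |(show ℝ from y) * EX 0 (fun x => x.2.1.σ x.2.2) x| ≤ 1 / 2 := by
      rw [abs_mul]
      calc _ ≤ (1 / 2 : ℝ) * 1 := mul_le_mul h2 h1 (abs_nonneg _) (by norm_num)
        _ = 1 / 2 := by norm_num
    rw [abs_le] at h3
    exact rpow_mem (by linarith [h3.1]) (by linarith [h3.2]) (hρ 0).1 (hρ 0).2
  | n + 1, Y, hY, x => by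
    rw [BX_succ]
    have hQ' : (0 : ℝ) < Q := by exact_mod_cast hQ
    have ih := fun q => BX_mem hρ hQ n (Y q) (hY q)
    have h1 : ∀ q, 1 / 2 ≤ EX (n + 1) (BX ρ Q n (Y q)) x :=
      fun q => le_EX _ _ _ (fun y => (ih q y).1) x
    have h2 : ∀ q, EX (n + 1) (BX ρ Q n (Y q)) x ≤ 3 / 2 :=
      fun q => EX_le _ _ _ (fun y => (ih q y).2) x
    have h3 : (Q : ℝ) * (1 / 2) ≤ ∑ q : Fin Q, EX (n + 1) (BX ρ Q n (Y q)) x := by
      have := Finset.card_nsmul_le_sum Finset.univ
        (fun q : Fin Q => EX (n + 1) (BX ρ Q n (Y q)) x) (1/2) (fun q _ => h1 q)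
      simpa using this
    have h4 : ∑ q : Fin Q, EX (n + 1) (BX ρ Q n (Y q)) x ≤ (Q : ℝ) * (3 / 2) := by
      have := Finset.sum_le_card_nsmul Finset.univ
        (fun q : Fin Q => EX (n + 1) (BX ρ Q n (Y q)) x) (3/2) (fun q _ => h2 q)
      simpa using this
    apply rpow_mem _ _ (hρ _).1 (hρ _).2
    · rw [inv_mul_eq_div, le_div_iff₀ hQ']; linarith
    · rw [inv_mul_eq_div, div_le_iff₀ hQ']; linarith

/-- Refinement of the alphabet. -/
def Tree.refine {Q : ℕ} (m : ℕ) : (n : ℕ) → Tree Q n → Tree (Q * m) n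
  | 0, y => (show ℝ from y)
  | n + 1, Y => fun q => Tree.refine m n (Y (finProdFinEquiv.symm q).1)

theorem Tree.refine_good {Q : ℕ} (m : ℕ) : ∀ (n : ℕ) (Y : Tree Q n), Tree.Good n Y →
    Tree.Good n (Tree.refine m n Y)
  | 0, _, h => h
  | n + 1, Y, h => fun q => Tree.refine_good m n _ (h _)

theorem BX_refine {ρ : ℕ → ℝ} {Q m : ℕ} (hm : 0 < m) : ∀ (n : ℕ) (Y : Tree Q n),
    BX ρ (Q * m) n (Tree.refine m n Y) = BX ρ Q n Y
  | 0, y => rfl
  | n + 1, Y => by
    funext x
    rw [BX_succ, BX_succ]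
    congr 1
    have h1 : ∀ q : Fin (Q * m), BX ρ (Q * m) n (Tree.refine m (n + 1) Y q) =
        BX ρ Q n (Y (finProdFinEquiv.symm q).1) := fun q => BX_refine hm n _
    have h2 : ∑ q : Fin (Q * m), EX (n + 1) (BX ρ (Q * m) n (Tree.refine m (n + 1) Y q)) x =
        (m : ℝ) * ∑ q : Fin Q, EX (n + 1) (BX ρ Q n (Y q)) x := by
      simp_rw [h1]
      rw [← finProdFinEquiv.sum_comp]
      simp only [Equiv.symm_apply_apply]
      rw [Fintype.sum_prod_type]
      simp [Finset.mul_sum]
    rw [h2]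
    push_cast
    have : (m : ℝ) ≠ 0 := by positivity
    by_cases hQ : (Q : ℝ) = 0
    · simp [hQ]
    · field_simp

/-! ### The analytic lemma -/

/-- Uniform difference quotients of a power. -/
theorem diffquot (s : ℝ) (η : ℝ) (hη : 0 < η) : ∃ M : ℕ, 2 ≤ M ∧ ∀ m : ℕ, M ≤ m →
    ∀ t z : ℝ, 1 / 2 ≤ t → t ≤ 3 / 2 → |z| ≤ 1 / 2 →
      |((t + (m : ℝ)⁻¹ * z) ^ s - t ^ s) * m - s * z * t ^ (s - 1)| ≤ η := by
  -- uniform continuity of `x ^ (s-1)` on `[1/4, 7/4]`
  have hc : ContinuousOn (fun x : ℝ => x ^ (s - 1)) (Set.Icc (1/4) (7/4)) := by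
    intro x hx
    have : x ≠ 0 := by have := hx.1; intro h; rw [h] at this; norm_num at this
    exact (Real.continuousAt_rpow_const x (s-1) (Or.inl this)).continuousWithinAt
  have huc := isCompact_Icc.uniformContinuousOn_of_continuous hc
  rw [Metric.uniformContinuousOn_iff] at huc
  obtain ⟨δ, hδ, hδ2⟩ := huc (η / (|s| + 1)) (by positivity)
  obtain ⟨M, hM⟩ := exists_nat_gt (1 / δ)
  refine ⟨max 2 M, le_max_left _ _, fun m hm t z ht1 ht2 hz => ?_⟩
  have hm2 : (2 : ℝ) ≤ m := by exact_mod_cast (le_max_left 2 M).trans hm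
  have hmM : (M : ℝ) ≤ m := by exact_mod_cast (le_max_right 2 M).trans hm
  have hm0 : (0 : ℝ) < m := by linarith
  have hminv : (m : ℝ)⁻¹ ≤ 1 / 2 := by rw [inv_le_comm₀ hm0 (by norm_num)]; linarith
  have hminv2 : (m : ℝ)⁻¹ < δ := by
    rw [inv_lt_comm₀ hm0 hδ]
    calc δ⁻¹ = 1 / δ := by rw [one_div]
      _ < M := hM
      _ ≤ m := hmM
  have hw : |(m : ℝ)⁻¹ * z| ≤ 1 / 4 := by
    rw [abs_mul, abs_of_pos (by positivity : (0:ℝ) < (m:ℝ)⁻¹)]
    calc _ ≤ (1 / 2 : ℝ) * (1 / 2) := mul_le_mul hminv hz (abs_nonneg _) (by norm_num)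
      _ = 1 / 4 := by norm_num
  have hw2 : |(m : ℝ)⁻¹ * z| < δ := by
    rw [abs_mul, abs_of_pos (by positivity : (0:ℝ) < (m:ℝ)⁻¹)]
    calc _ ≤ (m:ℝ)⁻¹ * 1 := mul_le_mul_of_nonneg_left (by linarith) (by positivity)
      _ < δ := by linarith
  -- mean value inequality for g(x) = x^s - s t^(s-1) x on the segment
  set w := (m : ℝ)⁻¹ * z with hwdef
  have key : |((t + w) ^ s - s * t ^ (s - 1) * (t + w)) - (t ^ s - s * t ^ (s - 1) * t)| ≤
      (|s| * (η / (|s| + 1))) * |(t + w) - t| := by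
    have hder : ∀ x ∈ Set.uIcc t (t + w), HasDerivWithinAt
        (fun x : ℝ => x ^ s - s * t ^ (s - 1) * x) (s * x ^ (s - 1) - s * t ^ (s - 1))
        (Set.uIcc t (t + w)) x := by
      intro x hx
      have hx0 : x ≠ 0 := by
        rw [Set.mem_uIcc] at hx
        rw [abs_le] at hw
        rcases hx with hx | hx
        · intro h; linarith [hx.1]
        · intro h; linarith [hx.1, hw.1]
      have h1 : HasDerivAt (fun x : ℝ => x ^ s) (s * x ^ (s - 1)) x :=
        Real.hasDerivAt_rpow_const (Or.inl hx0)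
      have h2 : HasDerivAt (fun x : ℝ => s * t ^ (s - 1) * x) (s * t ^ (s - 1)) x := by
        simpa using (hasDerivAt_id x).const_mul (s * t ^ (s - 1))
      exact (h1.sub h2).hasDerivWithinAt
    have hbd : ∀ x ∈ Set.uIcc t (t + w), ‖s * x ^ (s - 1) - s * t ^ (s - 1)‖ ≤
        |s| * (η / (|s| + 1)) := by
      intro x hx
      rw [← mul_sub, norm_mul, Real.norm_eq_abs]
      apply mul_le_mul_of_nonneg_left _ (abs_nonneg _)
      have hxt : |x - t| ≤ |w| := by
        rw [Set.mem_uIcc] at hx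
        rcases hx with hx | hx
        · rw [abs_of_nonneg (by linarith [hx.1])]
          calc x - t ≤ w := by linarith [hx.2]
            _ ≤ |w| := le_abs_self _
        · rw [abs_of_nonpos (by linarith [hx.2])]
          calc -(x - t) ≤ -w := by linarith [hx.1]
            _ ≤ |w| := neg_le_abs _
      have hx1 : x ∈ Set.Icc (1/4 : ℝ) (7/4) := by
        have := abs_le.1 (hxt.trans hw)
        constructor <;> linarith [this.1, this.2]
      have ht' : t ∈ Set.Icc (1/4 : ℝ) (7/4) := ⟨by linarith, by linarith⟩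
      have hd : dist x t < δ := by rw [Real.dist_eq]; exact hxt.trans_lt hw2
      have := (hδ2 x hx1 t ht' hd).le
      rwa [Real.dist_eq] at this
    have := (convex_uIcc t (t + w)).norm_image_sub_le_of_norm_hasDerivWithin_le hder hbd
      Set.left_mem_uIcc Set.right_mem_uIcc
    simpa [Real.norm_eq_abs] using this
  have e1 : ((t + w) ^ s - t ^ s) * m - s * z * t ^ (s - 1) =
      m * (((t + w) ^ s - s * t ^ (s - 1) * (t + w)) - (t ^ s - s * t ^ (s - 1) * t)) := by
    have : z = m * w := by rw [hwdef]; field_simp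
    rw [this]; ring
  rw [e1, abs_mul, abs_of_pos hm0]
  have e2 : (m : ℝ) * |(t + w) - t| ≤ 1 := by
    have : (t + w) - t = w := by ring
    rw [this, hwdef, abs_mul, abs_of_pos (by positivity : (0:ℝ) < (m:ℝ)⁻¹), ← mul_assoc,
      mul_inv_cancel₀ hm0.ne']
    linarith
  calc (m : ℝ) * |((t + w) ^ s - s * t ^ (s - 1) * (t + w)) - (t ^ s - s * t ^ (s - 1) * t)|
      ≤ m * ((|s| * (η / (|s| + 1))) * |(t + w) - t|) := mul_le_mul_of_nonneg_left key hm0.le
    _ = (|s| * (η / (|s| + 1))) * (m * |(t + w) - t|) := by ring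
    _ ≤ (|s| * (η / (|s| + 1))) * 1 := mul_le_mul_of_nonneg_left e2 (by positivity)
    _ ≤ η := by
      rw [mul_one, mul_div_assoc', div_le_iff₀ (by positivity)]
      nlinarith [abs_nonneg s]

/-- A set of functions closed under linear combinations and uniform limits. -/
structure ClosedSpan {X : Type*} (S : Set (X → ℝ)) : Prop where
  add : ∀ F G, F ∈ S → G ∈ S → F + G ∈ S
  smul : ∀ (c : ℝ) F, F ∈ S → c • F ∈ S
  lim : ∀ F, (∀ η > 0, ∃ G ∈ S, ∀ x, |F x - G x| ≤ η) → F ∈ S

theorem prod_abs_le_one {ι : Type*} (l : List ι) (f : ι → ℝ) (h : ∀ c ∈ l, |f c| ≤ 1) :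
    |(l.map f).prod| ≤ 1 := by
  induction l with
  | nil => simp
  | cons c l ih =>
    rw [List.map_cons, List.prod_cons, abs_mul]
    have h1 := h c (by simp)
    have h2 := ih (fun d hd => h d (by simp [hd]))
    calc _ ≤ (1:ℝ) * 1 := mul_le_mul h1 h2 (abs_nonneg _) zero_le_one
      _ = 1 := one_mul 1

/-- The generic lemma: powers of mixtures generate all monomials. -/
theorem monomials {X : Type*} {S : Set (X → ℝ)} (hS : ClosedSpan S) {ι : Type*} [Fintype ι]
    (z : ι → X → ℝ) (hz : ∀ c x, |z c x| ≤ 1 / 2) {ρ : ℝ} (h0 : 0 < ρ) (h1 : ρ < 1)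
    (hq : ∀ q : ι → ℚ, (∀ c, 0 ≤ q c) → ∑ c, q c < 1 →
      (fun x => (1 + ∑ c, (q c : ℝ) * z c x) ^ ρ) ∈ S) (l : List ι) :
    (fun x => (l.map (fun c => z c x)).prod) ∈ S := by
  classical
  have main : ∀ (l : List ι) (q : ι → ℚ), (∀ c, 0 ≤ q c) → ∑ c, q c < 1 →
      (fun x => (l.map (fun c => z c x)).prod * (1 + ∑ c, (q c : ℝ) * z c x) ^ (ρ - l.length)) ∈ S := by
    intro l
    induction l with
    | nil => intro q hq0 hq1; simpa using hq q hq0 hq1
    | cons a l ih =>
      intro q hq0 hq1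
      set s : ℝ := ρ - l.length with hs
      have hs0 : s ≠ 0 := by
        intro h
        have h2 : ρ = (l.length : ℝ) := by linarith
        have h3 : (0 : ℝ) < (l.length : ℝ) := by linarith
        have h4 : (l.length : ℝ) < 1 := by linarith
        have h5 : l.length < 1 := by exact_mod_cast h4
        have h6 : 0 < l.length := by exact_mod_cast h3
        omega
      -- range of the mixture
      have hrange : ∀ (q : ι → ℚ), (∀ c, 0 ≤ q c) → ∑ c, q c ≤ 1 → ∀ x,
          1 / 2 ≤ 1 + ∑ c, (q c : ℝ) * z c x ∧ 1 + ∑ c, (q c : ℝ) * z c x ≤ 3 / 2 := by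
        intro q hq0 hq1 x
        have h2 : |∑ c, (q c : ℝ) * z c x| ≤ 1 / 2 := by
          calc |∑ c, (q c : ℝ) * z c x| ≤ ∑ c, |(q c : ℝ) * z c x| := Finset.abs_sum_le_sum_abs _ _
            _ ≤ ∑ c, (q c : ℝ) * (1 / 2) := by
              apply Finset.sum_le_sum
              intro c _
              rw [abs_mul, abs_of_nonneg (by exact_mod_cast hq0 c : (0:ℝ) ≤ (q c : ℝ))]
              exact mul_le_mul_of_nonneg_left (hz c x) (by exact_mod_cast hq0 c)
            _ = ((∑ c, q c : ℚ) : ℝ) * (1 / 2) := by push_cast; rw [Finset.sum_mul]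
            _ ≤ 1 * (1 / 2) := by
              apply mul_le_mul_of_nonneg_right _ (by norm_num)
              exact_mod_cast hq1
            _ = 1 / 2 := by norm_num
        rw [abs_le] at h2
        constructor <;> linarith [h2.1, h2.2]
      have hlim : (fun x => s * ((List.map (fun c => z c x) (a :: l)).prod *
          (1 + ∑ c, (q c : ℝ) * z c x) ^ (ρ - ((a :: l).length : ℕ)))) ∈ S := by
        apply hS.lim
        intro η hη
        obtain ⟨M, hM2, hM⟩ := diffquot s η hη
        obtain ⟨M', hM'⟩ := exists_nat_gt (1 / (1 - ∑ c, q c))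
        have hgap : 0 < 1 - ∑ c, q c := by linarith
        set m := max M M' with hm
        have hm1 : M ≤ m := le_max_left _ _
        have hm2 : (M' : ℚ) ≤ m := by exact_mod_cast le_max_right M M'
        have hm0 : 0 < m := by omega
        have hm0' : (0 : ℚ) < m := by exact_mod_cast hm0
        set q' : ι → ℚ := fun c => q c + if c = a then (m : ℚ)⁻¹ else 0 with hq'
        have hq'0 : ∀ c, 0 ≤ q' c := by
          intro c
          simp only [hq']
          split_ifs
          · have := hq0 c; positivity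
          · simpa using hq0 c
        have hq'1 : ∑ c, q' c < 1 := by
          simp only [hq', Finset.sum_add_distrib, Finset.sum_ite_eq', Finset.mem_univ, if_true]
          have : (m : ℚ)⁻¹ < 1 - ∑ c, q c := by
            rw [inv_lt_comm₀ hm0' hgap]
            calc (1 - ∑ c, q c)⁻¹ = 1 / (1 - ∑ c, q c) := by rw [one_div]
              _ < M' := hM'
              _ ≤ m := hm2
          linarith
        refine ⟨(m : ℝ) • ((fun x => (l.map (fun c => z c x)).prod *
            (1 + ∑ c, (q' c : ℝ) * z c x) ^ (ρ - l.length)) + (-1 : ℝ) • (fun x =>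
            (l.map (fun c => z c x)).prod * (1 + ∑ c, (q c : ℝ) * z c x) ^ (ρ - l.length))),
            hS.smul _ _ (hS.add _ _ (ih q' hq'0 hq'1) (hS.smul _ _ (ih q hq0 hq1))), fun x => ?_⟩
        have hsum : ∑ c, (q' c : ℝ) * z c x = ∑ c, (q c : ℝ) * z c x + (m : ℝ)⁻¹ * z a x := by
          simp only [hq']
          push_cast
          simp only [add_mul, Finset.sum_add_distrib]
          congr 1
          have : ∀ c, ((if c = a then (m : ℚ)⁻¹ else 0 : ℚ) : ℝ) * z c x =
              if c = a then (m : ℝ)⁻¹ * z a x else 0 := by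
            intro c
            split_ifs with h
            · rw [h]; push_cast; ring
            · simp
          simp_rw [this]
          simp
        obtain ⟨hr1, hr2⟩ := hrange q hq0 hq1.le x
        have hD := hM m hm1 (1 + ∑ c, (q c : ℝ) * z c x) (z a x) hr1 hr2 (hz a x)
        have hP : |(l.map (fun c => z c x)).prod| ≤ 1 :=
          prod_abs_le_one l _ (fun c _ => (hz c x).trans (by norm_num))
        simp only [Pi.smul_apply, Pi.add_apply, smul_eq_mul, List.map_cons, List.prod_cons,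
          List.length_cons]
        rw [hsum]
        have e1 : ρ - ((l.length + 1 : ℕ) : ℝ) = s - 1 := by rw [hs]; push_cast; ring
        rw [e1, ← hs]
        have e2 : s * (z a x * (List.map (fun c => z c x) l).prod *
            (1 + ∑ c, (q c : ℝ) * z c x) ^ (s - 1)) -
            m * ((List.map (fun c => z c x) l).prod *
              (1 + (∑ c, (q c : ℝ) * z c x + (m : ℝ)⁻¹ * z a x)) ^ s +
              -1 * ((List.map (fun c => z c x) l).prod * (1 + ∑ c, (q c : ℝ) * z c x) ^ s)) =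
            - ((List.map (fun c => z c x) l).prod *
              (((1 + ∑ c, (q c : ℝ) * z c x + (m : ℝ)⁻¹ * z a x) ^ s -
                (1 + ∑ c, (q c : ℝ) * z c x) ^ s) * m -
                s * z a x * (1 + ∑ c, (q c : ℝ) * z c x) ^ (s - 1))) := by
          rw [show (1 + (∑ c, (q c : ℝ) * z c x + (m : ℝ)⁻¹ * z a x)) =
            (1 + ∑ c, (q c : ℝ) * z c x + (m : ℝ)⁻¹ * z a x) by ring]
          ring
        rw [e2, abs_neg, abs_mul]
        calc _ ≤ 1 * η := mul_le_mul hP hD (abs_nonneg _) zero_le_one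
          _ = η := one_mul η
      have := hS.smul s⁻¹ _ hlim
      convert this using 1
      funext x
      simp only [Pi.smul_apply, smul_eq_mul]
      rw [← mul_assoc, inv_mul_cancel₀ hs0, one_mul]
  have := main l 0 (fun _ => le_refl _) (by simp)
  simpa using this

/-! ### Mixture trees -/

theorem BX_zeroTree {ρ : ℕ → ℝ} {Q : ℕ} (hQ : 0 < Q) : ∀ (n : ℕ) (x : Pt),
    BX ρ Q n (Tree.zero Q n) x = 1
  | 0, x => by
    rw [BX_zero]
    have : (show ℝ from Tree.zero Q 0) = 0 := rfl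
    rw [this]; simp
  | n + 1, x => by
    rw [BX_succ]
    have h1 : ∀ q : Fin Q, BX ρ Q n (Tree.zero Q (n + 1) q) = fun _ => 1 := by
      intro q; funext x; exact BX_zeroTree hQ n x
    simp_rw [h1, EX_const]
    have : (Q : ℝ) ≠ 0 := by positivity
    simp [this]

/-- Mixture tree: `k c` labels lead to `Y c`, the rest to the zero tree. -/
theorem mixture {ρ : ℕ → ℝ} {Q n : ℕ} (hQ : 0 < Q) {ι : Type*} [Fintype ι] (Y : ι → Tree Q n)
    (hY : ∀ c, Tree.Good n (Y c)) (k : ι → ℕ) (hk : ∑ c, k c ≤ Q) :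
    ∃ T : Tree Q (n + 1), Tree.Good (n + 1) T ∧ ∀ x, BX ρ Q (n + 1) T x =
      (1 + ∑ c, ((k c : ℝ) / Q) * (EX (n + 1) (BX ρ Q n (Y c)) x - 1)) ^ ρ (n + 1) := by
  classical
  have hcard : Fintype.card ((Σ c : ι, Fin (k c)) ⊕ Fin (Q - ∑ c, k c)) = Fintype.card (Fin Q) := by
    simp only [Fintype.card_sum, Fintype.card_sigma, Fintype.card_fin]
    omega
  let e := Fintype.equivOfCardEq hcard
  let T : Tree Q (n + 1) := fun q => match e.symm q with
    | Sum.inl c => Y c.1
    | Sum.inr _ => Tree.zero Q n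
  have hT1 : ∀ c, T (e (Sum.inl c)) = Y c.1 := by intro c; simp [T]
  have hT2 : ∀ c, T (e (Sum.inr c)) = Tree.zero Q n := by intro c; simp [T]
  refine ⟨T, ?_, fun x => ?_⟩
  · intro q
    obtain ⟨c, rfl⟩ := e.surjective q
    cases c with
    | inl c => rw [hT1]; exact hY _
    | inr c => rw [hT2]; exact Tree.zero_good Q n
  · rw [BX_succ]
    congr 1
    rw [← e.sum_comp, Fintype.sum_sum_type]
    simp_rw [hT1, hT2]
    have h0 : BX ρ Q n (Tree.zero Q n) = fun _ => 1 := by
      funext x; exact BX_zeroTree hQ n x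
    rw [h0, EX_const, Fintype.sum_sigma]
    simp only [Finset.sum_const, Finset.card_univ, Fintype.card_fin, nsmul_eq_mul, mul_one]
    have hQ0 : (Q : ℝ) ≠ 0 := by positivity
    have h1 : ((Q - ∑ c, k c : ℕ) : ℝ) = (Q : ℝ) - ∑ c, (k c : ℝ) := by
      rw [Nat.cast_sub hk]; push_cast; ring
    rw [h1]
    have h2 : ∑ c, ((k c : ℝ) / Q) * (EX (n + 1) (BX ρ Q n (Y c)) x - 1) =
        (Q : ℝ)⁻¹ * (∑ c, (k c : ℝ) * EX (n + 1) (BX ρ Q n (Y c)) x - ∑ c, (k c : ℝ)) := by
      rw [← Finset.sum_sub_distrib, Finset.mul_sum]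
      apply Finset.sum_congr rfl
      intro c _
      ring
    rw [h2]
    field_simp
    ring

/-! ### The class of approximable functions -/

/-- Functions on points of contexts which are uniform limits of linear combinations of tree
functionals of depth `n`. -/
def AS (ρ : ℕ → ℝ) (n : ℕ) : Set (Pt → ℝ) :=
  {F | ∀ η : ℝ, 0 < η → ∃ (Q : ℕ) (L : List (ℝ × Tree Q n)), 0 < Q ∧
    (∀ y ∈ L, Tree.Good n y.2) ∧ ∀ x, |F x - (L.map (fun y => y.1 * BX ρ Q n y.2 x)).sum| ≤ η}

theorem AS_closed (ρ : ℕ → ℝ) (n : ℕ) : ClosedSpan (AS ρ n) := by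
  constructor
  · intro F G hF hG η hη
    obtain ⟨Q, L, hQ, hL, h⟩ := hF (η / 2) (by positivity)
    obtain ⟨Q', L', hQ', hL', h'⟩ := hG (η / 2) (by positivity)
    refine ⟨Q * Q', L.map (fun y => (y.1, Tree.refine Q' n y.2)) ++
      L'.map (fun y => (y.1, (Nat.mul_comm Q' Q) ▸ Tree.refine Q n y.2)), by positivity, ?_, ?_⟩
    · intro y hy
      rw [List.mem_append, List.mem_map, List.mem_map] at hy
      rcases hy with ⟨z, hz, rfl⟩ | ⟨z, hz, rfl⟩
      · exact Tree.refine_good _ _ _ (hL z hz)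
      · have : ∀ (a : ℕ) (hab : Q' * Q = a), Tree.Good n (hab ▸ Tree.refine Q n z.2 : Tree a n) := by
          intro a hab; subst hab; exact Tree.refine_good _ _ _ (hL' z hz)
        exact this _ _
    · intro x
      have e1 : ∀ y : ℝ × Tree Q n, BX ρ (Q * Q') n (Tree.refine Q' n y.2) x = BX ρ Q n y.2 x := by
        intro y; rw [BX_refine hQ']
      have e2 : ∀ y : ℝ × Tree Q' n, BX ρ (Q * Q') n
          ((Nat.mul_comm Q' Q) ▸ Tree.refine Q n y.2) x = BX ρ Q' n y.2 x := by
        intro y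
        have : ∀ (a : ℕ) (hab : Q' * Q = a), BX ρ a n (hab ▸ Tree.refine Q n y.2 : Tree a n) x =
            BX ρ Q' n y.2 x := by
          intro a hab; subst hab; rw [BX_refine hQ]
        exact this _ _
      rw [List.map_append, List.sum_append, List.map_map, List.map_map]
      have e3 : ((fun y : ℝ × Tree (Q * Q') n => y.1 * BX ρ (Q * Q') n y.2 x) ∘
          (fun y : ℝ × Tree Q n => (y.1, Tree.refine Q' n y.2))) =
          fun y => y.1 * BX ρ Q n y.2 x := by
        funext y; simp only [Function.comp]; rw [e1]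
      have e4 : ((fun y : ℝ × Tree (Q * Q') n => y.1 * BX ρ (Q * Q') n y.2 x) ∘
          (fun y : ℝ × Tree Q' n => (y.1, (Nat.mul_comm Q' Q) ▸ Tree.refine Q n y.2))) =
          fun y => y.1 * BX ρ Q' n y.2 x := by
        funext y; simp only [Function.comp]; rw [e2]
      rw [e3, e4]
      have := h x
      have := h' x
      rw [abs_le] at *
      simp only [Pi.add_apply]
      constructor <;> linarith [(h x), (h' x), abs_le.1 (h x), abs_le.1 (h' x)]
  · intro c F hF η hη
    obtain ⟨Q, L, hQ, hL, h⟩ := hF (η / (|c| + 1)) (by positivity)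
    refine ⟨Q, L.map (fun y => (c * y.1, y.2)), hQ, ?_, ?_⟩
    · intro y hy
      rw [List.mem_map] at hy
      obtain ⟨z, hz, rfl⟩ := hy
      exact hL z hz
    · intro x
      rw [List.map_map]
      have e3 : ((fun y : ℝ × Tree Q n => y.1 * BX ρ Q n y.2 x) ∘
          (fun y : ℝ × Tree Q n => (c * y.1, y.2))) =
          fun y => c * (y.1 * BX ρ Q n y.2 x) := by
        funext y; simp only [Function.comp]; ring
      rw [e3, List.sum_map_mul_left]
      simp only [Pi.smul_apply, smul_eq_mul]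
      rw [← mul_sub, abs_mul]
      calc |c| * _ ≤ |c| * (η / (|c| + 1)) := mul_le_mul_of_nonneg_left (h x) (abs_nonneg _)
        _ ≤ η := by
          rw [mul_div_assoc', div_le_iff₀ (by positivity)]
          nlinarith [abs_nonneg c]
  · intro F hF η hη
    obtain ⟨G, hG, hFG⟩ := hF (η / 2) (by positivity)
    obtain ⟨Q, L, hQ, hL, h⟩ := hG (η / 2) (by positivity)
    refine ⟨Q, L, hQ, hL, fun x => ?_⟩
    calc |F x - (L.map (fun y => y.1 * BX ρ Q n y.2 x)).sum|
        = |(F x - G x) + (G x - (L.map (fun y => y.1 * BX ρ Q n y.2 x)).sum)| := by ring_nf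
      _ ≤ |F x - G x| + |G x - (L.map (fun y => y.1 * BX ρ Q n y.2 x)).sum| := abs_add_le _ _
      _ ≤ η / 2 + η / 2 := add_le_add (hFG x) (h x)
      _ = η := by ring

theorem BX_mem_AS (ρ : ℕ → ℝ) (n Q : ℕ) (hQ : 0 < Q) (Y : Tree Q n) (hY : Tree.Good n Y) :
    BX ρ Q n Y ∈ AS ρ n := by
  intro η hη
  refine ⟨Q, [(1, Y)], hQ, by simpa using hY, fun x => ?_⟩
  simp [hη.le]

/-- Products of expectations of tree functionals with a common alphabet. -/
theorem prod_common {ρ : ℕ → ℝ} (hρ : ∀ n, 0 < ρ n ∧ ρ n < 1) (n Q : ℕ) (hQ : 0 < Q)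
    {ι : Type} [Fintype ι] (Y : ι → Tree Q n) (hY : ∀ c, Tree.Good n (Y c)) (l : List ι) :
    (fun x => (l.map (fun c => EX (n + 1) (BX ρ Q n (Y c)) x)).prod) ∈ AS ρ (n + 1) := by
  classical
  set z : ι → Pt → ℝ := fun c x => EX (n + 1) (BX ρ Q n (Y c)) x - 1 with hz
  have hzb : ∀ c x, |z c x| ≤ 1 / 2 := by
    intro c x
    have h1 := le_EX (n+1) (BX ρ Q n (Y c)) (1/2) (fun y => (BX_mem hρ hQ n _ (hY c) y).1) x
    have h2 := EX_le (n+1) (BX ρ Q n (Y c)) (3/2) (fun y => (BX_mem hρ hQ n _ (hY c) y).2) x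
    rw [abs_le]
    constructor <;> simp only [hz] <;> linarith
  have hcl := AS_closed ρ (n + 1)
  have hmono : ∀ l : List ι, (fun x => (l.map (fun c => z c x)).prod) ∈ AS ρ (n + 1) := by
    intro l
    apply monomials hcl z hzb (hρ (n+1)).1 (hρ (n+1)).2
    intro q hq0 hq1
    -- common denominator
    obtain ⟨D, hD, hDq⟩ : ∃ D : ℕ, 0 < D ∧ ∀ c, ∃ k : ℕ, q c = (k : ℚ) / D := by
      refine ⟨∏ c, (q c).den, Finset.prod_pos (fun c _ => (q c).den_pos), fun c => ?_⟩
      refine ⟨(q c).num.toNat * ∏ d ∈ Finset.univ.erase c, (q d).den, ?_⟩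
      have h1 : ((∏ d, (q d).den : ℕ) : ℚ) = (q c).den * ((∏ d ∈ Finset.univ.erase c, (q d).den : ℕ) : ℚ) := by
        rw [← Finset.mul_prod_erase Finset.univ _ (Finset.mem_univ c)]
        push_cast
        ring
      have h2 : (((q c).num.toNat : ℕ) : ℚ) = (q c).num := by
        have := Int.toNat_of_nonneg (Rat.num_nonneg.2 (hq0 c))
        exact_mod_cast this
      have h3 : ((∏ d ∈ Finset.univ.erase c, (q d).den : ℕ) : ℚ) ≠ 0 := by
        have : 0 < ∏ d ∈ Finset.univ.erase c, (q d).den :=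
          Finset.prod_pos (fun c _ => (q c).den_pos)
        positivity
      have h4 : ((q c).den : ℚ) ≠ 0 := by
        have := (q c).den_pos
        positivity
      rw [h1]
      push_cast [h2]
      push_cast at h3
      rw [mul_div_mul_right _ _ h3]
      exact (Rat.num_div_den (q c)).symm
    choose k hk using hDq
    have hQD : 0 < Q * D := Nat.mul_pos hQ hD
    have hDQ : (D : ℚ) ≠ 0 := by positivity
    have hksum : ∑ c, k c * Q ≤ Q * D := by
      have : (∑ c, (k c : ℚ)) / D < 1 := by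
        rw [Finset.sum_div]
        calc ∑ c, (k c : ℚ) / D = ∑ c, q c := Finset.sum_congr rfl (fun c _ => (hk c).symm)
          _ < 1 := hq1
      rw [div_lt_one (by positivity)] at this
      have h2 : ∑ c, k c < D := by exact_mod_cast this
      rw [← Finset.sum_mul, Nat.mul_comm]
      exact Nat.mul_le_mul_left _ h2.le
    obtain ⟨T, hT, hTx⟩ := mixture (ρ := ρ) hQD (fun c => Tree.refine D n (Y c))
      (fun c => Tree.refine_good D n _ (hY c)) (fun c => k c * Q) hksum
    have : (fun x => (1 + ∑ c, (q c : ℝ) * z c x) ^ ρ (n + 1)) = BX ρ (Q * D) (n + 1) T := by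
      funext x
      rw [hTx]
      congr 2
      apply Finset.sum_congr rfl
      intro c _
      rw [BX_refine hD]
      simp only [hz]
      congr 1
      rw [hk c]
      push_cast
      have hQ0 : (Q : ℝ) ≠ 0 := by positivity
      have hD0 : (D : ℝ) ≠ 0 := by positivity
      field_simp
    rw [this]
    exact BX_mem_AS ρ (n + 1) _ hQD T hT
  -- products of `1 + z`
  have hboth : ∀ l l' : List ι, (fun x => (l.map (fun c => 1 + z c x)).prod *
      (l'.map (fun c => z c x)).prod) ∈ AS ρ (n + 1) := by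
    intro l
    induction l with
    | nil => intro l'; simpa using hmono l'
    | cons c l ih =>
      intro l'
      have h1 := hcl.add _ _ (ih l') (ih (c :: l'))
      convert h1 using 1
      funext x
      simp only [Pi.add_apply, List.map_cons, List.prod_cons]
      ring
  have := hboth l []
  simpa [hz] using this

/-- Common alphabet for a finite list of trees. -/
theorem common_alphabet {ρ : ℕ → ℝ} (n : ℕ) (L : List (Σ Q : ℕ, Tree Q n))
    (hL : ∀ y ∈ L, 0 < y.1 ∧ Tree.Good n y.2) :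
    ∃ (Q : ℕ) (L' : List (Tree Q n)), 0 < Q ∧ (∀ y ∈ L', Tree.Good n y) ∧
      L'.map (fun y => BX ρ Q n y) = L.map (fun y => BX ρ y.1 n y.2) := by
  induction L with
  | nil => exact ⟨1, [], one_pos, by simp, by simp⟩
  | cons a L ih =>
    obtain ⟨Q, L', hQ, hL', h⟩ := ih (fun y hy => hL y (by simp [hy]))
    obtain ⟨ha1, ha2⟩ := hL a (by simp)
    have key : ∀ (b : ℕ) (hb : a.1 * Q = b), ∃ T : Tree b n, Tree.Good n T ∧
        BX ρ b n T = BX ρ a.1 n a.2 := by
      intro b hb; subst hb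
      exact ⟨Tree.refine Q n a.2, Tree.refine_good _ _ _ ha2, BX_refine hQ n a.2⟩
    obtain ⟨T, hT1, hT2⟩ := key (Q * a.1) (Nat.mul_comm _ _)
    refine ⟨Q * a.1, T :: L'.map (Tree.refine a.1 n), by positivity, ?_, ?_⟩
    · intro y hy
      rw [List.mem_cons] at hy
      rcases hy with rfl | hy
      · exact hT1
      · rw [List.mem_map] at hy
        obtain ⟨w, hw, rfl⟩ := hy
        exact Tree.refine_good _ _ _ (hL' w hw)
    · rw [List.map_cons, List.map_cons, hT2, List.map_map, ← h]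
      congr 1
      apply List.map_congr_left
      intro y _
      simp only [Function.comp]
      rw [BX_refine ha1]

theorem prod_trees {ρ : ℕ → ℝ} (hρ : ∀ n, 0 < ρ n ∧ ρ n < 1) (n : ℕ)
    (L : List (Σ Q : ℕ, Tree Q n)) (hL : ∀ y ∈ L, 0 < y.1 ∧ Tree.Good n y.2) :
    (fun x => (L.map (fun y => EX (n + 1) (BX ρ y.1 n y.2) x)).prod) ∈ AS ρ (n + 1) := by
  obtain ⟨Q, L', hQ, hL', h⟩ := common_alphabet (ρ := ρ) n L hL
  have h1 := prod_common hρ n Q hQ (ι := Fin L'.length) (fun c => L'.get c)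
    (fun c => hL' _ (List.get_mem _ _)) (List.finRange L'.length)
  convert h1 using 1
  funext x
  have e1 : (L.map (fun y => EX (n + 1) (BX ρ y.1 n y.2) x)) =
      (L.map (fun y => BX ρ y.1 n y.2)).map (fun F => EX (n + 1) F x) := by
    rw [List.map_map]; rfl
  have e2 : ((List.finRange L'.length).map (fun c => EX (n + 1) (BX ρ Q n (L'.get c)) x)) =
      (L'.map (fun y => BX ρ Q n y)).map (fun F => EX (n + 1) F x) := by
    rw [List.map_map]
    conv_rhs => rw [← List.map_get_finRange L']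
    rw [List.map_map]
    rfl
  rw [e1, e2, h]

/-- Products of expectations of approximable functions bounded by one. -/
theorem prod_EX {ρ : ℕ → ℝ} (hρ : ∀ n, 0 < ρ n ∧ ρ n < 1) (n : ℕ) (l : List (Pt → ℝ))
    (hl : ∀ F ∈ l, F ∈ AS ρ n ∧ ∀ x, |F x| ≤ 1) :
    ∀ (L : List (Σ Q : ℕ, Tree Q n)), (∀ y ∈ L, 0 < y.1 ∧ Tree.Good n y.2) →
    (fun x => (l.map (fun F => EX (n + 1) F x)).prod *
      (L.map (fun y => EX (n + 1) (BX ρ y.1 n y.2) x)).prod) ∈ AS ρ (n + 1) := by
  have hcl := AS_closed ρ (n + 1)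
  have hzero : (fun _ => 0 : Pt → ℝ) ∈ AS ρ (n + 1) := by
    have h1 := prod_trees hρ n [] (by simp)
    have h2 := hcl.smul 0 _ h1
    convert h2 using 1
    funext x; simp
  induction l with
  | nil =>
    intro L hL
    simpa using prod_trees hρ n L hL
  | cons F l ih =>
    intro L hL
    have ih' := ih (fun G hG => hl G (by simp [hG]))
    obtain ⟨hF, hF1⟩ := hl F (by simp)
    -- bound of the remaining factors
    have hbl : ∀ x, |(l.map (fun F => EX (n + 1) F x)).prod| ≤ 1 := fun x =>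
      prod_abs_le_one l _ (fun G hG => EX_abs_le (n+1) G 1 ((hl G (by simp [hG])).2) x)
    have hbL : ∃ K : ℝ, 0 < K ∧ ∀ x, |(L.map (fun y => EX (n + 1) (BX ρ y.1 n y.2) x)).prod| ≤ K := by
      clear ih ih' hbl hF hF1
      induction L with
      | nil => exact ⟨1, one_pos, fun x => by simp⟩
      | cons a L ih2 =>
        obtain ⟨K, hK, h⟩ := ih2 (fun y hy => hL y (by simp [hy]))
        obtain ⟨ha1, ha2⟩ := hL a (by simp)
        refine ⟨3 / 2 * K, by positivity, fun x => ?_⟩
        rw [List.map_cons, List.prod_cons, abs_mul]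
        apply mul_le_mul _ (h x) (abs_nonneg _) (by norm_num)
        apply EX_abs_le
        intro y
        have := BX_mem hρ ha1 n a.2 ha2 y
        rw [abs_le]; constructor <;> linarith [this.1, this.2]
    obtain ⟨K, hK, hbL⟩ := hbL
    apply hcl.lim
    intro η hη
    obtain ⟨Q, T, hQ, hT, h⟩ := hF (η / K) (by positivity)
    -- the approximating function
    let G : (ℝ × Tree Q n) → Pt → ℝ := fun y x => (l.map (fun F => EX (n + 1) F x)).prod *
      (((⟨Q, y.2⟩ :: L : List (Σ Q : ℕ, Tree Q n))).map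
        (fun y => EX (n + 1) (BX ρ y.1 n y.2) x)).prod
    refine ⟨fun x => (T.map (fun y => y.1 * G y x)).sum, ?_, fun x => ?_⟩
    · have hT' : ∀ y ∈ T, G y ∈ AS ρ (n + 1) := by
        intro y hy
        apply ih'
        intro w hw
        rw [List.mem_cons] at hw
        rcases hw with rfl | hw
        · exact ⟨hQ, hT y hy⟩
        · exact hL w hw
      clear h hT
      induction T with
      | nil => simpa using hzero
      | cons y T ihT =>
        have h1 := hcl.add _ _ (hcl.smul y.1 _ (hT' y (by simp)))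
          (ihT (fun z hz => hT' z (by simp [hz])))
        convert h1 using 1
        funext x
        simp
    · -- error estimate
      have hE : |EX (n + 1) F x - (T.map (fun y => y.1 * EX (n + 1) (BX ρ Q n y.2) x)).sum| ≤ η / K := by
        have e : (T.map (fun y => y.1 * EX (n + 1) (BX ρ Q n y.2) x)).sum =
            EX (n + 1) (fun x => (T.map (fun y => y.1 * BX ρ Q n y.2 x)).sum) x := by
          clear h hT
          induction T with
          | nil => simp [EX_const]
          | cons y T ihT =>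
            have : (fun x => (List.map (fun y => y.1 * BX ρ Q n y.2 x) (y :: T)).sum) =
                y.1 • BX ρ Q n y.2 + (fun x => (T.map (fun y => y.1 * BX ρ Q n y.2 x)).sum) := by
              funext x; simp
            rw [this, EX_add, EX_smul, List.map_cons, List.sum_cons, ihT]
            rfl
        rw [e]
        exact EX_sub_abs (n + 1) _ _ _ h x
      have e2 : (T.map (fun y => y.1 * G y x)).sum =
          (T.map (fun y => y.1 * EX (n + 1) (BX ρ Q n y.2) x)).sum *
          ((l.map (fun F => EX (n + 1) F x)).prod *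
          (L.map (fun y => EX (n + 1) (BX ρ y.1 n y.2) x)).prod) := by
        rw [← List.sum_map_mul_right]
        congr 1
        apply List.map_congr_left
        intro y _
        simp only [G]
        rw [List.map_cons, List.prod_cons]
        ring
      beta_reduce
      rw [e2, List.map_cons, List.prod_cons]
      have e3 : EX (n + 1) F x * (List.map (fun F => EX (n + 1) F x) l).prod *
          (List.map (fun y => EX (n + 1) (BX ρ y.1 n y.2) x) L).prod -
          (List.map (fun y => y.1 * EX (n + 1) (BX ρ Q n y.2) x) T).sum *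
          ((List.map (fun F => EX (n + 1) F x) l).prod *
            (List.map (fun y => EX (n + 1) (BX ρ y.1 n y.2) x) L).prod) =
          (EX (n + 1) F x - (List.map (fun y => y.1 * EX (n + 1) (BX ρ Q n y.2) x) T).sum) *
          ((List.map (fun F => EX (n + 1) F x) l).prod *
            (List.map (fun y => EX (n + 1) (BX ρ y.1 n y.2) x) L).prod) := by ring
      rw [e3, abs_mul, abs_mul]
      calc _ ≤ η / K * (1 * K) := by
            apply mul_le_mul hE _ (by positivity) (by positivity)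
            exact mul_le_mul (hbl x) (hbL x) (abs_nonneg _) zero_le_one
        _ = η := by field_simp

theorem VX_abs : ∀ (n : ℕ) (s : Shape n) (x : Pt), |VX n s x| ≤ 1
  | 0, b, x => by
    simp only [VX, Vfun]
    split_ifs
    · exact x.2.1.hσ _
    · simp
  | n + 1, l, x => by
    change List (Shape n) at l
    rw [VX_succ]
    exact prod_abs_le_one _ _ (fun s _ => EX_abs_le n _ 1 (fun y => VX_abs n s y) x)

/-- Monomials in the magnetisation. -/
theorem sX_mono {ρ : ℕ → ℝ} (hρ : ∀ n, 0 < ρ n ∧ ρ n < 1) (k : ℕ) :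
    (fun x => (EX 0 sX x) ^ k) ∈ AS ρ 0 := by
  have hcl := AS_closed ρ 0
  have h1 := monomials hcl (ι := Unit) (fun _ x => 1 / 2 * EX 0 sX x)
    (fun _ x => by
      rw [abs_mul]
      have := EX_abs_le 0 sX 1 sX_abs x
      have h2 : |(1 / 2 : ℝ)| = 1 / 2 := by norm_num
      rw [h2]; linarith)
    (hρ 0).1 (hρ 0).2 (fun q hq0 hq1 => by
      have hq0' : (0:ℝ) ≤ (q () : ℝ) := by exact_mod_cast hq0 ()
      have hq1' : ((q () : ℚ) : ℝ) < 1 := by
        have := hq1
        rw [Fintype.sum_unique] at this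
        exact_mod_cast this
      let T : Tree 1 0 := ((q () : ℝ) * (1 / 2) : ℝ)
      have hG : Tree.Good (Q := 1) 0 T := by
        show |(q () : ℝ) * (1 / 2)| ≤ 1 / 2
        rw [abs_of_nonneg (by positivity)]
        linarith
      have h2 := BX_mem_AS ρ 0 1 one_pos T hG
      convert h2 using 1
      funext x
      rw [BX_zero]
      simp only [Fintype.sum_unique]
      congr 1
      show 1 + (q () : ℝ) * (1 / 2 * EX 0 sX x) = 1 + ((q () : ℝ) * (1 / 2)) * EX 0 sX x
      ring) (List.replicate k ())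
  have h2 := hcl.smul (2 ^ k) _ h1
  convert h2 using 1
  funext x
  simp only [Pi.smul_apply, smul_eq_mul, List.map_replicate, List.prod_replicate]
  rw [← mul_pow]
  congr 1
  ring

/-- **Closure lemma** (2.6). -/
theorem closure_AS {ρ : ℕ → ℝ} (hρ : ∀ n, 0 < ρ n ∧ ρ n < 1) :
    ∀ (n : ℕ) (s : Shape (n + 1)), VX (n + 1) s ∈ AS ρ n
  | 0, l => by
    have key0 : ∀ b : Shape 0, ∃ k : ℕ, ∀ x, EX 0 (VX 0 b) x = (EX 0 sX x) ^ k := by
      intro b
      by_cases hb : (show Bool from b) = true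
      · refine ⟨1, fun x => ?_⟩
        have e0 : VX 0 b = sX := by
          funext x; simp only [VX, Vfun]; rw [if_pos hb]; rfl
        rw [e0, pow_one]
      · refine ⟨0, fun x => ?_⟩
        have e0 : VX 0 b = fun _ => 1 := by
          funext x; simp only [VX, Vfun]; rw [if_neg hb]; rfl
        rw [e0, EX_const, pow_zero]
    have key : ∀ l : List (Shape 0), ∃ k : ℕ, ∀ x,
        ((l.map (fun s => EX 0 (VX 0 s) x)).prod) = (EX 0 sX x) ^ k := by
      intro l
      induction l with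
      | nil => exact ⟨0, fun x => by simp⟩
      | cons b l ih =>
        obtain ⟨k, hk⟩ := ih
        obtain ⟨k', hk'⟩ := key0 b
        refine ⟨k' + k, fun x => ?_⟩
        rw [List.map_cons, List.prod_cons, hk, hk', pow_add]
    obtain ⟨k, hk⟩ := key l
    have h1 := sX_mono hρ k
    convert h1 using 1
    funext x
    exact hk x
  | n + 1, l => by
    have ih := closure_AS hρ n
    have h1 := prod_EX hρ n ((show List (Shape (n + 1)) from l).map (fun s => VX (n + 1) s))
      (by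
        intro F hF
        rw [List.mem_map] at hF
        obtain ⟨s, _, rfl⟩ := hF
        exact ⟨ih s, fun x => VX_abs _ _ _⟩) [] (by simp)
    convert h1 using 1
    funext x
    rw [List.map_nil, List.prod_nil, mul_one, List.map_map]
    rfl

end Crest.Agent.R141.Clo
private theorem rz_f827d4d538 : type_of% @_root_.Crest.Agent.R141.Clo.Tree.Good.eq_def := @_root_.Crest.Agent.R141.Clo.Tree.Good.eq_def -- L22
private theorem rz_0d93916f9f : type_of% @_root_.Crest.Agent.R141.Clo.Tree.Good.eq_1 := @_root_.Crest.Agent.R141.Clo.Tree.Good.eq_1 -- L22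
private theorem rz_f155e3f73d : type_of% @_root_.Crest.Agent.R141.Clo.Tree.zero.eq_def := @_root_.Crest.Agent.R141.Clo.Tree.zero.eq_def -- L27
private theorem rz_eb1a04150a : type_of% @_root_.Crest.Agent.R141.Clo.Tree.zero.eq_1 := @_root_.Crest.Agent.R141.Clo.Tree.zero.eq_1 -- L27
private theorem rz_a02f6c42ff : type_of% @_root_.Crest.Agent.R141.Clo.Vfun.eq_def := @_root_.Crest.Agent.R141.Clo.Vfun.eq_def -- L54
private theorem rz_4f2ebc10d0 : type_of% @_root_.Crest.Agent.R141.Clo.Vfun.eq_1 := @_root_.Crest.Agent.R141.Clo.Vfun.eq_1 -- L54
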