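import Crest.Agent.R141.HierA
import Crest.Agent.R141.Closure

/-!
Row 141 (S0192), Part L, section 2.0-2.1: the enriched `N`-system.

Uniform alphabets: every gadget label is uniform on `Fin Q`, independently of everything.
-/

set_option autoImplicit false

namespace Crest.Agent.R141

open Finset

noncomputable section

/-- Parameters of the enriched system. -/
structure Par where
  /-- number of cells -/
  nc : ℕ
  /-- noise steps per cell -/
  T : ℕ
  /-- number of gadget types -/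
  nb : ℕ
  /-- alphabet size; the presence probability of a gadget is `1 / Q` -/
  Q : ℕ
  /-- level of a gadget type -/
  lev : Fin nb → Fin nc
  /-- the gadget tree used above its level -/
  tree : ∀ b : Fin nb, Clo.Tree Q (nc - 1 - (lev b : ℕ))
  good : ∀ b : Fin nb, Clo.Tree.Good _ (tree b)
  /-- coin strength -/
  τ : ℝ
  hnc : 0 < nc
  hQ : 2 ≤ Q
  hτ0 : 0 < τ
  hτ1 : τ ≤ 1 / 2

namespace Par

variable (p : Par)

/-- the label `0` ("present"). -/
def z : Fin p.Q := ⟨0, by have := p.hQ; omega⟩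

/-- label step of cell `g`. -/
def mt (g : ℕ) : ℕ := (g + 1) * (p.T + 1)

/-- step at which the coin `(g,t)` is revealed. -/
def ct (g t : ℕ) : ℕ := g * (p.T + 1) + t + 1

/-- last step. -/
def L : ℕ := p.nc * (p.T + 1) + 1

/-- exponent of cell `g`. -/
def xi (g : ℕ) : ℝ := ((g : ℝ) + 1) / ((p.nc : ℝ) + 1)

/-- exponent of step `k`. -/
def xs (k : ℕ) : ℝ := min 1 ((((k - 1) / (p.T + 1) : ℕ) + 1 : ℝ) / ((p.nc : ℝ) + 1))

theorem xs_expo : IsExpo p.xs := by
  constructor
  · intro k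
    have : (0 : ℝ) < (((k - 1) / (p.T + 1) : ℕ) + 1 : ℝ) / ((p.nc : ℝ) + 1) := by positivity
    exact lt_min one_pos this
  · intro k l hkl
    apply min_le_min le_rfl
    apply div_le_div_of_nonneg_right _ (by positivity)
    have : (k - 1) / (p.T + 1) ≤ (l - 1) / (p.T + 1) :=
      Nat.div_le_div_right (Nat.sub_le_sub_right hkl 1)
    have : (((k - 1) / (p.T + 1) : ℕ) : ℝ) ≤ (((l - 1) / (p.T + 1) : ℕ) : ℝ) := by exact_mod_cast this
    linarith
  · intro k; exact min_le_left _ _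

theorem xs_cell {g k : ℕ} (hg : g < p.nc) (h1 : g * (p.T + 1) < k) (h2 : k ≤ p.mt g) :
    p.xs k = p.xi g := by
  have hdiv : (k - 1) / (p.T + 1) = g := by
    unfold mt at h2
    apply Nat.div_eq_of_lt_le
    · omega
    · omega
  unfold xs xi
  rw [hdiv]
  apply min_eq_right
  rw [div_le_one (by positivity)]
  have : (g : ℝ) + 1 ≤ p.nc := by exact_mod_cast hg
  linarith

theorem xs_last {k : ℕ} (h : p.L ≤ k) : p.xs k = 1 := by
  unfold xs
  apply min_eq_left
  rw [le_div_iff₀ (by positivity), one_mul]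
  have h1 : p.nc ≤ (k - 1) / (p.T + 1) := by
    have h2 : 0 < p.T + 1 := Nat.succ_pos _
    rw [Nat.le_div_iff_mul_le h2]
    unfold L at h
    exact Nat.le_sub_one_of_lt h
  have : (p.nc : ℝ) ≤ (((k - 1) / (p.T + 1) : ℕ) : ℝ) := by exact_mod_cast h1
  linarith

theorem mt_lt_L {g : ℕ} (hg : g < p.nc) : p.mt g < p.L := by
  unfold mt L
  have : (g + 1) * (p.T + 1) ≤ p.nc * (p.T + 1) := Nat.mul_le_mul_right _ hg
  omega

theorem ct_lt_mt {g t : ℕ} (ht : t < p.T) : p.ct g t < p.mt g := by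
  unfold ct mt
  have : (g + 1) * (p.T + 1) = g * (p.T + 1) + (p.T + 1) := by ring
  omega

theorem ct_pos (g t : ℕ) : 0 < p.ct g t := by unfold ct; omega

end Par

/-- configurations of the enriched system: spins, labels, coins. -/
abbrev Om (p : Par) (N : ℕ) : Type :=
  (Fin N → Bool) × (Fin N → Fin p.nb → Fin p.nc → Fin p.Q) × (Fin p.nc → Fin p.T → Bool)

/-- uniform prior. -/
def prior (p : Par) (N : ℕ) : Om p N → ℝ := fun _ => (Fintype.card (Om p N) : ℝ)⁻¹

instance omNonempty (p : Par) (N : ℕ) : Nonempty (Om p N) :=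
  ⟨(fun _ => true, fun _ _ _ => p.z, fun _ _ => true)⟩

theorem prior_isProb (p : Par) (N : ℕ) : IsProb (prior p N) := by
  have h : (0 : ℝ) < (Fintype.card (Om p N) : ℝ) := by exact_mod_cast Fintype.card_pos
  constructor
  · intro _; exact inv_pos.2 h
  · simp only [prior, Finset.sum_const, Finset.card_univ, nsmul_eq_mul]
    exact mul_inv_cancel₀ h.ne'

/-- agreement of all coordinates revealed at steps `≤ k`. -/
def frel (p : Par) (N : ℕ) (k : ℕ) (ω ω' : Om p N) : Prop :=
  (∀ (i : Fin N) (b : Fin p.nb) (g : Fin p.nc), p.mt g ≤ k → ω.2.1 i b g = ω'.2.1 i b g) ∧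
  (∀ (g : Fin p.nc) (t : Fin p.T), p.ct g t ≤ k → ω.2.2 g t = ω'.2.2 g t) ∧
  (p.L ≤ k → ω.1 = ω'.1)

theorem frel_equiv (p : Par) (N k : ℕ) : Equivalence (frel p N k) where
  refl ω := ⟨fun _ _ _ _ => rfl, fun _ _ _ => rfl, fun _ => rfl⟩
  symm h := ⟨fun i b g hg => (h.1 i b g hg).symm, fun g t hg => (h.2.1 g t hg).symm,
    fun hL => (h.2.2 hL).symm⟩
  trans h h' := ⟨fun i b g hg => (h.1 i b g hg).trans (h'.1 i b g hg),
    fun g t hg => (h.2.1 g t hg).trans (h'.2.1 g t hg), fun hL => (h.2.2 hL).trans (h'.2.2 hL)⟩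

/-- the filtration. -/
def fil (p : Par) (N : ℕ) : Filt (Om p N) where
  F k := ⟨frel p N k, frel_equiv p N k⟩
  anti k := by
    intro ω ω' h
    have h : frel p N (k + 1) ω ω' := h
    exact ⟨fun i b g hg => h.1 i b g (by omega), fun g t hg => h.2.1 g t (by omega),
      fun hL => h.2.2 (by omega)⟩
  L := p.L
  bot k hk := by
    ext ω ω'
    constructor
    · intro h
      have h : frel p N k ω ω' := h
      have h1 : ω.1 = ω'.1 := h.2.2 hk
      have h2 : ω.2.1 = ω'.2.1 := by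
        funext i b g
        exact h.1 i b g (((p.mt_lt_L g.2).le).trans hk)
      have h3 : ω.2.2 = ω'.2.2 := by
        funext g t
        exact h.2.1 g t ((((p.ct_lt_mt t.2).trans (p.mt_lt_L g.2)).le).trans hk)
      exact Prod.ext h1 (Prod.ext h2 h3)
    · intro h
      have h : ω = ω' := h
      subst h
      exact (frel_equiv p N k).refl ω

theorem fil_rel {p : Par} {N k : ℕ} {ω ω' : Om p N} : (fil p N).F k ω ω' ↔ frel p N k ω ω' :=
  Iff.rfl

theorem fil_zero (p : Par) (N : ℕ) : (fil p N).F 0 = ⊤ := by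
  ext ω ω'
  constructor
  · intro _; trivial
  · intro _
    refine ⟨fun i b g hg => ?_, fun g t hg => ?_, fun hL => ?_⟩
    · exfalso; unfold Par.mt at hg
      have : 0 < ((g : ℕ) + 1) * (p.T + 1) := by positivity
      omega
    · exfalso; unfold Par.ct at hg; omega
    · exfalso; unfold Par.L at hL; omega

/-- spin value -/
def sv (b : Bool) : ℝ := if b then 1 else -1

theorem sv_abs (b : Bool) : |sv b| = 1 := by cases b <;> simp [sv]

/-- labels indexed by all naturals. -/
def ext (p : Par) (lam : Fin p.nc → Fin p.Q) (l : ℕ) : Fin p.Q :=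
  if h : l < p.nc then lam ⟨l, h⟩ else p.z

/-- value of a tree of depth `n` along the labels of the last `n` levels. -/
def tval (p : Par) (lam : ℕ → Fin p.Q) : (n : ℕ) → Clo.Tree p.Q n → ℝ
  | 0, y => (show ℝ from y)
  | n + 1, Y => tval p lam n (Y (lam (p.nc - (n + 1))))

theorem tval_abs (p : Par) (lam : ℕ → Fin p.Q) : ∀ (n : ℕ) (Y : Clo.Tree p.Q n),
    Clo.Tree.Good n Y → |tval p lam n Y| ≤ 1 / 2
  | 0, _, h => h
  | n + 1, Y, h => tval_abs p lam n (Y (lam (p.nc - (n + 1)))) (h _)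

/-- presence indicator of the gadget type `b`. -/
def vb (p : Par) (b : Fin p.nb) (lam : Fin p.nc → Fin p.Q) : ℝ :=
  if lam (p.lev b) = p.z then 1 else 0

/-- value of the gadget type `b`. -/
def gval (p : Par) (b : Fin p.nb) (lam : Fin p.nc → Fin p.Q) : ℝ :=
  if lam (p.lev b) = p.z then tval p (ext p lam) (p.nc - 1 - (p.lev b : ℕ)) (p.tree b) else 0

theorem gval_abs (p : Par) (b : Fin p.nb) (lam : Fin p.nc → Fin p.Q) : |gval p b lam| ≤ 1 / 2 := by
  unfold gval
  split_ifs
  · exact tval_abs p _ _ _ (p.good b)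
  · simp

/-- log-factor of the gadget `(i,b)`. -/
def gfac (p : Par) (N : ℕ) (i : Fin N) (b : Fin p.nb) (ω : Om p N) : ℝ :=
  Real.log (1 + gval p b (ω.2.1 i b) * sv (ω.1 i))

/-- coordinates: `(i, none)` is the spin coordinate `1[σ_i = +]`, `(i, some b)` is `v_{i,b}`. -/
abbrev Crd (p : Par) (N : ℕ) : Type := Fin N × Option (Fin p.nb)

/-- value of a coordinate. -/
def cv (p : Par) (N : ℕ) (c : Crd p N) (ω : Om p N) : ℝ :=
  match c.2 with
  | none => if ω.1 c.1 = true then 1 else 0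
  | some b => vb p b (ω.2.1 c.1 b)

/-- coin steps. -/
abbrev Stp (p : Par) : Type := Fin p.nc × Fin p.T

/-- outer randomness. -/
abbrev DD (p : Par) (N : ℕ) : Type := Stp p → Option (Crd p N)

/-- weight of one step of the outer randomness. -/
def dw1 (p : Par) (N : ℕ) (o : Option (Crd p N)) : ℝ :=
  match o with
  | none => 1 / 2
  | some _ => 1 / (2 * ((N : ℝ) * ((p.nb : ℝ) + 1)))

/-- law of the outer randomness. -/
def dw (p : Par) (N : ℕ) (d : DD p N) : ℝ := ∏ k, dw1 p N (d k)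

/-- log-factor of the coin `k` if it points to `o`. -/
def cfac (p : Par) (N : ℕ) (o : Option (Crd p N)) (k : Stp p) (ω : Om p N) : ℝ :=
  match o with
  | none => 0
  | some c => p.τ * ((if ω.2.2 k.1 k.2 = true then 1 else 0) * cv p N c ω)

/-- log-weight of the enrichment. -/
def WW (p : Par) (N : ℕ) (d : DD p N) (ω : Om p N) : ℝ :=
  (∑ i, ∑ b, gfac p N i b ω) + ∑ k, cfac p N (d k) k ω

/-- total log-weight with the Hamiltonian `H`. -/
def UU (p : Par) (N : ℕ) (H : (Fin N → Bool) → ℝ) (d : DD p N) (ω : Om p N) : ℝ :=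
  H ω.1 + WW p N d ω

/-- enriched free energy. -/
def Phi (p : Par) (N : ℕ) (H : (Fin N → Bool) → ℝ) (d : DD p N) : ℝ :=
  (N : ℝ) * Real.log 2 + eE (prior p N) (A (prior p N) (fil p N) p.xs (UU p N H d) 0)

/-- the tilted law. -/
def PP (p : Par) (N : ℕ) (H : (Fin N → Bool) → ℝ) (d : DD p N) : Om p N → ℝ :=
  tl (prior p N) (fil p N) p.xs (UU p N H d)

/-- average over the outer randomness. -/
def Ed (p : Par) (N : ℕ) (f : DD p N → ℝ) : ℝ := ∑ d, dw p N d * f d

/-- averaged enriched free energy. -/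
def EPhi (p : Par) (N : ℕ) (H : (Fin N → Bool) → ℝ) : ℝ := Ed p N (Phi p N H)

/-- sites touched by the outer randomness. -/
def touched (p : Par) (N : ℕ) (d : DD p N) (i : Fin N) : Prop :=
  ∃ k o, d k = some (i, o)

theorem PP_isProb (p : Par) (N : ℕ) (H : (Fin N → Bool) → ℝ) (d : DD p N) :
    IsProb (PP p N H d) :=
  tl_isProb (prior_isProb p N) p.xs_expo.pos _

theorem cv_mem (p : Par) (N : ℕ) (c : Crd p N) (ω : Om p N) : cv p N c ω = 0 ∨ cv p N c ω = 1 := by
  unfold cv
  split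
  · split_ifs <;> simp
  · unfold vb; split_ifs <;> simp

theorem cv_nonneg (p : Par) (N : ℕ) (c : Crd p N) (ω : Om p N) : 0 ≤ cv p N c ω := by
  rcases cv_mem p N c ω with h | h <;> rw [h] <;> norm_num

theorem cv_le_one (p : Par) (N : ℕ) (c : Crd p N) (ω : Om p N) : cv p N c ω ≤ 1 := by
  rcases cv_mem p N c ω with h | h <;> rw [h] <;> norm_num

theorem cv_some (p : Par) (N : ℕ) (i : Fin N) (b : Fin p.nb) (ω : Om p N) :
    cv p N (i, some b) ω = vb p b (ω.2.1 i b) := rfl

theorem cv_none (p : Par) (N : ℕ) (i : Fin N) (ω : Om p N) :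
    cv p N (i, none) ω = if ω.1 i = true then 1 else 0 := rfl

/-- A gadget coordinate is measurable at its label step. -/
theorem cv_meas_some (p : Par) (N : ℕ) (i : Fin N) (b : Fin p.nb) {k : ℕ} (h : p.mt (p.lev b) ≤ k) :
    RMeas ((fil p N).F k) (cv p N (i, some b)) := by
  intro ω ω' hω
  have hω : frel p N k ω ω' := hω
  rw [cv_some, cv_some]
  unfold vb
  rw [hω.1 i b (p.lev b) h]

theorem dw_nonneg (p : Par) (N : ℕ) (d : DD p N) : 0 ≤ dw p N d := by
  apply Finset.prod_nonneg; intro k _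
  unfold dw1
  split <;> positivity

theorem dw1_sum (p : Par) {N : ℕ} (hN : 0 < N) : ∑ o, dw1 p N o = 1 := by
  rw [Fintype.sum_option]
  simp only [dw1, Finset.sum_const, Finset.card_univ, Fintype.card_prod, Fintype.card_fin,
    Fintype.card_option, nsmul_eq_mul]
  have : (0 : ℝ) < N := by exact_mod_cast hN
  push_cast
  field_simp
  ring

theorem dw_sum (p : Par) {N : ℕ} (hN : 0 < N) : ∑ d, dw p N d = 1 := by
  unfold dw
  rw [← Fintype.prod_sum (fun (_ : Stp p) (o : Option (Crd p N)) => dw1 p N o)]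
  simp [dw1_sum p hN]

theorem dw_pos (p : Par) {N : ℕ} (hN : 0 < N) (d : DD p N) : 0 < dw p N d := by
  apply Finset.prod_pos; intro k _
  unfold dw1
  have : (0 : ℝ) < N := by exact_mod_cast hN
  split <;> positivity

theorem Ed_add (p : Par) (N : ℕ) (f g : DD p N → ℝ) :
    Ed p N (fun d => f d + g d) = Ed p N f + Ed p N g := by
  simp [Ed, mul_add, sum_add_distrib]

theorem Ed_smul (p : Par) (N : ℕ) (c : ℝ) (f : DD p N → ℝ) :
    Ed p N (fun d => c * f d) = c * Ed p N f := by
  simp only [Ed, Finset.mul_sum]; apply Finset.sum_congr rfl; intro i _; ring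

theorem Ed_mono (p : Par) (N : ℕ) {f g : DD p N → ℝ} (h : ∀ d, f d ≤ g d) :
    Ed p N f ≤ Ed p N g :=
  Finset.sum_le_sum fun d _ => mul_le_mul_of_nonneg_left (h d) (dw_nonneg p N d)

theorem Ed_const (p : Par) {N : ℕ} (hN : 0 < N) (c : ℝ) : Ed p N (fun _ => c) = c := by
  simp only [Ed, ← Finset.sum_mul, dw_sum p hN, one_mul]

theorem Ed_sum {ι : Type*} (s : Finset ι) (p : Par) (N : ℕ) (f : ι → DD p N → ℝ) :
    Ed p N (fun d => ∑ i ∈ s, f i d) = ∑ i ∈ s, Ed p N (f i) := by
  simp only [Ed, Finset.mul_sum]; rw [Finset.sum_comm]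

/-- adding a function of the spins to the Hamiltonian. -/
theorem UU_add (p : Par) (N : ℕ) (H V : (Fin N → Bool) → ℝ) (d : DD p N) :
    UU p N (fun s => H s + V s) d = fun ω => UU p N H d ω + V ω.1 := by
  funext ω; unfold UU; ring

/-- (F1): the cocycle formula. -/
theorem Phi_add (p : Par) (N : ℕ) (H V : (Fin N → Bool) → ℝ) (d : DD p N) :
    Phi p N (fun s => H s + V s) d - Phi p N H d =
      eE (prior p N) (A (PP p N H d) (fil p N) p.xs (fun ω => V ω.1) 0) := by
  have h := A_cocycle (𝓕 := fil p N) (prior_isProb p N) p.xs_expo.pos (UU p N H d)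
    (fun ω => V ω.1) 0
  unfold Phi PP
  rw [UU_add]
  have h2 : A (prior p N) (fil p N) p.xs (fun ω => UU p N H d ω + V ω.1) 0 =
      fun ω => A (prior p N) (fil p N) p.xs (UU p N H d) 0 ω +
        A (tl (prior p N) (fil p N) p.xs (UU p N H d)) (fil p N) p.xs (fun ω => V ω.1) 0 ω := by
    funext ω; exact h ω
  rw [h2, eE_add]
  ring

end

end Crest.Agent.R141
private theorem rz_7d963fed5b : type_of% @_root_.Crest.Agent.R141.dw1.eq_1 := @_root_.Crest.Agent.R141.dw1.eq_1 -- L241
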