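import Crest.Agent.R141.Psd
import Crest.Agent.R141.Sys

-- ▼ part R141/Noise
section

/-!
Row 141 (S0192), Part L, (1f): the noise lemma.
-/

set_option autoImplicit false

namespace Crest.Agent.R141

open Finset

noncomputable section

variable {Ω : Type*} [Fintype Ω] {P : Ω → ℝ} {𝓕 : Filt Ω} {x : ℕ → ℝ}

/-! ### Abel summation -/

/-- Abel bound, two-sided form: for `0 ≤ a_l ≤ M` on `[k,n]`,
`-x_n M ≤ ∑_{k≤l<n} x_{l+1}(a_{l+1}-a_l) - x_n a_n ≤ 0` if `k < n`. -/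
theorem abel_aux {x : ℕ → ℝ} (hx : IsExpo x) {a : ℕ → ℝ} {M : ℝ} {k : ℕ} (n : ℕ) (hkn : k + 1 ≤ n)
    (h0 : ∀ l, k ≤ l → l ≤ n → 0 ≤ a l) (h1 : ∀ l, k ≤ l → l ≤ n → a l ≤ M) :
    (∑ l ∈ Finset.Ico k n, x (l + 1) * (a (l + 1) - a l)) - x n * a n ≤ 0 ∧
    -(x n * M) ≤ (∑ l ∈ Finset.Ico k n, x (l + 1) * (a (l + 1) - a l)) - x n * a n := by
  induction n, hkn using Nat.le_induction with
  | base =>
    have e : (∑ l ∈ Finset.Ico k (k + 1), x (l + 1) * (a (l + 1) - a l)) =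
        x (k + 1) * (a (k + 1) - a k) := by simp
    rw [e]
    have h2 := h0 k le_rfl (by omega)
    have h3 := h1 k le_rfl (by omega)
    have h4 := hx.pos (k + 1)
    constructor
    · nlinarith
    · nlinarith
  | succ n hn ih =>
    have ih' := ih (fun l h h' => h0 l h (by omega)) (fun l h h' => h1 l h (by omega))
    rw [Finset.sum_Ico_succ_top (by omega)]
    have h2 := h0 n (by omega) (by omega)
    have h3 := h1 n (by omega) (by omega)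
    have h4 : x n ≤ x (n + 1) := hx.mono (Nat.le_succ n)
    constructor
    · nlinarith [ih'.1]
    · nlinarith [ih'.2]

/-- Abel bound: if `0 ≤ a_l ≤ M` for `k ≤ l ≤ n`, then `|∑_{k≤l<n} x_{l+1}(a_{l+1}-a_l)| ≤ M`. -/
theorem abel_abs01 {x : ℕ → ℝ} (hx : IsExpo x) {a : ℕ → ℝ} {M : ℝ} {k n : ℕ} (hM : 0 ≤ M)
    (h0 : ∀ l, k ≤ l → l ≤ n → 0 ≤ a l) (h1 : ∀ l, k ≤ l → l ≤ n → a l ≤ M) :
    |∑ l ∈ Finset.Ico k n, x (l + 1) * (a (l + 1) - a l)| ≤ M := by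
  by_cases hkn : k + 1 ≤ n
  · obtain ⟨h2, h3⟩ := abel_aux hx n hkn h0 h1
    have h4 := h0 n (by omega) le_rfl
    have h5 := h1 n (by omega) le_rfl
    have h6 := hx.pos n
    have h7 := hx.le_one n
    have h8 : x n * a n ≤ M := by nlinarith
    have h9 : 0 ≤ x n * a n := mul_nonneg h6.le h4
    have h10 : x n * M ≤ M := by nlinarith
    rw [abs_le]
    constructor <;> linarith
  · rw [Finset.Ico_eq_empty (by omega)]
    simpa using hM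

theorem sum_Ico_eq_sum_Ioc (g : ℕ → ℝ) (k n : ℕ) :
    ∑ l ∈ Finset.Ico k n, g (l + 1) = ∑ l ∈ Finset.Ioc k n, g l := by
  by_cases h : k ≤ n
  · induction n, h using Nat.le_induction with
    | base => simp
    | succ n hn ih =>
      rw [Finset.sum_Ico_succ_top hn, ih, ← Finset.insert_Ioc_right_eq_Ioc_add_one hn,
        Finset.sum_insert (by simp)]
      ring
  · rw [Finset.Ico_eq_empty (by omega), Finset.Ioc_eq_empty (by omega)]; simp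

/-! ### bounds on `A` for a small nonnegative functional -/

/-- Jensen, upper bound: `exp (A_l[U]) ≤ E_l exp U`. -/
theorem exp_A_le (hP : IsProb P) (hx : IsExpo x) (U : Ω → ℝ) (l : ℕ) (ω : Ω) :
    Real.exp (A P 𝓕 x U l ω) ≤ cE P (𝓕.F l) (fun w => Real.exp (U w)) ω := by
  have h := A_le_log (𝓕 := 𝓕) hP hx U l ω
  have h2 := cE_pos hP (r := 𝓕.F l) (f := fun w => Real.exp (U w)) (fun a => Real.exp_pos _) ω
  calc Real.exp _ ≤ Real.exp _ := Real.exp_le_exp.mpr h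
    _ = _ := Real.exp_log h2

/-! ### the core estimate -/

/-- for `U = τ v` with `0 ≤ v ≤ 1`: `τ E_l v ≤ A_l ≤ (τ + τ²) E_l v`. -/
theorem A_tau_bounds (hP : IsProb P) (hx : IsExpo x) {τ : ℝ} (hτ : 0 ≤ τ) (hτ1 : τ ≤ 1)
    {v : Ω → ℝ} (hv0 : ∀ ω, 0 ≤ v ω) (hv1 : ∀ ω, v ω ≤ 1) (l : ℕ) (ω : Ω) :
    τ * cE P (𝓕.F l) v ω ≤ A P 𝓕 x (fun w => τ * v w) l ω ∧
      A P 𝓕 x (fun w => τ * v w) l ω ≤ (τ + τ ^ 2) * cE P (𝓕.F l) v ω := by
  constructor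
  · rw [← cE_smul]; exact cE_le_A hP hx.pos _ l ω
  · have h1 := exp_A_le (𝓕 := 𝓕) hP hx (fun w => τ * v w) l ω
    have h2 : cE P (𝓕.F l) (fun w => Real.exp (τ * v w)) ω ≤
        cE P (𝓕.F l) (fun w => 1 + (τ + τ ^ 2) * v w) ω := by
      apply cE_mono' hP
      intro a
      have h3 := Real.abs_exp_sub_one_sub_id_le (x := τ * v a) (by
        rw [abs_of_nonneg (mul_nonneg hτ (hv0 a))]
        nlinarith [hv0 a, hv1 a])
      have h4 := (abs_le.mp h3).2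
      nlinarith [hv0 a, hv1 a, mul_nonneg (sq_nonneg τ) (mul_nonneg (hv0 a) (sub_nonneg.mpr (hv1 a)))]
    rw [cE_add, cE_const hP, cE_smul] at h2
    have h5 := Real.add_one_le_exp (A P 𝓕 x (fun w => τ * v w) l ω)
    linarith

/-- pointwise control of the path sum `S` for `U = τ v`. -/
theorem S_tau_bounds (hP : IsProb P) (hx : IsExpo x) {τ : ℝ} (hτ : 0 ≤ τ) (hτ1 : τ ≤ 1)
    {v : Ω → ℝ} (hv0 : ∀ ω, 0 ≤ v ω) (hv1 : ∀ ω, v ω ≤ 1) {m k n : ℕ} (hvm : RMeas (𝓕.F m) v)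
    {κ : ℝ} (hκ0 : 0 ≤ κ) (hκ : ∀ l, k ≤ l → l < m → ∀ ω, cE P (𝓕.F l) v ω ≤ κ) (ω : Ω) :
    |S P 𝓕 x (fun w => τ * v w) k n ω -
        τ * ∑ l ∈ Finset.Ioc k n, x l * Dl P 𝓕.F l v ω| ≤ τ ^ 2 * κ ∧
      |S P 𝓕 x (fun w => τ * v w) k n ω| ≤ τ * v ω + 2 * τ * κ := by
  have hB := fun l => A_tau_bounds (𝓕 := 𝓕) hP hx hτ hτ1 hv0 hv1 l ω
  have hV0 : ∀ l, 0 ≤ cE P (𝓕.F l) v ω := fun l => cE_nonneg hP hv0 ω
  have hVm : ∀ l, m ≤ l → cE P (𝓕.F l) v ω = v ω := fun l hl =>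
    cE_of_meas hP (hvm.mono (𝓕.antitone hl)) ω
  have hAm : ∀ l, m ≤ l → A P 𝓕 x (fun w => τ * v w) l ω = τ * v ω := fun l hl =>
    A_of_meas hP hx.pos (fun a b hab => by simp only [hvm.mono (𝓕.anti' hl) a b hab]) ω
  -- the discrepancy sequence
  set δ : ℕ → ℝ := fun l => A P 𝓕 x (fun w => τ * v w) l ω - τ * cE P (𝓕.F l) v ω with hδ
  have hδ0 : ∀ l, k ≤ l → l ≤ n → 0 ≤ δ l := fun l _ _ => by
    simp only [hδ]; linarith [(hB l).1]
  have hδ1 : ∀ l, k ≤ l → l ≤ n → δ l ≤ τ ^ 2 * κ := fun l hl _ => by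
    simp only [hδ]
    by_cases hlm : l < m
    · have h1 := (hB l).2
      have h2 := hκ l hl hlm ω
      nlinarith [sq_nonneg τ, hV0 l]
    · rw [hAm l (by omega), hVm l (by omega)]
      have := mul_nonneg (sq_nonneg τ) hκ0
      linarith
  have hAb1 := abel_abs01 hx (mul_nonneg (sq_nonneg τ) hκ0) hδ0 hδ1
  have hS : S P 𝓕 x (fun w => τ * v w) k n ω - τ * ∑ l ∈ Finset.Ioc k n, x l * Dl P 𝓕.F l v ω =
      ∑ l ∈ Finset.Ico k n, x (l + 1) * (δ (l + 1) - δ l) := by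
    rw [← sum_Ico_eq_sum_Ioc (fun l => x l * Dl P 𝓕.F l v ω), Finset.mul_sum]
    unfold S
    rw [← Finset.sum_sub_distrib]
    apply Finset.sum_congr rfl
    intro l _
    simp only [hδ, Dl, Nat.add_sub_cancel]
    ring
  refine ⟨by rw [hS]; exact hAb1, ?_⟩
  -- the crude bound
  set b : ℕ → ℝ := fun l => if l < m then cE P (𝓕.F l) v ω else 0 with hb
  set c : ℕ → ℝ := fun l => if l < m then 0 else 1 with hc
  have hb0 : ∀ l, k ≤ l → l ≤ n → 0 ≤ b l := fun l _ _ => by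
    simp only [hb]; split_ifs
    · exact hV0 l
    · exact le_rfl
  have hb1 : ∀ l, k ≤ l → l ≤ n → b l ≤ κ := fun l hl _ => by
    simp only [hb]; split_ifs with h
    · exact hκ l hl h ω
    · exact hκ0
  have hc0 : ∀ l, k ≤ l → l ≤ n → 0 ≤ c l := fun l _ _ => by
    simp only [hc]; split_ifs <;> norm_num
  have hc1 : ∀ l, k ≤ l → l ≤ n → c l ≤ 1 := fun l _ _ => by
    simp only [hc]; split_ifs <;> norm_num
  have hAb2 := abel_abs01 hx hκ0 hb0 hb1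
  have hAb3 := abel_abs01 hx zero_le_one hc0 hc1
  have hV : ∀ l, cE P (𝓕.F l) v ω = b l + v ω * c l := fun l => by
    simp only [hb, hc]; split_ifs with h
    · ring
    · rw [hVm l (by omega)]; ring
  have hS2 : τ * ∑ l ∈ Finset.Ioc k n, x l * Dl P 𝓕.F l v ω =
      τ * (∑ l ∈ Finset.Ico k n, x (l + 1) * (b (l + 1) - b l)) +
      τ * v ω * (∑ l ∈ Finset.Ico k n, x (l + 1) * (c (l + 1) - c l)) := by
    rw [← sum_Ico_eq_sum_Ioc (fun l => x l * Dl P 𝓕.F l v ω), Finset.mul_sum, Finset.mul_sum,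
      Finset.mul_sum, ← Finset.sum_add_distrib]
    apply Finset.sum_congr rfl
    intro l _
    simp only [Dl, Nat.add_sub_cancel]
    rw [hV (l + 1), hV l]; ring
  have e : S P 𝓕 x (fun w => τ * v w) k n ω =
      (∑ l ∈ Finset.Ico k n, x (l + 1) * (δ (l + 1) - δ l)) +
      (τ * (∑ l ∈ Finset.Ico k n, x (l + 1) * (b (l + 1) - b l)) +
      τ * v ω * (∑ l ∈ Finset.Ico k n, x (l + 1) * (c (l + 1) - c l))) := by
    rw [← hS2, ← hS]; ring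
  rw [e]
  refine (abs_add_le _ _).trans ?_
  refine (add_le_add_right (abs_add_le _ _) _).trans ?_
  rw [abs_mul, abs_mul, abs_of_nonneg hτ, abs_of_nonneg (mul_nonneg hτ (hv0 ω))]
  have h1 : τ * |∑ l ∈ Finset.Ico k n, x (l + 1) * (b (l + 1) - b l)| ≤ τ * κ :=
    mul_le_mul_of_nonneg_left hAb2 hτ
  have h2 : τ * v ω * |∑ l ∈ Finset.Ico k n, x (l + 1) * (c (l + 1) - c l)| ≤ τ * v ω * 1 :=
    mul_le_mul_of_nonneg_left hAb3 (mul_nonneg hτ (hv0 ω))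
  have h3 : τ ^ 2 * κ ≤ τ * κ := by
    have := mul_le_mul_of_nonneg_right hτ1 (mul_nonneg hτ hκ0)
    nlinarith
  linarith

/-- (1f), core: `|E_k[v_c e^{S}] - E_k[v_c] - τ Y_k(v_c,v_d)| ≤ 11 τ² κ_c κ_d`. -/
theorem noise_core (hP : IsProb P) (hx : IsExpo x) {τ : ℝ} (hτ : 0 ≤ τ) (hτ1 : τ ≤ 1 / 3)
    {vc vd : Ω → ℝ} (hc0 : ∀ ω, 0 ≤ vc ω) (hd0 : ∀ ω, 0 ≤ vd ω) (hd1 : ∀ ω, vd ω ≤ 1)
    {m k : ℕ} (hvm : RMeas (𝓕.F m) vd) {κc κd : ℝ} (hκc : 0 ≤ κc) (hκd : 0 ≤ κd) (hκd1 : κd ≤ 1)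
    (hκ : ∀ l, k ≤ l → l < m → ∀ ω, cE P (𝓕.F l) vd ω ≤ κd) (ω : Ω)
    (hcd : cE P (𝓕.F k) (fun w => vc w * vd w) ω ≤ κc * κd)
    (hcc : cE P (𝓕.F k) vc ω ≤ κc) :
    |cE P (𝓕.F k) (fun w => vc w * Real.exp (S P 𝓕 x (fun w => τ * vd w) k 𝓕.L w)) ω -
        cE P (𝓕.F k) vc ω - τ * Yf P 𝓕.F x 𝓕.L k vc vd ω| ≤ 11 * τ ^ 2 * (κc * κd) := by
  set Sx : Ω → ℝ := fun w => S P 𝓕 x (fun w => τ * vd w) k 𝓕.L w with hSx
  set S0 : Ω → ℝ := fun w => τ * ∑ l ∈ Finset.Ioc k 𝓕.L, x l * Dl P 𝓕.F l vd w with hS0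
  have hb := fun w => S_tau_bounds (n := 𝓕.L) hP hx hτ (by linarith) hd0 hd1 hvm hκd hκ w
  have hY : τ * Yf P 𝓕.F x 𝓕.L k vc vd ω = cE P (𝓕.F k) (fun w => vc w * S0 w) ω := by
    rw [Yf_eq hP 𝓕.antitone, ← cE_smul]
    apply congrArg (fun h => cE P (𝓕.F k) h ω)
    funext w; simp only [hS0]; ring
  have e1 : cE P (𝓕.F k) (fun w => vc w * Real.exp (Sx w)) ω - cE P (𝓕.F k) vc ω -
      τ * Yf P 𝓕.F x 𝓕.L k vc vd ω =
      cE P (𝓕.F k) (fun w => vc w * (Real.exp (Sx w) - 1 - S0 w)) ω := by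
    rw [hY, ← cE_sub, ← cE_sub]
    apply congrArg (fun h => cE P (𝓕.F k) h ω)
    funext w; ring
  show |cE P (𝓕.F k) (fun w => vc w * Real.exp (Sx w)) ω - cE P (𝓕.F k) vc ω -
      τ * Yf P 𝓕.F x 𝓕.L k vc vd ω| ≤ _
  rw [e1]
  refine (cE_abs_le hP _ ω).trans ?_
  have h1 : ∀ w, |vc w * (Real.exp (Sx w) - 1 - S0 w)| ≤
      (2 * τ ^ 2) * (vc w * vd w) + (9 * τ ^ 2 * κd) * vc w := by
    intro w
    obtain ⟨h2, h3⟩ := hb w
    have h3' : |Sx w| ≤ τ * vd w + 2 * τ * κd := h3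
    have h2' : |Sx w - S0 w| ≤ τ ^ 2 * κd := h2
    have h4 : |Sx w| ≤ 1 := by
      refine h3'.trans ?_
      nlinarith [hd0 w, hd1 w, mul_le_mul_of_nonneg_left (hd1 w) hτ,
        mul_le_mul_of_nonneg_left hκd1 hτ]
    have h5 := Real.abs_exp_sub_one_sub_id_le h4
    have h6 : (Sx w) ^ 2 ≤ (τ * vd w + 2 * τ * κd) ^ 2 := by
      rw [← sq_abs]
      exact pow_le_pow_left₀ (abs_nonneg _) h3' 2
    have h7 : |Real.exp (Sx w) - 1 - S0 w| ≤ (τ * vd w + 2 * τ * κd) ^ 2 + τ ^ 2 * κd := by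
      have : Real.exp (Sx w) - 1 - S0 w = (Real.exp (Sx w) - 1 - Sx w) + (Sx w - S0 w) := by ring
      rw [this]
      refine (abs_add_le _ _).trans ?_
      linarith
    rw [abs_mul, abs_of_nonneg (hc0 w)]
    refine (mul_le_mul_of_nonneg_left h7 (hc0 w)).trans ?_
    have h8 : (τ * vd w + 2 * τ * κd) ^ 2 + τ ^ 2 * κd ≤ (2 * τ ^ 2) * vd w + 9 * τ ^ 2 * κd := by
      have h9 : (vd w + 2 * κd) ^ 2 ≤ 2 * vd w + 8 * κd := by
        nlinarith [hd0 w, hd1 w, sq_nonneg (vd w - 2 * κd)]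
      nlinarith [sq_nonneg τ, mul_le_mul_of_nonneg_left h9 (sq_nonneg τ)]
    nlinarith [mul_le_mul_of_nonneg_left h8 (hc0 w)]
  refine (cE_mono' hP h1 ω).trans ?_
  rw [cE_add, cE_smul, cE_smul]
  have h2 : 0 ≤ τ ^ 2 := sq_nonneg τ
  have h3 := mul_le_mul_of_nonneg_left hcd (by linarith : (0:ℝ) ≤ 2 * τ ^ 2)
  have h4 := mul_le_mul_of_nonneg_left hcc (mul_nonneg (by linarith : (0:ℝ) ≤ 9 * τ ^ 2) hκd)
  nlinarith

/-! ### the coin -/

/-- A fair coin `s` revealed at step `k`, given with the flip `ι`. -/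
structure Coin (P : Ω → ℝ) (𝓕 : Filt Ω) (k : ℕ) (s : Ω → ℝ) (ι : Ω → Ω) : Prop where
  invol : ∀ ω, ι (ι ω) = ω
  P_flip : ∀ ω, P (ι ω) = P ω
  s01 : ∀ ω, s ω = 0 ∨ s ω = 1
  s_flip : ∀ ω, s (ι ω) = 1 - s ω
  s_meas : RMeas (𝓕.F k) s
  flip_rel : ∀ l, k ≤ l → ∀ a b, 𝓕.F l a b → 𝓕.F l (ι a) (ι b)
  rel_flip : ∀ ω, 𝓕.F (k - 1) ω (ι ω)

variable {s : Ω → ℝ} {ι : Ω → Ω} {k : ℕ}

/-- reindexing by the flip. -/
theorem Coin.sum_flip (C : Coin P 𝓕 k s ι) (f : Ω → ℝ) : ∑ ω, f (ι ω) = ∑ ω, f ω :=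
  Fintype.sum_bijective ι (Function.Involutive.bijective C.invol) _ _ (fun _ => rfl)

theorem Coin.cE_flip (C : Coin P 𝓕 k s ι) {l : ℕ} (hl : k ≤ l) (f : Ω → ℝ) (ω : Ω) :
    cE P (𝓕.F l) (fun w => f (ι w)) ω = cE P (𝓕.F l) f (ι ω) := by
  classical
  have hrel : ∀ a, 𝓕.F l ω (ι a) ↔ 𝓕.F l (ι ω) a := by
    intro a
    constructor
    · intro h
      have := C.flip_rel l hl _ _ h
      rwa [C.invol] at this
    · intro h
      have := C.flip_rel l hl _ _ h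
      rwa [C.invol] at this
  unfold cE
  have h1 : ∀ g : Ω → ℝ, ∑ w ∈ univ.filter (fun w => 𝓕.F l ω w), P w * g (ι w) =
      ∑ w ∈ univ.filter (fun w => 𝓕.F l (ι ω) w), P w * g w := by
    intro g
    rw [Finset.sum_filter, Finset.sum_filter,
      ← C.sum_flip (fun w => if 𝓕.F l ω w then P w * g (ι w) else 0)]
    apply Finset.sum_congr rfl
    intro a _
    by_cases h : 𝓕.F l ω (ι a)
    · rw [if_pos h, if_pos ((hrel a).mp h), C.P_flip, C.invol]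
    · rw [if_neg h, if_neg (fun h' => h ((hrel a).mpr h'))]
  have h2 := h1 f
  have h3 := h1 (fun _ => 1)
  simp only [mul_one] at h3
  rw [h2, h3]

theorem Coin.cE_inv (C : Coin P 𝓕 k s ι) {l : ℕ} (hl : k ≤ l) {f : Ω → ℝ}
    (hf : ∀ ω, f (ι ω) = f ω) (ω : Ω) : cE P (𝓕.F l) f (ι ω) = cE P (𝓕.F l) f ω := by
  rw [← C.cE_flip hl f ω]
  apply congrArg (fun h => cE P (𝓕.F l) h ω)
  funext w; exact hf w

/-- `A_l[U]` is flip invariant for `l ≥ k` if `U` is. -/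
theorem Coin.A_inv (C : Coin P 𝓕 k s ι) {U : Ω → ℝ} (hU : ∀ ω, U (ι ω) = U ω) {l : ℕ}
    (hl : k ≤ l) (ω : Ω) : A P 𝓕 x U l (ι ω) = A P 𝓕 x U l ω := by
  have key : ∀ n, ∀ l, 𝓕.L - l = n → k ≤ l → ∀ ω, A P 𝓕 x U l (ι ω) = A P 𝓕 x U l ω := by
    intro n
    induction n with
    | zero => intro l hn _ ω; rw [A_of_ge _ (by omega), hU]
    | succ n ih =>
      intro l hn hkl ω
      rw [A_step_lt _ (by omega)]
      unfold pm
      rw [C.cE_inv hkl]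
      intro w
      rw [ih (l + 1) (by omega) (by omega) w]
  exact key _ l rfl hl ω

/-- `A_l[s U] = s A_l[U]` for `l ≥ k`. -/
theorem Coin.A_mul (C : Coin P 𝓕 k s ι) (hP : IsProb P) (hx : IsExpo x) (U : Ω → ℝ) {l : ℕ}
    (hl : k ≤ l) (ω : Ω) :
    A P 𝓕 x (fun w => s w * U w) l ω = s ω * A P 𝓕 x U l ω := by
  have key : ∀ n, ∀ l, 𝓕.L - l = n → k ≤ l → ∀ ω,
      A P 𝓕 x (fun w => s w * U w) l ω = s ω * A P 𝓕 x U l ω := by
    intro n
    induction n with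
    | zero => intro l hn _ ω; rw [A_of_ge _ (by omega), A_of_ge _ (by omega)]
    | succ n ih =>
      intro l hn hkl ω
      have hlL : l < 𝓕.L := by omega
      rw [A_step_lt (fun w => s w * U w) hlL, A_step_lt U hlL]
      unfold pm
      have h1 : cE P (𝓕.F l) (fun w => Real.exp (x (l + 1) *
          A P 𝓕 x (fun w => s w * U w) (l + 1) w)) ω =
          cE P (𝓕.F l) (fun w => Real.exp (x (l + 1) * (s ω * A P 𝓕 x U (l + 1) w))) ω := by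
        apply cE_congr
        intro a ha
        rw [ih (l + 1) (by omega) (by omega) a, (C.s_meas.mono (𝓕.antitone hkl)) ω a ha]
      rw [h1]
      rcases C.s01 ω with h | h
      · rw [h]
        simp only [zero_mul, mul_zero, Real.exp_zero]
        rw [cE_const hP]; simp
      · rw [h]
        simp only [one_mul]
  exact key _ l rfl hl ω

theorem Coin.S_mul (C : Coin P 𝓕 k s ι) (hP : IsProb P) (hx : IsExpo x) (U : Ω → ℝ) {l : ℕ}
    (hl : k ≤ l) (n : ℕ) (ω : Ω) :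
    S P 𝓕 x (fun w => s w * U w) l n ω = s ω * S P 𝓕 x U l n ω := by
  unfold S
  rw [Finset.mul_sum]
  apply Finset.sum_congr rfl
  intro j hj
  have hj' := (Finset.mem_Ico.mp hj).1
  rw [C.A_mul hP hx U (by omega), C.A_mul hP hx U (by omega)]
  ring

/-- the difference between the two branches of the coin. -/
def coinD (P : Ω → ℝ) (𝓕 : Filt Ω) (x : ℕ → ℝ) (k : ℕ) (U vc : Ω → ℝ) (ω : Ω) : ℝ :=
  cE P (𝓕.F k) (fun w => vc w * Real.exp (S P 𝓕 x U k 𝓕.L w)) ω - cE P (𝓕.F k) vc ω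

/-- variance lower bound: `∑ P D² ≤ 8 ∑ P⁺ (E⁺_k v_c - E⁺_{k-1} v_c)²`. -/
theorem Coin.var_lower (C : Coin P 𝓕 k s ι) (hP : IsProb P) (hx : IsExpo x) {τ : ℝ} (hτ : 0 ≤ τ) (hτ1 : τ ≤ 1 / 3)
    {vc vd : Ω → ℝ} (hd0 : ∀ ω, 0 ≤ vd ω) (hd1 : ∀ ω, vd ω ≤ 1)
    (hci : ∀ ω, vc (ι ω) = vc ω) (hdi : ∀ ω, vd (ι ω) = vd ω) :
    ∑ ω, P ω * (coinD P 𝓕 x k (fun w => τ * vd w) vc ω) ^ 2 ≤
      8 * ∑ ω, tl P 𝓕 x (fun w => s w * (τ * vd w)) ω *
        (cE (tl P 𝓕 x (fun w => s w * (τ * vd w))) (𝓕.F k) vc ω -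
          cE (tl P 𝓕 x (fun w => s w * (τ * vd w))) (𝓕.F (k - 1)) vc ω) ^ 2 := by
  set U : Ω → ℝ := fun w => s w * (τ * vd w) with hU
  set g : Ω → ℝ := fun ω => cE (tl P 𝓕 x U) (𝓕.F k) vc ω with hg
  set h : Ω → ℝ := fun ω => cE (tl P 𝓕 x U) (𝓕.F (k - 1)) vc ω with hh
  set D : Ω → ℝ := fun ω => coinD P 𝓕 x k (fun w => τ * vd w) vc ω with hD
  -- the two branches
  have hg0 : ∀ ω, s ω = 0 → g ω = cE P (𝓕.F k) vc ω := by
    intro ω h0
    simp only [hg]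
    rw [cE_tl hP hx.pos U vc k]
    apply cE_congr
    intro a ha
    rw [hU, C.S_mul hP hx _ le_rfl, ← C.s_meas ω a ha, h0]
    simp
  have hg1 : ∀ ω, s ω = 1 → g ω = cE P (𝓕.F k)
      (fun w => vc w * Real.exp (S P 𝓕 x (fun w => τ * vd w) k 𝓕.L w)) ω := by
    intro ω h0
    simp only [hg]
    rw [cE_tl hP hx.pos U vc k]
    apply cE_congr
    intro a ha
    rw [hU, C.S_mul hP hx _ le_rfl, ← C.s_meas ω a ha, h0, one_mul, mul_comm]
  have hSinv : ∀ ω, S P 𝓕 x (fun w => τ * vd w) k 𝓕.L (ι ω) =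
      S P 𝓕 x (fun w => τ * vd w) k 𝓕.L ω := by
    intro ω
    unfold S
    apply Finset.sum_congr rfl
    intro j hj
    have hj' := (Finset.mem_Ico.mp hj).1
    rw [C.A_inv (fun w => by rw [hdi]) (by omega), C.A_inv (fun w => by rw [hdi]) (by omega)]
  have hi0 : ∀ ω, cE P (𝓕.F k) vc (ι ω) = cE P (𝓕.F k) vc ω := fun ω => C.cE_inv le_rfl hci ω
  have hi1 : ∀ ω, cE P (𝓕.F k) (fun w => vc w * Real.exp (S P 𝓕 x (fun w => τ * vd w) k 𝓕.L w))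
      (ι ω) = cE P (𝓕.F k)
      (fun w => vc w * Real.exp (S P 𝓕 x (fun w => τ * vd w) k 𝓕.L w)) ω := fun ω =>
    C.cE_inv le_rfl (fun w => by rw [hci, hSinv]) ω
  have hdiff : ∀ ω, (g ω - g (ι ω)) ^ 2 = D ω ^ 2 := by
    intro ω
    rcases C.s01 ω with h0 | h0
    · have h1 : s (ι ω) = 1 := by rw [C.s_flip, h0]; ring
      rw [hg0 ω h0, hg1 (ι ω) h1, hi1]
      simp only [hD, coinD]; ring
    · have h1 : s (ι ω) = 0 := by rw [C.s_flip, h0]; ring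
      rw [hg1 ω h0, hg0 (ι ω) h1, hi0]
      simp only [hD, coinD]
  have hhinv : ∀ ω, h (ι ω) = h ω := by
    intro ω
    simp only [hh]
    exact (cE_meas _ _ _ _ _ (C.rel_flip ω)).symm
  have hpair : ∀ ω, D ω ^ 2 / 2 ≤ (g ω - h ω) ^ 2 + (g (ι ω) - h (ι ω)) ^ 2 := by
    intro ω
    rw [← hdiff ω, hhinv ω]
    nlinarith [sq_nonneg ((g ω - h ω) + (g (ι ω) - h ω))]
  -- weights
  have hU0 : ∀ ω, 0 ≤ U ω := by
    intro ω
    simp only [hU]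
    rcases C.s01 ω with h0 | h0
    · rw [h0]; simp
    · rw [h0]; simpa using mul_nonneg hτ (hd0 ω)
  have hU1 : ∀ ω, U ω ≤ τ := by
    intro ω
    simp only [hU]
    rcases C.s01 ω with h0 | h0
    · rw [h0]; simpa using hτ
    · rw [h0]; nlinarith [hd1 ω]
  have hA0 : ∀ l ω, 0 ≤ A P 𝓕 x U l ω := fun l ω =>
    (cE_nonneg hP hU0 ω).trans (cE_le_A hP hx.pos U l ω)
  have hA1 : ∀ l ω, A P 𝓕 x U l ω ≤ τ := by
    intro l ω
    have h1 := exp_A_le (𝓕 := 𝓕) hP hx U l ω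
    have h2 : cE P (𝓕.F l) (fun w => Real.exp (U w)) ω ≤ Real.exp τ :=
      cE_le_of_le hP (fun a => Real.exp_le_exp.mpr (hU1 a)) ω
    exact Real.exp_le_exp.mp (h1.trans h2)
  have hw : ∀ ω, (1 / 2) * P ω ≤ tl P 𝓕 x U ω := by
    intro ω
    have h1 : |S P 𝓕 x U 0 𝓕.L ω| ≤ τ :=
      abel_abs01 hx hτ (fun l _ _ => hA0 l ω) (fun l _ _ => hA1 l ω)
    have h2 := Real.add_one_le_exp (S P 𝓕 x U 0 𝓕.L ω)
    have h3 := (abs_le.mp h1).1
    unfold tl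
    nlinarith [hP.pos ω]
  have h1 : ∑ ω, P ω * D ω ^ 2 ≤ 4 * ∑ ω, P ω * (g ω - h ω) ^ 2 := by
    have h2 : ∑ ω, P ω * (g (ι ω) - h (ι ω)) ^ 2 = ∑ ω, P ω * (g ω - h ω) ^ 2 := by
      rw [← C.sum_flip (fun ω => P ω * (g ω - h ω) ^ 2)]
      apply Finset.sum_congr rfl
      intro a _
      rw [C.P_flip]
    have h3 : ∑ ω, P ω * (D ω ^ 2 / 2) ≤
        ∑ ω, (P ω * (g ω - h ω) ^ 2 + P ω * (g (ι ω) - h (ι ω)) ^ 2) := by
      apply Finset.sum_le_sum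
      intro a _
      have := mul_le_mul_of_nonneg_left (hpair a) (hP.pos a).le
      linarith
    rw [Finset.sum_add_distrib, h2] at h3
    have h4 : ∑ ω, P ω * (D ω ^ 2 / 2) = (∑ ω, P ω * D ω ^ 2) / 2 := by
      rw [Finset.sum_div]; apply Finset.sum_congr rfl; intro a _; ring
    rw [h4] at h3
    linarith
  have h2 : ∑ ω, P ω * (g ω - h ω) ^ 2 ≤ 2 * ∑ ω, tl P 𝓕 x U ω * (g ω - h ω) ^ 2 := by
    rw [Finset.mul_sum]
    apply Finset.sum_le_sum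
    intro a _
    nlinarith [hw a, sq_nonneg (g a - h a), mul_le_mul_of_nonneg_right (hw a) (sq_nonneg (g a - h a))]
  linarith

/-- (1f) NOISE LEMMA, final form. -/
theorem noise_lemma (C : Coin P 𝓕 k s ι) (hP : IsProb P) (hx : IsExpo x) {τ : ℝ} (hτ : 0 < τ) (hτ1 : τ ≤ 1 / 3)
    {vc vd : Ω → ℝ} (hc0 : ∀ ω, 0 ≤ vc ω) (hd0 : ∀ ω, 0 ≤ vd ω) (hd1 : ∀ ω, vd ω ≤ 1)
    (hci : ∀ ω, vc (ι ω) = vc ω) (hdi : ∀ ω, vd (ι ω) = vd ω)
    {m : ℕ} (hvm : RMeas (𝓕.F m) vd) {κc κd : ℝ} (hκc : 0 ≤ κc) (hκd : 0 ≤ κd) (hκd1 : κd ≤ 1)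
    (hκ : ∀ l, k ≤ l → l < m → ∀ ω, cE P (𝓕.F l) vd ω ≤ κd)
    (hcd : ∀ ω, cE P (𝓕.F k) (fun w => vc w * vd w) ω ≤ κc * κd)
    (hcc : ∀ ω, cE P (𝓕.F k) vc ω ≤ κc) :
    ∑ ω, P ω * (Yf P 𝓕.F x 𝓕.L k vc vd ω) ^ 2 ≤
      16 / τ ^ 2 * (∑ ω, tl P 𝓕 x (fun w => s w * (τ * vd w)) ω *
        (cE (tl P 𝓕 x (fun w => s w * (τ * vd w))) (𝓕.F k) vc ω -
          cE (tl P 𝓕 x (fun w => s w * (τ * vd w))) (𝓕.F (k - 1)) vc ω) ^ 2) +
      242 * τ ^ 2 * (κc * κd) ^ 2 := by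
  have hV := C.var_lower hP hx hτ.le hτ1 hd0 hd1 hci hdi
  set V := ∑ ω, tl P 𝓕 x (fun w => s w * (τ * vd w)) ω *
        (cE (tl P 𝓕 x (fun w => s w * (τ * vd w))) (𝓕.F k) vc ω -
          cE (tl P 𝓕 x (fun w => s w * (τ * vd w))) (𝓕.F (k - 1)) vc ω) ^ 2 with hVdef
  have hpt : ∀ ω, τ ^ 2 * (Yf P 𝓕.F x 𝓕.L k vc vd ω) ^ 2 ≤
      2 * (coinD P 𝓕 x k (fun w => τ * vd w) vc ω) ^ 2 + 242 * τ ^ 4 * (κc * κd) ^ 2 := by
    intro ω
    have h1 := noise_core hP hx hτ.le hτ1 hc0 hd0 hd1 hvm hκc hκd hκd1 hκ ω (hcd ω) (hcc ω)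
    set Y := Yf P 𝓕.F x 𝓕.L k vc vd ω
    have h2 : |coinD P 𝓕 x k (fun w => τ * vd w) vc ω - τ * Y| ≤ 11 * τ ^ 2 * (κc * κd) := h1
    set D := coinD P 𝓕 x k (fun w => τ * vd w) vc ω
    have h3 : (D - τ * Y) ^ 2 ≤ (11 * τ ^ 2 * (κc * κd)) ^ 2 := by
      rw [← sq_abs]
      exact pow_le_pow_left₀ (abs_nonneg _) h2 2
    nlinarith [sq_nonneg (D + (D - τ * Y)), sq_nonneg (D - τ * Y - D), h3]
  have hsum : τ ^ 2 * ∑ ω, P ω * (Yf P 𝓕.F x 𝓕.L k vc vd ω) ^ 2 ≤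
      2 * ∑ ω, P ω * (coinD P 𝓕 x k (fun w => τ * vd w) vc ω) ^ 2 +
        242 * τ ^ 4 * (κc * κd) ^ 2 := by
    have h1 : ∑ ω, P ω * (τ ^ 2 * (Yf P 𝓕.F x 𝓕.L k vc vd ω) ^ 2) ≤
        ∑ ω, P ω * (2 * (coinD P 𝓕 x k (fun w => τ * vd w) vc ω) ^ 2 +
          242 * τ ^ 4 * (κc * κd) ^ 2) :=
      Finset.sum_le_sum fun ω _ => mul_le_mul_of_nonneg_left (hpt ω) (hP.pos ω).le
    have h2 : ∑ ω, P ω * (τ ^ 2 * (Yf P 𝓕.F x 𝓕.L k vc vd ω) ^ 2) =
        τ ^ 2 * ∑ ω, P ω * (Yf P 𝓕.F x 𝓕.L k vc vd ω) ^ 2 := by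
      rw [Finset.mul_sum]; apply Finset.sum_congr rfl; intro a _; ring
    have h3 : ∑ ω, P ω * (2 * (coinD P 𝓕 x k (fun w => τ * vd w) vc ω) ^ 2 +
          242 * τ ^ 4 * (κc * κd) ^ 2) =
        2 * ∑ ω, P ω * (coinD P 𝓕 x k (fun w => τ * vd w) vc ω) ^ 2 +
        242 * τ ^ 4 * (κc * κd) ^ 2 := by
      simp only [mul_add, Finset.sum_add_distrib, ← Finset.sum_mul, hP.sum, one_mul]
      congr 1
      rw [Finset.mul_sum]; apply Finset.sum_congr rfl; intro a _; ring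
    rw [h2, h3] at h1
    exact h1
  have hτ2 : 0 < τ ^ 2 := by positivity
  have h5 : τ ^ 2 * ∑ ω, P ω * (Yf P 𝓕.F x 𝓕.L k vc vd ω) ^ 2 ≤
      τ ^ 2 * (16 / τ ^ 2 * V + 242 * τ ^ 2 * (κc * κd) ^ 2) := by
    have h6 : τ ^ 2 * (16 / τ ^ 2 * V + 242 * τ ^ 2 * (κc * κd) ^ 2) =
        16 * V + 242 * τ ^ 4 * (κc * κd) ^ 2 := by
      field_simp
    rw [h6]
    linarith
  exact le_of_mul_le_mul_left h5 hτ2

end

end Crest.Agent.R141
end

-- ▼ part R141/CoinSys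

/-!
Row 141 (S0192), Part L, section 2.3: the coins of the enriched system and the noise lemma for them.
-/

set_option autoImplicit false

namespace Crest.Agent.R141

open Finset

noncomputable section

section general

variable {Ω : Type*} [Fintype Ω] {P : Ω → ℝ} {𝓕 : Filt Ω} {x : ℕ → ℝ} {s : Ω → ℝ} {ι : Ω → Ω}
  {k : ℕ}

theorem Coin.A_inv_all (C : Coin P 𝓕 k s ι) (hP : IsProb P) (hx : ∀ k, 0 < x k) {U : Ω → ℝ}
    (hU : ∀ ω, U (ι ω) = U ω) (l : ℕ) (ω : Ω) : A P 𝓕 x U l (ι ω) = A P 𝓕 x U l ω := by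
  by_cases hl : k ≤ l
  · exact C.A_inv hU hl ω
  · have h := C.rel_flip ω
    exact ((A_meas hP hx U l).mono (𝓕.anti' (by omega : l ≤ k - 1)) ω (ι ω) h).symm

/-- tilting by a flip-invariant function keeps the coin. -/
theorem Coin.tilt (C : Coin P 𝓕 k s ι) (hP : IsProb P) (hx : ∀ k, 0 < x k) {U : Ω → ℝ}
    (hU : ∀ ω, U (ι ω) = U ω) : Coin (tl P 𝓕 x U) 𝓕 k s ι where
  invol := C.invol
  P_flip ω := by
    unfold tl S
    rw [C.P_flip]
    congr 2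
    apply Finset.sum_congr rfl
    intro l _
    rw [C.A_inv_all hP hx hU, C.A_inv_all hP hx hU]
  s01 := C.s01
  s_flip := C.s_flip
  s_meas := C.s_meas
  flip_rel := C.flip_rel
  rel_flip := C.rel_flip

end general

variable (p : Par) (N : ℕ)

/-- the flip of the coin `k`. -/
def cflip (k : Stp p) (ω : Om p N) : Om p N :=
  (ω.1, ω.2.1, fun g t => if (g, t) = k then !(ω.2.2 g t) else ω.2.2 g t)

/-- the value of the coin `k`. -/
def csv (k : Stp p) (ω : Om p N) : ℝ := if ω.2.2 k.1 k.2 = true then 1 else 0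

theorem coin_prior (k : Stp p) :
    Coin (prior p N) (fil p N) (p.ct k.1 k.2) (csv p N k) (cflip p N k) where
  invol ω := by
    unfold cflip
    refine Prod.ext rfl (Prod.ext rfl ?_)
    funext g t
    by_cases h : (g, t) = k
    · simp [h]
    · simp [h]
  P_flip ω := rfl
  s01 ω := by unfold csv; split_ifs <;> simp
  s_flip ω := by
    unfold csv cflip
    cases h : ω.2.2 k.1 k.2 <;> simp [h]
  s_meas := by
    intro ω ω' h
    have h : frel p N _ ω ω' := h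
    unfold csv
    rw [h.2.1 k.1 k.2 le_rfl]
  flip_rel l _ a b h := by
    have h : frel p N l a b := h
    show frel p N l _ _
    refine ⟨h.1, fun g t hg => ?_, h.2.2⟩
    simp only [cflip]
    rw [h.2.1 g t hg]
  rel_flip ω := by
    show frel p N _ _ _
    refine ⟨fun _ _ _ _ => rfl, fun g t hg => ?_, fun _ => rfl⟩
    simp only [cflip]
    rw [if_neg]
    intro hk
    have h0 := p.ct_pos k.1 k.2
    have h1 : p.ct g t = p.ct k.1 k.2 := by rw [← hk]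
    omega

theorem cv_flip (c : Crd p N) (k : Stp p) (ω : Om p N) :
    cv p N c (cflip p N k ω) = cv p N c ω := by
  rcases c with ⟨i, _ | b⟩ <;> rfl

theorem UU_flip (H : (Fin N → Bool) → ℝ) (d : DD p N) (k : Stp p) (hk : d k = none) (ω : Om p N) :
    UU p N H d (cflip p N k ω) = UU p N H d ω := by
  unfold UU WW
  have h1 : (cflip p N k ω).1 = ω.1 := rfl
  have h2 : ∀ i b, gfac p N i b (cflip p N k ω) = gfac p N i b ω := fun i b => rfl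
  have h3 : ∀ k', cfac p N (d k') k' (cflip p N k ω) = cfac p N (d k') k' ω := by
    intro k'
    by_cases hkk : k' = k
    · rw [hkk, hk]; rfl
    · cases hd : d k' with
      | none => rfl
      | some c =>
        unfold cfac
        simp only
        rw [cv_flip]
        have : (cflip p N k ω).2.2 k'.1 k'.2 = ω.2.2 k'.1 k'.2 := by
          simp only [cflip]
          rw [if_neg]
          intro h; exact hkk h
        rw [this]
  rw [h1]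
  simp only [h2, h3]

/-- the coin of a null step under the tilted law. -/
theorem coin_sys (H : (Fin N → Bool) → ℝ) (d : DD p N) (k : Stp p) (hk : d k = none) :
    Coin (PP p N H d) (fil p N) (p.ct k.1 k.2) (csv p N k) (cflip p N k) :=
  (coin_prior p N k).tilt (prior_isProb p N) p.xs_expo.pos (UU_flip p N H d k hk)

theorem UU_update (H : (Fin N → Bool) → ℝ) (d : DD p N) (k : Stp p) (hk : d k = none)
    (c : Crd p N) :
    UU p N H (Function.update d k (some c)) =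
      fun ω => UU p N H d ω + csv p N k ω * (p.τ * cv p N c ω) := by
  classical
  funext ω
  unfold UU WW
  have h1 : ∑ k', cfac p N (Function.update d k (some c) k') k' ω =
      ∑ k', cfac p N (d k') k' ω + csv p N k ω * (p.τ * cv p N c ω) := by
    rw [← Finset.add_sum_erase _ _ (Finset.mem_univ k), ← Finset.add_sum_erase _ (fun k' =>
      cfac p N (d k') k' ω) (Finset.mem_univ k)]
    have h2 : ∑ k' ∈ univ.erase k, cfac p N (Function.update d k (some c) k') k' ω =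
        ∑ k' ∈ univ.erase k, cfac p N (d k') k' ω := by
      apply Finset.sum_congr rfl
      intro k' hk'
      rw [Function.update_of_ne (Finset.ne_of_mem_erase hk')]
    rw [h2, Function.update_self, hk]
    unfold cfac csv
    simp only
    ring
  rw [h1]; ring

/-- the law with the null step `k` replaced by the coordinate `c` is the noisy law. -/
theorem PP_update (H : (Fin N → Bool) → ℝ) (d : DD p N) (k : Stp p) (hk : d k = none)
    (c : Crd p N) :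
    PP p N H (Function.update d k (some c)) =
      tl (PP p N H d) (fil p N) p.xs (fun ω => csv p N k ω * (p.τ * cv p N c ω)) := by
  unfold PP
  rw [UU_update p N H d k hk c]
  exact tl_add (prior_isProb p N) p.xs_expo.pos _ _

/-- NOISE LEMMA for the enriched system: at a null step `k` of `d`. -/
theorem noise_sys (hτ : p.τ ≤ 1 / 3) (H : (Fin N → Bool) → ℝ) (d : DD p N) (k : Stp p)
    (hk : d k = none) (c c' : Crd p N) {m : ℕ} (hm : RMeas ((fil p N).F m) (cv p N c'))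
    {κc κd : ℝ} (hκc : 0 ≤ κc) (hκd : 0 ≤ κd) (hκd1 : κd ≤ 1)
    (h1 : ∀ l, p.ct k.1 k.2 ≤ l → l < m → ∀ ω,
      cE (PP p N H d) ((fil p N).F l) (cv p N c') ω ≤ κd)
    (h2 : ∀ ω, cE (PP p N H d) ((fil p N).F (p.ct k.1 k.2))
      (fun w => cv p N c w * cv p N c' w) ω ≤ κc * κd)
    (h3 : ∀ ω, cE (PP p N H d) ((fil p N).F (p.ct k.1 k.2)) (cv p N c) ω ≤ κc) :
    ∑ ω, PP p N H d ω * (Yf (PP p N H d) (fil p N).F p.xs p.L (p.ct k.1 k.2)
        (cv p N c) (cv p N c') ω) ^ 2 ≤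
      16 / p.τ ^ 2 * (∑ ω, PP p N H (Function.update d k (some c')) ω *
        (cE (PP p N H (Function.update d k (some c'))) ((fil p N).F (p.ct k.1 k.2))
            (cv p N c) ω -
          cE (PP p N H (Function.update d k (some c'))) ((fil p N).F (p.ct k.1 k.2 - 1))
            (cv p N c) ω) ^ 2) +
      242 * p.τ ^ 2 * (κc * κd) ^ 2 := by
  have h := noise_lemma (x := p.xs) (coin_sys p N H d k hk) (PP_isProb p N H d) p.xs_expo p.hτ0 hτ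
    (vc := cv p N c) (vd := cv p N c') (cv_nonneg p N c) (cv_nonneg p N c') (cv_le_one p N c')
    (cv_flip p N c k) (cv_flip p N c' k) hm hκc hκd hκd1 h1 h2 h3
  rw [PP_update p N H d k hk c']
  exact h

end

end Crest.Agent.R141
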