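import Crest.Prelude.Def_DilutedSpinGlass

-- ▼ part R141/FinTrial
section

/-!
Row 141, section 3.6: finite Markov-chain trials.
A finite alphabet `A`, an initial law `κ0 : A → ℝ`, transition weights `κ : ℕ → A → A → ℝ`
(`κ (j+1)` is used from level `j` to level `j+1`) and a value `x : A → ℝ` define a measurable
`X : (Fin (r+1) → unitInterval) → ℝ`; the nested power means of any function of the messages are
finite nested sums `nestPM`.
-/

set_option autoImplicit false

open MeasureTheory unitInterval

namespace Crest.Agent.R141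

open Crest.ProbabilityR.Diluted

/-- Finite nested power means along a Markov chain: `n` steps left, current level `j`. -/
noncomputable def nestPM {L A : Type*} [Fintype L] [DecidableEq L] [Fintype A]
    (κ : ℕ → A → A → ℝ) (m : ℕ → ℝ) (W : (L → A) → ℝ) : ℕ → ℕ → (L → A) → ℝ
  | 0, _, s => W s
  | n + 1, j, s => (∑ s' : L → A, (∏ ω, κ (j + 1) (s ω) (s' ω)) *
      (nestPM κ m W n (j + 1) s') ^ (m j)) ^ (1 / m j)

section quantile

variable {A : Type*} [Fintype A]

theorem exists_quantile (w : A → ℝ) (h0 : ∀ a, 0 ≤ w a) (h1 : ∑ a, w a = 1) :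
    ∃ q : unitInterval → A, (∀ a, MeasurableSet (q ⁻¹' {a})) ∧
      ∀ a, (volume (q ⁻¹' {a})).toReal = w a := by
  classical
  let _ : MeasurableSpace A := ⊤
  have _ : MeasurableSingletonClass A := ⟨fun _ => trivial⟩
  have _ : DiscreteMeasurableSpace A := inferInstance
  have _ : Nonempty A := by
    by_contra hA
    rw [not_nonempty_iff] at hA
    simp at h1
  let p : PMF A := PMF.ofFintype (fun a => ENNReal.ofReal (w a)) (by
    rw [← ENNReal.ofReal_sum_of_nonneg (fun a _ => h0 a), h1, ENNReal.ofReal_one])
  obtain ⟨q, hq, hmap⟩ := MeasureTheory.Measure.exists_measurable_map_eq (p.toMeasure)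
  refine ⟨q, fun a => hq (measurableSet_singleton a), fun a => ?_⟩
  have := congrArg (fun μ => μ {a}) hmap
  simp only [Measure.map_apply hq (measurableSet_singleton a)] at this
  rw [this, PMF.toMeasure_apply_singleton _ _ (measurableSet_singleton a)]
  simp [p, h0 a]

theorem integral_quantile {X : Type*} [MeasurableSpace X] {L : Type*} [Fintype L] [DecidableEq L]
    (μ : Measure X) [IsProbabilityMeasure μ]
    (q : L → X → A) (hq : ∀ ω a, MeasurableSet (q ω ⁻¹' {a}))
    (w : L → A → ℝ) (hw : ∀ ω a, (μ (q ω ⁻¹' {a})).toReal = w ω a) (G : (L → A) → ℝ) :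
    ∫ v : L → X, G (fun ω => q ω (v ω)) ∂(Measure.pi fun _ : L => μ) =
      ∑ s : L → A, (∏ ω, w ω (s ω)) * G s := by
  classical
  have hset : ∀ s : L → A, MeasurableSet (Set.univ.pi fun ω => q ω ⁻¹' {s ω}) :=
    fun s => MeasurableSet.univ_pi fun ω => hq ω (s ω)
  have hG : (fun v : L → X => G (fun ω => q ω (v ω))) =
      fun v => ∑ s : L → A, (Set.univ.pi fun ω => q ω ⁻¹' {s ω}).indicator (fun _ => G s) v := by
    funext v
    rw [Finset.sum_eq_single (fun ω => q ω (v ω))]
    · rw [Set.indicator_of_mem]
      simp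
    · intro s _ hs
      rw [Set.indicator_of_notMem]
      intro hmem
      apply hs
      funext ω
      have := hmem ω (Set.mem_univ ω)
      simpa using this.symm
    · intro h
      exact absurd (Finset.mem_univ _) h
  rw [hG, integral_finsetSum]
  · refine Finset.sum_congr rfl fun s _ => ?_
    rw [integral_indicator (hset s), setIntegral_const, Measure.real, Measure.pi_pi,
      ENNReal.toReal_prod]
    simp only [hw, smul_eq_mul]
  · intro s _
    exact (integrable_const _).indicator (hset s)

end quantile

/-! ### The chain of states -/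

section chain

variable {A : Type*} [Fintype A]

/-- State after level `j` (levels beyond `r` are frozen). -/
noncomputable def chainState {r : ℕ} (q0 : unitInterval → A) (q : ℕ → A → unitInterval → A)
    (u : Fin (r + 1) → unitInterval) : ℕ → A
  | 0 => q0 (u 0)
  | j + 1 => if h : j + 1 < r + 1 then q (j + 1) (chainState q0 q u j) (u ⟨j + 1, h⟩)
      else chainState q0 q u j

omit [Fintype A] in
theorem chainState_congr {r : ℕ} (q0 : unitInterval → A) (q : ℕ → A → unitInterval → A)
    (u u' : Fin (r + 1) → unitInterval) (j : ℕ) (h : ∀ i : Fin (r + 1), i.val ≤ j → u i = u' i) :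
    chainState q0 q u j = chainState q0 q u' j := by
  induction j with
  | zero => simp only [chainState]; rw [h 0 (by simp)]
  | succ j ih =>
    simp only [chainState]
    have ih' := ih (fun i hi => h i (by omega))
    by_cases hj : j + 1 < r + 1
    · rw [dif_pos hj, dif_pos hj, ih', h ⟨j + 1, hj⟩ (by simp)]
    · rw [dif_neg hj, dif_neg hj, ih']

theorem measurable_chainState {r : ℕ} (q0 : unitInterval → A) (q : ℕ → A → unitInterval → A)
    (hq0 : ∀ a, MeasurableSet (q0 ⁻¹' {a})) (hq : ∀ j a b, MeasurableSet (q j a ⁻¹' {b})) (j : ℕ)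
    (a : A) : MeasurableSet {u : Fin (r + 1) → unitInterval | chainState q0 q u j = a} := by
  classical
  induction j generalizing a with
  | zero =>
    simp only [chainState]
    exact (measurable_pi_apply (0 : Fin (r + 1)) : Measurable fun u : Fin (r + 1) → unitInterval => u 0) (hq0 a)
  | succ j ih =>
    simp only [chainState]
    by_cases hj : j + 1 < r + 1
    · simp only [dif_pos hj]
      have : {u : Fin (r + 1) → unitInterval |
          q (j + 1) (chainState q0 q u j) (u ⟨j + 1, hj⟩) = a} =
          ⋃ b : A, ({u | chainState q0 q u j = b} ∩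
            (fun u : Fin (r + 1) → unitInterval => u ⟨j + 1, hj⟩) ⁻¹' (q (j + 1) b ⁻¹' {a})) := by
        ext u
        simp
      rw [this]
      exact MeasurableSet.iUnion fun b => (ih b).inter ((measurable_pi_apply _) (hq (j + 1) b a))
    · simp only [dif_neg hj]
      exact ih a

theorem powerMeans_chain {L : Type*} [Fintype L] [DecidableEq L] {r : ℕ}
    (q0 : unitInterval → A) (q : ℕ → A → unitInterval → A)
    (hq : ∀ j a b, MeasurableSet (q j a ⁻¹' {b}))
    (κ : ℕ → A → A → ℝ) (hκ : ∀ j a b, (volume (q j a ⁻¹' {b})).toReal = κ j a b)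
    (m : ℕ → ℝ) (W : (L → A) → ℝ) (u : L → Fin (r + 1) → unitInterval) :
    powerMeans (fun d : Fin r => m d) (fun u' => W (fun ω => chainState q0 q (u' ω) r)) u =
      nestPM κ m W r 0 (fun ω => q0 (u ω 0)) := by
  have key : ∀ n j : ℕ, j + n = r → ∀ u : L → Fin (r + 1) → unitInterval,
      ((List.finRange r).drop j).foldr (fun (d : Fin r) acc => pmStep (m d) d.succ acc)
        (fun u' : L → Fin (r + 1) → unitInterval => W (fun ω => chainState q0 q (u' ω) r)) u =
      nestPM κ m W n j (fun ω => chainState q0 q (u ω) j) := by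
    intro n
    induction n with
    | zero =>
      intro j hj u
      have hj' : j = r := by omega
      subst hj'
      rw [List.drop_of_length_le (by simp)]
      simp [nestPM]
    | succ n ih =>
      intro j hj u
      have hjr : j < (List.finRange r).length := by simp; omega
      rw [List.drop_eq_getElem_cons hjr, List.foldr_cons]
      have hjr' : j < r := by omega
      have hget : (List.finRange r)[j] = ⟨j, hjr'⟩ := by simp
      rw [hget]
      simp only [pmStep, nestPM]
      congr 1
      have hint : ∀ v : L → unitInterval,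
          ((List.finRange r).drop (j + 1)).foldr (fun (d : Fin r) acc => pmStep (m d) d.succ acc)
            (fun u' : L → Fin (r + 1) → unitInterval => W (fun ω => chainState q0 q (u' ω) r))
            (fun ω i => if i = (⟨j, hjr'⟩ : Fin r).succ then v ω else u ω i) =
          nestPM κ m W n (j + 1) (fun ω => q (j + 1) (chainState q0 q (u ω) j) (v ω)) := by
        intro v
        rw [ih (j + 1) (by omega)]
        congr 1
        funext ω
        simp only [chainState]
        rw [dif_pos (by omega)]
        rw [chainState_congr q0 q _ (u ω) j]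
        · simp
        · intro i hi
          rw [if_neg]
          intro h
          rw [h] at hi
          simp at hi
      simp only [hint]
      exact integral_quantile volume (fun ω => q (j + 1) (chainState q0 q (u ω) j))
        (fun ω a => hq _ _ a) (fun ω a => κ (j + 1) (chainState q0 q (u ω) j) a)
        (fun ω a => hκ _ _ _) (fun s => (nestPM κ m W n (j + 1) s) ^ m j)
  have := key r 0 (by omega) u
  simpa [powerMeans, chainState] using this

theorem integral_powerMeans_chain {L : Type*} [Fintype L] [DecidableEq L] {r : ℕ}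
    (q0 : unitInterval → A) (q : ℕ → A → unitInterval → A)
    (hq0 : ∀ a, MeasurableSet (q0 ⁻¹' {a}))
    (hq : ∀ j a b, MeasurableSet (q j a ⁻¹' {b}))
    (κ0 : A → ℝ) (κ : ℕ → A → A → ℝ)
    (hκ0 : ∀ a, (volume (q0 ⁻¹' {a})).toReal = κ0 a)
    (hκ : ∀ j a b, (volume (q j a ⁻¹' {b})).toReal = κ j a b)
    (m : ℕ → ℝ) (W : (L → A) → ℝ) (F : ℝ → ℝ) :
    ∫ u, F (powerMeans (fun d : Fin r => m d) (fun u' => W (fun ω => chainState q0 q (u' ω) r)) u)
      ∂(uniformArrays L r) =
      ∑ s : L → A, (∏ ω, κ0 (s ω)) * F (nestPM κ m W r 0 s) := by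
  simp only [powerMeans_chain q0 q hq κ hκ]
  unfold uniformArrays
  have hev : MeasurePreserving (fun u : Fin (r + 1) → unitInterval => u 0)
      (Measure.pi fun _ : Fin (r + 1) => (volume : Measure unitInterval)) volume :=
    measurePreserving_eval _ 0
  refine integral_quantile (Measure.pi fun _ : Fin (r + 1) => (volume : Measure unitInterval))
    (fun _ u => q0 (u 0)) (fun ω a => hev.measurable (hq0 a)) (fun _ a => κ0 a) (fun ω a => ?_)
    (fun s => F (nestPM κ m W r 0 s))
  rw [← hκ0 a, ← hev.measure_preimage (hq0 a).nullMeasurableSet]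
  rfl

/-- **Finite trials.** For every finite Markov chain (initial law `κ0`, transition weights
`κ (j+1)` from level `j` to level `j+1`) and every value `x : A → ℝ` of the final state there is a
measurable trial `X` all of whose nested power means are the finite ones. -/
theorem exists_finTrial (r : ℕ) (κ0 : A → ℝ) (κ : ℕ → A → A → ℝ)
    (h0 : ∀ a, 0 ≤ κ0 a) (h1 : ∑ a, κ0 a = 1)
    (hκ0 : ∀ j a b, 0 ≤ κ j a b) (hκ1 : ∀ j a, ∑ b, κ j a b = 1) (x : A → ℝ) :
    ∃ X : (Fin (r + 1) → unitInterval) → ℝ, Measurable X ∧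
      ∀ (L : Type) [Fintype L] [DecidableEq L] (m : ℕ → ℝ) (W : (L → ℝ) → ℝ) (F : ℝ → ℝ),
        ∫ u, F (powerMeans (fun d : Fin r => m d) (fun u' => W (fun ω => X (u' ω))) u)
          ∂(uniformArrays L r) =
        ∑ s : L → A, (∏ ω, κ0 (s ω)) * F (nestPM κ m (fun s => W (fun ω => x (s ω))) r 0 s) := by
  obtain ⟨q0, hq0m, hq0v⟩ := exists_quantile κ0 h0 h1
  choose q hqm hqv using fun j a => exists_quantile (κ j a) (hκ0 j a) (hκ1 j a)
  refine ⟨fun u => x (chainState q0 q u r), ?_, fun L _ _ m W F => ?_⟩
  · intro S _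
    have : (fun u : Fin (r + 1) → unitInterval => x (chainState q0 q u r)) ⁻¹' S =
        ⋃ a : A, {u | chainState q0 q u r = a ∧ x a ∈ S} := by
      ext u
      simp
    rw [this]
    refine MeasurableSet.iUnion fun a => ?_
    by_cases hxa : x a ∈ S
    · simpa [hxa] using measurable_chainState q0 q hq0m hqm r a
    · simp [hxa]
  · exact integral_powerMeans_chain q0 q hq0m hqm κ0 κ hq0v hqv m
      (fun s => W (fun ω => x (s ω))) F


end chain

/-! ### Algebra of `nestPM` -/

section algebra

variable {A : Type*} [Fintype A] {L : Type*} [Fintype L] [DecidableEq L]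

omit [Fintype A] [DecidableEq L] in
theorem prod_kernel_nonneg {κ : ℕ → A → A → ℝ} (hκ0 : ∀ j a b, 0 ≤ κ j a b) (j : ℕ)
    (s s' : L → A) : 0 ≤ ∏ ω, κ j (s ω) (s' ω) :=
  Finset.prod_nonneg fun _ _ => hκ0 _ _ _

theorem sum_prod_kernel {κ : ℕ → A → A → ℝ} (hκ1 : ∀ j a, ∑ b, κ j a b = 1) (j : ℕ)
    (s : L → A) : ∑ s' : L → A, ∏ ω, κ j (s ω) (s' ω) = 1 := by
  classical
  rw [← Fintype.piFinset_univ, ← Finset.prod_univ_sum (fun _ => Finset.univ)
    (fun ω a => κ j (s ω) a)]
  simp [hκ1]

theorem nestPM_nonneg (κ : ℕ → A → A → ℝ) (hκ0 : ∀ j a b, 0 ≤ κ j a b) (m : ℕ → ℝ)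
    (W : (L → A) → ℝ) (hW : ∀ s, 0 ≤ W s) (n j : ℕ) (s : L → A) : 0 ≤ nestPM κ m W n j s := by
  induction n generalizing j s with
  | zero => exact hW s
  | succ n ih =>
    simp only [nestPM]
    exact Real.rpow_nonneg (Finset.sum_nonneg fun s' _ =>
      mul_nonneg (prod_kernel_nonneg hκ0 _ _ _) (Real.rpow_nonneg (ih _ _) _)) _








end algebra

end Crest.Agent.R141
private theorem rz_8a58157f40 : type_of% @_root_.Crest.Agent.R141.chainState.eq_def := @_root_.Crest.Agent.R141.chainState.eq_def -- L91
private theorem rz_8c37dff368 : type_of% @_root_.Crest.Agent.R141.chainState.eq_1 := @_root_.Crest.Agent.R141.chainState.eq_1 -- L91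
private theorem rz_5d6f4a1b7d : type_of% @_root_.Crest.Agent.R141.nestPM.eq_def := @_root_.Crest.Agent.R141.nestPM.eq_def -- L20
private theorem rz_0764c30589 : type_of% @_root_.Crest.Agent.R141.nestPM.eq_1 := @_root_.Crest.Agent.R141.nestPM.eq_1 -- L20
end

-- ▼ part R141/FinTrial2

/-!
Row 141: `powerMeans` of products over disjoint label sets and reindexing (general measurable
trials; no measurability is needed in these identities).
-/

set_option autoImplicit false

open MeasureTheory unitInterval

namespace Crest.Agent.R141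

open Crest.ProbabilityR.Diluted

/-! ### Nonnegativity -/

theorem pmStep_nonneg {L : Type*} [Fintype L] {r : ℕ} (m : ℝ) (lvl : Fin (r + 1))
    (W : (L → Fin (r + 1) → unitInterval) → ℝ) (hW : ∀ u, 0 ≤ W u)
    (u : L → Fin (r + 1) → unitInterval) : 0 ≤ pmStep m lvl W u :=
  Real.rpow_nonneg (integral_nonneg fun _ => Real.rpow_nonneg (hW _) _) _

theorem foldr_pmStep_nonneg {L : Type*} [Fintype L] {r : ℕ} (m : Fin r → ℝ) (l : List (Fin r))
    (W : (L → Fin (r + 1) → unitInterval) → ℝ) (hW : ∀ u, 0 ≤ W u)
    (u : L → Fin (r + 1) → unitInterval) :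
    0 ≤ l.foldr (fun d acc => pmStep (m d) d.succ acc) W u := by
  induction l generalizing u with
  | nil => exact hW u
  | cons d l ih => exact pmStep_nonneg _ _ _ ih _


/-! ### Products over a disjoint union of two label sets -/



/-! ### Reindexing -/

theorem pmStep_reindex {L L' : Type*} [Fintype L] [Fintype L'] (e : L ≃ L') {r : ℕ} (m : ℝ)
    (lvl : Fin (r + 1)) (W : (L → Fin (r + 1) → unitInterval) → ℝ)
    (u : L' → Fin (r + 1) → unitInterval) :
    pmStep m lvl (fun u => W (fun ω => u (e ω))) u = pmStep m lvl W (fun ω => u (e ω)) := by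
  unfold pmStep
  congr 1
  have hmp := measurePreserving_piCongrLeft
    (fun _ : L' => (volume : Measure unitInterval)) e
  rw [← hmp.integral_comp']
  refine integral_congr_ae (Filter.Eventually.of_forall fun v => ?_)
  simp only []
  congr 2
  funext ω j
  by_cases hj : j = lvl
  · simp only [hj, if_true]
    exact MeasurableEquiv.piCongrLeft_apply_apply (β := fun _ : L' => unitInterval) e v ω
  · simp only [hj, if_false]

theorem powerMeans_reindex {L L' : Type*} [Fintype L] [Fintype L'] (e : L ≃ L') {r : ℕ}
    (m : Fin r → ℝ) (W : (L → Fin (r + 1) → unitInterval) → ℝ)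
    (u : L' → Fin (r + 1) → unitInterval) :
    powerMeans m (fun u => W (fun ω => u (e ω))) u = powerMeans m W (fun ω => u (e ω)) := by
  unfold powerMeans
  generalize List.finRange r = l
  induction l generalizing u with
  | nil => rfl
  | cons d l ih =>
    simp only [List.foldr_cons]
    have : (List.foldr (fun d acc => pmStep (m d) d.succ acc)
        (fun u : L' → Fin (r + 1) → unitInterval => W (fun ω => u (e ω))) l) =
        fun u => (List.foldr (fun d acc => pmStep (m d) d.succ acc) W l) (fun ω => u (e ω)) := by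
      funext u
      exact ih u
    rw [this]
    exact pmStep_reindex e _ _ _ u

/-! ### Products over a finite family of label sets -/

theorem integral_sigma_prod {ι : Type*} [Fintype ι] {κ : ι → Type*} [∀ i, Fintype (κ i)]
    (μ : Measure unitInterval) [IsProbabilityMeasure μ]
    (f : (i : ι) → (κ i → unitInterval) → ℝ) :
    ∫ v : ((i : ι) × κ i) → unitInterval, ∏ i, f i (fun j => v ⟨i, j⟩)
      ∂(Measure.pi fun _ => μ) = ∏ i, ∫ v : κ i → unitInterval, f i v ∂(Measure.pi fun _ => μ) := by
  classical
  have h := Measure.infinitePi_map_piCurry (κ := κ) (X := fun _ _ => unitInterval)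
    (fun (_ : ι) (_ : κ _) => μ)
  simp only [Measure.infinitePi_eq_pi] at h
  rw [← integral_fintype_prod_eq_prod, ← h, integral_map_equiv]
  rfl

theorem pmStep_sigma_prod {ι : Type*} [Fintype ι] {κ : ι → Type*} [∀ i, Fintype (κ i)] {r : ℕ}
    (m : ℝ) (lvl : Fin (r + 1)) (W : (i : ι) → (κ i → Fin (r + 1) → unitInterval) → ℝ)
    (hW : ∀ i u, 0 ≤ W i u) (u : ((i : ι) × κ i) → Fin (r + 1) → unitInterval) :
    pmStep m lvl (fun u => ∏ i, W i (fun j => u ⟨i, j⟩)) u =
      ∏ i, pmStep m lvl (W i) (fun j => u ⟨i, j⟩) := by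
  unfold pmStep
  rw [Real.finsetProd_rpow _ _ (fun i _ => integral_nonneg fun _ => Real.rpow_nonneg (hW i _) _)]
  congr 1
  rw [← integral_sigma_prod]
  refine integral_congr_ae (Filter.Eventually.of_forall fun v => ?_)
  simp only []
  rw [← Real.finsetProd_rpow _ _ (fun i _ => hW i _)]

theorem powerMeans_sigma_prod {ι : Type*} [Fintype ι] {κ : ι → Type*} [∀ i, Fintype (κ i)]
    {r : ℕ} (m : Fin r → ℝ) (W : (i : ι) → (κ i → Fin (r + 1) → unitInterval) → ℝ)
    (hW : ∀ i u, 0 ≤ W i u) (u : ((i : ι) × κ i) → Fin (r + 1) → unitInterval) :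
    powerMeans m (fun u => ∏ i, W i (fun j => u ⟨i, j⟩)) u =
      ∏ i, powerMeans m (W i) (fun j => u ⟨i, j⟩) := by
  unfold powerMeans
  generalize List.finRange r = l
  induction l generalizing u with
  | nil => rfl
  | cons d l ih =>
    simp only [List.foldr_cons]
    have : (List.foldr (fun d acc => pmStep (m d) d.succ acc)
        (fun u : ((i : ι) × κ i) → Fin (r + 1) → unitInterval => ∏ i, W i (fun j => u ⟨i, j⟩)) l) =
        fun u => ∏ i, (List.foldr (fun d acc => pmStep (m d) d.succ acc) (W i) l)
          (fun j => u ⟨i, j⟩) := by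
      funext u
      exact ih u
    rw [this]
    exact pmStep_sigma_prod _ _ _ (fun i => foldr_pmStep_nonneg m l (W i) (hW i)) u

/-- Marginal of the uniforms of one group of labels. -/
theorem measurePreserving_sigma_eval {ι : Type*} [Fintype ι] {κ : ι → Type*}
    [∀ i, Fintype (κ i)] (r : ℕ) (i : ι) :
    MeasurePreserving (fun (u : ((i : ι) × κ i) → Fin (r + 1) → unitInterval) (j : κ i) => u ⟨i, j⟩)
      (uniformArrays ((i : ι) × κ i) r) (uniformArrays (κ i) r) := by
  classical
  unfold uniformArrays
  have h := Measure.infinitePi_map_piCurry (κ := κ) (X := fun _ _ => Fin (r + 1) → unitInterval)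
    (fun (_ : ι) (_ : κ _) => Measure.pi fun _ : Fin (r + 1) => (volume : Measure unitInterval))
  simp only [Measure.infinitePi_eq_pi] at h
  have h1 : MeasurePreserving (MeasurableEquiv.piCurry
      (fun (i : ι) (_ : κ i) => Fin (r + 1) → unitInterval))
      (Measure.pi fun _ : ((i : ι) × κ i) => Measure.pi fun _ : Fin (r + 1) =>
        (volume : Measure unitInterval))
      (Measure.pi fun i : ι => Measure.pi fun _ : κ i => Measure.pi fun _ : Fin (r + 1) =>
        (volume : Measure unitInterval)) := ⟨MeasurableEquiv.measurable _, h⟩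
  exact (measurePreserving_eval (fun i : ι => Measure.pi fun _ : κ i =>
    Measure.pi fun _ : Fin (r + 1) => (volume : Measure unitInterval)) i).comp h1

/-- The integrated logarithm of the nested power means of a product over a finite family of
disjoint label sets is the sum of the individual ones. -/
theorem integral_log_powerMeans_sigma_prod {ι : Type*} [Fintype ι] {κ : ι → Type*}
    [∀ i, Fintype (κ i)] {r : ℕ} (m : Fin r → ℝ)
    (W : (i : ι) → (κ i → Fin (r + 1) → unitInterval) → ℝ)
    (hW : ∀ i u, 0 ≤ W i u) (hpos : ∀ i u, 0 < powerMeans m (W i) u)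
    (hint : ∀ i, Integrable (fun u => Real.log (powerMeans m (W i) u)) (uniformArrays (κ i) r)) :
    ∫ u, Real.log (powerMeans m (fun u => ∏ i, W i (fun j => u ⟨i, j⟩)) u)
      ∂(uniformArrays ((i : ι) × κ i) r) =
      ∑ i, ∫ u, Real.log (powerMeans m (W i) u) ∂(uniformArrays (κ i) r) := by
  classical
  simp only [powerMeans_sigma_prod m W hW]
  have h1 : ∀ u : ((i : ι) × κ i) → Fin (r + 1) → unitInterval,
      Real.log (∏ i, powerMeans m (W i) (fun j => u ⟨i, j⟩)) =
        ∑ i, Real.log (powerMeans m (W i) (fun j => u ⟨i, j⟩)) := fun u =>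
    Real.log_prod (fun i _ => (hpos i _).ne')
  simp only [h1]
  rw [integral_finsetSum]
  · refine Finset.sum_congr rfl fun i _ => ?_
    have hmp := measurePreserving_sigma_eval (κ := κ) r i
    have haes : AEStronglyMeasurable (fun u => Real.log (powerMeans m (W i) u))
      (Measure.map (fun (u : ((i : ι) × κ i) → Fin (r + 1) → unitInterval) (j : κ i) => u ⟨i, j⟩)
        (uniformArrays ((i : ι) × κ i) r)) := by
      rw [hmp.map_eq]; exact (hint i).aestronglyMeasurable
    rw [← hmp.map_eq, integral_map hmp.measurable.aemeasurable haes]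
  · intro i _
    have hmp := measurePreserving_sigma_eval (κ := κ) r i
    exact hmp.integrable_comp_of_integrable (hint i)

end Crest.Agent.R141
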