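import Mathlib

/-!
Row 141 (S0192), Part L, Section 1: abstract hierarchical structure on a finite probability space.

`cE P r f ω` is the conditional expectation of `f` given the partition `r` (a `Setoid`) under the
weights `P`.  `Filt` is a finite filtration, `Expo` a nondecreasing sequence of exponents in `(0,1]`,
`A P 𝓕 x W k` the hierarchical (nested power mean) log-functional.
-/

set_option autoImplicit false

namespace Crest.Agent.R141

open Finset

noncomputable section

open scoped Classical in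
/-- conditional expectation of `f` given the partition `r`. -/
def cE {Ω : Type*} [Fintype Ω] (P : Ω → ℝ) (r : Setoid Ω) (f : Ω → ℝ) (ω : Ω) : ℝ :=
  (∑ ω' ∈ univ.filter (fun ω' => r ω ω'), P ω' * f ω') /
    (∑ ω' ∈ univ.filter (fun ω' => r ω ω'), P ω')

/-- `f` is constant on the classes of `r`. -/
def RMeas {Ω : Type*} (r : Setoid Ω) (f : Ω → ℝ) : Prop := ∀ a b, r a b → f a = f b

/-- strictly positive probability weights on a finite type. -/
structure IsProb {Ω : Type*} [Fintype Ω] (P : Ω → ℝ) : Prop where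
  pos : ∀ ω, 0 < P ω
  sum : ∑ ω, P ω = 1

/-- A finite filtration: finer and finer partitions, equality from `L` on. -/
structure Filt (Ω : Type*) where
  F : ℕ → Setoid Ω
  anti : ∀ k, F (k + 1) ≤ F k
  L : ℕ
  bot : ∀ k, L ≤ k → F k = ⊥

/-- Exponents `0 < x_1 ≤ x_2 ≤ … ≤ 1` (index `0` unused but constrained too). -/
structure IsExpo (x : ℕ → ℝ) : Prop where
  pos : ∀ k, 0 < x k
  mono : Monotone x
  le_one : ∀ k, x k ≤ 1

/-- expectation -/
def eE {Ω : Type*} [Fintype Ω] (P : Ω → ℝ) (f : Ω → ℝ) : ℝ := ∑ ω, P ω * f ω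

variable {Ω : Type*} [Fintype Ω] {P : Ω → ℝ} {r s : Setoid Ω} {f g : Ω → ℝ}

open scoped Classical in
theorem cls_pos (hP : IsProb P) (r : Setoid Ω) (ω : Ω) :
    0 < ∑ ω' ∈ univ.filter (fun ω' => r ω ω'), P ω' := by
  apply Finset.sum_pos (fun i _ => hP.pos i)
  exact ⟨ω, by simpa using r.refl ω⟩

open scoped Classical in
theorem filter_congr_rel {ω ω' : Ω} (h : r ω ω') :
    univ.filter (fun a => r ω a) = univ.filter (fun a => r ω' a) := by
  ext a
  simp only [mem_filter, mem_univ, true_and]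
  exact ⟨fun h1 => r.trans (r.symm h) h1, fun h1 => r.trans h h1⟩

theorem cE_meas (P : Ω → ℝ) (r : Setoid Ω) (f : Ω → ℝ) : RMeas r (cE P r f) := by
  classical
  intro a b h
  unfold cE
  rw [filter_congr_rel h]

theorem RMeas.mono (h : s ≤ r) (hf : RMeas r f) : RMeas s f :=
  fun a b hab => hf a b (h hab)

theorem cE_add (P : Ω → ℝ) (r : Setoid Ω) (f g : Ω → ℝ) (ω : Ω) :
    cE P r (fun a => f a + g a) ω = cE P r f ω + cE P r g ω := by
  classical
  unfold cE
  simp only [mul_add, sum_add_distrib, add_div]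

theorem cE_sub (P : Ω → ℝ) (r : Setoid Ω) (f g : Ω → ℝ) (ω : Ω) :
    cE P r (fun a => f a - g a) ω = cE P r f ω - cE P r g ω := by
  classical
  unfold cE
  simp only [mul_sub, sum_sub_distrib, sub_div]

theorem cE_smul (P : Ω → ℝ) (r : Setoid Ω) (c : ℝ) (f : Ω → ℝ) (ω : Ω) :
    cE P r (fun a => c * f a) ω = c * cE P r f ω := by
  classical
  unfold cE
  rw [mul_div_assoc', Finset.mul_sum]
  congr 1
  apply Finset.sum_congr rfl
  intro i _; ring

theorem cE_sum {ι : Type*} (t : Finset ι) (P : Ω → ℝ) (r : Setoid Ω) (f : ι → Ω → ℝ) (ω : Ω) :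
    cE P r (fun a => ∑ i ∈ t, f i a) ω = ∑ i ∈ t, cE P r (f i) ω := by
  classical
  unfold cE
  simp only [Finset.mul_sum, ← Finset.sum_div]
  rw [Finset.sum_comm]

theorem cE_const (hP : IsProb P) (r : Setoid Ω) (c : ℝ) (ω : Ω) :
    cE P r (fun _ => c) ω = c := by
  classical
  unfold cE
  rw [← Finset.sum_mul]
  rw [mul_comm, mul_div_assoc, div_self (cls_pos hP r ω).ne', mul_one]

/-- pull out of a measurable factor -/
theorem cE_mul_left (hg : RMeas r g) (f : Ω → ℝ) (ω : Ω) :
    cE P r (fun a => g a * f a) ω = g ω * cE P r f ω := by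
  classical
  unfold cE
  rw [mul_div_assoc', Finset.mul_sum]
  congr 1
  apply Finset.sum_congr rfl
  intro i hi
  have : g ω = g i := hg ω i (by simpa using hi)
  rw [this]; ring

theorem cE_mul_right (hg : RMeas r g) (f : Ω → ℝ) (ω : Ω) :
    cE P r (fun a => f a * g a) ω = cE P r f ω * g ω := by
  have := cE_mul_left (P := P) hg f ω
  rw [mul_comm (cE P r f ω), ← this]
  congr 1; funext a; ring

theorem cE_of_meas (hP : IsProb P) (hg : RMeas r g) (ω : Ω) : cE P r g ω = g ω := by
  have := cE_mul_left (P := P) hg (fun _ => 1) ω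
  simp only [mul_one] at this
  rw [this, cE_const hP, mul_one]

theorem cE_mono (hP : IsProb P) {f g : Ω → ℝ} (ω : Ω) (h : ∀ a, r ω a → f a ≤ g a) :
    cE P r f ω ≤ cE P r g ω := by
  classical
  unfold cE
  apply div_le_div_of_nonneg_right _ (cls_pos hP r ω).le
  apply Finset.sum_le_sum
  intro i hi
  exact mul_le_mul_of_nonneg_left (h i (by simpa using hi)) (hP.pos i).le

theorem cE_mono' (hP : IsProb P) {f g : Ω → ℝ} (h : ∀ a, f a ≤ g a) (ω : Ω) :
    cE P r f ω ≤ cE P r g ω := cE_mono hP ω (fun a _ => h a)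

theorem cE_congr {f g : Ω → ℝ} (ω : Ω) (h : ∀ a, r ω a → f a = g a) :
    cE P r f ω = cE P r g ω := by
  classical
  unfold cE
  congr 1
  apply Finset.sum_congr rfl
  intro i hi
  rw [h i (by simpa using hi)]

theorem cE_nonneg (hP : IsProb P) {f : Ω → ℝ} (h : ∀ a, 0 ≤ f a) (ω : Ω) :
    0 ≤ cE P r f ω := by
  have := cE_mono' (r := r) hP h ω
  rwa [cE_const hP] at this

theorem cE_pos (hP : IsProb P) {f : Ω → ℝ} (h : ∀ a, 0 < f a) (ω : Ω) :
    0 < cE P r f ω := by
  classical
  unfold cE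
  apply div_pos _ (cls_pos hP r ω)
  apply Finset.sum_pos (fun i _ => mul_pos (hP.pos i) (h i))
  exact ⟨ω, by simpa using r.refl ω⟩

theorem cE_abs_le (hP : IsProb P) (f : Ω → ℝ) (ω : Ω) :
    |cE P r f ω| ≤ cE P r (fun a => |f a|) ω := by
  rw [abs_le]
  constructor
  · have : cE P r (fun a => (-1) * |f a|) ω ≤ cE P r f ω :=
      cE_mono' hP (fun a => by have := neg_abs_le (f a); linarith) ω
    rw [cE_smul] at this; linarith
  · exact cE_mono' hP (fun a => le_abs_self _) ω

theorem cE_le_of_le (hP : IsProb P) {f : Ω → ℝ} {c : ℝ} (h : ∀ a, f a ≤ c) (ω : Ω) :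
    cE P r f ω ≤ c := by
  have := cE_mono' (r := r) (P := P) (g := fun _ => c) hP h ω
  rwa [cE_const hP] at this

theorem le_cE_of_le (hP : IsProb P) {f : Ω → ℝ} {c : ℝ} (h : ∀ a, c ≤ f a) (ω : Ω) :
    c ≤ cE P r f ω := by
  have := cE_mono' (r := r) (P := P) (f := fun _ => c) hP h ω
  rwa [cE_const hP] at this

theorem abs_cE_le_of_le (hP : IsProb P) {f : Ω → ℝ} {c : ℝ} (h : ∀ a, |f a| ≤ c) (ω : Ω) :
    |cE P r f ω| ≤ c :=
  (cE_abs_le hP f ω).trans (cE_le_of_le hP h ω)

/-- key double counting: sum of `P * cE` over a coarse class -/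
theorem sum_class_cE (hP : IsProb P) (h : s ≤ r) (f : Ω → ℝ) (ω : Ω) : by
    classical exact
    (∑ ω' ∈ univ.filter (fun ω' => r ω ω'), P ω' * cE P s f ω' =
      ∑ ω' ∈ univ.filter (fun ω' => r ω ω'), P ω' * f ω') := by
  classical
  show (∑ ω' ∈ univ.filter (fun ω' => r ω ω'), P ω' * cE P s f ω' =
      ∑ ω' ∈ univ.filter (fun ω' => r ω ω'), P ω' * f ω')
  unfold cE
  have key : ∀ ω' ∈ univ.filter (fun ω' => r ω ω'),
      P ω' * ((∑ a ∈ univ.filter (fun a => s ω' a), P a * f a) /
        (∑ a ∈ univ.filter (fun a => s ω' a), P a)) =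
      ∑ a ∈ univ.filter (fun a => r ω a), (if s ω' a then
        P ω' * (P a * f a) / (∑ b ∈ univ.filter (fun b => s a b), P b) else 0) := by
    intro ω' hω'
    have hrω' : r ω ω' := by simpa using hω'
    rw [← Finset.sum_filter, Finset.filter_filter]
    have hset : univ.filter (fun a => r ω a ∧ s ω' a) = univ.filter (fun a => s ω' a) := by
      ext a; simp only [mem_filter, mem_univ, true_and, and_iff_right_iff_imp]
      intro h1; exact r.trans hrω' (h h1)
    rw [hset, mul_div_assoc', Finset.mul_sum, Finset.sum_div]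
    apply Finset.sum_congr rfl
    intro a ha
    have : s ω' a := by simpa using ha
    rw [filter_congr_rel this]
  rw [Finset.sum_congr rfl key, Finset.sum_comm]
  apply Finset.sum_congr rfl
  intro a ha
  have hra : r ω a := by simpa using ha
  rw [← Finset.sum_filter, Finset.filter_filter]
  have hset : univ.filter (fun b => r ω b ∧ s b a) = univ.filter (fun b => s a b) := by
    ext b; simp only [mem_filter, mem_univ, true_and]
    constructor
    · rintro ⟨_, h2⟩; exact s.symm h2
    · intro h1; exact ⟨r.trans hra (h h1), s.symm h1⟩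
  rw [hset, ← Finset.sum_div, ← Finset.sum_mul, mul_comm, mul_div_assoc,
    div_self (cls_pos hP s a).ne', mul_one]

/-- tower property -/
theorem cE_tower (hP : IsProb P) (h : s ≤ r) (f : Ω → ℝ) (ω : Ω) :
    cE P r (cE P s f) ω = cE P r f ω := by
  classical
  have := sum_class_cE hP h f ω
  unfold cE at this ⊢
  rw [this]


theorem cE_bot (hP : IsProb P) (f : Ω → ℝ) (ω : Ω) : cE P ⊥ f ω = f ω :=
  cE_of_meas hP (fun a b h => by
    have : a = b := h
    rw [this]) ω

theorem eE_cE (hP : IsProb P) (r : Setoid Ω) (f : Ω → ℝ) : eE P (cE P r f) = eE P f := by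
  classical
  have := sum_class_cE (r := ⊤) hP (le_top : r ≤ ⊤) f
  unfold eE
  by_cases hne : Nonempty Ω
  · obtain ⟨ω⟩ := hne
    have h2 := this ω
    have hf : univ.filter (fun ω' => (⊤ : Setoid Ω) ω ω') = (univ : Finset Ω) := by
      ext a; simp only [mem_filter, mem_univ, true_and, iff_true]; trivial
    rw [hf] at h2
    exact h2
  · rw [not_nonempty_iff] at hne
    simp

theorem eE_top (hP : IsProb P) (f : Ω → ℝ) (ω : Ω) : cE P ⊤ f ω = eE P f := by
  classical
  unfold cE eE
  have hf : univ.filter (fun ω' => (⊤ : Setoid Ω) ω ω') = (univ : Finset Ω) := by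
    ext a; simp only [mem_filter, mem_univ, true_and, iff_true]; trivial
  rw [hf, hP.sum, div_one]

theorem eE_add (P f g : Ω → ℝ) : eE P (fun a => f a + g a) = eE P f + eE P g := by
  simp [eE, mul_add, sum_add_distrib]

theorem eE_sub (P f g : Ω → ℝ) : eE P (fun a => f a - g a) = eE P f - eE P g := by
  simp [eE, mul_sub, sum_sub_distrib]

theorem eE_smul (P : Ω → ℝ) (c : ℝ) (f : Ω → ℝ) : eE P (fun a => c * f a) = c * eE P f := by
  simp only [eE, Finset.mul_sum]; apply Finset.sum_congr rfl; intro i _; ring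

theorem eE_const (hP : IsProb P) (c : ℝ) : eE P (fun _ => c) = c := by
  simp only [eE, ← Finset.sum_mul, hP.sum, one_mul]

theorem eE_mono (hP : IsProb P) {f g : Ω → ℝ} (h : ∀ a, f a ≤ g a) : eE P f ≤ eE P g :=
  Finset.sum_le_sum fun i _ => mul_le_mul_of_nonneg_left (h i) (hP.pos i).le

theorem eE_nonneg (hP : IsProb P) {f : Ω → ℝ} (h : ∀ a, 0 ≤ f a) : 0 ≤ eE P f :=
  Finset.sum_nonneg fun i _ => mul_nonneg (hP.pos i).le (h i)

theorem eE_sum {ι : Type*} (t : Finset ι) (P : Ω → ℝ) (f : ι → Ω → ℝ) :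
    eE P (fun a => ∑ i ∈ t, f i a) = ∑ i ∈ t, eE P (f i) := by
  simp only [eE, Finset.mul_sum]; rw [Finset.sum_comm]

end

end Crest.Agent.R141
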