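import Mathlib
import Crest.Prelude.Def_DilutedSpinGlass
import Crest.Agent.R141.KI0

-- ▼ part R141/KIa
section

set_option autoImplicit false

/-!
Row 141, part U1 (key inequality), abstract series part.
-/

namespace Crest.Agent.R141

open MeasureTheory

section Abstract

variable {Z : Type*} [MeasurableSpace Z] {p : ℕ} {S : Type*} [Fintype S]

/-- weighted average of a product of site functions -/
noncomputable def mixProd (w : S → ℝ) (γ : Fin p → Z → S → ℝ) (z : Fin p → Z) : ℝ :=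
  ∑ s, w s * ∏ ℓ, γ ℓ (z ℓ) s

lemma measurable_mixProd (w : S → ℝ) (γ : Fin p → Z → S → ℝ)
    (hγ : ∀ ℓ s, Measurable (fun z => γ ℓ z s)) : Measurable (mixProd w γ) := by
  unfold mixProd
  refine Finset.measurable_sum _ fun s _ => ?_
  refine Measurable.const_mul ?_ _
  refine Finset.measurable_prod _ fun ℓ _ => ?_
  exact (hγ ℓ s).comp (measurable_pi_apply ℓ)

/-- Series expansion of the expected logarithm. -/
lemma hasSum_log_expansion {W : Type*} [MeasurableSpace W] (τ : Measure ℝ) [IsProbabilityMeasure τ]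
    (κ : Measure W) [IsProbabilityMeasure κ] (M : W → ℝ) (hM : Measurable M)
    (hb : ∀ᵐ q ∂(τ.prod κ), |q.1 * M q.2| ≤ 1) (t : ℝ) (ht0 : 0 ≤ t) (ht1 : t < 1) :
    HasSum (fun n : ℕ => -(t ^ (n + 1) / (n + 1)) *
        ((∫ b, (-b) ^ (n + 1) ∂τ) * ∫ z, (M z) ^ (n + 1) ∂κ))
      (∫ q, Real.log (1 + t * (q.1 * M q.2)) ∂(τ.prod κ)) := by
  set F : ℕ → ℝ × W → ℝ := fun n q => -((-(t * (q.1 * M q.2))) ^ (n + 1) / (n + 1)) with hF
  have hmeas : Measurable (fun q : ℝ × W => q.1 * M q.2) :=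
    measurable_fst.mul (hM.comp measurable_snd)
  have hFmeas : ∀ n, Measurable (F n) := by
    intro n
    simp only [hF]
    exact (((hmeas.const_mul t).neg.pow_const (n + 1)).div_const _).neg
  have hbound : ∀ n, ∀ᵐ q ∂(τ.prod κ), ‖F n q‖ ≤ t ^ (n + 1) := by
    intro n
    filter_upwards [hb] with q hq
    simp only [hF, norm_neg, norm_div, norm_pow, norm_mul, Real.norm_eq_abs]
    have h1 : |t| * (|q.1| * |M q.2|) ≤ t := by
      rw [abs_of_nonneg ht0, ← abs_mul]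
      nlinarith
    have h0 : 0 ≤ |t| * (|q.1| * |M q.2|) := by positivity
    have h2 : (|t| * (|q.1| * |M q.2|)) ^ (n + 1) ≤ t ^ (n + 1) := pow_le_pow_left₀ h0 h1 _
    have h3 : (1 : ℝ) ≤ |(n : ℝ) + 1| := by
      rw [abs_of_nonneg (by positivity)]
      have : (0 : ℝ) ≤ n := Nat.cast_nonneg n
      linarith
    calc (|t| * (|q.1| * |M q.2|)) ^ (n + 1) / |(n : ℝ) + 1|
        ≤ (|t| * (|q.1| * |M q.2|)) ^ (n + 1) := div_le_self (by positivity) h3
      _ ≤ t ^ (n + 1) := h2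
  have hFint : ∀ n, Integrable (F n) (τ.prod κ) := fun n =>
    Integrable.of_bound (hFmeas n).aestronglyMeasurable _ (hbound n)
  have hsum : Summable fun n => ∫ q, ‖F n q‖ ∂(τ.prod κ) := by
    refine Summable.of_nonneg_of_le (fun n => integral_nonneg fun q => norm_nonneg _) (fun n => ?_)
      ((summable_geometric_of_lt_one ht0 ht1).mul_left t)
    calc ∫ q, ‖F n q‖ ∂(τ.prod κ) ≤ ∫ q, t ^ (n + 1) ∂(τ.prod κ) :=
          integral_mono_ae (hFint n).norm (integrable_const _) (hbound n)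
      _ = t * t ^ n := by simp [pow_succ, mul_comm]
  have key := hasSum_integral_of_summable_integral_norm hFint hsum
  have hlim : (∫ q, ∑' n, F n q ∂(τ.prod κ)) = ∫ q, Real.log (1 + t * (q.1 * M q.2)) ∂(τ.prod κ) := by
    refine integral_congr_ae ?_
    filter_upwards [hb] with q hq
    have hx : |-(t * (q.1 * M q.2))| < 1 := by
      rw [abs_neg, abs_mul, abs_of_nonneg ht0]
      nlinarith [abs_nonneg (q.1 * M q.2)]
    have h := (Real.hasSum_pow_div_log_of_abs_lt_one hx).neg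
    have h2 : HasSum (fun n => F n q) (Real.log (1 + t * (q.1 * M q.2))) := by
      have e : Real.log (1 + t * (q.1 * M q.2)) = - -Real.log (1 - -(t * (q.1 * M q.2))) := by
        rw [neg_neg, sub_neg_eq_add]
      rw [e]
      exact h
    exact h2.tsum_eq
  rw [hlim] at key
  have hfun : (fun n : ℕ => -(t ^ (n + 1) / (n + 1)) *
        ((∫ b, (-b) ^ (n + 1) ∂τ) * ∫ z, (M z) ^ (n + 1) ∂κ)) =
      fun n => ∫ q, F n q ∂(τ.prod κ) := by
    funext n
    have e1 : (fun q : ℝ × W => F n q) = fun q : ℝ × W =>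
        -(t ^ (n + 1) / (n + 1)) * ((-q.1) ^ (n + 1) * (M q.2) ^ (n + 1)) := by
      funext q
      simp only [hF]
      have : -(t * (q.1 * M q.2)) = t * ((-q.1) * M q.2) := by ring
      rw [this, mul_pow, mul_pow]
      ring
    rw [e1, integral_const_mul]
    rw [integral_prod_mul (fun b : ℝ => (-b) ^ (n + 1)) (fun z => (M z) ^ (n + 1))]
  rw [hfun]
  exact key

lemma integral_mixProd_pow (ρ : Measure Z) [IsProbabilityMeasure ρ] (w : S → ℝ)
    (γ : Fin p → Z → S → ℝ) (hγ : ∀ ℓ s, Measurable (fun z => γ ℓ z s)) (c : ℝ)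
    (hc : ∀ s, ∀ᵐ z ∂(Measure.pi fun _ : Fin p => ρ), |∏ ℓ, γ ℓ (z ℓ) s| ≤ c) (n : ℕ) :
    ∫ z, (mixProd w γ z) ^ n ∂(Measure.pi fun _ : Fin p => ρ) =
      ∑ σ : Fin n → S, (∏ r, w (σ r)) * ∏ ℓ, ∫ z, ∏ r, γ ℓ z (σ r) ∂ρ := by
  have e1 : (fun z => (mixProd w γ z) ^ n) = fun z : Fin p → Z =>
      ∑ σ : Fin n → S, (∏ r, w (σ r)) * ∏ ℓ, ∏ r, γ ℓ (z ℓ) (σ r) := by
    funext z
    unfold mixProd
    rw [Fintype.sum_pow]
    refine Finset.sum_congr rfl fun σ _ => ?_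
    rw [Finset.prod_mul_distrib, Finset.prod_comm]
  rw [e1, integral_finsetSum]
  · refine Finset.sum_congr rfl fun σ _ => ?_
    rw [integral_const_mul]
    congr 1
    exact integral_fintype_prod_eq_prod (fun (ℓ : Fin p) (z : Z) => ∏ r, γ ℓ z (σ r))
  · intro σ _
    refine Integrable.const_mul ?_ _
    have hm : Measurable fun z : Fin p → Z => ∏ ℓ, ∏ r, γ ℓ (z ℓ) (σ r) := by
      refine Finset.measurable_prod _ fun ℓ _ => ?_
      refine Finset.measurable_prod _ fun r _ => ?_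
      exact (hγ ℓ (σ r)).comp (measurable_pi_apply ℓ)
    have hall : ∀ᵐ z ∂(Measure.pi fun _ : Fin p => ρ), ∀ s, |∏ ℓ, γ ℓ (z ℓ) s| ≤ c :=
      ae_all_iff.2 hc
    refine Integrable.of_bound hm.aestronglyMeasurable (|c| ^ n) ?_
    filter_upwards [hall] with z hz
    rw [Finset.prod_comm, norm_prod]
    calc ∏ r : Fin n, ‖∏ ℓ, γ ℓ (z ℓ) (σ r)‖ ≤ ∏ r : Fin n, |c| := by
          refine Finset.prod_le_prod (fun r _ => norm_nonneg _) fun r _ => ?_
          exact (hz (σ r)).trans (le_abs_self c)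
      _ = |c| ^ n := by simp

/-- tangent line inequality `x y^q ≤ (x^{q+1} + q y^{q+1})/(q+1)` for `q+1` even or `x, y ≥ 0` -/
lemma tangent_ineq (q : ℕ) (x y : ℝ) (hq : Even (q + 1) ∨ (0 ≤ x ∧ 0 ≤ y)) :
    x * y ^ q ≤ (1 / (q + 1 : ℝ)) * x ^ (q + 1) + (q / (q + 1 : ℝ)) * y ^ (q + 1) := by
  have hq0 : (0 : ℝ) < q + 1 := by positivity
  have key : (q + 1 : ℝ) * (x * y ^ q) ≤ x ^ (q + 1) + q * y ^ (q + 1) := by
    rcases eq_or_ne y 0 with rfl | hy
    · have : 0 ≤ x ^ (q + 1) := by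
        rcases hq with hq | hq
        · exact hq.pow_nonneg x
        · exact pow_nonneg hq.1 _
      rcases Nat.eq_zero_or_pos q with rfl | hq1
      · simp
      · have h1 : (0 : ℝ) ^ q = 0 := zero_pow hq1.ne'
        have h2 : (0 : ℝ) ^ (q + 1) = 0 := zero_pow (Nat.succ_ne_zero _)
        rw [h1, h2]
        simpa using this
    · set u := x / y with hu
      have hx : x = u * y := by rw [hu]; field_simp
      have hb : 1 + ((q + 1 : ℕ) : ℝ) * (u - 1) ≤ u ^ (q + 1) := by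
        rcases le_or_gt (-1) u with h | h
        · exact one_add_mul_sub_le_pow h _
        · have hq' : Even (q + 1) := by
            rcases hq with hq | hq
            · exact hq
            · exfalso
              have : 0 ≤ u := by rw [hu]; exact div_nonneg hq.1 hq.2
              linarith
          have h1 : 1 ≤ u ^ (q + 1) := by
            have h2 : 1 ≤ |u| := by rw [abs_of_neg (by linarith)]; linarith
            have h3 : |u| ^ (q + 1) = u ^ (q + 1) := hq'.pow_abs u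
            rw [← h3]
            exact one_le_pow₀ h2
          have h4 : ((q + 1 : ℕ) : ℝ) * (u - 1) ≤ 0 := by
            apply mul_nonpos_of_nonneg_of_nonpos
            · positivity
            · linarith
          linarith
      have hy2 : 0 ≤ y ^ (q + 1) := by
        rcases hq with hq | hq
        · exact hq.pow_nonneg y
        · exact pow_nonneg hq.2 _
      push_cast at hb
      have := mul_le_mul_of_nonneg_right hb hy2
      rw [← mul_pow, ← hx] at this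
      have e : x * y ^ q = u * y ^ (q + 1) := by rw [hx]; ring
      rw [e]
      nlinarith
  have h2 : x * y ^ q = (1 / (q + 1 : ℝ)) * ((q + 1 : ℝ) * (x * y ^ q)) := by
    field_simp
  rw [h2]
  have h3 : (1 / (q + 1 : ℝ)) * x ^ (q + 1) + (q / (q + 1 : ℝ)) * y ^ (q + 1) =
      (1 / (q + 1 : ℝ)) * (x ^ (q + 1) + q * y ^ (q + 1)) := by
    field_simp
  rw [h3]
  exact mul_le_mul_of_nonneg_left key (by positivity)

/-- moments of a pattern -/
noncomputable def moment (ρ : Measure Z) (w : S → ℝ) (γ : Fin p → Z → S → ℝ) (n : ℕ) : ℝ :=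
  ∑ σ : Fin n → S, (∏ r, w (σ r)) * ∏ ℓ, ∫ z, ∏ r, γ ℓ z (σ r) ∂ρ

lemma moment_ineq {q N : ℕ} (hN : 0 < N) (ρ : Measure Z) (w : S → ℝ)
    (hw : ∀ s, 0 ≤ w s) (α : Fin N → Z → S → ℝ) (β : Z → S → ℝ)
    (hq : Even (q + 1) ∨ ((∀ i s, ∀ᵐ z ∂ρ, 0 ≤ α i z s) ∧ ∀ s, ∀ᵐ z ∂ρ, 0 ≤ β z s)) (n : ℕ) :
    (N : ℝ)⁻¹ * ∑ i, moment ρ w (fun ℓ : Fin (q + 1) => if ℓ = Fin.last q then α i else β) n ≤
      (1 / (q + 1 : ℝ)) * ((Fintype.card (Fin (q + 1) → Fin N) : ℝ)⁻¹ *
        ∑ I : Fin (q + 1) → Fin N, moment ρ w (fun ℓ => α (I ℓ)) n) +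
      (q / (q + 1 : ℝ)) * moment ρ w (fun _ : Fin (q + 1) => β) n := by
  have hN' : (0 : ℝ) < N := by exact_mod_cast hN
  -- pointwise in σ
  set A : Fin N → (Fin n → S) → ℝ := fun i σ => ∫ z, ∏ r, α i z (σ r) ∂ρ with hA
  set B : (Fin n → S) → ℝ := fun σ => ∫ z, ∏ r, β z (σ r) ∂ρ with hB
  set W : (Fin n → S) → ℝ := fun σ => ∏ r, w (σ r) with hW
  have hW0 : ∀ σ, 0 ≤ W σ := fun σ => Finset.prod_nonneg fun r _ => hw _
  have e1 : ∀ i, moment ρ w (fun ℓ : Fin (q + 1) => if ℓ = Fin.last q then α i else β) n =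
      ∑ σ, W σ * (B σ ^ q * A i σ) := by
    intro i
    unfold moment
    refine Finset.sum_congr rfl fun σ _ => ?_
    congr 1
    rw [Fin.prod_univ_castSucc]
    congr 1
    · rw [← Fin.prod_const q (B σ)]
      refine Finset.prod_congr rfl fun ℓ _ => ?_
      have : (Fin.castSucc ℓ : Fin (q + 1)) ≠ Fin.last q := (Fin.castSucc_lt_last ℓ).ne
      simp only [if_neg this, hB]
    · simp only [if_pos, hA]
  have e2 : ∀ I : Fin (q + 1) → Fin N, moment ρ w (fun ℓ => α (I ℓ)) n =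
      ∑ σ, W σ * ∏ ℓ, A (I ℓ) σ := fun I => rfl
  have e3 : moment ρ w (fun _ : Fin (q + 1) => β) n = ∑ σ, W σ * B σ ^ (q + 1) := by
    unfold moment
    refine Finset.sum_congr rfl fun σ _ => ?_
    simp [hB, hW]
  simp only [e1, e2, e3]
  set a : (Fin n → S) → ℝ := fun σ => (N : ℝ)⁻¹ * ∑ i, A i σ with ha
  have e4 : (N : ℝ)⁻¹ * ∑ i, ∑ σ, W σ * (B σ ^ q * A i σ) = ∑ σ, W σ * (a σ * B σ ^ q) := by
    rw [Finset.sum_comm, Finset.mul_sum]
    refine Finset.sum_congr rfl fun σ _ => ?_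
    simp only [ha]
    rw [← Finset.mul_sum, ← Finset.mul_sum]
    ring
  have e5 : (Fintype.card (Fin (q + 1) → Fin N) : ℝ)⁻¹ *
      ∑ I : Fin (q + 1) → Fin N, ∑ σ, W σ * ∏ ℓ, A (I ℓ) σ = ∑ σ, W σ * (a σ) ^ (q + 1) := by
    rw [Finset.sum_comm, Finset.mul_sum]
    refine Finset.sum_congr rfl fun σ _ => ?_
    have h1 : ∑ I : Fin (q + 1) → Fin N, ∏ ℓ, A (I ℓ) σ = (∑ i, A i σ) ^ (q + 1) := by
      rw [Fintype.sum_pow]
    rw [← Finset.mul_sum, h1]
    simp only [ha, Fintype.card_fun, Fintype.card_fin, Nat.cast_pow, mul_pow, inv_pow]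
    ring
  rw [e4, e5]
  rw [Finset.mul_sum, Finset.mul_sum, ← Finset.sum_add_distrib]
  refine Finset.sum_le_sum fun σ _ => ?_
  have hpos : Even (q + 1) ∨ (0 ≤ a σ ∧ 0 ≤ B σ) := by
    rcases hq with hq | ⟨h1, h2⟩
    · exact Or.inl hq
    · refine Or.inr ⟨?_, ?_⟩
      · refine mul_nonneg (by positivity) (Finset.sum_nonneg fun i _ => ?_)
        refine integral_nonneg_of_ae ?_
        filter_upwards [ae_all_iff.2 (h1 i)] with z hz
        exact Finset.prod_nonneg fun r _ => hz _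
      · refine integral_nonneg_of_ae ?_
        filter_upwards [ae_all_iff.2 h2] with z hz
        exact Finset.prod_nonneg fun r _ => hz _
  have h := mul_le_mul_of_nonneg_left (tangent_ineq q (a σ) (B σ) hpos) (hW0 σ)
  calc W σ * (a σ * B σ ^ q) ≤ _ := h
    _ = _ := by ring

/-- The key inequality for `t < 1`, abstract form. -/
theorem abstract_key {q N : ℕ} (hN : 0 < N) (τ : Measure ℝ)
    [IsProbabilityMeasure τ] (hτ : ∀ n : ℕ, 0 ≤ ∫ b, (-b) ^ (n + 1) ∂τ)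
    (ρ : Measure Z) [IsProbabilityMeasure ρ] (w : S → ℝ)
    (hw : ∀ s, 0 ≤ w s) (α : Fin N → Z → S → ℝ) (β : Z → S → ℝ)
    (hα : ∀ i s, Measurable fun z => α i z s) (hβ : ∀ s, Measurable fun z => β z s)
    (hq : Even (q + 1) ∨ ((∀ i s, ∀ᵐ z ∂ρ, 0 ≤ α i z s) ∧ ∀ s, ∀ᵐ z ∂ρ, 0 ≤ β z s))
    (c : ℝ)
    (hc : ∀ γ : Fin (q + 1) → Z → S → ℝ, (∀ ℓ, γ ℓ = β ∨ ∃ i, γ ℓ = α i) →
      ∀ s, ∀ᵐ z ∂(Measure.pi fun _ : Fin (q + 1) => ρ), |∏ ℓ, γ ℓ (z ℓ) s| ≤ c)
    (hb : ∀ γ : Fin (q + 1) → Z → S → ℝ, (∀ ℓ, γ ℓ = β ∨ ∃ i, γ ℓ = α i) →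
      ∀ᵐ x ∂(τ.prod (Measure.pi fun _ : Fin (q + 1) => ρ)), |x.1 * mixProd w γ x.2| ≤ 1)
    (t : ℝ) (ht0 : 0 ≤ t) (ht1 : t < 1) :
    (1 / (q + 1 : ℝ)) * ((Fintype.card (Fin (q + 1) → Fin N) : ℝ)⁻¹ *
        ∑ I : Fin (q + 1) → Fin N,
          ∫ x, Real.log (1 + t * (x.1 * mixProd w (fun ℓ => α (I ℓ)) x.2))
            ∂(τ.prod (Measure.pi fun _ : Fin (q + 1) => ρ))) +
      (q / (q + 1 : ℝ)) * ∫ x, Real.log (1 + t * (x.1 * mixProd w (fun _ : Fin (q + 1) => β) x.2))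
            ∂(τ.prod (Measure.pi fun _ : Fin (q + 1) => ρ)) ≤
    (N : ℝ)⁻¹ * ∑ i, ∫ x, Real.log (1 + t * (x.1 *
        mixProd w (fun ℓ : Fin (q + 1) => if ℓ = Fin.last q then α i else β) x.2))
            ∂(τ.prod (Measure.pi fun _ : Fin (q + 1) => ρ)) := by
  have hmeas : ∀ γ : Fin (q + 1) → Z → S → ℝ, (∀ ℓ, γ ℓ = β ∨ ∃ i, γ ℓ = α i) →
      ∀ ℓ s, Measurable fun z => γ ℓ z s := by
    intro γ hγ ℓ s
    rcases hγ ℓ with h | ⟨i, h⟩
    · rw [h]; exact hβ s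
    · rw [h]; exact hα i s
  have hser : ∀ γ : Fin (q + 1) → Z → S → ℝ, (∀ ℓ, γ ℓ = β ∨ ∃ i, γ ℓ = α i) →
      HasSum (fun n : ℕ => -(t ^ (n + 1) / (n + 1)) *
        ((∫ b, (-b) ^ (n + 1) ∂τ) * moment ρ w γ (n + 1)))
      (∫ x, Real.log (1 + t * (x.1 * mixProd w γ x.2))
            ∂(τ.prod (Measure.pi fun _ : Fin (q + 1) => ρ))) := by
    intro γ hγ
    have h := hasSum_log_expansion τ (Measure.pi fun _ : Fin (q + 1) => ρ) (mixProd w γ)
      (measurable_mixProd w γ (hmeas γ hγ)) (hb γ hγ) t ht0 ht1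
    have e : ∀ n, ∫ z, (mixProd w γ z) ^ (n + 1) ∂(Measure.pi fun _ : Fin (q + 1) => ρ) =
        moment ρ w γ (n + 1) := fun n =>
      integral_mixProd_pow ρ w γ (hmeas γ hγ) c (hc γ hγ) (n + 1)
    simpa only [e] using h
  have p1 : ∀ I : Fin (q + 1) → Fin N, ∀ ℓ, (fun ℓ => α (I ℓ)) ℓ = β ∨ ∃ i, (fun ℓ => α (I ℓ)) ℓ = α i :=
    fun I ℓ => Or.inr ⟨I ℓ, rfl⟩
  have p3 : ∀ ℓ, (fun _ : Fin (q + 1) => β) ℓ = β ∨ ∃ i, (fun _ : Fin (q + 1) => β) ℓ = α i :=
    fun ℓ => Or.inl rfl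
  have p2 : ∀ j : Fin N, ∀ ℓ, (fun ℓ : Fin (q + 1) => if ℓ = Fin.last q then α j else β) ℓ = β ∨
      ∃ i, (fun ℓ : Fin (q + 1) => if ℓ = Fin.last q then α j else β) ℓ = α i := by
    intro j ℓ
    by_cases h : ℓ = Fin.last q
    · exact Or.inr ⟨j, by simp [h]⟩
    · exact Or.inl (by simp [h])
  have s1 := (hasSum_sum (s := (Finset.univ : Finset (Fin (q + 1) → Fin N)))
    fun I _ => hser (fun ℓ => α (I ℓ)) (p1 I)).mul_left
      (Fintype.card (Fin (q + 1) → Fin N) : ℝ)⁻¹ |>.mul_left (1 / (q + 1 : ℝ))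
  have s3 := (hser (fun _ => β) p3).mul_left (q / (q + 1 : ℝ))
  have s2 := (hasSum_sum (s := (Finset.univ : Finset (Fin N)))
    fun j _ => hser (fun ℓ : Fin (q + 1) => if ℓ = Fin.last q then α j else β) (p2 j)).mul_left
      (N : ℝ)⁻¹
  refine hasSum_le (fun n => ?_) (s1.add s3) s2
  have hm := moment_ineq hN ρ w hw α β hq (n + 1)
  have hneg : -(t ^ (n + 1) / (n + 1)) * (∫ b, (-b) ^ (n + 1) ∂τ) ≤ 0 := by
    apply mul_nonpos_of_nonpos_of_nonneg
    · rw [neg_nonpos]; positivity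
    · exact hτ n
  have := mul_le_mul_of_nonpos_left hm hneg
  simp only [← mul_assoc, ← Finset.mul_sum]
  simp only [← mul_assoc] at this
  linarith

end Abstract

end Crest.Agent.R141
end

-- ▼ part R141/KIb
section

set_option autoImplicit false

/-!
Row 141, part U1 (key inequality): transport to the probability space of the factorization and
the limit `t → 1`.
-/

namespace Crest.Agent.R141

open MeasureTheory ProbabilityTheory Crest.ProbabilityR.Diluted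

section Avg

variable {p : ℕ}

/-- average of `exp θ` under a product of one-spin weights -/
noncomputable def avgT (θ : Inter p) (κ : Fin p → Bool → ℝ) : ℝ :=
  ∑ e : Fin p → Bool, Real.exp (θ e) * ∏ ℓ, κ ℓ (e ℓ)

/-- one-spin probability weights -/
structure IsW (κ : Bool → ℝ) : Prop where
  nn : ∀ e, 0 ≤ κ e
  sum : ∑ e, κ e = 1

lemma sum_prod_weights (κ : Fin p → Bool → ℝ) (hκ : ∀ ℓ, IsW (κ ℓ)) :
    ∑ e : Fin p → Bool, ∏ ℓ, κ ℓ (e ℓ) = 1 := by
  have h := Finset.prod_univ_sum (fun _ : Fin p => (Finset.univ : Finset Bool)) (fun ℓ e => κ ℓ e)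
  rw [Fintype.piFinset_univ] at h
  rw [← h]
  exact Finset.prod_eq_one fun ℓ _ => (hκ ℓ).sum

lemma prod_nonneg_weights (κ : Fin p → Bool → ℝ) (hκ : ∀ ℓ, IsW (κ ℓ)) (e : Fin p → Bool) :
    0 ≤ ∏ ℓ, κ ℓ (e ℓ) := Finset.prod_nonneg fun ℓ _ => (hκ ℓ).nn _

lemma abs_le_supNorm (θ : Inter p) (s : Fin p → Bool) : |θ s| ≤ supNorm θ :=
  le_ciSup (f := fun s => |θ s|) (Set.finite_range _).bddAbove s

lemma supNorm_nonneg (θ : Inter p) : 0 ≤ supNorm θ :=
  (abs_nonneg _).trans (abs_le_supNorm θ fun _ => true)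

lemma avgT_le (θ : Inter p) (κ : Fin p → Bool → ℝ) (hκ : ∀ ℓ, IsW (κ ℓ)) :
    avgT θ κ ≤ Real.exp (supNorm θ) := by
  unfold avgT
  calc ∑ e : Fin p → Bool, Real.exp (θ e) * ∏ ℓ, κ ℓ (e ℓ)
      ≤ ∑ e : Fin p → Bool, Real.exp (supNorm θ) * ∏ ℓ, κ ℓ (e ℓ) := by
        refine Finset.sum_le_sum fun e _ => ?_
        refine mul_le_mul_of_nonneg_right ?_ (prod_nonneg_weights κ hκ e)
        exact Real.exp_le_exp.2 ((le_abs_self _).trans (abs_le_supNorm θ e))
    _ = Real.exp (supNorm θ) := by rw [← Finset.mul_sum, sum_prod_weights κ hκ, mul_one]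

lemma le_avgT (θ : Inter p) (κ : Fin p → Bool → ℝ) (hκ : ∀ ℓ, IsW (κ ℓ)) :
    Real.exp (-supNorm θ) ≤ avgT θ κ := by
  unfold avgT
  calc Real.exp (-supNorm θ)
      = ∑ e : Fin p → Bool, Real.exp (-supNorm θ) * ∏ ℓ, κ ℓ (e ℓ) := by
        rw [← Finset.mul_sum, sum_prod_weights κ hκ, mul_one]
    _ ≤ ∑ e : Fin p → Bool, Real.exp (θ e) * ∏ ℓ, κ ℓ (e ℓ) := by
        refine Finset.sum_le_sum fun e _ => ?_
        refine mul_le_mul_of_nonneg_right ?_ (prod_nonneg_weights κ hκ e)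
        exact Real.exp_le_exp.2 ((abs_le.1 (abs_le_supNorm θ e)).1)

lemma avgT_eq_of_exp (θ : Inter p) (κ : Fin p → Bool → ℝ) (hκ : ∀ ℓ, IsW (κ ℓ)) (a b : ℝ)
    (F : Fin p → Bool → ℝ) (h : ∀ e, Real.exp (θ e) = a * (1 + b * ∏ ℓ, F ℓ (e ℓ))) :
    avgT θ κ = a * (1 + b * ∏ ℓ, ∑ e, F ℓ e * κ ℓ e) := by
  have h1 : ∏ ℓ, ∑ e, F ℓ e * κ ℓ e = ∑ e : Fin p → Bool, (∏ ℓ, F ℓ (e ℓ)) * ∏ ℓ, κ ℓ (e ℓ) := by
    have h := Finset.prod_univ_sum (fun _ : Fin p => (Finset.univ : Finset Bool))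
      (fun ℓ e => F ℓ e * κ ℓ e)
    rw [Fintype.piFinset_univ] at h
    rw [h]
    refine Finset.sum_congr rfl fun e _ => ?_
    rw [Finset.prod_mul_distrib]
  unfold avgT
  simp only [h]
  rw [h1]
  calc ∑ e : Fin p → Bool, a * (1 + b * ∏ ℓ, F ℓ (e ℓ)) * ∏ ℓ, κ ℓ (e ℓ)
      = ∑ e : Fin p → Bool, (a * (∏ ℓ, κ ℓ (e ℓ)) +
          a * b * ((∏ ℓ, F ℓ (e ℓ)) * ∏ ℓ, κ ℓ (e ℓ))) := by
        refine Finset.sum_congr rfl fun e _ => ?_
        ring
    _ = a * (∑ e : Fin p → Bool, ∏ ℓ, κ ℓ (e ℓ)) +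
          a * b * ∑ e : Fin p → Bool, (∏ ℓ, F ℓ (e ℓ)) * ∏ ℓ, κ ℓ (e ℓ) := by
        rw [Finset.sum_add_distrib, Finset.mul_sum, Finset.mul_sum]
    _ = _ := by rw [sum_prod_weights κ hκ]; ring

lemma abs_prod_conv_lt (κ : Fin p → Bool → ℝ) (hκ : ∀ ℓ, IsW (κ ℓ)) (b : ℝ)
    (F : Fin p → Bool → ℝ) (h : ∀ e : Fin p → Bool, |b * ∏ ℓ, F ℓ (e ℓ)| ≤ 1) :
    |b * ∏ ℓ, ∑ e, F ℓ e * κ ℓ e| ≤ 1 := by
  have h1 : b * ∏ ℓ, ∑ e, F ℓ e * κ ℓ e =
      ∑ e : Fin p → Bool, (b * ∏ ℓ, F ℓ (e ℓ)) * ∏ ℓ, κ ℓ (e ℓ) := by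
    have h := Finset.prod_univ_sum (fun _ : Fin p => (Finset.univ : Finset Bool))
      (fun ℓ e => F ℓ e * κ ℓ e)
    rw [Fintype.piFinset_univ] at h
    rw [h, Finset.mul_sum]
    refine Finset.sum_congr rfl fun e _ => ?_
    rw [Finset.prod_mul_distrib]; ring
  rw [h1]
  refine (Finset.abs_sum_le_sum_abs _ _).trans ?_
  calc ∑ e : Fin p → Bool, |(b * ∏ ℓ, F ℓ (e ℓ)) * ∏ ℓ, κ ℓ (e ℓ)|
      ≤ ∑ e : Fin p → Bool, ∏ ℓ, κ ℓ (e ℓ) := by
        refine Finset.sum_le_sum fun e _ => ?_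
        rw [abs_mul, abs_of_nonneg (prod_nonneg_weights κ hκ e)]
        exact mul_le_of_le_one_left (prod_nonneg_weights κ hκ e) (h e)
    _ = 1 := sum_prod_weights κ hκ

end Avg

/-- The factorization data on a probability space, `p = q + 1`. -/
structure Fac (q : ℕ) {Ω : Type*} [MeasurableSpace Ω] (P : Measure Ω) (a b : Ω → ℝ)
    (f : Fin (q + 1) → Ω → Bool → ℝ) (θ : Ω → Crest.ProbabilityR.Diluted.Inter (q + 1)) : Prop where
  ma : Measurable a
  mb : Measurable b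
  mf : ∀ ℓ, Measurable (f ℓ)
  ind : iIndepFun f P
  idd : ∀ ℓ, IdentDistrib (f ℓ) (f 0) P P
  ibf : IndepFun b (fun ω => fun ℓ => f ℓ ω) P
  pos : ∀ᵐ ω ∂P, 0 < a ω ∧ ∀ s : Fin (q + 1) → Bool, |b ω * ∏ ℓ, f ℓ ω (s ℓ)| < 1
  mom : ∀ n : ℕ, 1 ≤ n → 0 ≤ ∫ ω, (-b ω) ^ n ∂P
  mθ : Measurable θ
  hθ : ∀ᵐ ω ∂P, ∀ e : Fin (q + 1) → Bool, Real.exp (θ ω e) = a ω * (1 + b ω * ∏ ℓ, f ℓ ω (e ℓ))
  int : Integrable (fun ω => supNorm (θ ω)) P

section Transport

variable {q : ℕ} {Ω : Type*} [MeasurableSpace Ω] {P : Measure Ω} [IsProbabilityMeasure P]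
  {a b : Ω → ℝ} {f : Fin (q + 1) → Ω → Bool → ℝ} {θ : Ω → Crest.ProbabilityR.Diluted.Inter (q + 1)}
  {Y : Type*} [MeasurableSpace Y] (Q : Measure Y) [IsProbabilityMeasure Q]

lemma Fac.mp1 (h : Fac q P a b f θ) :
    MeasurePreserving (fun ω => (b ω, fun ℓ => f ℓ ω)) P
      ((P.map b).prod (Measure.pi fun _ : Fin (q + 1) => P.map (f 0))) := by
  have hm : Measurable (fun ω => fun ℓ => f ℓ ω) := measurable_pi_iff.2 h.mf
  refine ⟨h.mb.prodMk hm, ?_⟩
  rw [(indepFun_iff_map_prod_eq_prod_map_map h.mb.aemeasurable hm.aemeasurable).1 h.ibf]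
  congr 1
  rw [(iIndepFun_iff_map_fun_eq_pi_map fun ℓ => (h.mf ℓ).aemeasurable).1 h.ind]
  congr 1
  funext ℓ
  exact (h.idd ℓ).map_eq

lemma Fac.mp (h : Fac q P a b f θ) :
    MeasurePreserving (fun x : Ω × (Fin (q + 1) → Y) => (b x.1, fun ℓ => (f ℓ x.1, x.2 ℓ)))
      (P.prod (Measure.pi fun _ : Fin (q + 1) => Q))
      ((P.map b).prod (Measure.pi fun _ : Fin (q + 1) => (P.map (f 0)).prod Q)) := by
  have : IsProbabilityMeasure (P.map b) := Measure.isProbabilityMeasure_map h.mb.aemeasurable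
  have : IsProbabilityMeasure (P.map (f 0)) :=
    Measure.isProbabilityMeasure_map (h.mf 0).aemeasurable
  have i1 : IsProbabilityMeasure (Measure.pi fun _ : Fin (q + 1) => P.map (f 0)) := inferInstance
  have i2 : IsProbabilityMeasure (Measure.pi fun _ : Fin (q + 1) => Q) := inferInstance
  have i3 : IsProbabilityMeasure ((Measure.pi fun _ : Fin (q + 1) => P.map (f 0)).prod
    (Measure.pi fun _ : Fin (q + 1) => Q)) := inferInstance
  have i4 : SFinite ((Measure.pi fun _ : Fin (q + 1) => P.map (f 0)).prod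
    (Measure.pi fun _ : Fin (q + 1) => Q)) := inferInstance
  have i5 : IsProbabilityMeasure ((P.map (f 0)).prod Q) := inferInstance
  have i6 : IsProbabilityMeasure (Measure.pi fun _ : Fin (q + 1) => (P.map (f 0)).prod Q) :=
    inferInstance
  have mp2 := h.mp1.prod (MeasurePreserving.id (Measure.pi fun _ : Fin (q + 1) => Q))
  have mp3 := measurePreserving_prodAssoc (P.map b) (Measure.pi fun _ : Fin (q + 1) => P.map (f 0))
    (Measure.pi fun _ : Fin (q + 1) => Q)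
  have mp4 := (MeasurePreserving.id (P.map b)).prod
    ((measurePreserving_arrowProdEquivProdArrow (Bool → ℝ) Y (Fin (q + 1))
      (fun _ => P.map (f 0)) (fun _ => Q)).symm _)
  exact mp4.comp (mp3.comp mp2)

end Transport

section Limit

/-- site function attached to a kernel -/
noncomputable def siteF {Y S : Type*} (κ : Y → S → Bool → ℝ) (z : (Bool → ℝ) × Y) (s : S) : ℝ :=
  ∑ e, z.1 e * κ z.2 s e

/-- A one-label kernel. -/
structure IsK {Y S : Type*} [MeasurableSpace Y] (κ : Y → S → Bool → ℝ) : Prop where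
  w : ∀ y s, IsW (κ y s)
  m : ∀ s e, Measurable fun y => κ y s e

lemma measurable_siteF {Y S : Type*} [MeasurableSpace Y] {κ : Y → S → Bool → ℝ} (hκ : IsK κ)
    (s : S) : Measurable fun z => siteF κ z s := by
  unfold siteF
  refine Finset.measurable_sum _ fun e _ => ?_
  exact ((measurable_pi_apply e).comp measurable_fst).mul ((hκ.m s e).comp measurable_snd)

/-- the Gibbs average of `exp θ` under the kernels -/
noncomputable def Tbar {p : ℕ} {Y S : Type*} [Fintype S] (w : S → ℝ)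
    (κ : Fin p → Y → S → Bool → ℝ) (θ : Crest.ProbabilityR.Diluted.Inter p) (y : Fin p → Y) : ℝ :=
  ∑ s, w s * avgT θ fun ℓ => κ ℓ (y ℓ) s

lemma measurable_Tbar {p : ℕ} {Y S : Type*} [MeasurableSpace Y] [Fintype S] (w : S → ℝ)
    (κ : Fin p → Y → S → Bool → ℝ) (hκ : ∀ ℓ, IsK (κ ℓ)) :
    Measurable fun x : Crest.ProbabilityR.Diluted.Inter p × (Fin p → Y) => Tbar w κ x.1 x.2 := by
  unfold Tbar avgT
  refine Finset.measurable_sum _ fun s _ => Measurable.const_mul ?_ _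
  refine Finset.measurable_sum _ fun e _ => ?_
  refine Measurable.mul ?_ ?_
  · exact Real.measurable_exp.comp ((measurable_pi_apply e).comp measurable_fst)
  · refine Finset.measurable_prod _ fun ℓ _ => ?_
    exact ((hκ ℓ).m s (e ℓ)).comp ((measurable_pi_apply ℓ).comp measurable_snd)

variable {S : Type*} [Fintype S] {w : S → ℝ}

lemma Tbar_le {p : ℕ} {Y : Type*} [MeasurableSpace Y] (hw : ∀ s, 0 ≤ w s) (hw1 : ∑ s, w s = 1)
    (κ : Fin p → Y → S → Bool → ℝ) (hκ : ∀ ℓ, IsK (κ ℓ))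
    (θ : Crest.ProbabilityR.Diluted.Inter p) (y : Fin p → Y) :
    Tbar w κ θ y ≤ Real.exp (supNorm θ) := by
  unfold Tbar
  calc ∑ s, w s * avgT θ (fun ℓ => κ ℓ (y ℓ) s) ≤ ∑ s, w s * Real.exp (supNorm θ) := by
        refine Finset.sum_le_sum fun s _ => mul_le_mul_of_nonneg_left ?_ (hw s)
        exact avgT_le θ _ fun ℓ => (hκ ℓ).w _ _
    _ = Real.exp (supNorm θ) := by rw [← Finset.sum_mul, hw1, one_mul]

lemma le_Tbar {p : ℕ} {Y : Type*} [MeasurableSpace Y] (hw : ∀ s, 0 ≤ w s) (hw1 : ∑ s, w s = 1)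
    (κ : Fin p → Y → S → Bool → ℝ) (hκ : ∀ ℓ, IsK (κ ℓ))
    (θ : Crest.ProbabilityR.Diluted.Inter p) (y : Fin p → Y) :
    Real.exp (-supNorm θ) ≤ Tbar w κ θ y := by
  unfold Tbar
  calc Real.exp (-supNorm θ) = ∑ s, w s * Real.exp (-supNorm θ) := by
        rw [← Finset.sum_mul, hw1, one_mul]
    _ ≤ ∑ s, w s * avgT θ (fun ℓ => κ ℓ (y ℓ) s) := by
        refine Finset.sum_le_sum fun s _ => mul_le_mul_of_nonneg_left ?_ (hw s)
        exact le_avgT θ _ fun ℓ => (hκ ℓ).w _ _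

variable {q : ℕ} {Ω : Type*} [MeasurableSpace Ω] {P : Measure Ω} [IsProbabilityMeasure P]
  {a b : Ω → ℝ} {f : Fin (q + 1) → Ω → Bool → ℝ}
  {θ : Ω → Crest.ProbabilityR.Diluted.Inter (q + 1)}
  {Y : Type*} [MeasurableSpace Y] (Q : Measure Y) [IsProbabilityMeasure Q]

/-- the `t`-logarithm on the original space -/
noncomputable def Lt (b : Ω → ℝ) (f : Fin (q + 1) → Ω → Bool → ℝ) (w : S → ℝ)
    (κ : Fin (q + 1) → Y → S → Bool → ℝ) (t : ℝ) (x : Ω × (Fin (q + 1) → Y)) : ℝ :=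
  Real.log (1 + t * (b x.1 * mixProd w (fun ℓ => siteF (κ ℓ)) (fun ℓ => (f ℓ x.1, x.2 ℓ))))

lemma integral_Lt (h : Fac q P a b f θ) (κ : Fin (q + 1) → Y → S → Bool → ℝ)
    (hκ : ∀ ℓ, IsK (κ ℓ)) (t : ℝ) :
    ∫ x, Lt b f w κ t x ∂(P.prod (Measure.pi fun _ : Fin (q + 1) => Q)) =
      ∫ x, Real.log (1 + t * (x.1 * mixProd w (fun ℓ => siteF (κ ℓ)) x.2))
        ∂((P.map b).prod (Measure.pi fun _ : Fin (q + 1) => (P.map (f 0)).prod Q)) := by
  rw [← (h.mp Q).map_eq, integral_map (h.mp Q).measurable.aemeasurable]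
  · rfl
  · refine Measurable.aestronglyMeasurable ?_
    refine Real.measurable_log.comp ?_
    refine Measurable.const_add (Measurable.const_mul ?_ _) _
    exact measurable_fst.mul ((measurable_mixProd w _ fun ℓ s =>
      measurable_siteF (hκ ℓ) s).comp measurable_snd)

lemma ae_bound (h : Fac q P a b f θ) :
    ∀ᵐ x ∂((P.map b).prod (Measure.pi fun _ : Fin (q + 1) => (P.map (f 0)).prod Q)),
      ∀ e : Fin (q + 1) → Bool, |x.1 * ∏ ℓ, (x.2 ℓ).1 (e ℓ)| ≤ 1 := by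
  rw [← (h.mp Q).map_eq]
  rw [ae_map_iff (h.mp Q).measurable.aemeasurable]
  · have h1 : ∀ᵐ x ∂(P.prod (Measure.pi fun _ : Fin (q + 1) => Q)),
        0 < a x.1 ∧ ∀ s : Fin (q + 1) → Bool, |b x.1 * ∏ ℓ, f ℓ x.1 (s ℓ)| < 1 :=
      Measure.quasiMeasurePreserving_fst.ae h.pos
    filter_upwards [h1] with x hx e
    exact (hx.2 e).le
  · have : {x : ℝ × (Fin (q + 1) → (Bool → ℝ) × Y) |
        ∀ e : Fin (q + 1) → Bool, |x.1 * ∏ ℓ, (x.2 ℓ).1 (e ℓ)| ≤ 1} =
        ⋂ e : Fin (q + 1) → Bool, {x | |x.1 * ∏ ℓ, (x.2 ℓ).1 (e ℓ)| ≤ 1} := by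
      ext x; simp
    rw [this]
    refine MeasurableSet.iInter fun e => ?_
    refine measurableSet_le ?_ measurable_const
    refine continuous_abs.measurable.comp ?_
    refine measurable_fst.mul ?_
    refine Finset.measurable_prod _ fun ℓ _ => ?_
    exact (measurable_pi_apply (e ℓ)).comp (measurable_fst.comp
      ((measurable_pi_apply ℓ).comp measurable_snd))

lemma abs_mul_mixProd_le {p : ℕ} {Y : Type*} [MeasurableSpace Y] (hw : ∀ s, 0 ≤ w s)
    (hw1 : ∑ s, w s = 1) (κ : Fin p → Y → S → Bool → ℝ) (hκ : ∀ ℓ, IsK (κ ℓ)) (b : ℝ)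
    (z : Fin p → (Bool → ℝ) × Y)
    (hb : ∀ e : Fin p → Bool, |b * ∏ ℓ, (z ℓ).1 (e ℓ)| ≤ 1) :
    |b * mixProd w (fun ℓ => siteF (κ ℓ)) z| ≤ 1 := by
  unfold mixProd
  have : b * ∑ s, w s * ∏ ℓ, siteF (κ ℓ) (z ℓ) s = ∑ s, w s * (b * ∏ ℓ, siteF (κ ℓ) (z ℓ) s) := by
    rw [Finset.mul_sum]
    refine Finset.sum_congr rfl fun s _ => by ring
  rw [this]
  refine (Finset.abs_sum_le_sum_abs _ _).trans ?_
  rw [← hw1]
  refine Finset.sum_le_sum fun s _ => ?_
  rw [abs_mul, abs_of_nonneg (hw s)]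
  refine mul_le_of_le_one_right (hw s) ?_
  exact abs_prod_conv_lt (fun ℓ => κ ℓ (z ℓ).2 s) (fun ℓ => (hκ ℓ).w _ _) b
    (fun ℓ => (z ℓ).1) hb

/-- The key inequality for `t < 1` on the original space. -/
theorem key_lt_one (h : Fac q P a b f θ)
    (hpos : Even (q + 1) ∨ ∀ᵐ ω ∂P, ∀ e, 0 ≤ f 0 ω e) {N : ℕ} (hN : 0 < N)
    (hw : ∀ s, 0 ≤ w s) (hw1 : ∑ s, w s = 1) (κα : Fin N → Y → S → Bool → ℝ)
    (κβ : Y → S → Bool → ℝ) (hα : ∀ i, IsK (κα i)) (hβ : IsK κβ) (t : ℝ) (ht0 : 0 ≤ t)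
    (ht1 : t < 1) :
    (1 / (q + 1 : ℝ)) * ((Fintype.card (Fin (q + 1) → Fin N) : ℝ)⁻¹ *
        ∑ I : Fin (q + 1) → Fin N,
          ∫ x, Lt b f w (fun ℓ => κα (I ℓ)) t x ∂(P.prod (Measure.pi fun _ : Fin (q + 1) => Q))) +
      (q / (q + 1 : ℝ)) * ∫ x, Lt b f w (fun _ => κβ) t x
          ∂(P.prod (Measure.pi fun _ : Fin (q + 1) => Q)) ≤
    (N : ℝ)⁻¹ * ∑ i, ∫ x, Lt b f w (fun ℓ => if ℓ = Fin.last q then κα i else κβ) t x
          ∂(P.prod (Measure.pi fun _ : Fin (q + 1) => Q)) := by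
  have hK2 : ∀ (i : Fin N) (ℓ : Fin (q + 1)), IsK (if ℓ = Fin.last q then κα i else κβ) := by
    intro i ℓ
    by_cases hℓ : ℓ = Fin.last q
    · rw [if_pos hℓ]; exact hα i
    · rw [if_neg hℓ]; exact hβ
  by_cases hb0 : ∀ᵐ ω ∂P, b ω = 0
  · -- trivial case
    have hz : ∀ κ : Fin (q + 1) → Y → S → Bool → ℝ,
        ∫ x, Lt b f w κ t x ∂(P.prod (Measure.pi fun _ : Fin (q + 1) => Q)) = 0 := by
      intro κ
      have h1 : ∀ᵐ x ∂(P.prod (Measure.pi fun _ : Fin (q + 1) => Q)), b x.1 = 0 :=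
        Measure.quasiMeasurePreserving_fst.ae hb0
      rw [integral_congr_ae (g := fun _ => (0 : ℝ))]
      · simp
      · filter_upwards [h1] with x hx
        simp [Lt, hx]
    simp [hz]
  have i0 : IsProbabilityMeasure (P.map b) := Measure.isProbabilityMeasure_map h.mb.aemeasurable
  have i1 : IsProbabilityMeasure (P.map (f 0)) :=
    Measure.isProbabilityMeasure_map (h.mf 0).aemeasurable
  have i5 : IsProbabilityMeasure ((P.map (f 0)).prod Q) := inferInstance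
  have i6 : IsProbabilityMeasure (Measure.pi fun _ : Fin (q + 1) => (P.map (f 0)).prod Q) :=
    inferInstance
  have hae := ae_bound Q h
  -- a bound for the products
  obtain ⟨b1, hb1, hb1'⟩ : ∃ b1 : ℝ, b1 ≠ 0 ∧
      ∀ᵐ z ∂(Measure.pi fun _ : Fin (q + 1) => (P.map (f 0)).prod Q),
        ∀ e : Fin (q + 1) → Bool, |b1 * ∏ ℓ, (z ℓ).1 (e ℓ)| ≤ 1 := by
    have h1 := Measure.ae_ae_of_ae_prod hae
    have h2 : ∃ᵐ b' ∂(P.map b), b' ≠ 0 := by
      intro hcon
      apply hb0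
      have h3 : ∀ᵐ b' ∂(P.map b), b' = 0 := by
        filter_upwards [hcon] with b' hb'
        simpa using hb'
      exact ae_of_ae_map h.mb.aemeasurable h3
    obtain ⟨b1, hb1, hb1'⟩ := (h2.and_eventually h1).exists
    exact ⟨b1, hb1, hb1'⟩
  have hchoice : ∀ γ : Fin (q + 1) → ((Bool → ℝ) × Y) → S → ℝ,
      (∀ ℓ, γ ℓ = siteF κβ ∨ ∃ i, γ ℓ = (fun i => siteF (κα i)) i) →
      ∃ κ : Fin (q + 1) → Y → S → Bool → ℝ, (∀ ℓ, IsK (κ ℓ)) ∧ γ = fun ℓ => siteF (κ ℓ) := by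
    intro γ hγ
    have : ∀ ℓ, ∃ κ : Y → S → Bool → ℝ, IsK κ ∧ γ ℓ = siteF κ := by
      intro ℓ
      rcases hγ ℓ with h1 | ⟨i, h1⟩
      · exact ⟨κβ, hβ, h1⟩
      · exact ⟨κα i, hα i, h1⟩
    choose κ hκ hκ' using this
    exact ⟨κ, hκ, funext hκ'⟩
  have key := abstract_key (q := q) (N := N) hN (P.map b) ?_ ((P.map (f 0)).prod Q) w hw
    (fun i => siteF (κα i)) (siteF κβ) (fun i s => measurable_siteF (hα i) s)
    (fun s => measurable_siteF hβ s) ?_ |b1|⁻¹ ?_ ?_ t ht0 ht1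
  · have e1 : ∀ I : Fin (q + 1) → Fin N,
        ∫ x, Lt b f w (fun ℓ => κα (I ℓ)) t x ∂(P.prod (Measure.pi fun _ : Fin (q + 1) => Q)) =
        ∫ x, Real.log (1 + t * (x.1 * mixProd w (fun ℓ => (fun i => siteF (κα i)) (I ℓ)) x.2))
        ∂((P.map b).prod (Measure.pi fun _ : Fin (q + 1) => (P.map (f 0)).prod Q)) := fun I =>
      integral_Lt Q h (fun ℓ => κα (I ℓ)) (fun ℓ => hα _) t
    have e3 := integral_Lt (w := w) Q h (fun _ : Fin (q + 1) => κβ) (fun _ => hβ) t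
    have e2 : ∀ i : Fin N,
        ∫ x, Lt b f w (fun ℓ => if ℓ = Fin.last q then κα i else κβ) t x
          ∂(P.prod (Measure.pi fun _ : Fin (q + 1) => Q)) =
        ∫ x, Real.log (1 + t * (x.1 * mixProd w
          (fun ℓ : Fin (q + 1) => if ℓ = Fin.last q then (fun i => siteF (κα i)) i else siteF κβ)
            x.2))
        ∂((P.map b).prod (Measure.pi fun _ : Fin (q + 1) => (P.map (f 0)).prod Q)) := by
      intro i
      rw [integral_Lt Q h (fun ℓ => if ℓ = Fin.last q then κα i else κβ) (hK2 i) t]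
      congr 1
      funext x
      congr 5
      funext ℓ
      by_cases hℓ : ℓ = Fin.last q
      · rw [if_pos hℓ, if_pos hℓ]
      · rw [if_neg hℓ, if_neg hℓ]
    simp only [e1, e2, e3]
    exact key
  · intro n
    rw [integral_map h.mb.aemeasurable (by fun_prop)]
    exact h.mom (n + 1) (Nat.le_add_left 1 n)
  · rcases hpos with hpos | hpos
    · exact Or.inl hpos
    · right
      have h1 : ∀ᵐ g ∂(P.map (f 0)), ∀ e, 0 ≤ g e := by
        rw [ae_map_iff (h.mf 0).aemeasurable]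
        · exact hpos
        · have : {g : Bool → ℝ | ∀ e, 0 ≤ g e} = ⋂ e, {g : Bool → ℝ | 0 ≤ g e} := by
            ext; simp
          rw [this]
          exact MeasurableSet.iInter fun e => measurableSet_le measurable_const
            (measurable_pi_apply e)
      have h2 : ∀ᵐ z ∂((P.map (f 0)).prod Q), ∀ e, 0 ≤ z.1 e :=
        Measure.quasiMeasurePreserving_fst.ae h1
      refine ⟨fun i s => ?_, fun s => ?_⟩
      · filter_upwards [h2] with z hz
        exact Finset.sum_nonneg fun e _ => mul_nonneg (hz e) (((hα i).w _ _).nn e)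
      · filter_upwards [h2] with z hz
        exact Finset.sum_nonneg fun e _ => mul_nonneg (hz e) ((hβ.w _ _).nn e)
  · intro γ hγ s
    obtain ⟨κ, hκ, rfl⟩ := hchoice γ hγ
    filter_upwards [hb1'] with z hz
    have h1 := abs_prod_conv_lt (fun ℓ => κ ℓ (z ℓ).2 s) (fun ℓ => (hκ ℓ).w _ _) b1
      (fun ℓ => (z ℓ).1) hz
    rw [abs_mul] at h1
    have h2 : 0 < |b1| := abs_pos.2 hb1
    rw [← one_div, le_div_iff₀ h2, mul_comm]
    exact h1
  · intro γ hγ
    obtain ⟨κ, hκ, rfl⟩ := hchoice γ hγ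
    filter_upwards [hae] with x hx
    exact abs_mul_mixProd_le hw hw1 κ hκ x.1 x.2 hx

end Limit

end Crest.Agent.R141
end

-- ▼ part R141/KIc
section

set_option autoImplicit false

/-!
Row 141, part U1 (key inequality): the limit `t → 1`.
-/

namespace Crest.Agent.R141

open MeasureTheory ProbabilityTheory Crest.ProbabilityR.Diluted Filter Topology

section LimitOne

variable {S : Type*} [Fintype S] {w : S → ℝ}
  {q : ℕ} {Ω : Type*} [MeasurableSpace Ω] {P : Measure Ω} [IsProbabilityMeasure P]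
  {a b : Ω → ℝ} {f : Fin (q + 1) → Ω → Bool → ℝ}
  {θ : Ω → Crest.ProbabilityR.Diluted.Inter (q + 1)}
  {Y : Type*} [MeasurableSpace Y] (Q : Measure Y) [IsProbabilityMeasure Q]

/-- the interpolated logarithm -/
noncomputable def Vt (a : Ω → ℝ) (θ : Ω → Crest.ProbabilityR.Diluted.Inter (q + 1)) (w : S → ℝ)
    (κ : Fin (q + 1) → Y → S → Bool → ℝ) (t : ℝ) (x : Ω × (Fin (q + 1) → Y)) : ℝ :=
  Real.log ((1 - t) * a x.1 + t * Tbar w κ (θ x.1) x.2) - Real.log ((1 - t) * a x.1 + t)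

lemma measurable_Tbar' {Ω' : Type*} [MeasurableSpace Ω'] {p : ℕ} (w : S → ℝ)
    (κ : Fin p → Y → S → Bool → ℝ) (hκ : ∀ ℓ, IsK (κ ℓ))
    (g : Ω' → Crest.ProbabilityR.Diluted.Inter p) (hg : Measurable g) (y : Ω' → Fin p → Y)
    (hy : Measurable y) :
    Measurable fun x : Ω' => Tbar w κ (g x) (y x) := by
  unfold Tbar avgT
  refine Finset.measurable_sum _ fun s _ => Measurable.const_mul ?_ _
  refine Finset.measurable_sum _ fun e _ => ?_
  refine Measurable.mul ?_ ?_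
  · exact Real.measurable_exp.comp ((measurable_pi_apply e).comp hg)
  · refine Finset.measurable_prod _ fun ℓ _ => ?_
    exact ((hκ ℓ).m s (e ℓ)).comp ((measurable_pi_apply ℓ).comp hy)

lemma measurable_Vt (h : Fac q P a b f θ) (κ : Fin (q + 1) → Y → S → Bool → ℝ)
    (hκ : ∀ ℓ, IsK (κ ℓ)) (t : ℝ) : Measurable (Vt a θ w κ t) := by
  have h1 : Measurable fun x : Ω × (Fin (q + 1) → Y) => Tbar w κ (θ x.1) x.2 :=
    measurable_Tbar' w κ hκ (fun x : Ω × (Fin (q + 1) → Y) => θ x.1)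
      (h.mθ.comp measurable_fst) (fun x => x.2) measurable_snd
  have h2 : Measurable fun x : Ω × (Fin (q + 1) → Y) => a x.1 := h.ma.comp measurable_fst
  have h3 : Measurable fun x : Ω × (Fin (q + 1) → Y) =>
      Real.log ((1 - t) * a x.1 + t * Tbar w κ (θ x.1) x.2) :=
    Real.measurable_log.comp ((h2.const_mul (1 - t)).add (h1.const_mul t))
  have h4 : Measurable fun x : Ω × (Fin (q + 1) → Y) => Real.log ((1 - t) * a x.1 + t) :=
    Real.measurable_log.comp ((h2.const_mul (1 - t)).add_const t)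
  exact h3.sub h4

/-- scalar bound behind the domination -/
lemma abs_log_sub_log_le (a t T s : ℝ) (ha : 0 < a) (ht0 : 0 ≤ t) (ht1 : t ≤ 1) (hs : 0 ≤ s)
    (h1 : Real.exp (-s) ≤ T) (h2 : T ≤ Real.exp s) :
    |Real.log ((1 - t) * a + t * T) - Real.log ((1 - t) * a + t)| ≤ s := by
  have hT : 0 < T := (Real.exp_pos _).trans_le h1
  have hd : 0 < (1 - t) * a + t := by
    rcases eq_or_lt_of_le ht0 with h | h
    · rw [← h]; simpa using ha
    · have : 0 ≤ (1 - t) * a := mul_nonneg (by linarith) ha.le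
      linarith
  have hn : 0 < (1 - t) * a + t * T := by
    rcases eq_or_lt_of_le ht0 with h | h
    · rw [← h]; simpa using ha
    · have : 0 ≤ (1 - t) * a := mul_nonneg (by linarith) ha.le
      have : 0 < t * T := mul_pos h hT
      linarith
  have hexp1 : 1 ≤ Real.exp s := Real.one_le_exp hs
  have hexp2 : Real.exp (-s) ≤ 1 := Real.exp_le_one_iff.2 (by linarith)
  have ha1 : 0 ≤ (1 - t) * a := mul_nonneg (by linarith) ha.le
  have hup : (1 - t) * a + t * T ≤ Real.exp s * ((1 - t) * a + t) := by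
    have e1 : (1 - t) * a ≤ Real.exp s * ((1 - t) * a) := le_mul_of_one_le_left ha1 hexp1
    have e2 : t * T ≤ Real.exp s * t := by
      rw [mul_comm (Real.exp s)]; exact mul_le_mul_of_nonneg_left h2 ht0
    nlinarith
  have hlo : Real.exp (-s) * ((1 - t) * a + t) ≤ (1 - t) * a + t * T := by
    have e1 : Real.exp (-s) * ((1 - t) * a) ≤ (1 - t) * a := mul_le_of_le_one_left ha1 hexp2
    have e2 : Real.exp (-s) * t ≤ t * T := by
      rw [mul_comm (Real.exp (-s))]; exact mul_le_mul_of_nonneg_left h1 ht0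
    nlinarith
  rw [abs_le]
  constructor
  · have := Real.log_le_log (mul_pos (Real.exp_pos _) hd) hlo
    rw [Real.log_mul (Real.exp_pos _).ne' hd.ne', Real.log_exp] at this
    linarith
  · have := Real.log_le_log hn hup
    rw [Real.log_mul (Real.exp_pos _).ne' hd.ne', Real.log_exp] at this
    linarith

lemma abs_Vt_le (h : Fac q P a b f θ) (hw : ∀ s, 0 ≤ w s) (hw1 : ∑ s, w s = 1)
    (κ : Fin (q + 1) → Y → S → Bool → ℝ)
    (hκ : ∀ ℓ, IsK (κ ℓ)) (t : ℝ) (ht0 : 0 ≤ t) (ht1 : t ≤ 1) :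
    ∀ᵐ x ∂(P.prod (Measure.pi fun _ : Fin (q + 1) => Q)),
      ‖Vt a θ w κ t x‖ ≤ supNorm (θ x.1) := by
  have h1 : ∀ᵐ x ∂(P.prod (Measure.pi fun _ : Fin (q + 1) => Q)),
      0 < a x.1 ∧ ∀ s : Fin (q + 1) → Bool, |b x.1 * ∏ ℓ, f ℓ x.1 (s ℓ)| < 1 :=
    Measure.quasiMeasurePreserving_fst.ae h.pos
  filter_upwards [h1] with x hx
  rw [Real.norm_eq_abs]
  exact abs_log_sub_log_le _ _ _ _ hx.1 ht0 ht1 (supNorm_nonneg _)
    (le_Tbar hw hw1 κ hκ _ _) (Tbar_le hw hw1 κ hκ _ _)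

lemma integrable_sup (h : Fac q P a b f θ) :
    Integrable (fun x : Ω × (Fin (q + 1) → Y) => supNorm (θ x.1))
      (P.prod (Measure.pi fun _ : Fin (q + 1) => Q)) :=
  h.int.comp_fst _

lemma integrable_Vt (h : Fac q P a b f θ) (hw : ∀ s, 0 ≤ w s) (hw1 : ∑ s, w s = 1)
    (κ : Fin (q + 1) → Y → S → Bool → ℝ)
    (hκ : ∀ ℓ, IsK (κ ℓ)) (t : ℝ) (ht0 : 0 ≤ t) (ht1 : t ≤ 1) :
    Integrable (Vt a θ w κ t) (P.prod (Measure.pi fun _ : Fin (q + 1) => Q)) :=
  (integrable_sup Q h).mono' (measurable_Vt h κ hκ t).aestronglyMeasurable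
    (abs_Vt_le Q h hw hw1 κ hκ t ht0 ht1)

lemma tendsto_integral_Vt (h : Fac q P a b f θ) (hw : ∀ s, 0 ≤ w s) (hw1 : ∑ s, w s = 1)
    (κ : Fin (q + 1) → Y → S → Bool → ℝ) (hκ : ∀ ℓ, IsK (κ ℓ)) :
    Tendsto (fun t => ∫ x, Vt a θ w κ t x ∂(P.prod (Measure.pi fun _ : Fin (q + 1) => Q)))
      (𝓝[<] (1 : ℝ)) (𝓝 (∫ x, Vt a θ w κ 1 x ∂(P.prod (Measure.pi fun _ : Fin (q + 1) => Q)))) := by
  have hev : ∀ᶠ t in 𝓝[<] (1 : ℝ), 0 ≤ t ∧ t ≤ 1 := by
    have h1 : ∀ᶠ t in 𝓝[<] (1 : ℝ), t ∈ Set.Ioo (0 : ℝ) 1 := Ioo_mem_nhdsLT (by norm_num)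
    filter_upwards [h1] with t ht
    exact ⟨ht.1.le, ht.2.le⟩
  refine tendsto_integral_filter_of_dominated_convergence (fun x => supNorm (θ x.1)) ?_ ?_
    (integrable_sup Q h) ?_
  · exact Eventually.of_forall fun t => (measurable_Vt h κ hκ t).aestronglyMeasurable
  · filter_upwards [hev] with t ht
    exact abs_Vt_le Q h hw hw1 κ hκ t ht.1 ht.2
  · have h1 : ∀ᵐ x ∂(P.prod (Measure.pi fun _ : Fin (q + 1) => Q)),
        0 < a x.1 ∧ ∀ s : Fin (q + 1) → Bool, |b x.1 * ∏ ℓ, f ℓ x.1 (s ℓ)| < 1 :=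
      Measure.quasiMeasurePreserving_fst.ae h.pos
    filter_upwards [h1] with x hx
    have hT : 0 < Tbar w κ (θ x.1) x.2 :=
      (Real.exp_pos _).trans_le (le_Tbar hw hw1 κ hκ _ _)
    have hc : ContinuousAt (fun t => Vt a θ w κ t x) 1 := by
      unfold Vt
      refine ContinuousAt.sub ?_ ?_
      · refine ContinuousAt.log (by fun_prop) ?_
        simp only [sub_self, zero_mul, one_mul, zero_add]
        exact hT.ne'
      · refine ContinuousAt.log (by fun_prop) ?_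
        simp
    exact hc.tendsto.mono_left nhdsWithin_le_nhds

lemma measurable_Lt (h : Fac q P a b f θ) (κ : Fin (q + 1) → Y → S → Bool → ℝ)
    (hκ : ∀ ℓ, IsK (κ ℓ)) (t : ℝ) : Measurable (Lt b f w κ t) := by
  have h1 : Measurable (fun x : ℝ × (Fin (q + 1) → (Bool → ℝ) × Y) =>
      Real.log (1 + t * (x.1 * mixProd w (fun ℓ => siteF (κ ℓ)) x.2))) := by
    refine Real.measurable_log.comp ?_
    refine Measurable.const_add (Measurable.const_mul ?_ _) _
    exact measurable_fst.mul ((measurable_mixProd w _ fun ℓ s =>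
      measurable_siteF (hκ ℓ) s).comp measurable_snd)
  have h2 : Measurable (fun x : Ω × (Fin (q + 1) → Y) => (b x.1, fun ℓ => (f ℓ x.1, x.2 ℓ))) := by
    refine (h.mb.comp measurable_fst).prodMk ?_
    refine measurable_pi_iff.2 fun ℓ => ?_
    exact ((h.mf ℓ).comp measurable_fst).prodMk ((measurable_pi_apply ℓ).comp measurable_snd)
  exact h1.comp h2

lemma integrable_Lt (h : Fac q P a b f θ) (hw : ∀ s, 0 ≤ w s) (hw1 : ∑ s, w s = 1)
    (κ : Fin (q + 1) → Y → S → Bool → ℝ)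
    (hκ : ∀ ℓ, IsK (κ ℓ)) (t : ℝ) (ht0 : 0 ≤ t) (ht1 : t < 1) :
    Integrable (Lt b f w κ t) (P.prod (Measure.pi fun _ : Fin (q + 1) => Q)) := by
  have h1 : ∀ᵐ x ∂(P.prod (Measure.pi fun _ : Fin (q + 1) => Q)),
      0 < a x.1 ∧ ∀ s : Fin (q + 1) → Bool, |b x.1 * ∏ ℓ, f ℓ x.1 (s ℓ)| < 1 :=
    Measure.quasiMeasurePreserving_fst.ae h.pos
  refine Integrable.of_bound (measurable_Lt h κ hκ t).aestronglyMeasurable
    (max (-Real.log (1 - t)) (Real.log 2)) ?_
  filter_upwards [h1] with x hx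
  have h2 := abs_mul_mixProd_le hw hw1 κ hκ (b x.1) (fun ℓ => (f ℓ x.1, x.2 ℓ))
    (fun e => (hx.2 e).le)
  unfold Lt
  set m := b x.1 * mixProd w (fun ℓ => siteF (κ ℓ)) (fun ℓ => (f ℓ x.1, x.2 ℓ)) with hm
  have h3 := abs_le.1 h2
  have h4 : 1 - t ≤ 1 + t * m := by nlinarith
  have h5 : 1 + t * m ≤ 2 := by nlinarith
  have h6 : 0 < 1 - t := by linarith
  rw [Real.norm_eq_abs, abs_le]
  constructor
  · have := Real.log_le_log h6 h4
    have := le_max_left (-Real.log (1 - t)) (Real.log 2)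
    linarith
  · have := Real.log_le_log (h6.trans_le h4) h5
    have := le_max_right (-Real.log (1 - t)) (Real.log 2)
    linarith

/-- relation between the two logarithms -/
lemma Vt_sub_Lt (h : Fac q P a b f θ) (hw : ∀ s, 0 ≤ w s) (hw1 : ∑ s, w s = 1)
    (κ : Fin (q + 1) → Y → S → Bool → ℝ) (hκ : ∀ ℓ, IsK (κ ℓ)) (t : ℝ) (ht0 : 0 ≤ t)
    (ht1 : t < 1) :
    ∀ᵐ x ∂(P.prod (Measure.pi fun _ : Fin (q + 1) => Q)),
      Vt a θ w κ t x = Lt b f w κ t x + (Real.log (a x.1) - Real.log ((1 - t) * a x.1 + t)) := by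
  have h1 : ∀ᵐ x ∂(P.prod (Measure.pi fun _ : Fin (q + 1) => Q)),
      0 < a x.1 ∧ ∀ s : Fin (q + 1) → Bool, |b x.1 * ∏ ℓ, f ℓ x.1 (s ℓ)| < 1 :=
    Measure.quasiMeasurePreserving_fst.ae h.pos
  have h1' : ∀ᵐ x ∂(P.prod (Measure.pi fun _ : Fin (q + 1) => Q)),
      ∀ e : Fin (q + 1) → Bool, Real.exp (θ x.1 e) = a x.1 * (1 + b x.1 * ∏ ℓ, f ℓ x.1 (e ℓ)) :=
    Measure.quasiMeasurePreserving_fst.ae h.hθ
  filter_upwards [h1, h1'] with x hx hx'
  have h2 := abs_mul_mixProd_le hw hw1 κ hκ (b x.1) (fun ℓ => (f ℓ x.1, x.2 ℓ))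
    (fun e => (hx.2 e).le)
  have hT : Tbar w κ (θ x.1) x.2 = a x.1 * (1 + b x.1 *
      mixProd w (fun ℓ => siteF (κ ℓ)) (fun ℓ => (f ℓ x.1, x.2 ℓ))) := by
    unfold Tbar mixProd siteF
    have e1 : ∀ s, avgT (θ x.1) (fun ℓ => κ ℓ (x.2 ℓ) s) =
        a x.1 * (1 + b x.1 * ∏ ℓ, ∑ e, f ℓ x.1 e * κ ℓ (x.2 ℓ) s e) := fun s =>
      avgT_eq_of_exp (θ x.1) (fun ℓ => κ ℓ (x.2 ℓ) s) (fun ℓ => (hκ ℓ).w _ _) _ _
        (fun ℓ => f ℓ x.1) hx'
    simp only [e1]
    have e2 : ∀ s, w s * (a x.1 * (1 + b x.1 * ∏ ℓ, ∑ e, f ℓ x.1 e * κ ℓ (x.2 ℓ) s e)) =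
        w s * a x.1 + a x.1 * (b x.1 * (w s * ∏ ℓ, ∑ e, f ℓ x.1 e * κ ℓ (x.2 ℓ) s e)) := by
      intro s; ring
    simp only [e2]
    rw [Finset.sum_add_distrib, ← Finset.sum_mul, hw1, ← Finset.mul_sum, ← Finset.mul_sum]
    ring
  unfold Vt Lt
  set m := b x.1 * mixProd w (fun ℓ => siteF (κ ℓ)) (fun ℓ => (f ℓ x.1, x.2 ℓ)) with hm
  have h3 := abs_le.1 h2
  have h4 : 0 < 1 + t * m := by nlinarith
  rw [hT]
  have e : (1 - t) * a x.1 + t * (a x.1 * (1 + m)) = a x.1 * (1 + t * m) := by ring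
  rw [e, Real.log_mul hx.1.ne' h4.ne']
  ring

/-- The key inequality on the original space, kernels form. -/
theorem key_kappa (h : Fac q P a b f θ)
    (hpos : Even (q + 1) ∨ ∀ᵐ ω ∂P, ∀ e, 0 ≤ f 0 ω e) {N : ℕ} (hN : 0 < N)
    (hw : ∀ s, 0 ≤ w s) (hw1 : ∑ s, w s = 1) (κα : Fin N → Y → S → Bool → ℝ)
    (κβ : Y → S → Bool → ℝ) (hα : ∀ i, IsK (κα i)) (hβ : IsK κβ) :
    (1 / (q + 1 : ℝ)) * ((Fintype.card (Fin (q + 1) → Fin N) : ℝ)⁻¹ *
        ∑ I : Fin (q + 1) → Fin N,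
          ∫ x, Real.log (Tbar w (fun ℓ => κα (I ℓ)) (θ x.1) x.2)
            ∂(P.prod (Measure.pi fun _ : Fin (q + 1) => Q))) +
      (q / (q + 1 : ℝ)) * ∫ x, Real.log (Tbar w (fun _ => κβ) (θ x.1) x.2)
          ∂(P.prod (Measure.pi fun _ : Fin (q + 1) => Q)) ≤
    (N : ℝ)⁻¹ * ∑ i, ∫ x, Real.log
        (Tbar w (fun ℓ => if ℓ = Fin.last q then κα i else κβ) (θ x.1) x.2)
          ∂(P.prod (Measure.pi fun _ : Fin (q + 1) => Q)) := by
  have hK2 : ∀ (i : Fin N) (ℓ : Fin (q + 1)), IsK (if ℓ = Fin.last q then κα i else κβ) := by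
    intro i ℓ
    by_cases hℓ : ℓ = Fin.last q
    · rw [if_pos hℓ]; exact hα i
    · rw [if_neg hℓ]; exact hβ
  have hV1 : ∀ κ : Fin (q + 1) → Y → S → Bool → ℝ,
      (fun x : Ω × (Fin (q + 1) → Y) => Real.log (Tbar w κ (θ x.1) x.2)) = Vt a θ w κ 1 := by
    intro κ
    funext x
    simp [Vt]
  simp only [hV1]
  -- the inequality for t < 1
  have hlt : ∀ t : ℝ, 0 ≤ t → t < 1 →
      (1 / (q + 1 : ℝ)) * ((Fintype.card (Fin (q + 1) → Fin N) : ℝ)⁻¹ *
        ∑ I : Fin (q + 1) → Fin N,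
          ∫ x, Vt a θ w (fun ℓ => κα (I ℓ)) t x ∂(P.prod (Measure.pi fun _ : Fin (q + 1) => Q))) +
      (q / (q + 1 : ℝ)) * ∫ x, Vt a θ w (fun _ => κβ) t x
          ∂(P.prod (Measure.pi fun _ : Fin (q + 1) => Q)) ≤
      (N : ℝ)⁻¹ * ∑ i, ∫ x, Vt a θ w (fun ℓ => if ℓ = Fin.last q then κα i else κβ) t x
          ∂(P.prod (Measure.pi fun _ : Fin (q + 1) => Q)) := by
    intro t ht0 ht1
    have hk := key_lt_one Q h hpos hN hw hw1 κα κβ hα hβ t ht0 ht1
    set K : ℝ := ∫ x : Ω × (Fin (q + 1) → Y), (Real.log (a x.1) - Real.log ((1 - t) * a x.1 + t))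
      ∂(P.prod (Measure.pi fun _ : Fin (q + 1) => Q)) with hK
    have hVL : ∀ κ : Fin (q + 1) → Y → S → Bool → ℝ, (∀ ℓ, IsK (κ ℓ)) →
        ∫ x, Vt a θ w κ t x ∂(P.prod (Measure.pi fun _ : Fin (q + 1) => Q)) =
        ∫ x, Lt b f w κ t x ∂(P.prod (Measure.pi fun _ : Fin (q + 1) => Q)) + K := by
      intro κ hκ
      have hiV := integrable_Vt Q h hw hw1 κ hκ t ht0 ht1.le
      have hiL := integrable_Lt Q h hw hw1 κ hκ t ht0 ht1
      have hae := Vt_sub_Lt Q h hw hw1 κ hκ t ht0 ht1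
      have hiK : Integrable (fun x : Ω × (Fin (q + 1) → Y) =>
          (Real.log (a x.1) - Real.log ((1 - t) * a x.1 + t)))
          (P.prod (Measure.pi fun _ : Fin (q + 1) => Q)) := by
        refine (hiV.sub hiL).congr ?_
        filter_upwards [hae] with x hx
        simp only [Pi.sub_apply, hx]
        ring
      rw [integral_congr_ae hae, integral_add hiL hiK]
    have e1 : ∀ I : Fin (q + 1) → Fin N, _ := fun I => hVL (fun ℓ => κα (I ℓ)) fun ℓ => hα _
    have e2 : ∀ i : Fin N, _ := fun i =>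
      hVL (fun ℓ => if ℓ = Fin.last q then κα i else κβ) (hK2 i)
    have e3 := hVL (fun _ => κβ) fun _ => hβ
    simp only [e1, e2, e3, Finset.sum_add_distrib, Finset.sum_const, Finset.card_univ,
      nsmul_eq_mul, Fintype.card_fin]
    have hN' : (N : ℝ) ≠ 0 := by exact_mod_cast hN.ne'
    have hc : (Fintype.card (Fin (q + 1) → Fin N) : ℝ) ≠ 0 := by
      rw [Fintype.card_fun, Fintype.card_fin, Fintype.card_fin]
      push_cast
      positivity
    have hq : (q + 1 : ℝ) ≠ 0 := by positivity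
    have a1 : ∀ X : ℝ, (N : ℝ)⁻¹ * (X + N * K) = (N : ℝ)⁻¹ * X + K := fun X => by
      rw [mul_add, inv_mul_cancel_left₀ hN']
    have a2 : ∀ X : ℝ, (Fintype.card (Fin (q + 1) → Fin N) : ℝ)⁻¹ *
        (X + (Fintype.card (Fin (q + 1) → Fin N) : ℝ) * K) =
        (Fintype.card (Fin (q + 1) → Fin N) : ℝ)⁻¹ * X + K := fun X => by
      rw [mul_add, inv_mul_cancel_left₀ hc]
    rw [a1, a2]
    have a3 : 1 / (q + 1 : ℝ) * K + q / (q + 1 : ℝ) * K = K := by
      field_simp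
      ring
    rw [mul_add, mul_add]
    linarith
  have hlim1 : Tendsto (fun t : ℝ =>
      (1 / (q + 1 : ℝ)) * ((Fintype.card (Fin (q + 1) → Fin N) : ℝ)⁻¹ *
        ∑ I : Fin (q + 1) → Fin N,
          ∫ x, Vt a θ w (fun ℓ => κα (I ℓ)) t x ∂(P.prod (Measure.pi fun _ : Fin (q + 1) => Q))) +
      (q / (q + 1 : ℝ)) * ∫ x, Vt a θ w (fun _ => κβ) t x
          ∂(P.prod (Measure.pi fun _ : Fin (q + 1) => Q))) (𝓝[<] 1)
      (𝓝 ((1 / (q + 1 : ℝ)) * ((Fintype.card (Fin (q + 1) → Fin N) : ℝ)⁻¹ *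
        ∑ I : Fin (q + 1) → Fin N,
          ∫ x, Vt a θ w (fun ℓ => κα (I ℓ)) 1 x ∂(P.prod (Measure.pi fun _ : Fin (q + 1) => Q))) +
      (q / (q + 1 : ℝ)) * ∫ x, Vt a θ w (fun _ => κβ) 1 x
          ∂(P.prod (Measure.pi fun _ : Fin (q + 1) => Q)))) := by
    refine Tendsto.add (Tendsto.const_mul _ (Tendsto.const_mul _ ?_)) (Tendsto.const_mul _ ?_)
    · exact tendsto_finsetSum _ fun I _ =>
        tendsto_integral_Vt Q h hw hw1 (fun ℓ => κα (I ℓ)) fun ℓ => hα _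
    · exact tendsto_integral_Vt Q h hw hw1 (fun _ => κβ) fun _ => hβ
  have hlim2 : Tendsto (fun t : ℝ => (N : ℝ)⁻¹ * ∑ i, ∫ x,
        Vt a θ w (fun ℓ => if ℓ = Fin.last q then κα i else κβ) t x
          ∂(P.prod (Measure.pi fun _ : Fin (q + 1) => Q))) (𝓝[<] 1)
      (𝓝 ((N : ℝ)⁻¹ * ∑ i, ∫ x, Vt a θ w (fun ℓ => if ℓ = Fin.last q then κα i else κβ) 1 x
          ∂(P.prod (Measure.pi fun _ : Fin (q + 1) => Q)))) := by
    refine Tendsto.const_mul _ ?_
    exact tendsto_finsetSum _ fun i _ =>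
        tendsto_integral_Vt Q h hw hw1 (fun ℓ => if ℓ = Fin.last q then κα i else κβ) (hK2 i)
  refine le_of_tendsto_of_tendsto hlim1 hlim2 ?_
  have h1 : ∀ᶠ t in 𝓝[<] (1 : ℝ), t ∈ Set.Ioo (0 : ℝ) 1 := Ioo_mem_nhdsLT (by norm_num)
  filter_upwards [h1] with t ht
  exact hlt t ht.1.le ht.2

end LimitOne

end Crest.Agent.R141
end

-- ▼ part R141/KI

set_option autoImplicit false

/-!
Row 141, part U1: the key inequality `KIProp` from the factorization of the interaction law.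
-/

namespace Crest.Agent.R141

open MeasureTheory ProbabilityTheory Crest.ProbabilityR.Diluted Filter Topology

section Final

lemma tilt_isW (x : ℝ) : IsW (tilt x) := by
  constructor
  · intro e
    unfold tilt
    have := Real.cosh_pos x
    positivity
  · simp only [tilt, Fintype.sum_bool, spinVal, if_true]
    have hc := Real.cosh_pos x
    rw [← add_div, div_eq_one_iff_eq (by positivity)]
    rw [Real.cosh_eq]
    simp
    ring

lemma measurable_tilt (e : Bool) : Measurable fun x => tilt x e := by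
  unfold tilt
  exact (Real.measurable_exp.comp (measurable_id.mul_const _)).div
    (Real.measurable_cosh.const_mul 2)

/-- the point kernel -/
def kDelta {Y S : Type*} (s' : S → Bool) : Y → S → Bool → ℝ := fun _ s e =>
  if e = s' s then 1 else 0

lemma kDelta_isK {Y S : Type*} [MeasurableSpace Y] (s' : S → Bool) :
    IsK (kDelta (Y := Y) s') := by
  constructor
  · intro y s
    constructor
    · intro e; unfold kDelta; split_ifs <;> norm_num
    · simp [kDelta]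
  · intro s e; unfold kDelta; exact measurable_const

/-- the tilt kernel -/
noncomputable def kTilt {Y S : Type*} (x : Y → S → ℝ) : Y → S → Bool → ℝ := fun y s e =>
  tilt (x y s) e

lemma kTilt_isK {Y S : Type*} [MeasurableSpace Y] (x : Y → S → ℝ)
    (hx : ∀ s, Measurable fun y => x y s) : IsK (kTilt x) := by
  constructor
  · intro y s; exact tilt_isW _
  · intro s e; exact (measurable_tilt e).comp (hx s)

variable {q N : ℕ} {S : Type*} [Fintype S] {Y : Type*} [MeasurableSpace Y]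

lemma avgT_delta {p : ℕ} (θ : Crest.ProbabilityR.Diluted.Inter p) (e0 : Fin p → Bool) :
    avgT θ (fun ℓ e => if e = e0 ℓ then 1 else 0) = Real.exp (θ e0) := by
  unfold avgT
  rw [Finset.sum_eq_single e0]
  · simp
  · intro e _ he
    have : ∃ ℓ, e ℓ ≠ e0 ℓ := by
      by_contra hcon
      push Not at hcon
      exact he (funext hcon)
    obtain ⟨ℓ, hℓ⟩ := this
    rw [Finset.prod_eq_zero (Finset.mem_univ ℓ)]
    · simp
    · simp [hℓ]
  · intro h; exact absurd (Finset.mem_univ _) h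

lemma Tbar_delta (w : S → ℝ) (sg : S → Fin N → Bool) (I : Fin (q + 1) → Fin N)
    (θ : Crest.ProbabilityR.Diluted.Inter (q + 1)) (y : Fin (q + 1) → Y) :
    Tbar w (fun ℓ => kDelta fun s => sg s (I ℓ)) θ y =
      ∑ s, w s * Real.exp (θ fun ℓ => sg s (I ℓ)) := by
  unfold Tbar
  refine Finset.sum_congr rfl fun s _ => ?_
  congr 1
  exact avgT_delta θ fun ℓ => sg s (I ℓ)


lemma exp_siteMessage (θ : Crest.ProbabilityR.Diluted.Inter (q + 1)) (x : Fin q → ℝ) (ε : Bool) :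
    Real.exp (siteMessage θ x ε) = ∑ s' : Fin q → Bool,
      Real.exp (θ (Fin.snoc s' ε)) * ∏ ℓ, tilt (x ℓ) (s' ℓ) := by
  have hfun : ∀ s' : Fin q → Bool,
      (fun ℓ : Fin (q + 1) => if h : ℓ.val < (q + 1) - 1 then s' ⟨ℓ.val, h⟩ else ε) =
      (Fin.snoc s' ε : Fin (q + 1) → Bool) := by
    intro s'
    funext ℓ
    simp only [Fin.snoc]
    by_cases h : ℓ.val < q
    · have h' : ℓ.val < (q + 1) - 1 := h
      rw [dif_pos h', dif_pos h]
      rfl
    · have h' : ¬ ℓ.val < (q + 1) - 1 := h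
      rw [dif_neg h', dif_neg h]
      rfl
  unfold siteMessage
  rw [Real.exp_log]
  · refine Finset.sum_congr rfl fun s' _ => ?_
    rw [hfun s']
    rfl
  · refine Finset.sum_pos (fun s' _ => ?_) Finset.univ_nonempty
    refine mul_pos (Real.exp_pos _) (Finset.prod_pos fun ℓ _ => ?_)
    unfold tilt
    have := Real.cosh_pos (x ℓ)
    positivity

lemma Tbar_mixed (w : S → ℝ) (sg : S → Fin N → Bool) (i : Fin N) (x : Y → S → ℝ)
    (θ : Crest.ProbabilityR.Diluted.Inter (q + 1)) (y : Fin (q + 1) → Y) :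
    Tbar w (fun ℓ => if ℓ = Fin.last q then kDelta fun s => sg s i else kTilt x) θ y =
      ∑ s, w s * Real.exp (siteMessage θ (fun ℓ : Fin q => x (y ℓ.castSucc) s) (sg s i)) := by
  unfold Tbar
  refine Finset.sum_congr rfl fun s _ => ?_
  congr 1
  rw [exp_siteMessage]
  unfold avgT
  rw [← (Fin.snocEquiv fun _ : Fin (q + 1) => Bool).sum_comp, Fintype.sum_prod_type]
  rw [Finset.sum_eq_single (sg s i)]
  · refine Finset.sum_congr rfl fun s' _ => ?_
    have e1 : (Fin.snocEquiv fun _ : Fin (q + 1) => Bool) (sg s i, s') =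
        (Fin.snoc s' (sg s i) : Fin (q + 1) → Bool) := rfl
    rw [e1, Fin.prod_univ_castSucc]
    congr 1
    have e2 : (if Fin.last q = Fin.last q then kDelta (Y := Y) (fun s => sg s i) else kTilt x)
        (y (Fin.last q)) s ((Fin.snoc s' (sg s i) : Fin (q + 1) → Bool) (Fin.last q)) = 1 := by
      rw [if_pos rfl, Fin.snoc_last]
      simp [kDelta]
    beta_reduce
    rw [e2, mul_one]
    refine Finset.prod_congr rfl fun ℓ _ => ?_
    rw [if_neg (Fin.castSucc_lt_last ℓ).ne, Fin.snoc_castSucc]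
    rfl
  · intro ε _ hε
    refine Finset.sum_eq_zero fun s' _ => ?_
    have e1 : (Fin.snocEquiv fun _ : Fin (q + 1) => Bool) (ε, s') =
        (Fin.snoc s' ε : Fin (q + 1) → Bool) := rfl
    rw [e1, Fin.prod_univ_castSucc]
    have e2 : (if Fin.last q = Fin.last q then kDelta (Y := Y) (fun s => sg s i) else kTilt x)
        (y (Fin.last q)) s ((Fin.snoc s' ε : Fin (q + 1) → Bool) (Fin.last q)) = 0 := by
      rw [if_pos rfl, Fin.snoc_last]
      simp [kDelta, hε]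
    beta_reduce
    rw [e2]
    ring
  · intro h; exact absurd (Finset.mem_univ _) h

/-- Fubini + change of variables. -/
lemma integral_transport {p : ℕ} {Ω : Type*} [MeasurableSpace Ω] (P : Measure Ω)
    [IsProbabilityMeasure P] {Y' : Type*} [MeasurableSpace Y'] (R : Measure Y')
    [IsProbabilityMeasure R] (θ : Ω → Crest.ProbabilityR.Diluted.Inter p) (hθ : Measurable θ)
    (hint : Integrable (fun ω => supNorm (θ ω)) P)
    (H : Crest.ProbabilityR.Diluted.Inter p → Y' → ℝ) (hH : Measurable (Function.uncurry H))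
    (hb : ∀ (t : Crest.ProbabilityR.Diluted.Inter p) (y : Y'), |H t y| ≤ supNorm t) :
    ∫ x, H (θ x.1) x.2 ∂(P.prod R) = ∫ t, ∫ y, H t y ∂(R) ∂(P.map θ) := by
  have hm : Measurable fun x : Ω × Y' => H (θ x.1) x.2 :=
    hH.comp ((hθ.comp measurable_fst).prodMk measurable_snd)
  have hi : Integrable (fun x : Ω × Y' => H (θ x.1) x.2) (P.prod R) := by
    refine (hint.comp_fst R).mono' hm.aestronglyMeasurable (Eventually.of_forall fun x => ?_)
    rw [Real.norm_eq_abs]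
    exact hb _ _
  rw [integral_prod _ hi, integral_map hθ.aemeasurable]
  exact (hH.stronglyMeasurable.integral_prod_right).aestronglyMeasurable

lemma measurePreserving_castSucc (q : ℕ) (Q : Measure Y) [IsProbabilityMeasure Q] :
    MeasurePreserving (fun (y : Fin (q + 1) → Y) (ℓ : Fin q) => y ℓ.castSucc)
      (Measure.pi fun _ => Q) (Measure.pi fun _ => Q) := by
  have h1 := measurePreserving_piFinSuccAbove (fun _ : Fin (q + 1) => Q) (Fin.last q)
  have h2 : MeasurePreserving (Prod.snd : Y × (Fin q → Y) → (Fin q → Y))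
      (Q.prod (Measure.pi fun _ => Q)) (Measure.pi fun _ => Q) := measurePreserving_snd
  have h3 := h2.comp h1
  have e : (fun (y : Fin (q + 1) → Y) (ℓ : Fin q) => y ℓ.castSucc) =
      Prod.snd ∘ (MeasurableEquiv.piFinSuccAbove (fun _ => Y) (Fin.last q)) := by
    funext y ℓ
    simp [MeasurableEquiv.piFinSuccAbove, Fin.insertNthEquiv]
    rfl
  rw [e]
  exact h3

lemma abs_log_le_of_exp {T s : ℝ} (h1 : Real.exp (-s) ≤ T) (h2 : T ≤ Real.exp s) :
    |Real.log T| ≤ s := by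
  have hT : 0 < T := (Real.exp_pos _).trans_le h1
  rw [abs_le]
  constructor
  · have := Real.log_le_log (Real.exp_pos _) h1
    rwa [Real.log_exp] at this
  · have := Real.log_le_log hT h2
    rwa [Real.log_exp] at this

/-- The normalised key inequality in terms of the law of `θ`. -/
theorem key_norm {Ω : Type*} [MeasurableSpace Ω] {P : Measure Ω} [IsProbabilityMeasure P]
    {a b : Ω → ℝ} {f : Fin (q + 1) → Ω → Bool → ℝ}
    {θ : Ω → Crest.ProbabilityR.Diluted.Inter (q + 1)} (h : Fac q P a b f θ)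
    (hpos : Even (q + 1) ∨ ∀ᵐ ω ∂P, ∀ e, 0 ≤ f 0 ω e) (hN : 0 < N)
    (Q : Measure Y) [IsProbabilityMeasure Q] (w : S → ℝ) (hw : ∀ s, 0 ≤ w s)
    (hw1 : ∑ s, w s = 1) (sg : S → Fin N → Bool) (x : Y → S → ℝ)
    (hx : ∀ s, Measurable fun y => x y s) :
    (1 / (q + 1 : ℝ)) * ((Fintype.card (Fin (q + 1) → Fin N) : ℝ)⁻¹ *
        ∑ I : Fin (q + 1) → Fin N,
          ∫ t, Real.log (∑ s, w s * Real.exp (t fun ℓ => sg s (I ℓ))) ∂(P.map θ)) +
      (q / (q + 1 : ℝ)) * ∫ t, ∫ y, Real.log (∑ s, w s * edgeTerm t fun ℓ => x (y ℓ) s)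
          ∂(Measure.pi fun _ : Fin (q + 1) => Q) ∂(P.map θ) ≤
    (N : ℝ)⁻¹ * ∑ i, ∫ t, ∫ y, Real.log (∑ s, w s *
        Real.exp (siteMessage t (fun ℓ : Fin q => x (y ℓ) s) (sg s i)))
          ∂(Measure.pi fun _ : Fin q => Q) ∂(P.map θ) := by
  have hα : ∀ i : Fin N, IsK (kDelta (Y := Y) fun s => sg s i) := fun i => kDelta_isK _
  have hβ : IsK (kTilt x) := kTilt_isK x hx
  have hK2 : ∀ (i : Fin N) (ℓ : Fin (q + 1)),
      IsK (if ℓ = Fin.last q then kDelta (Y := Y) (fun s => sg s i) else kTilt x) := by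
    intro i ℓ
    by_cases hℓ : ℓ = Fin.last q
    · rw [if_pos hℓ]; exact hα i
    · rw [if_neg hℓ]; exact hβ
  have key := key_kappa Q h hpos hN hw hw1 (fun i => kDelta (Y := Y) fun s => sg s i) (kTilt x)
    hα hβ
  -- general transport
  have tr : ∀ κ : Fin (q + 1) → Y → S → Bool → ℝ, (∀ ℓ, IsK (κ ℓ)) →
      ∫ z, Real.log (Tbar w κ (θ z.1) z.2) ∂(P.prod (Measure.pi fun _ : Fin (q + 1) => Q)) =
      ∫ t, ∫ y, Real.log (Tbar w κ t y) ∂(Measure.pi fun _ : Fin (q + 1) => Q) ∂(P.map θ) := by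
    intro κ hκ
    have hm0 : Measurable fun z : Crest.ProbabilityR.Diluted.Inter (q + 1) × (Fin (q + 1) → Y) =>
        Tbar w κ z.1 z.2 :=
      measurable_Tbar w κ hκ
    have hm1 : Measurable fun z : Crest.ProbabilityR.Diluted.Inter (q + 1) × (Fin (q + 1) → Y) =>
        Real.log (Tbar w κ z.1 z.2) := hm0.log
    have hb : ∀ (t : Crest.ProbabilityR.Diluted.Inter (q + 1)) (y : Fin (q + 1) → Y),
        |Real.log (Tbar w κ t y)| ≤ supNorm t := fun t y =>
      abs_log_le_of_exp (le_Tbar hw hw1 κ hκ t y) (Tbar_le hw hw1 κ hκ t y)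
    exact integral_transport P (Measure.pi fun _ : Fin (q + 1) => Q) θ h.mθ h.int
      (fun t y => Real.log (Tbar w κ t y)) hm1 hb
  have T1 : ∀ I : Fin (q + 1) → Fin N,
      ∫ z, Real.log (Tbar w (fun ℓ => kDelta (Y := Y) fun s => sg s (I ℓ)) (θ z.1) z.2)
        ∂(P.prod (Measure.pi fun _ : Fin (q + 1) => Q)) =
      ∫ t, Real.log (∑ s, w s * Real.exp (t fun ℓ => sg s (I ℓ))) ∂(P.map θ) := by
    intro I
    rw [tr _ fun ℓ => hα _]
    refine integral_congr_ae (Eventually.of_forall fun t => ?_)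
    simp only [Tbar_delta, integral_const, probReal_univ, smul_eq_mul, one_mul]
  have T2 : ∀ i : Fin N,
      ∫ z, Real.log (Tbar w (fun ℓ => if ℓ = Fin.last q then kDelta (Y := Y) fun s => sg s i
        else kTilt x) (θ z.1) z.2)
        ∂(P.prod (Measure.pi fun _ : Fin (q + 1) => Q)) =
      ∫ t, ∫ y, Real.log (∑ s, w s *
        Real.exp (siteMessage t (fun ℓ : Fin q => x (y ℓ) s) (sg s i)))
          ∂(Measure.pi fun _ : Fin q => Q) ∂(P.map θ) := by
    intro i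
    rw [tr _ (hK2 i)]
    refine integral_congr_ae (Eventually.of_forall fun t => ?_)
    simp only [Tbar_mixed]
    have mp := measurePreserving_castSucc q Q
    rw [← mp.map_eq, integral_map mp.measurable.aemeasurable]
    refine Measurable.aestronglyMeasurable ?_
    refine Real.measurable_log.comp ?_
    refine Finset.measurable_sum _ fun s _ => Measurable.const_mul ?_ _
    simp only [exp_siteMessage]
    refine Finset.measurable_sum _ fun s' _ => Measurable.const_mul ?_ _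
    refine Finset.measurable_prod _ fun ℓ _ => ?_
    exact (measurable_tilt _).comp ((hx s).comp (measurable_pi_apply ℓ))
  have T3 := tr (fun _ => kTilt x) fun _ => hβ
  simp only [T1, T2] at key
  rw [T3] at key
  exact key

/-- unnormalised logarithm -/
lemma log_sum_G [Nonempty S] (G T : S → ℝ) (hG : ∀ s, 0 < G s) (hT : ∀ s, 0 < T s) :
    Real.log (∑ s, G s * T s) = Real.log (∑ s, G s) +
      Real.log (∑ s, (G s / ∑ s', G s') * T s) := by
  have hG0 : 0 < ∑ s, G s := Finset.sum_pos (fun s _ => hG s) Finset.univ_nonempty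
  have h1 : ∑ s, G s * T s = (∑ s, G s) * ∑ s, (G s / ∑ s', G s') * T s := by
    rw [Finset.mul_sum]
    refine Finset.sum_congr rfl fun s _ => ?_
    field_simp
  have h2 : 0 < ∑ s, (G s / ∑ s', G s') * T s :=
    Finset.sum_pos (fun s _ => mul_pos (div_pos (hG s) hG0) (hT s)) Finset.univ_nonempty
  rw [h1, Real.log_mul hG0.ne' h2.ne']


lemma exp_siteMessage_eq_avgT (θ : Crest.ProbabilityR.Diluted.Inter (q + 1)) (x : Fin q → ℝ)
    (ε : Bool) :
    Real.exp (siteMessage θ x ε) = avgT θ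
      (fun ℓ => if h : ℓ.val < q then tilt (x ⟨ℓ.val, h⟩) else fun e => if e = ε then 1 else 0) := by
  rw [exp_siteMessage]
  unfold avgT
  rw [← (Fin.snocEquiv fun _ : Fin (q + 1) => Bool).sum_comp, Fintype.sum_prod_type]
  rw [Finset.sum_eq_single ε]
  · refine Finset.sum_congr rfl fun s' _ => ?_
    have e1 : (Fin.snocEquiv fun _ : Fin (q + 1) => Bool) (ε, s') =
        (Fin.snoc s' ε : Fin (q + 1) → Bool) := rfl
    rw [e1, Fin.prod_univ_castSucc]
    beta_reduce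
    rw [Fin.snoc_last, dif_neg (by simp)]
    simp only [if_true, mul_one]
    congr 1
    refine Finset.prod_congr rfl fun ℓ _ => ?_
    rw [Fin.snoc_castSucc, dif_pos (by simp)]
    rfl
  · intro ε' _ hε
    refine Finset.sum_eq_zero fun s' _ => ?_
    have e1 : (Fin.snocEquiv fun _ : Fin (q + 1) => Bool) (ε', s') =
        (Fin.snoc s' ε' : Fin (q + 1) → Bool) := rfl
    rw [e1, Fin.prod_univ_castSucc]
    beta_reduce
    rw [Fin.snoc_last, dif_neg (by simp)]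
    simp [hε]
  · intro h; exact absurd (Finset.mem_univ _) h

lemma edgeTerm_bounds {p : ℕ} (θ : Crest.ProbabilityR.Diluted.Inter p) (x : Fin p → ℝ) :
    Real.exp (-supNorm θ) ≤ edgeTerm θ x ∧ edgeTerm θ x ≤ Real.exp (supNorm θ) :=
  ⟨le_avgT θ _ fun ℓ => tilt_isW _, avgT_le θ _ fun ℓ => tilt_isW _⟩

lemma exp_siteMessage_bounds (θ : Crest.ProbabilityR.Diluted.Inter (q + 1)) (x : Fin q → ℝ)
    (ε : Bool) : Real.exp (-supNorm θ) ≤ Real.exp (siteMessage θ x ε) ∧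
      Real.exp (siteMessage θ x ε) ≤ Real.exp (supNorm θ) := by
  rw [exp_siteMessage_eq_avgT]
  have h : ∀ ℓ : Fin (q + 1), IsW
      (if h : ℓ.val < q then tilt (x ⟨ℓ.val, h⟩) else fun e => if e = ε then 1 else 0) := by
    intro ℓ
    by_cases h : ℓ.val < q
    · rw [dif_pos h]; exact tilt_isW _
    · rw [dif_neg h]
      constructor
      · intro e; split_ifs <;> norm_num
      · simp
  exact ⟨le_avgT θ _ h, avgT_le θ _ h⟩

lemma exp_theta_bounds {p : ℕ} (θ : Crest.ProbabilityR.Diluted.Inter p) (e : Fin p → Bool) :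
    Real.exp (-supNorm θ) ≤ Real.exp (θ e) ∧ Real.exp (θ e) ≤ Real.exp (supNorm θ) :=
  ⟨Real.exp_le_exp.2 (abs_le.1 (abs_le_supNorm θ e)).1,
    Real.exp_le_exp.2 ((le_abs_self _).trans (abs_le_supNorm θ e))⟩

lemma abs_log_avg_le (w T : S → ℝ) (hw : ∀ s, 0 ≤ w s) (hw1 : ∑ s, w s = 1) (c : ℝ)
    (h : ∀ s, Real.exp (-c) ≤ T s ∧ T s ≤ Real.exp c) : |Real.log (∑ s, w s * T s)| ≤ c := by
  refine abs_log_le_of_exp ?_ ?_
  · calc Real.exp (-c) = ∑ s, w s * Real.exp (-c) := by rw [← Finset.sum_mul, hw1, one_mul]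
      _ ≤ _ := Finset.sum_le_sum fun s _ => mul_le_mul_of_nonneg_left (h s).1 (hw s)
  · calc _ ≤ ∑ s, w s * Real.exp c :=
          Finset.sum_le_sum fun s _ => mul_le_mul_of_nonneg_left (h s).2 (hw s)
      _ = Real.exp c := by rw [← Finset.sum_mul, hw1, one_mul]

lemma measurable_edgeTerm_arr {p : ℕ} (x : Y → S → ℝ) (hx : ∀ s, Measurable fun y => x y s) (s : S) :
    Measurable fun z : Crest.ProbabilityR.Diluted.Inter p × (Fin p → Y) =>
      edgeTerm z.1 fun ℓ => x (z.2 ℓ) s := by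
  unfold edgeTerm
  refine Finset.measurable_sum _ fun e _ => ?_
  refine Measurable.mul ?_ ?_
  · exact ((measurable_pi_apply e).comp measurable_fst).exp
  · refine Finset.measurable_prod _ fun ℓ _ => ?_
    exact (measurable_tilt _).comp ((hx s).comp ((measurable_pi_apply ℓ).comp measurable_snd))

lemma measurable_expSite_arr (x : Y → S → ℝ) (hx : ∀ s, Measurable fun y => x y s) (s : S)
    (ε : Bool) :
    Measurable fun z : Crest.ProbabilityR.Diluted.Inter (q + 1) × (Fin q → Y) =>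
      Real.exp (siteMessage z.1 (fun ℓ : Fin q => x (z.2 ℓ) s) ε) := by
  simp only [exp_siteMessage]
  refine Finset.measurable_sum _ fun e _ => ?_
  refine Measurable.mul ?_ ?_
  · exact ((measurable_pi_apply (Fin.snoc e ε : Fin (q + 1) → Bool)).comp measurable_fst).exp
  · refine Finset.measurable_prod _ fun ℓ _ => ?_
    exact (measurable_tilt _).comp ((hx s).comp ((measurable_pi_apply ℓ).comp measurable_snd))

lemma shift1 {p : ℕ} (μ : Measure (Crest.ProbabilityR.Diluted.Inter p)) [IsProbabilityMeasure μ]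
    (hμ : Integrable (fun t => supNorm t) μ) (g : Crest.ProbabilityR.Diluted.Inter p → ℝ)
    (hg : Measurable g) (hb : ∀ t, |g t| ≤ supNorm t) (c : ℝ) :
    ∫ t, (c + g t) ∂μ = c + ∫ t, g t ∂μ := by
  have hi : Integrable g μ := hμ.mono' hg.aestronglyMeasurable
    (Eventually.of_forall fun t => by rw [Real.norm_eq_abs]; exact hb t)
  rw [integral_add (integrable_const c) hi]
  simp

lemma shift2 {p : ℕ} (μ : Measure (Crest.ProbabilityR.Diluted.Inter p)) [IsProbabilityMeasure μ]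
    (hμ : Integrable (fun t => supNorm t) μ) {Y' : Type*} [MeasurableSpace Y'] (R : Measure Y')
    [IsProbabilityMeasure R] (H : Crest.ProbabilityR.Diluted.Inter p → Y' → ℝ)
    (hH : Measurable (Function.uncurry H))
    (hb : ∀ (t : Crest.ProbabilityR.Diluted.Inter p) (y : Y'), |H t y| ≤ supNorm t) (c : ℝ) :
    ∫ t, ∫ y, (c + H t y) ∂(R) ∂μ = c + ∫ t, ∫ y, H t y ∂(R) ∂μ := by
  have hin : ∀ t, ∫ y, (c + H t y) ∂(R) = c + ∫ y, H t y ∂(R) := by
    intro t
    have hi : Integrable (H t) R :=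
      Integrable.of_bound (hH.of_uncurry_left).aestronglyMeasurable (supNorm t)
        (Eventually.of_forall fun y => by rw [Real.norm_eq_abs]; exact hb t y)
    rw [integral_add (integrable_const c) hi]
    simp
  simp only [hin]
  refine shift1 μ hμ _ (hH.stronglyMeasurable.integral_prod_right).measurable ?_ c
  intro t
  have := norm_integral_le_of_norm_le_const (μ := R) (f := H t) (C := supNorm t)
    (Eventually.of_forall fun y => by rw [Real.norm_eq_abs]; exact hb t y)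
  simpa using this

theorem kiProp_of_fac {Ω : Type*} [MeasurableSpace Ω] {P : Measure Ω} [IsProbabilityMeasure P]
    {a b : Ω → ℝ} {f : Fin (q + 1) → Ω → Bool → ℝ}
    {θ : Ω → Crest.ProbabilityR.Diluted.Inter (q + 1)} (h : Fac q P a b f θ)
    (hpos : Even (q + 1) ∨ ∀ᵐ ω ∂P, ∀ e, 0 ≤ f 0 ω e)
    (μ : Measure (Crest.ProbabilityR.Diluted.Inter (q + 1))) (hμP : P.map θ = μ)
    (hμ : Integrable (fun t => supNorm t) μ) : KIProp (q + 1) μ := by
  intro S _ _ N hN sg Y _ Q _ x hx G hG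
  have iμ : IsProbabilityMeasure μ := by
    rw [← hμP]; exact Measure.isProbabilityMeasure_map h.mθ.aemeasurable
  have hG0 : 0 < ∑ s, G s := Finset.sum_pos (fun s _ => hG s) Finset.univ_nonempty
  set w : S → ℝ := fun s => G s / ∑ s', G s' with hwdef
  have hw : ∀ s, 0 ≤ w s := fun s => (div_pos (hG s) hG0).le
  have hw1 : ∑ s, w s = 1 := by
    simp only [hwdef]
    rw [← Finset.sum_div, div_self hG0.ne']
  set c : ℝ := Real.log (∑ s, G s) with hc
  have key := key_norm h hpos hN Q w hw hw1 sg x hx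
  rw [hμP] at key
  -- the three terms
  have T1 : ∀ I : Fin (q + 1) → Fin N,
      ∫ t, Real.log (∑ s, G s * Real.exp (t fun ℓ => sg s (I ℓ))) ∂μ =
      c + ∫ t, Real.log (∑ s, w s * Real.exp (t fun ℓ => sg s (I ℓ))) ∂μ := by
    intro I
    have e : ∀ t : Crest.ProbabilityR.Diluted.Inter (q + 1),
        Real.log (∑ s, G s * Real.exp (t fun ℓ => sg s (I ℓ))) =
        c + Real.log (∑ s, w s * Real.exp (t fun ℓ => sg s (I ℓ))) := fun t =>
      log_sum_G G _ hG fun s => Real.exp_pos _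
    simp only [e]
    refine shift1 μ hμ _ ?_ ?_ c
    · refine Real.measurable_log.comp ?_
      refine Finset.measurable_sum _ fun s _ => Measurable.const_mul ?_ _
      exact (measurable_pi_apply _).exp
    · intro t
      exact abs_log_avg_le w _ hw hw1 _ fun s => exp_theta_bounds t _
  have T3 : ∫ t, ∫ y, Real.log (∑ s, G s * edgeTerm t fun ℓ => x (y ℓ) s)
        ∂(Measure.pi fun _ : Fin (q + 1) => Q) ∂μ =
      c + ∫ t, ∫ y, Real.log (∑ s, w s * edgeTerm t fun ℓ => x (y ℓ) s)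
        ∂(Measure.pi fun _ : Fin (q + 1) => Q) ∂μ := by
    have e : ∀ (t : Crest.ProbabilityR.Diluted.Inter (q + 1)) (y : Fin (q + 1) → Y),
        Real.log (∑ s, G s * edgeTerm t fun ℓ => x (y ℓ) s) =
        c + Real.log (∑ s, w s * edgeTerm t fun ℓ => x (y ℓ) s) := fun t y =>
      log_sum_G G _ hG fun s => (Real.exp_pos _).trans_le (edgeTerm_bounds t _).1
    simp only [e]
    have hm0 : Measurable fun z : Crest.ProbabilityR.Diluted.Inter (q + 1) × (Fin (q + 1) → Y) =>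
        ∑ s, w s * edgeTerm z.1 fun ℓ => x (z.2 ℓ) s :=
      Finset.measurable_sum _ fun s _ => (measurable_edgeTerm_arr x hx s).const_mul _
    have hm1 : Measurable fun z : Crest.ProbabilityR.Diluted.Inter (q + 1) × (Fin (q + 1) → Y) =>
        Real.log (∑ s, w s * edgeTerm z.1 fun ℓ => x (z.2 ℓ) s) := hm0.log
    exact shift2 μ hμ (Measure.pi fun _ : Fin (q + 1) => Q)
      (fun t y => Real.log (∑ s, w s * edgeTerm t fun ℓ => x (y ℓ) s)) hm1
      (fun t y => abs_log_avg_le w _ hw hw1 _ fun s => edgeTerm_bounds t _) c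
  have T2 : ∀ i : Fin N, ∫ t, ∫ y, Real.log (∑ s, G s *
        Real.exp (siteMessage t (fun ℓ : Fin q => x (y ℓ) s) (sg s i)))
        ∂(Measure.pi fun _ : Fin q => Q) ∂μ =
      c + ∫ t, ∫ y, Real.log (∑ s, w s *
        Real.exp (siteMessage t (fun ℓ : Fin q => x (y ℓ) s) (sg s i)))
        ∂(Measure.pi fun _ : Fin q => Q) ∂μ := by
    intro i
    have e : ∀ (t : Crest.ProbabilityR.Diluted.Inter (q + 1)) (y : Fin q → Y),
        Real.log (∑ s, G s * Real.exp (siteMessage t (fun ℓ : Fin q => x (y ℓ) s) (sg s i))) =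
        c + Real.log (∑ s, w s *
          Real.exp (siteMessage t (fun ℓ : Fin q => x (y ℓ) s) (sg s i))) := fun t y =>
      log_sum_G G _ hG fun s => Real.exp_pos _
    simp only [e]
    have hm0 : Measurable fun z : Crest.ProbabilityR.Diluted.Inter (q + 1) × (Fin q → Y) =>
        ∑ s, w s * Real.exp (siteMessage z.1 (fun ℓ : Fin q => x (z.2 ℓ) s) (sg s i)) :=
      Finset.measurable_sum _ fun s _ => (measurable_expSite_arr x hx s (sg s i)).const_mul _
    have hm1 : Measurable fun z : Crest.ProbabilityR.Diluted.Inter (q + 1) × (Fin q → Y) =>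
        Real.log (∑ s, w s *
          Real.exp (siteMessage z.1 (fun ℓ : Fin q => x (z.2 ℓ) s) (sg s i))) := hm0.log
    exact shift2 μ hμ (Measure.pi fun _ : Fin q => Q)
      (fun t y => Real.log (∑ s, w s *
          Real.exp (siteMessage t (fun ℓ : Fin q => x (y ℓ) s) (sg s i)))) hm1
      (fun t y => abs_log_avg_le w _ hw hw1 _ fun s => exp_siteMessage_bounds t _ _) c
  have hN' : (N : ℝ) ≠ 0 := by exact_mod_cast hN.ne'
  have hcard : (Fintype.card (Fin (q + 1) → Fin N) : ℝ) ≠ 0 := by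
    rw [Fintype.card_fun, Fintype.card_fin, Fintype.card_fin]
    push_cast
    positivity
  have a1 : ∀ X : ℝ, (N : ℝ)⁻¹ * (N * c + X) = c + (N : ℝ)⁻¹ * X := fun X => by
    rw [mul_add, inv_mul_cancel_left₀ hN']
  have a2 : ∀ X : ℝ, (Fintype.card (Fin (q + 1) → Fin N) : ℝ)⁻¹ *
      ((Fintype.card (Fin (q + 1) → Fin N) : ℝ) * c + X) =
      c + (Fintype.card (Fin (q + 1) → Fin N) : ℝ)⁻¹ * X := fun X => by
    rw [mul_add, inv_mul_cancel_left₀ hcard]
  have hcast : ((q + 1 : ℕ) : ℝ) = (q : ℝ) + 1 := by push_cast; ring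
  show (1 / ((q + 1 : ℕ) : ℝ)) * ((Fintype.card (Fin (q + 1) → Fin N) : ℝ)⁻¹ *
        ∑ I : Fin (q + 1) → Fin N,
        ∫ θ, Real.log (∑ s, G s * Real.exp (θ fun ℓ => sg s (I ℓ))) ∂μ) +
      ((((q + 1 : ℕ) : ℝ) - 1) / ((q + 1 : ℕ) : ℝ)) *
        ∫ θ, ∫ y, Real.log (∑ s, G s * edgeTerm θ fun ℓ => x (y ℓ) s)
          ∂(Measure.pi fun _ : Fin (q + 1) => Q) ∂μ ≤
    (N : ℝ)⁻¹ * ∑ i : Fin N,
        ∫ θ, ∫ y, Real.log (∑ s, G s * Real.exp (siteMessage θ (fun ℓ : Fin q => x (y ℓ) s) (sg s i)))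
          ∂(Measure.pi fun _ : Fin q => Q) ∂μ
  simp only [T1, T2, T3, Finset.sum_add_distrib, Finset.sum_const, Finset.card_univ,
    nsmul_eq_mul, Fintype.card_fin]
  rw [a1, a2, hcast, mul_add, mul_add]
  have e3 : ((q : ℝ) + 1 - 1) / (q + 1) = q / (q + 1) := by ring
  rw [e3]
  have e4 : 1 / ((q : ℝ) + 1) * c + q / (q + 1) * c = c := by
    field_simp
    ring
  linarith

theorem kiProp_of_factorization {p : ℕ} (hp : Even p) (hp2 : 1 ≤ p) (μ : Measure (Inter p))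
    (hμ : Integrable (fun t => supNorm t) μ) (hfac : HasFactorization p μ) : KIProp p μ := by
  obtain ⟨q, rfl⟩ : ∃ q, p = q + 1 := ⟨p - 1, by omega⟩
  obtain ⟨Ω, _, P, _, a, b, f, ma, mb, mf, ind, idd, ibf, pos, mom, hmap⟩ := hfac
  set θ : Ω → Crest.ProbabilityR.Diluted.Inter (q + 1) := fun ω s =>
    Real.log (a ω * (1 + b ω * ∏ ℓ, f ℓ ω (s ℓ))) with hθ
  have mθ : Measurable θ := by
    refine measurable_pi_iff.2 fun s => ?_
    refine Measurable.log ?_
    refine ma.mul (Measurable.const_add (mb.mul ?_) _)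
    refine Finset.measurable_prod _ fun ℓ _ => ?_
    exact (measurable_pi_apply (s ℓ)).comp (mf ℓ)
  have hF : Fac q P a b f θ := by
    refine ⟨ma, mb, mf, ind, idd, ibf, pos, fun n hn => (mom n hn).2, mθ, ?_, ?_⟩
    · filter_upwards [pos] with ω hω e
      have h1 := (abs_lt.1 (hω.2 e)).1
      rw [hθ]
      exact Real.exp_log (mul_pos hω.1 (by linarith))
    · have h1 : Integrable (fun t => supNorm t) (P.map θ) := by rw [hmap]; exact hμ
      exact (integrable_map_measure h1.aestronglyMeasurable mθ.aemeasurable).1 h1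
  exact kiProp_of_fac hF (Or.inl hp) μ hmap hμ

theorem kiProp_of_factorizationNN {p : ℕ} (hp2 : 1 ≤ p) (μ : Measure (Inter p))
    (hμ : Integrable (fun t => supNorm t) μ) (hfac : HasFactorizationNN p μ) : KIProp p μ := by
  obtain ⟨q, rfl⟩ : ∃ q, p = q + 1 := ⟨p - 1, by omega⟩
  obtain ⟨Ω, _, P, _, a, b, f, ma, mb, mf, ind, idd, ibf, pos, mom, hmap, hnn⟩ := hfac
  set θ : Ω → Crest.ProbabilityR.Diluted.Inter (q + 1) := fun ω s =>
    Real.log (a ω * (1 + b ω * ∏ ℓ, f ℓ ω (s ℓ))) with hθ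
  have mθ : Measurable θ := by
    refine measurable_pi_iff.2 fun s => ?_
    refine Measurable.log ?_
    refine ma.mul (Measurable.const_add (mb.mul ?_) _)
    refine Finset.measurable_prod _ fun ℓ _ => ?_
    exact (measurable_pi_apply (s ℓ)).comp (mf ℓ)
  have hF : Fac q P a b f θ := by
    refine ⟨ma, mb, mf, ind, idd, ibf, pos, fun n hn => (mom n hn).2, mθ, ?_, ?_⟩
    · filter_upwards [pos] with ω hω e
      have h1 := (abs_lt.1 (hω.2 e)).1
      rw [hθ]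
      exact Real.exp_log (mul_pos hω.1 (by linarith))
    · have h1 : Integrable (fun t => supNorm t) (P.map θ) := by rw [hmap]; exact hμ
      exact (integrable_map_measure h1.aestronglyMeasurable mθ.aemeasurable).1 h1
  exact kiProp_of_fac hF (Or.inr (hnn 0)) μ hmap hμ

end Final

end Crest.Agent.R141
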