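import Crest.Agent.R141.HierE
import Crest.Agent.R141.FactDef

/-!
Row 141: bridge between `HierE` (conditional expectations given a setoid) and `FactDef`
(Markov kernels and shape functionals).

`kerS P r` is the conditional law given the class of `r`; `VS P R sg n s i` are the shape
functionals along the sequence of partitions `R n` (`R n` is used to build height `n+1` from
height `n`).
-/

set_option autoImplicit false

namespace Crest.Agent.R141.KerS

open Finset Crest.Agent.R141.Fact
open Crest.ProbabilityR.Diluted (spinVal)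

noncomputable section

variable {Ω : Type} [Fintype Ω] {P : Ω → ℝ} {r : Setoid Ω}

open scoped Classical in
/-- the conditional law given the class of `r` as a kernel -/
def kerS (P : Ω → ℝ) (r : Setoid Ω) (ω ω' : Ω) : ℝ :=
  if r ω ω' then P ω' / ∑ a ∈ univ.filter (fun a => r ω a), P a else 0

theorem Ek_kerS (P : Ω → ℝ) (r : Setoid Ω) (f : Ω → ℝ) (ω : Ω) :
    Ek (kerS P r) f ω = cE P r f ω := by
  classical
  unfold Ek kerS cE
  rw [Finset.sum_div, Finset.sum_filter (s := univ) (p := fun ω' => r ω ω')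
    (f := fun i => P i * f i / ∑ a ∈ univ.filter (fun a => r ω a), P a)]
  apply Finset.sum_congr rfl
  intro a _
  split_ifs
  · ring
  · ring

theorem Ek_kerS' (P : Ω → ℝ) (r : Setoid Ω) (f : Ω → ℝ) :
    Ek (kerS P r) f = cE P r f := funext fun ω => Ek_kerS P r f ω

theorem isMarkov_kerS (hP : IsProb P) (r : Setoid Ω) : IsMarkov (kerS P r) where
  nonneg ω ω' := by
    unfold kerS
    split_ifs
    · exact div_nonneg (hP.pos _).le (cls_pos hP r ω).le
    · exact le_rfl
  sum_one ω := by
    have h := Ek_kerS P r (fun _ => 1) ω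
    rw [cE_const hP] at h
    simpa [Ek] using h

/-- `P` is invariant under the kernel -/
theorem sum_kerS (hP : IsProb P) (r : Setoid Ω) (f : Ω → ℝ) :
    ∑ ω, P ω * Ek (kerS P r) f ω = ∑ ω, P ω * f ω := by
  rw [Ek_kerS']
  exact eE_cE hP r f

theorem stat_kerS (hP : IsProb P) (r : Setoid Ω) (ω' : Ω) :
    ∑ ω, P ω * kerS P r ω ω' = P ω' := by
  classical
  have h := sum_kerS hP r (fun a => if a = ω' then 1 else 0)
  simpa [Ek] using h

/-- conditional covariance -/
def covS (P : Ω → ℝ) (r : Setoid Ω) (f g : Ω → ℝ) (ω : Ω) : ℝ :=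
  cE P r (fun a => f a * g a) ω - cE P r f ω * cE P r g ω

theorem Cov_kerS (P : Ω → ℝ) (r : Setoid Ω) (f g : Ω → ℝ) (ω : Ω) :
    Cov (kerS P r) ω f g = covS P r f g ω := by
  unfold Cov covS
  rw [Ek_kerS, Ek_kerS, Ek_kerS]

variable {I : Type}

/-- shape functionals along a sequence of partitions -/
def VS (P : Ω → ℝ) (R : ℕ → Setoid Ω) (sg : I → Ω → Bool) (n : ℕ) (s : Clo.Shape n) (i : I)
    (ω : Ω) : ℝ := Vf (fun n => kerS P (R n)) sg n s i ω

theorem VS_zero (P : Ω → ℝ) (R : ℕ → Setoid Ω) (sg : I → Ω → Bool) (s : Clo.Shape 0) (i : I)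
    (ω : Ω) : VS P R sg 0 s i ω = if s.toBool then spinVal (sg i ω) else 1 := rfl

theorem VS_succ (P : Ω → ℝ) (R : ℕ → Setoid Ω) (sg : I → Ω → Bool) {n : ℕ}
    (s : Clo.Shape (n + 1)) (i : I) (ω : Ω) :
    VS P R sg (n + 1) s i ω =
      (s.toList.map (fun q : Clo.Shape n => cE P (R n) (VS P R sg n q i) ω)).prod := by
  unfold VS
  show (s.toList.map (fun q : Clo.Shape n =>
    Ek (kerS P (R n)) (Vf (fun n => kerS P (R n)) sg n q i) ω)).prod = _
  congr 1
  apply List.map_congr_left
  intro q _
  rw [Ek_kerS]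

theorem VS_congr (P : Ω → ℝ) {R R' : ℕ → Setoid Ω} (sg : I → Ω → Bool) {n : ℕ}
    (h : ∀ k, k < n → R k = R' k) (s : Clo.Shape n) (i : I) :
    VS P R sg n s i = VS P R' sg n s i := by
  induction n with
  | zero => funext ω; rw [VS_zero, VS_zero]
  | succ n ih =>
    funext ω
    rw [VS_succ, VS_succ, h n (Nat.lt_succ_self n)]
    congr 1
    apply List.map_congr_left
    intro q _
    rw [ih (fun k hk => h k (by omega)) q]

theorem list_prod_abs_le_one {α : Type*} (l : List α) (f : α → ℝ) (h : ∀ q ∈ l, |f q| ≤ 1) :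
    |(l.map f).prod| ≤ 1 := by
  induction l with
  | nil => simp
  | cons a l ih =>
    rw [List.map_cons, List.prod_cons, abs_mul]
    have h1 := h a (by simp)
    have h2 := ih (fun q hq => h q (by simp [hq]))
    calc |f a| * |(l.map f).prod| ≤ 1 * 1 :=
          mul_le_mul h1 h2 (abs_nonneg _) zero_le_one
      _ = 1 := one_mul 1

theorem VS_abs_le (hP : IsProb P) (R : ℕ → Setoid Ω) (sg : I → Ω → Bool) {n : ℕ}
    (s : Clo.Shape n) (i : I) (ω : Ω) : |VS P R sg n s i ω| ≤ 1 := by
  induction n generalizing ω with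
  | zero =>
    rw [VS_zero]
    split_ifs
    · unfold spinVal
      split_ifs <;> simp
    · simp
  | succ n ih =>
    rw [VS_succ]
    apply list_prod_abs_le_one
    intro q _
    exact abs_cE_le_of_le hP (fun a => ih q a) ω


end

end Crest.Agent.R141.KerS
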