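import Mathlib
import Crest.Agent.R141.Sys

-- ▼ part R141/Outer
section

/-!
Row 141, Part L, section 2.3: the outer randomness (helper354).

`D = I → Option C` (`I` = steps, `C` = coordinates) with the product law giving `none` the weight
`1/2` and every `some c` the weight `1 / (2 |C|)`.

* `palm` : the exchange (Palm) formula.
* `exchange`, `exchange_prod` : its consequences (S1).
* `exists_selection` : selection of a good null step (S2).
* `abs_E_sub_le` : comparison of the laws for `Fin (N+1) × B` and `Fin N × B` (S3).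
-/

set_option autoImplicit false

namespace Crest.Agent.R141.Outer

open Finset

/-! ### product weights -/

section product

variable {I O : Type*} [Fintype I] [DecidableEq I] [Fintype O]

/-- expectation with respect to the product of the weights `W k`. -/
noncomputable def EW (W : I → O → ℝ) (F : (I → O) → ℝ) : ℝ :=
  ∑ d : I → O, (∏ k, W k (d k)) * F d

theorem EW_congr (W : I → O → ℝ) {F G : (I → O) → ℝ} (h : ∀ d, F d = G d) : EW W F = EW W G := by
  unfold EW
  exact Finset.sum_congr rfl fun d _ => by rw [h d]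

theorem EW_mono {W : I → O → ℝ} (hW : ∀ k o, 0 ≤ W k o) {F G : (I → O) → ℝ}
    (h : ∀ d, F d ≤ G d) : EW W F ≤ EW W G :=
  Finset.sum_le_sum fun d _ =>
    mul_le_mul_of_nonneg_left (h d) (Finset.prod_nonneg fun k _ => hW k _)

theorem EW_add (W : I → O → ℝ) (F G : (I → O) → ℝ) :
    EW W (fun d => F d + G d) = EW W F + EW W G := by
  simp [EW, mul_add, Finset.sum_add_distrib]


theorem EW_smul (W : I → O → ℝ) (c : ℝ) (F : (I → O) → ℝ) :
    EW W (fun d => c * F d) = c * EW W F := by
  unfold EW
  rw [Finset.mul_sum]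
  exact Finset.sum_congr rfl fun d _ => by ring

theorem EW_sum {ι : Type*} (s : Finset ι) (W : I → O → ℝ) (F : ι → (I → O) → ℝ) :
    EW W (fun d => ∑ i ∈ s, F i d) = ∑ i ∈ s, EW W (F i) := by
  unfold EW
  rw [Finset.sum_comm]
  exact Finset.sum_congr rfl fun d _ => by rw [Finset.mul_sum]

theorem EW_const {W : I → O → ℝ} (hW : ∀ k, ∑ o, W k o = 1) (c : ℝ) :
    EW W (fun _ => c) = c := by
  unfold EW
  rw [← Finset.sum_mul, ← Fintype.prod_sum (fun k o => W k o)]
  simp [hW]


/-- Replace the weight of the coordinate `k` by `P`: resample this coordinate. -/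
theorem EW_update (W : I → O → ℝ) (k : I) (hk : ∑ o, W k o = 1) (P : O → ℝ)
    (F : (I → O) → ℝ) :
    EW (Function.update W k P) F = EW W (fun d => ∑ o, P o * F (Function.update d k o)) := by
  classical
  -- the involution `(d, o) ↦ (update d k o, d k)`
  let e : (I → O) × O ≃ (I → O) × O :=
    { toFun := fun x => (Function.update x.1 k x.2, x.1 k)
      invFun := fun x => (Function.update x.1 k x.2, x.1 k)
      left_inv := by rintro ⟨d, o⟩; simp
      right_inv := by rintro ⟨d, o⟩; simp }
  have hprod : ∀ (V : I → O → ℝ) (d : I → O),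
      (∏ j, V j (d j)) = V k (d k) * ∏ j ∈ Finset.univ.erase k, V j (d j) := by
    intro V d
    exact (Finset.mul_prod_erase Finset.univ (fun j => V j (d j)) (Finset.mem_univ k)).symm
  have h1 : EW W (fun d => ∑ o, P o * F (Function.update d k o)) =
      ∑ x : (I → O) × O, (∏ j, W j (x.1 j)) * (P x.2 * F (Function.update x.1 k x.2)) := by
    unfold EW
    rw [Fintype.sum_prod_type]
    exact Finset.sum_congr rfl fun d _ => by rw [Finset.mul_sum]
  have h2 : (∑ x : (I → O) × O, (∏ j, W j (x.1 j)) * (P x.2 * F (Function.update x.1 k x.2))) =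
      ∑ x : (I → O) × O, (∏ j, W j ((Function.update x.1 k x.2) j)) * (P (x.1 k) * F x.1) := by
    refine Fintype.sum_equiv e _ _ fun x => ?_
    simp [e]
  rw [h1, h2, Fintype.sum_prod_type]
  unfold EW
  refine Finset.sum_congr rfl fun d _ => ?_
  have h3 : ∀ o, (∏ j, W j ((Function.update d k o) j)) =
      W k o * ∏ j ∈ Finset.univ.erase k, W j (d j) := by
    intro o
    rw [hprod W]
    congr 1
    · simp
    · refine Finset.prod_congr rfl fun j hj => ?_
      rw [Function.update_of_ne (Finset.ne_of_mem_erase hj)]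
  simp only [h3]
  rw [hprod (Function.update W k P)]
  simp only [Function.update_self]
  have h4 : (∏ j ∈ Finset.univ.erase k, (Function.update W k P) j (d j)) =
      ∏ j ∈ Finset.univ.erase k, W j (d j) := by
    refine Finset.prod_congr rfl fun j hj => ?_
    rw [Function.update_of_ne (Finset.ne_of_mem_erase hj)]
  rw [h4]
  have h5 : (∑ o, W k o * (∏ j ∈ Finset.univ.erase k, W j (d j)) * (P (d k) * F d)) =
      (∑ o, W k o) * ((∏ j ∈ Finset.univ.erase k, W j (d j)) * (P (d k) * F d)) := by
    rw [Finset.sum_mul]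
    exact Finset.sum_congr rfl fun o _ => by ring
  rw [h5, hk]
  ring

/-- resampling a coordinate does not change the expectation. -/
theorem EW_resample (W : I → O → ℝ) (k : I) (hk : ∑ o, W k o = 1) (F : (I → O) → ℝ) :
    EW W F = EW W (fun d => ∑ o, W k o * F (Function.update d k o)) := by
  rw [← EW_update W k hk (W k) F, Function.update_eq_self]



end product

/-! ### the outer randomness -/

section outer

variable {I C : Type*} [Fintype I] [DecidableEq I] [Fintype C]

/-- weight of one step. -/
noncomputable def w1 (o : Option C) : ℝ :=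
  match o with
  | none => 1 / 2
  | some _ => 1 / (2 * (Fintype.card C : ℝ))

/-- product weight. -/
noncomputable def w (d : I → Option C) : ℝ := ∏ k, w1 (d k)

/-- expectation over the outer randomness. -/
noncomputable def E (F : (I → Option C) → ℝ) : ℝ := ∑ d, w d * F d

theorem E_eq_EW (F : (I → Option C) → ℝ) : E F = EW (fun _ : I => w1) F := rfl

theorem w1_nonneg (o : Option C) : 0 ≤ w1 o := by
  unfold w1
  split <;> positivity


theorem sum_w1 [Nonempty C] : ∑ o : Option C, w1 o = 1 := by
  rw [Fintype.sum_option]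
  simp only [w1, Finset.sum_const, Finset.card_univ, nsmul_eq_mul]
  have : (0 : ℝ) < Fintype.card C := by exact_mod_cast Fintype.card_pos
  field_simp
  ring

theorem E_const [Nonempty C] (c : ℝ) : E (fun _ : I → Option C => c) = c := by
  rw [E_eq_EW]; exact EW_const (fun _ => sum_w1) c

theorem E_mono {F G : (I → Option C) → ℝ} (h : ∀ d, F d ≤ G d) : E F ≤ E G := by
  rw [E_eq_EW, E_eq_EW]; exact EW_mono (fun _ o => w1_nonneg o) h

theorem E_add (F G : (I → Option C) → ℝ) : E (fun d => F d + G d) = E F + E G := by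
  rw [E_eq_EW, E_eq_EW, E_eq_EW]; exact EW_add _ F G

theorem E_smul (c : ℝ) (F : (I → Option C) → ℝ) : E (fun d => c * F d) = c * E F := by
  rw [E_eq_EW, E_eq_EW]; exact EW_smul _ c F

theorem E_sum {ι : Type*} (s : Finset ι) (F : ι → (I → Option C) → ℝ) :
    E (fun d => ∑ i ∈ s, F i d) = ∑ i ∈ s, E (F i) := by
  simp only [E_eq_EW]; exact EW_sum s _ F

theorem E_resample [Nonempty C] (k : I) (F : (I → Option C) → ℝ) :
    E F = E (fun d => ∑ o, w1 o * F (Function.update d k o)) := by
  rw [E_eq_EW, E_eq_EW]; exact EW_resample _ k sum_w1 F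

/-- The Palm (exchange) formula. -/
theorem palm [Nonempty C] (k : I) (F : C → (I → Option C) → ℝ) :
    (∑ d, w d * (if d k = none then ∑ c, F c (Function.update d k (some c)) else 0)) =
      (Fintype.card C : ℝ) * ∑ d, w d * ((d k).elim 0 fun c => F c d) := by
  have hC : (0 : ℝ) < Fintype.card C := by exact_mod_cast Fintype.card_pos
  have h1 := E_resample k (fun d : I → Option C =>
    if d k = none then ∑ c, F c (Function.update d k (some c)) else 0)
  have h2 := E_resample k (fun d : I → Option C => ((d k).elim 0 fun c => F c d))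
  have e1 : (∑ d, w d * (if d k = none then ∑ c, F c (Function.update d k (some c)) else 0)) =
      E (fun d : I → Option C =>
        if d k = none then ∑ c, F c (Function.update d k (some c)) else 0) := rfl
  have e2 : (∑ d, w d * ((d k).elim 0 fun c => F c d)) =
      E (fun d : I → Option C => ((d k).elim 0 fun c => F c d)) := rfl
  rw [e1, e2, h1, h2, ← E_smul]
  unfold E
  refine Finset.sum_congr rfl fun d _ => ?_
  congr 1
  show (∑ o, w1 o * if Function.update d k o k = none then
      ∑ c, F c (Function.update (Function.update d k o) k (some c)) else 0) =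
    (Fintype.card C : ℝ) * ∑ o, w1 o *
      ((Function.update d k o k).elim 0 fun c => F c (Function.update d k o))
  rw [Fintype.sum_option, Fintype.sum_option]
  simp only [Option.elim_none, Option.elim_some, Function.update_self, Function.update_idem, w1, if_true, reduceCtorEq, if_false,
    mul_zero, Finset.sum_const_zero, add_zero, zero_add]
  rw [Finset.mul_sum, Finset.mul_sum]
  refine Finset.sum_congr rfl fun c _ => ?_
  field_simp

/-- (S1) exchange. -/
theorem exchange [Nonempty C] (k : I) (F : (I → Option C) → ℝ) :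
    (∑ d, w d * (if d k = none then
      (Fintype.card C : ℝ)⁻¹ * ∑ c, F (Function.update d k (some c)) else 0)) =
      ∑ d, w d * (if d k = none then 0 else F d) := by
  have hC : (0 : ℝ) < Fintype.card C := by exact_mod_cast Fintype.card_pos
  have h := palm k (fun _ : C => F)
  have e1 : (∑ d, w d * (if d k = none then
      (Fintype.card C : ℝ)⁻¹ * ∑ c, F (Function.update d k (some c)) else 0)) =
      (Fintype.card C : ℝ)⁻¹ *
        ∑ d, w d * (if d k = none then ∑ c, F (Function.update d k (some c)) else 0) := by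
    rw [Finset.mul_sum]
    refine Finset.sum_congr rfl fun d _ => ?_
    split_ifs
    · ring
    · simp
  rw [e1, h, ← mul_assoc, inv_mul_cancel₀ hC.ne', one_mul]
  refine Finset.sum_congr rfl fun d _ => ?_
  congr 1
  cases h : d k <;> simp


/-- number of null steps in `K` has variance at most `|K| / 4`. -/
theorem E_null_sq [Nonempty C] (K : Finset I) :
    E (fun d : I → Option C => ((∑ k ∈ K, if d k = none then (1 : ℝ) else 0) -
      (K.card : ℝ) / 2) ^ 2) = (K.card : ℝ) / 4 := by
  classical
  have hx : ∀ (k : I), E (fun d : I → Option C => (if d k = none then (1 : ℝ) else 0)) = 1 / 2 := by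
    intro k
    rw [E_resample k]
    have : ∀ d : I → Option C, (∑ o : Option C, w1 o *
        (if (Function.update d k o) k = none then (1 : ℝ) else 0)) = 1 / 2 := by
      intro d
      rw [Fintype.sum_option]
      simp [w1]
    rw [E_eq_EW, EW_congr _ this, ← E_eq_EW, E_const]
  have hxy : ∀ (k l : I), k ≠ l → E (fun d : I → Option C =>
      (if d k = none then (1 : ℝ) else 0) * (if d l = none then (1 : ℝ) else 0)) = 1 / 4 := by
    intro k l hkl
    rw [E_resample k]
    have : ∀ d : I → Option C, (∑ o : Option C, w1 o *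
        ((if (Function.update d k o) k = none then (1 : ℝ) else 0) *
          (if (Function.update d k o) l = none then (1 : ℝ) else 0))) =
          1 / 2 * (if d l = none then (1 : ℝ) else 0) := by
      intro d
      rw [Fintype.sum_option]
      simp [w1, Function.update_of_ne hkl.symm]
    rw [E_eq_EW, EW_congr _ this, ← E_eq_EW, E_smul, hx]
    norm_num
  have hexp : ∀ d : I → Option C, ((∑ k ∈ K, if d k = none then (1 : ℝ) else 0) -
      (K.card : ℝ) / 2) ^ 2 = ∑ k ∈ K, ∑ l ∈ K,
        (((if d k = none then (1 : ℝ) else 0) * (if d l = none then (1 : ℝ) else 0)) +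
          (-(1 / 2)) * ((if d k = none then (1 : ℝ) else 0)) +
          (-(1 / 2)) * ((if d l = none then (1 : ℝ) else 0)) + 1 / 4) := by
    intro d
    have h1 : (∑ k ∈ K, if d k = none then (1 : ℝ) else 0) - (K.card : ℝ) / 2 =
        ∑ k ∈ K, ((if d k = none then (1 : ℝ) else 0) - 1 / 2) := by
      rw [Finset.sum_sub_distrib]
      simp only [Finset.sum_const, nsmul_eq_mul]
      ring
    rw [h1, sq, Finset.sum_mul_sum]
    refine Finset.sum_congr rfl fun k _ => Finset.sum_congr rfl fun l _ => ?_
    ring
  rw [E_eq_EW, EW_congr _ hexp, EW_sum]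
  have hkl : ∀ k ∈ K, ∀ l ∈ K, EW (fun _ : I => w1) (fun d : I → Option C =>
        (((if d k = none then (1 : ℝ) else 0) * (if d l = none then (1 : ℝ) else 0)) +
          (-(1 / 2)) * ((if d k = none then (1 : ℝ) else 0)) +
          (-(1 / 2)) * ((if d l = none then (1 : ℝ) else 0)) + 1 / 4)) =
      if k = l then 1 / 4 else 0 := by
    intro k _ l _
    simp only [← E_eq_EW]
    rw [E_add, E_add, E_add, E_smul, E_smul, hx, hx, E_const]
    split_ifs with h
    · subst h
      have : (fun d : I → Option C => (if d k = none then (1 : ℝ) else 0) *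
          (if d k = none then (1 : ℝ) else 0)) =
          fun d : I → Option C => (if d k = none then (1 : ℝ) else 0) := by
        funext d; split_ifs <;> simp
      rw [this, hx]
      norm_num
    · rw [hxy k l h]
      norm_num
  have : (∑ k ∈ K, EW (fun _ : I => w1) (fun d : I → Option C => ∑ l ∈ K,
        (((if d k = none then (1 : ℝ) else 0) * (if d l = none then (1 : ℝ) else 0)) +
          (-(1 / 2)) * ((if d k = none then (1 : ℝ) else 0)) +
          (-(1 / 2)) * ((if d l = none then (1 : ℝ) else 0)) + 1 / 4))) =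
      ∑ k ∈ K, ∑ l ∈ K, (if k = l then (1 / 4 : ℝ) else 0) := by
    refine Finset.sum_congr rfl fun k hk => ?_
    rw [EW_sum]
    exact Finset.sum_congr rfl fun l hl => hkl k hk l hl
  rw [this]
  simp only [Finset.sum_ite_eq]
  rw [Finset.sum_congr rfl (fun k hk => if_pos hk)]
  simp only [Finset.sum_const, nsmul_eq_mul]
  ring

/-- (S2) selection of a good null step. -/
theorem exists_selection [Nonempty C] (K : Finset I) (hK : 0 < K.card) {M S : ℝ}
    (B : I → (I → Option C) → ℝ) (hB0 : ∀ k d, 0 ≤ B k d) (hBM : ∀ k ∈ K, ∀ d, B k d ≤ M)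
    (hS : ∑ k ∈ K, E (fun d : I → Option C => (if d k = none then B k d else 0)) ≤ S) :
    ∃ t : (I → Option C) → I, (∀ d, t d ∈ K) ∧
      (∀ d : I → Option C, (∃ k ∈ K, d k = none) → d (t d) = none) ∧
      E (fun d => B (t d) d) ≤ 4 * S / K.card + 4 * M / K.card := by
  classical
  have hKn : K.Nonempty := Finset.card_pos.1 hK
  have hT : (0 : ℝ) < K.card := by exact_mod_cast hK
  have hM : 0 ≤ M := by
    obtain ⟨k, hk⟩ := hKn
    exact (hB0 k (fun _ => none)).trans (hBM k hk _)
  -- choose the best null step
  have hex : ∀ d : I → Option C, ∃ k ∈ K, ((∃ k ∈ K, d k = none) → d k = none) ∧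
      (∀ l ∈ K, d l = none → B k d ≤ B l d) := by
    intro d
    by_cases h : ∃ k ∈ K, d k = none
    · have hne : (K.filter (fun k => d k = none)).Nonempty := by
        obtain ⟨k, hk, hk2⟩ := h
        exact ⟨k, Finset.mem_filter.2 ⟨hk, hk2⟩⟩
      obtain ⟨k, hk, hmin⟩ := Finset.exists_min_image _ (fun k => B k d) hne
      rw [Finset.mem_filter] at hk
      exact ⟨k, hk.1, fun _ => hk.2, fun l hl hl2 => hmin l (Finset.mem_filter.2 ⟨hl, hl2⟩)⟩
    · obtain ⟨k, hk⟩ := hKn
      exact ⟨k, hk, fun h' => absurd h' h, fun l hl hl2 => absurd ⟨l, hl, hl2⟩ h⟩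
  choose t ht1 ht2 ht3 using hex
  refine ⟨t, ht1, ht2, ?_⟩
  set n : (I → Option C) → ℝ := fun d => ∑ k ∈ K, if d k = none then (1 : ℝ) else 0 with hn
  set Z : (I → Option C) → ℝ := fun d => ∑ k ∈ K, if d k = none then B k d else 0 with hZ
  have hZ0 : ∀ d, 0 ≤ Z d := fun d => Finset.sum_nonneg fun k _ => by
    split_ifs
    · exact hB0 k d
    · exact le_rfl
  -- pointwise bound
  have hpt : ∀ d, B (t d) d ≤ 4 / K.card * Z d +
      16 * M / (K.card : ℝ) ^ 2 * (n d - (K.card : ℝ) / 2) ^ 2 := by
    intro d
    have h1 : n d * B (t d) d ≤ Z d := by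
      simp only [hn, hZ]
      rw [Finset.sum_mul]
      refine Finset.sum_le_sum fun k hk => ?_
      split_ifs with hk2
      · rw [one_mul]; exact ht3 d k hk hk2
      · rw [zero_mul]
    have hb0 := hB0 (t d) d
    have hbM := hBM (t d) (ht1 d) d
    by_cases hcase : (K.card : ℝ) / 4 ≤ n d
    · have h2 : (K.card : ℝ) / 4 * B (t d) d ≤ Z d :=
        (mul_le_mul_of_nonneg_right hcase hb0).trans h1
      have h3 : B (t d) d ≤ 4 / K.card * Z d := by
        rw [div_mul_eq_mul_div, le_div_iff₀ hT]
        linarith
      have h4 : 0 ≤ 16 * M / (K.card : ℝ) ^ 2 * (n d - (K.card : ℝ) / 2) ^ 2 := by positivity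
      linarith
    · have hlt : n d < (K.card : ℝ) / 4 := lt_of_not_ge hcase
      have h5 : ((K.card : ℝ) / 4) ^ 2 ≤ (n d - (K.card : ℝ) / 2) ^ 2 := by
        have : (K.card : ℝ) / 4 ≤ (K.card : ℝ) / 2 - n d := by linarith
        have h6 := mul_self_le_mul_self (by positivity) this
        nlinarith
      have h7 : M ≤ 16 * M / (K.card : ℝ) ^ 2 * (n d - (K.card : ℝ) / 2) ^ 2 := by
        rw [div_mul_eq_mul_div, le_div_iff₀ (by positivity)]
        nlinarith
      have h8 : 0 ≤ 4 / (K.card : ℝ) * Z d := mul_nonneg (by positivity) (hZ0 d)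
      linarith
  have h9 := E_mono hpt
  have h10 : E Z ≤ S := by
    have : E Z = ∑ k ∈ K, E (fun d : I → Option C => (if d k = none then B k d else 0)) := by
      rw [← E_sum]
    rw [this]; exact hS
  rw [E_add, E_smul, E_smul] at h9
  have h11 : E (fun d : I → Option C => (n d - (K.card : ℝ) / 2) ^ 2) = (K.card : ℝ) / 4 :=
    E_null_sq K
  rw [h11] at h9
  calc E (fun d => B (t d) d) ≤ _ := h9
    _ ≤ 4 / (K.card : ℝ) * S + 16 * M / (K.card : ℝ) ^ 2 * ((K.card : ℝ) / 4) := by
        have := mul_le_mul_of_nonneg_left h10 (show (0 : ℝ) ≤ 4 / (K.card : ℝ) by positivity)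
        linarith
    _ = 4 * S / K.card + 4 * M / K.card := by
        field_simp
        ring

end outer

/-! ### comparison of `N` and `N + 1` -/

section compare

variable {I B : Type*} [Fintype I] [DecidableEq I] [Fintype B] [Nonempty B]

/-- embedding of the coordinates for `N` sites into those for `N + 1` sites. -/
def emb {N : ℕ} (o : Option (Fin N × B)) : Option (Fin (N + 1) × B) :=
  o.map fun c => (c.1.castSucc, c.2)


end compare

end Crest.Agent.R141.Outer
private theorem rz_87580e24a4 : type_of% @_root_.Crest.Agent.R141.Outer.w1.eq_1 := @_root_.Crest.Agent.R141.Outer.w1.eq_1 -- L224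
end

-- ▼ part R141/OuterSys
section

/-!
Row 141: the outer randomness of `Sys.lean` is the one of `Outer.lean` (helper354).
-/

set_option autoImplicit false

namespace Crest.Agent.R141

open Finset

theorem dw1_eq (p : Par) (N : ℕ) (o : Option (Crd p N)) : dw1 p N o = Outer.w1 o := by
  cases o with
  | none => rfl
  | some c => simp [dw1, Outer.w1, Fintype.card_prod]

theorem dw_eq (p : Par) (N : ℕ) (d : DD p N) : dw p N d = Outer.w d :=
  Finset.prod_congr rfl fun k _ => dw1_eq p N (d k)

theorem Ed_eq (p : Par) (N : ℕ) (f : DD p N → ℝ) : Ed p N f = Outer.E f :=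
  Finset.sum_congr rfl fun d _ => by rw [dw_eq]

theorem nonempty_Crd (p : Par) {N : ℕ} (hN : 0 < N) : Nonempty (Crd p N) :=
  ⟨(⟨0, hN⟩, none)⟩




/-- selection of a good null step. -/
theorem Ed_selection (p : Par) {N : ℕ} (hN : 0 < N) (K : Finset (Stp p)) (hK : 0 < K.card)
    {M S : ℝ} (B : Stp p → DD p N → ℝ) (hB0 : ∀ k d, 0 ≤ B k d) (hBM : ∀ k ∈ K, ∀ d, B k d ≤ M)
    (hS : ∑ k ∈ K, Ed p N (fun d => (if d k = none then B k d else 0)) ≤ S) :
    ∃ t : DD p N → Stp p, (∀ d, t d ∈ K) ∧
      (∀ d : DD p N, (∃ k ∈ K, d k = none) → d (t d) = none) ∧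
      Ed p N (fun d => B (t d) d) ≤ 4 * S / K.card + 4 * M / K.card := by
  have := nonempty_Crd p hN
  obtain ⟨t, h1, h2, h3⟩ := Outer.exists_selection (C := Crd p N) K hK B hB0 hBM
    (by simpa only [Ed_eq] using hS)
  exact ⟨t, h1, h2, by simpa only [Ed_eq] using h3⟩


end Crest.Agent.R141
end

-- ▼ part R141/OuterSys2

/-!
Row 141: per-cell form of the selection of null steps (helper354).
-/

set_option autoImplicit false

namespace Crest.Agent.R141

open Finset

/-- selection of a good null step in every cell; on the event that there is no null step the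
value is counted as `M`. -/
theorem selection_cell (p : Par) {N : ℕ} (hN : 0 < N) (hT : 0 < p.T) {M S : ℝ}
    (B : Stp p → DD p N → ℝ) (hB0 : ∀ k d, 0 ≤ B k d) (hBM : ∀ k d, B k d ≤ M)
    (hS : ∀ g : Fin p.nc, ∑ t : Fin p.T,
      Ed p N (fun d => (if d (g, t) = none then B (g, t) d else 0)) ≤ S) :
    ∃ sel : Fin p.nc → DD p N → Fin p.T, ∀ g : Fin p.nc,
      Ed p N (fun d => if d (g, sel g d) = none then B (g, sel g d) d else M) ≤
        4 * S / p.T + 4 * M / p.T := by
  classical
  have hM : 0 ≤ M := by
    have k0 : Stp p := (⟨0, p.hnc⟩, ⟨0, hT⟩)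
    exact (hB0 k0 (fun _ => none)).trans (hBM k0 _)
  have key : ∀ g : Fin p.nc, ∃ sel : DD p N → Fin p.T,
      Ed p N (fun d => if d (g, sel d) = none then B (g, sel d) d else M) ≤
        4 * S / p.T + 4 * M / p.T := by
    intro g
    set K : Finset (Stp p) := Finset.univ.image (fun t : Fin p.T => ((g, t) : Stp p)) with hK
    have hinj : Function.Injective (fun t : Fin p.T => ((g, t) : Stp p)) := by
      intro a b h
      exact (Prod.mk.injEq _ _ _ _ ▸ h).2
    have hcard : K.card = p.T := by
      rw [hK, Finset.card_image_of_injective _ hinj, Finset.card_univ, Fintype.card_fin]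
    set B' : Stp p → DD p N → ℝ := fun k d => if d k = none then B k d else M with hB'
    have h0 : ∀ k d, 0 ≤ B' k d := by
      intro k d; simp only [hB']; split_ifs
      · exact hB0 k d
      · exact hM
    have h1 : ∀ k ∈ K, ∀ d, B' k d ≤ M := by
      intro k _ d; simp only [hB']; split_ifs
      · exact hBM k d
      · exact le_rfl
    have h2 : ∑ k ∈ K, Ed p N (fun d => (if d k = none then B' k d else 0)) ≤ S := by
      rw [hK, Finset.sum_image (fun a _ b _ h => hinj h)]
      refine le_trans (le_of_eq ?_) (hS g)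
      refine Finset.sum_congr rfl fun t _ => ?_
      congr 1
      funext d
      simp only [hB']
      split_ifs <;> rfl
    obtain ⟨t, ht1, -, ht3⟩ := Ed_selection p hN K (by rw [hcard]; exact hT) B' h0 h1 h2
    have hex : ∀ d, ∃ s : Fin p.T, t d = (g, s) := by
      intro d
      have := ht1 d
      rw [hK, Finset.mem_image] at this
      obtain ⟨s, -, hs⟩ := this
      exact ⟨s, hs.symm⟩
    choose sel hsel using hex
    refine ⟨sel, ?_⟩
    rw [hcard] at ht3
    refine le_trans (le_of_eq ?_) ht3
    congr 1
    funext d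
    simp only [hB', hsel]
  choose sel hsel using key
  exact ⟨sel, hsel⟩

end Crest.Agent.R141
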