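import Crest.Agent.R141.HierA

/-!
Row 141 (S0192), Part L, (1e): martingale increments, the exponent-weighted covariance form `Yf`,
conditional covariances `covR`, and the comparison `∑ Cov² ≤ x_{k+1}⁻² ∑ Y²`.
-/

set_option autoImplicit false

namespace Crest.Agent.R141

open Finset

noncomputable section

variable {Ω : Type*} [Fintype Ω] {P : Ω → ℝ} {F : ℕ → Setoid Ω}

omit [Fintype Ω] in
theorem Filt.antitone (𝓕 : Filt Ω) : Antitone 𝓕.F := antitone_nat_of_succ_le 𝓕.anti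

/-- martingale increment `D_l f = E_l f - E_{l-1} f` (used for `l ≥ 1`). -/
def Dl (P : Ω → ℝ) (F : ℕ → Setoid Ω) (l : ℕ) (f : Ω → ℝ) (ω : Ω) : ℝ :=
  cE P (F l) f ω - cE P (F (l - 1)) f ω

/-- `Y_k(f,g) = ∑_{k<l≤L} x_l E_k[D_l f D_l g]`. -/
def Yf (P : Ω → ℝ) (F : ℕ → Setoid Ω) (x : ℕ → ℝ) (L k : ℕ) (f g : Ω → ℝ) (ω : Ω) : ℝ :=
  ∑ l ∈ Finset.Ioc k L, x l * cE P (F k) (fun a => Dl P F l f a * Dl P F l g a) ω

/-- conditional covariance given the partition `r`. -/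
def covR (P : Ω → ℝ) (r : Setoid Ω) (f g : Ω → ℝ) (ω : Ω) : ℝ :=
  cE P r (fun a => f a * g a) ω - cE P r f ω * cE P r g ω

theorem covR_comm (P : Ω → ℝ) (r : Setoid Ω) (f g : Ω → ℝ) (ω : Ω) :
    covR P r f g ω = covR P r g f ω := by
  unfold covR
  rw [mul_comm (cE P r f ω)]
  congr 1
  apply congrArg (fun h => cE P r h ω)
  funext a; ring


/-- `E_k[D_l f D_l g] = E_k[E_l f E_l g] - E_k[E_{l-1} f E_{l-1} g]` for `k < l`. -/
theorem cE_DlDl (hP : IsProb P) (hF : Antitone F) {k l : ℕ} (hkl : k < l) (f g : Ω → ℝ) (ω : Ω) :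
    cE P (F k) (fun a => Dl P F l f a * Dl P F l g a) ω =
      cE P (F k) (fun a => cE P (F l) f a * cE P (F l) g a) ω -
      cE P (F k) (fun a => cE P (F (l - 1)) f a * cE P (F (l - 1)) g a) ω := by
  have hl : l - 1 ≤ l := Nat.sub_le l 1
  have hk1 : k ≤ l - 1 := Nat.le_sub_one_of_lt hkl
  -- first condition on `F (l-1)`
  rw [← cE_tower hP (hF hk1) (fun a => Dl P F l f a * Dl P F l g a) ω,
    ← cE_tower hP (hF hk1) (fun a => cE P (F l) f a * cE P (F l) g a) ω, ← cE_sub]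
  apply cE_congr
  intro a _
  have h1 : cE P (F (l - 1)) (fun b => cE P (F l) f b * cE P (F (l - 1)) g b) a =
      cE P (F (l - 1)) f a * cE P (F (l - 1)) g a := by
    rw [cE_mul_right (cE_meas P _ g), cE_tower hP (hF hl)]
  have h2 : cE P (F (l - 1)) (fun b => cE P (F (l - 1)) f b * cE P (F l) g b) a =
      cE P (F (l - 1)) f a * cE P (F (l - 1)) g a := by
    rw [cE_mul_left (cE_meas P _ f), cE_tower hP (hF hl)]
  have h3 : cE P (F (l - 1)) (fun b => cE P (F (l - 1)) f b * cE P (F (l - 1)) g b) a =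
      cE P (F (l - 1)) f a * cE P (F (l - 1)) g a := by
    rw [cE_mul_left (cE_meas P _ f), cE_tower hP le_rfl]
  have h4 : (fun b => Dl P F l f b * Dl P F l g b) = fun b =>
      ((cE P (F l) f b * cE P (F l) g b - cE P (F l) f b * cE P (F (l - 1)) g b) -
        cE P (F (l - 1)) f b * cE P (F l) g b) + cE P (F (l - 1)) f b * cE P (F (l - 1)) g b := by
    funext b; unfold Dl; ring
  rw [h4, cE_add, cE_sub, cE_sub, h1, h2, h3]
  ring

theorem sum_Ioc_telescope (u : ℕ → ℝ) {k m : ℕ} (hkm : k ≤ m) :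
    ∑ l ∈ Finset.Ioc k m, (u l - u (l - 1)) = u m - u k := by
  induction m, hkm using Nat.le_induction with
  | base => simp
  | succ n hn ih =>
    rw [← Finset.insert_Ioc_right_eq_Ioc_add_one hn, Finset.sum_insert (by simp), ih]
    simp

/-- `Cov_k(E_m f, E_m g) = ∑_{k<l≤m} E_k[D_l f D_l g]`. -/
theorem covR_cE_eq_sum (hP : IsProb P) (hF : Antitone F) {k m : ℕ} (hkm : k ≤ m) (f g : Ω → ℝ)
    (ω : Ω) :
    covR P (F k) (cE P (F m) f) (cE P (F m) g) ω =
      ∑ l ∈ Finset.Ioc k m, cE P (F k) (fun a => Dl P F l f a * Dl P F l g a) ω := by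
  rw [Finset.sum_congr rfl (fun l hl =>
    cE_DlDl hP hF (by simpa using (Finset.mem_Ioc.mp hl).1 : k < l) f g ω),
    sum_Ioc_telescope (fun l => cE P (F k) (fun a => cE P (F l) f a * cE P (F l) g a) ω) hkm]
  unfold covR
  rw [cE_tower hP (hF hkm), cE_tower hP (hF hkm), cE_mul_left (cE_meas P _ f),
    cE_tower hP le_rfl]

/-- `Y_k(f,g) = E_k[f ∑_{l>k} x_l D_l g]`. -/
theorem Yf_eq (hP : IsProb P) (hF : Antitone F) (x : ℕ → ℝ) (L k : ℕ) (f g : Ω → ℝ) (ω : Ω) :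
    Yf P F x L k f g ω =
      cE P (F k) (fun a => f a * ∑ l ∈ Finset.Ioc k L, x l * Dl P F l g a) ω := by
  unfold Yf
  have h0 : (fun a => f a * ∑ l ∈ Finset.Ioc k L, x l * Dl P F l g a) =
      fun a => ∑ l ∈ Finset.Ioc k L, x l * (f a * Dl P F l g a) := by
    funext a; rw [Finset.mul_sum]; apply Finset.sum_congr rfl; intro l _; ring
  rw [h0, cE_sum]
  apply Finset.sum_congr rfl
  intro l hl
  have hkl : k < l := (Finset.mem_Ioc.mp hl).1
  rw [cE_smul, cE_DlDl hP hF hkl]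
  congr 1
  have hk1 : k ≤ l - 1 := Nat.le_sub_one_of_lt hkl
  have e1 : cE P (F k) (fun a => f a * cE P (F l) g a) ω =
      cE P (F k) (fun a => cE P (F l) f a * cE P (F l) g a) ω := by
    rw [← cE_tower hP (hF hkl.le) (fun a => f a * cE P (F l) g a) ω]
    apply cE_congr; intro a _
    rw [cE_mul_right (cE_meas P _ g)]
  have e2 : cE P (F k) (fun a => f a * cE P (F (l - 1)) g a) ω =
      cE P (F k) (fun a => cE P (F (l - 1)) f a * cE P (F (l - 1)) g a) ω := by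
    rw [← cE_tower hP (hF hk1) (fun a => f a * cE P (F (l - 1)) g a) ω]
    apply cE_congr; intro a _
    rw [cE_mul_right (cE_meas P _ g)]
  have e3 : (fun a => f a * Dl P F l g a) =
      fun a => f a * cE P (F l) g a - f a * cE P (F (l - 1)) g a := by
    funext a; unfold Dl; ring
  rw [e3, cE_sub, e1, e2]


/-- `D_l` is linear: finite sums. -/
theorem Dl_sum {ι : Type*} (t : Finset ι) (P : Ω → ℝ) (F : ℕ → Setoid Ω) (l : ℕ)
    (c : ι → ℝ) (f : ι → Ω → ℝ) (ω : Ω) :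
    Dl P F l (fun a => ∑ i ∈ t, c i * f i a) ω = ∑ i ∈ t, c i * Dl P F l (f i) ω := by
  unfold Dl
  rw [cE_sum, cE_sum, ← Finset.sum_sub_distrib]
  apply Finset.sum_congr rfl
  intro i _
  rw [cE_smul, cE_smul]; ring

/-- bilinearity of `Y_k` over finite sums. -/
theorem Yf_sum_sum {ι κ : Type*} (s : Finset ι) (t : Finset κ) (P : Ω → ℝ) (F : ℕ → Setoid Ω)
    (x : ℕ → ℝ) (L k : ℕ) (c : ι → ℝ) (d : κ → ℝ) (f : ι → Ω → ℝ) (g : κ → Ω → ℝ) (ω : Ω) :
    Yf P F x L k (fun a => ∑ i ∈ s, c i * f i a) (fun a => ∑ j ∈ t, d j * g j a) ω =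
      ∑ i ∈ s, ∑ j ∈ t, c i * d j * Yf P F x L k (f i) (g j) ω := by
  unfold Yf
  have h1 : ∀ l, cE P (F k) (fun a => Dl P F l (fun a => ∑ i ∈ s, c i * f i a) a *
      Dl P F l (fun a => ∑ j ∈ t, d j * g j a) a) ω =
      ∑ i ∈ s, ∑ j ∈ t, c i * d j * cE P (F k) (fun a => Dl P F l (f i) a * Dl P F l (g j) a) ω := by
    intro l
    have h2 : (fun a => Dl P F l (fun a => ∑ i ∈ s, c i * f i a) a *
      Dl P F l (fun a => ∑ j ∈ t, d j * g j a) a) = fun a =>
        ∑ i ∈ s, ∑ j ∈ t, (c i * d j) * (Dl P F l (f i) a * Dl P F l (g j) a) := by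
      funext a
      rw [Dl_sum, Dl_sum, Finset.sum_mul_sum]
      apply Finset.sum_congr rfl; intro i _
      apply Finset.sum_congr rfl; intro j _
      ring
    rw [h2, cE_sum]
    apply Finset.sum_congr rfl; intro i _
    rw [cE_sum]
    apply Finset.sum_congr rfl; intro j _
    rw [cE_smul]
  simp only [h1, Finset.mul_sum]
  rw [Finset.sum_comm]
  apply Finset.sum_congr rfl; intro i _
  rw [Finset.sum_comm]
  apply Finset.sum_congr rfl; intro j _
  apply Finset.sum_congr rfl; intro l _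
  ring

/-! ### Cauchy–Schwarz -/

/-- `E_k` as a nonnegative linear combination. -/
theorem cE_eq_wsum (hP : IsProb P) (r : Setoid Ω) (ω : Ω) :
    ∃ w : Ω → ℝ, (∀ a, 0 ≤ w a) ∧ ∀ f : Ω → ℝ, cE P r f ω = ∑ a, w a * f a := by
  classical
  refine ⟨fun a => if r ω a then P a / (∑ ω' ∈ univ.filter (fun ω' => r ω ω'), P ω') else 0,
    fun a => ?_, fun f => ?_⟩
  · dsimp only
    split_ifs
    · exact div_nonneg (hP.pos a).le (cls_pos hP r ω).le
    · exact le_rfl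
  · unfold cE
    rw [Finset.sum_div, Finset.sum_filter]
    apply Finset.sum_congr rfl
    intro a _
    by_cases hra : r ω a
    · simp only [if_pos hra]; ring
    · simp only [if_neg hra]; ring

theorem Yf_self_nonneg (hP : IsProb P) {x : ℕ → ℝ} {L k : ℕ}
    (hx : ∀ l ∈ Finset.Ioc k L, 0 ≤ x l) (f : Ω → ℝ) (ω : Ω) : 0 ≤ Yf P F x L k f f ω := by
  unfold Yf
  apply Finset.sum_nonneg
  intro l hl
  exact mul_nonneg (hx l hl) (cE_nonneg hP (fun a => mul_self_nonneg _) ω)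

/-- `Y_k(f,f) ≤ E_k[f²]` if all exponents are in `[0,1]`. -/
theorem Yf_self_le (hP : IsProb P) (hF : Antitone F) {x : ℕ → ℝ} {L k : ℕ}
    (hx1 : ∀ l ∈ Finset.Ioc k L, x l ≤ 1) (f : Ω → ℝ) (ω : Ω) :
    Yf P F x L k f f ω ≤ cE P (F k) (fun a => f a ^ 2) ω := by
  by_cases hkL : k ≤ L
  · have h1 : Yf P F x L k f f ω ≤ covR P (F k) (cE P (F L) f) (cE P (F L) f) ω := by
      rw [covR_cE_eq_sum hP hF hkL]
      unfold Yf
      apply Finset.sum_le_sum
      intro l hl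
      have h0 : 0 ≤ cE P (F k) (fun a => Dl P F l f a * Dl P F l f a) ω :=
        cE_nonneg hP (fun a => mul_self_nonneg _) ω
      nlinarith [hx1 l hl]
    refine h1.trans ?_
    unfold covR
    have h2 : cE P (F k) (fun a => cE P (F L) f a * cE P (F L) f a) ω ≤
        cE P (F k) (fun a => f a ^ 2) ω := by
      rw [← cE_tower hP (hF hkL) (fun a => f a ^ 2) ω]
      apply cE_mono' hP
      intro a
      have := cE_sq_le hP (F L) f a
      nlinarith [this]
    nlinarith [mul_self_nonneg (cE P (F k) (cE P (F L) f) ω)]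
  · unfold Yf
    rw [Finset.Ioc_eq_empty (by omega)]
    simpa using cE_nonneg hP (fun a => sq_nonneg (f a)) ω

/-- Cauchy–Schwarz for the form `Y_k`. -/
theorem Yf_sq_le (hP : IsProb P) {x : ℕ → ℝ} {L k : ℕ}
    (hx : ∀ l ∈ Finset.Ioc k L, 0 ≤ x l) (f g : Ω → ℝ) (ω : Ω) :
    (Yf P F x L k f g ω) ^ 2 ≤ Yf P F x L k f f ω * Yf P F x L k g g ω := by
  obtain ⟨w, hw, h⟩ := cE_eq_wsum hP (F k) ω
  unfold Yf
  simp only [h]
  have e : ∀ u v : Ω → ℝ, ∀ l, x l * ∑ a, w a * (u a * v a) = ∑ a, x l * (w a * (u a * v a)) :=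
    fun u v l => by rw [Finset.mul_sum]
  have key : ∀ f g : Ω → ℝ, (∑ l ∈ Finset.Ioc k L, x l * ∑ a, w a * (Dl P F l f a * Dl P F l g a)) =
      ∑ p ∈ (Finset.Ioc k L) ×ˢ (Finset.univ : Finset Ω),
        x p.1 * (w p.2 * (Dl P F p.1 f p.2 * Dl P F p.1 g p.2)) := by
    intro f g
    rw [Finset.sum_product]
    apply Finset.sum_congr rfl; intro l _
    rw [Finset.mul_sum]
  rw [key, key, key]
  apply Finset.sum_sq_le_sum_mul_sum_of_sq_le_mul
  · intro p hp
    exact mul_nonneg (hx _ (Finset.mem_product.mp hp).1) (mul_nonneg (hw _) (mul_self_nonneg _))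
  · intro p hp
    exact mul_nonneg (hx _ (Finset.mem_product.mp hp).1) (mul_nonneg (hw _) (mul_self_nonneg _))
  · intro p _
    exact le_of_eq (by ring)

/-- `|Y_k(f,g)| ≤ κ` if `E_k f² ≤ κ`, `E_k g² ≤ κ`. -/
theorem Yf_abs_le (hP : IsProb P) (hF : Antitone F) {x : ℕ → ℝ} {L k : ℕ}
    (hx : ∀ l ∈ Finset.Ioc k L, 0 ≤ x l) (hx1 : ∀ l ∈ Finset.Ioc k L, x l ≤ 1)
    {f g : Ω → ℝ} {ω : Ω} {κ : ℝ}
    (hf : cE P (F k) (fun a => f a ^ 2) ω ≤ κ) (hg : cE P (F k) (fun a => g a ^ 2) ω ≤ κ) :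
    |Yf P F x L k f g ω| ≤ κ := by
  have h0 := Yf_sq_le (F := F) hP hx f g ω
  have h1 := (Yf_self_le hP hF hx1 f ω).trans hf
  have h2 := (Yf_self_le hP hF hx1 g ω).trans hg
  have h3 := Yf_self_nonneg (F := F) hP hx f ω
  have h4 := Yf_self_nonneg (F := F) hP hx g ω
  have hκ : 0 ≤ κ := h3.trans h1
  apply abs_le_of_sq_le_sq _ hκ
  calc (Yf P F x L k f g ω) ^ 2 ≤ Yf P F x L k f f ω * Yf P F x L k g g ω := h0
    _ ≤ κ * κ := mul_le_mul h1 h2 h4 hκ
    _ = κ ^ 2 := by ring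

/-! ### PSD comparison -/

/-- two Gram-type forms with nonnegative weights have nonnegative Frobenius product. -/
theorem gram_mul_gram_nonneg {ι A : Type*} (I : Finset ι) (S T : Finset A) (c d : A → ℝ)
    (hc : ∀ a ∈ S, 0 ≤ c a) (hd : ∀ a ∈ T, 0 ≤ d a) (u v : ι → A → ℝ) :
    0 ≤ ∑ i ∈ I, ∑ j ∈ I, (∑ a ∈ S, c a * (u i a * u j a)) * (∑ b ∈ T, d b * (v i b * v j b)) := by
  have h : ∑ i ∈ I, ∑ j ∈ I, (∑ a ∈ S, c a * (u i a * u j a)) * (∑ b ∈ T, d b * (v i b * v j b)) =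
      ∑ a ∈ S, ∑ b ∈ T, c a * d b * (∑ i ∈ I, u i a * v i b) ^ 2 := by
    have h1 : ∀ a b, c a * d b * (∑ i ∈ I, u i a * v i b) ^ 2 =
        ∑ i ∈ I, ∑ j ∈ I, (c a * (u i a * u j a)) * (d b * (v i b * v j b)) := by
      intro a b
      rw [sq, Finset.sum_mul_sum, Finset.mul_sum]
      apply Finset.sum_congr rfl; intro i _
      rw [Finset.mul_sum]
      apply Finset.sum_congr rfl; intro j _
      ring
    simp only [h1]
    calc ∑ i ∈ I, ∑ j ∈ I, (∑ a ∈ S, c a * (u i a * u j a)) * (∑ b ∈ T, d b * (v i b * v j b))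
        = ∑ i ∈ I, ∑ j ∈ I, ∑ a ∈ S, ∑ b ∈ T,
            (c a * (u i a * u j a)) * (d b * (v i b * v j b)) := by
          apply Finset.sum_congr rfl; intro i _
          apply Finset.sum_congr rfl; intro j _
          rw [Finset.sum_mul_sum]
      _ = ∑ i ∈ I, ∑ a ∈ S, ∑ j ∈ I, ∑ b ∈ T,
            (c a * (u i a * u j a)) * (d b * (v i b * v j b)) := by
          apply Finset.sum_congr rfl; intro i _
          rw [Finset.sum_comm]
      _ = ∑ a ∈ S, ∑ i ∈ I, ∑ j ∈ I, ∑ b ∈ T,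
            (c a * (u i a * u j a)) * (d b * (v i b * v j b)) := by
          rw [Finset.sum_comm]
      _ = ∑ a ∈ S, ∑ i ∈ I, ∑ b ∈ T, ∑ j ∈ I,
            (c a * (u i a * u j a)) * (d b * (v i b * v j b)) := by
          apply Finset.sum_congr rfl; intro a _
          apply Finset.sum_congr rfl; intro i _
          rw [Finset.sum_comm]
      _ = ∑ a ∈ S, ∑ b ∈ T, ∑ i ∈ I, ∑ j ∈ I,
            (c a * (u i a * u j a)) * (d b * (v i b * v j b)) := by
          apply Finset.sum_congr rfl; intro a _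
          rw [Finset.sum_comm]
  rw [h]
  apply Finset.sum_nonneg; intro a ha
  apply Finset.sum_nonneg; intro b hb
  exact mul_nonneg (mul_nonneg (hc a ha) (hd b hb)) (sq_nonneg _)

/-- (1e): `x_{k+1}² ∑_{ij} Cov_k(E_m f_i, E_m f_j)² ≤ ∑_{ij} Y_k(f_i,f_j)²` at every node. -/
theorem psd_compare (hP : IsProb P) (hF : Antitone F) {x : ℕ → ℝ} {L k m : ℕ}
    (hkm : k ≤ m) (hmL : m ≤ L) {y : ℝ} (hy : 0 ≤ y) (hx : ∀ l ∈ Finset.Ioc k L, y ≤ x l)
    {ι : Type*} (I : Finset ι) (f : ι → Ω → ℝ) (ω : Ω) :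
    y ^ 2 * ∑ i ∈ I, ∑ j ∈ I, (covR P (F k) (cE P (F m) (f i)) (cE P (F m) (f j)) ω) ^ 2 ≤
      ∑ i ∈ I, ∑ j ∈ I, (Yf P F x L k (f i) (f j) ω) ^ 2 := by
  obtain ⟨w, hw, h⟩ := cE_eq_wsum hP (F k) ω
  -- the two forms as Gram sums over `Ioc k L × Ω`
  set S := (Finset.Ioc k L) ×ˢ (Finset.univ : Finset Ω) with hS
  set u : ι → ℕ × Ω → ℝ := fun i p => Dl P F p.1 (f i) p.2 with hu
  have hY : ∀ i j, Yf P F x L k (f i) (f j) ω = ∑ p ∈ S, (x p.1 * w p.2) * (u i p * u j p) := by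
    intro i j
    unfold Yf
    rw [hS, Finset.sum_product]
    apply Finset.sum_congr rfl; intro l _
    rw [h, Finset.mul_sum]
    apply Finset.sum_congr rfl; intro a _
    simp only [hu]; ring
  have hC : ∀ i j, y * covR P (F k) (cE P (F m) (f i)) (cE P (F m) (f j)) ω =
      ∑ p ∈ S, ((if p.1 ≤ m then y else 0) * w p.2) * (u i p * u j p) := by
    intro i j
    rw [covR_cE_eq_sum hP hF hkm, Finset.mul_sum]
    rw [hS, Finset.sum_product]
    have hsub : Finset.Ioc k m ⊆ Finset.Ioc k L := Finset.Ioc_subset_Ioc_right hmL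
    rw [← Finset.sum_subset hsub]
    · apply Finset.sum_congr rfl; intro l hl
      rw [h, Finset.mul_sum]
      apply Finset.sum_congr rfl; intro a _
      have : l ≤ m := (Finset.mem_Ioc.mp hl).2
      simp only [hu, this, if_true]; ring
    · intro l hl hl'
      have : ¬ l ≤ m := by
        intro hlm; exact hl' (Finset.mem_Ioc.mpr ⟨(Finset.mem_Ioc.mp hl).1, hlm⟩)
      simp [this]
  have key := gram_mul_gram_nonneg I S S
    (fun p => (x p.1 * w p.2) - ((if p.1 ≤ m then y else 0) * w p.2))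
    (fun p => (x p.1 * w p.2) + ((if p.1 ≤ m then y else 0) * w p.2))
    (by
      intro p hp
      have hp1 := (Finset.mem_product.mp hp).1
      have h1 := hx p.1 hp1
      have h2 := hw p.2
      have h3 : (if p.1 ≤ m then y else 0) ≤ x p.1 := by
        split_ifs
        · exact h1
        · exact hy.trans h1
      have := mul_le_mul_of_nonneg_right h3 h2
      linarith)
    (by
      intro p hp
      have hp1 := (Finset.mem_product.mp hp).1
      have h1 := hx p.1 hp1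
      have h2 := hw p.2
      have h3 : 0 ≤ (if p.1 ≤ m then y else 0) := by split_ifs <;> simp [hy]
      have h4 := mul_nonneg (hy.trans h1) h2
      have h5 := mul_nonneg h3 h2
      linarith)
    u u
  have e : ∑ i ∈ I, ∑ j ∈ I, (∑ p ∈ S, ((x p.1 * w p.2) - ((if p.1 ≤ m then y else 0) * w p.2)) *
        (u i p * u j p)) * (∑ p ∈ S, ((x p.1 * w p.2) + ((if p.1 ≤ m then y else 0) * w p.2)) *
        (u i p * u j p)) =
      ∑ i ∈ I, ∑ j ∈ I, (Yf P F x L k (f i) (f j) ω) ^ 2 -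
      y ^ 2 * ∑ i ∈ I, ∑ j ∈ I,
        (covR P (F k) (cE P (F m) (f i)) (cE P (F m) (f j)) ω) ^ 2 := by
    rw [Finset.mul_sum, ← Finset.sum_sub_distrib]
    apply Finset.sum_congr rfl; intro i _
    rw [Finset.mul_sum, ← Finset.sum_sub_distrib]
    apply Finset.sum_congr rfl; intro j _
    simp only [sub_mul, add_mul, Finset.sum_sub_distrib, Finset.sum_add_distrib]
    rw [← hY i j, ← hC i j]
    ring
  rw [e] at key
  linarith

end

end Crest.Agent.R141
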