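import Crest.Agent.R141.Psd
import Crest.Agent.R141.CoinSys

-- ▼ part R141/PurA
section

/-!
Row 141 (S0192), Part L, sections 2.3-2.4: deterministic lemmas for the purity theorem.
-/

set_option autoImplicit false

namespace Crest.Agent.R141.Pur

open Finset Crest.Agent.R141

noncomputable section

variable {Ω : Type*} [Fintype Ω] {P : Ω → ℝ} {F : ℕ → Setoid Ω}


/-- variance of one step. -/
theorem eE_step (hP : IsProb P) (hF : Antitone F) (v : Ω → ℝ) {k : ℕ} (hk : 0 < k) :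
    eE P (fun ω => (cE P (F k) v ω - cE P (F (k - 1)) v ω) ^ 2) =
      eE P (fun ω => (cE P (F k) v ω) ^ 2) - eE P (fun ω => (cE P (F (k - 1)) v ω) ^ 2) := by
  have hle : F k ≤ F (k - 1) := hF (Nat.sub_le k 1)
  have h1 : eE P (fun ω => cE P (F k) v ω * cE P (F (k - 1)) v ω) =
      eE P (fun ω => (cE P (F (k - 1)) v ω) ^ 2) := by
    rw [← eE_cE hP (F (k - 1)) (fun ω => cE P (F k) v ω * cE P (F (k - 1)) v ω)]
    congr 1
    funext ω
    rw [cE_mul_right (cE_meas P (F (k - 1)) v) (cE P (F k) v) ω, cE_tower hP hle]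
    ring
  have h2 : (fun ω => (cE P (F k) v ω - cE P (F (k - 1)) v ω) ^ 2) = fun ω =>
      ((cE P (F k) v ω) ^ 2 + (cE P (F (k - 1)) v ω) ^ 2) -
        2 * (cE P (F k) v ω * cE P (F (k - 1)) v ω) := by
    funext ω; ring
  rw [h2, eE_sub, eE_add, eE_smul, h1]
  ring

/-- telescoping of the variances. -/
theorem var_sum_le (hP : IsProb P) (hF : Antitone F) (v : Ω → ℝ) {κ : ℝ} {a b : ℕ} (hab : a ≤ b)
    (hκ : ∀ ω, |cE P (F b) v ω| ≤ κ) :
    ∑ k ∈ Finset.Ioc a b, eE P (fun ω => (cE P (F k) v ω - cE P (F (k - 1)) v ω) ^ 2) ≤ κ ^ 2 := by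
  have h1 : ∀ k ∈ Finset.Ioc a b, eE P (fun ω => (cE P (F k) v ω - cE P (F (k - 1)) v ω) ^ 2) =
      (fun k => eE P (fun ω => (cE P (F k) v ω) ^ 2)) k -
        (fun k => eE P (fun ω => (cE P (F k) v ω) ^ 2)) (k - 1) := by
    intro k hk
    exact eE_step hP hF v (by have := (Finset.mem_Ioc.1 hk).1; omega)
  rw [Finset.sum_congr rfl h1, sum_Ioc_telescope _ hab]
  have h2 : eE P (fun ω => (cE P (F b) v ω) ^ 2) ≤ κ ^ 2 := by
    rw [← eE_const hP (κ ^ 2)]
    apply eE_mono hP
    intro ω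
    exact sq_le_sq' (by have := (abs_le.1 (hκ ω)).1; linarith) (abs_le.1 (hκ ω)).2
  have h3 : 0 ≤ eE P (fun ω => (cE P (F a) v ω) ^ 2) := eE_nonneg hP (fun ω => sq_nonneg _)
  show eE P (fun ω => (cE P (F b) v ω) ^ 2) - eE P (fun ω => (cE P (F a) v ω) ^ 2) ≤ κ ^ 2
  linarith

/-- weighted Cauchy-Schwarz for double sums. -/
theorem cs_double {B : Type*} [Fintype B] (c : B → ℝ) (y : B → B → ℝ) :
    (∑ b, ∑ b', c b * c b' * y b b') ^ 2 ≤
      (∑ b, |c b|) ^ 2 * ∑ b, ∑ b', |c b| * |c b'| * y b b' ^ 2 := by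
  have h0 : |∑ b, ∑ b', c b * c b' * y b b'| ≤ ∑ p : B × B, |c p.1| * |c p.2| * |y p.1 p.2| := by
    rw [Fintype.sum_prod_type]
    refine (Finset.abs_sum_le_sum_abs _ _).trans (Finset.sum_le_sum fun b _ => ?_)
    refine (Finset.abs_sum_le_sum_abs _ _).trans (Finset.sum_le_sum fun b' _ => ?_)
    rw [abs_mul, abs_mul]
  have h1 : (∑ p : B × B, |c p.1| * |c p.2| * |y p.1 p.2|) ^ 2 ≤
      (∑ p : B × B, |c p.1| * |c p.2|) * ∑ p : B × B, |c p.1| * |c p.2| * y p.1 p.2 ^ 2 := by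
    have := Finset.sum_sq_le_sum_mul_sum_of_sq_eq_mul (Finset.univ : Finset (B × B))
      (f := fun p => |c p.1| * |c p.2|) (g := fun p => |c p.1| * |c p.2| * y p.1 p.2 ^ 2)
      (r := fun p => |c p.1| * |c p.2| * |y p.1 p.2|)
      (fun p _ => by positivity) (fun p _ => by positivity)
      (fun p _ => by rw [← sq_abs (y p.1 p.2)]; ring)
    exact this
  have h2 : (∑ p : B × B, |c p.1| * |c p.2|) = (∑ b, |c b|) ^ 2 := by
    rw [Fintype.sum_prod_type, sq, Finset.sum_mul_sum]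
  rw [h2, Fintype.sum_prod_type (f := fun p : B × B => |c p.1| * |c p.2| * y p.1 p.2 ^ 2)] at h1
  calc (∑ b, ∑ b', c b * c b' * y b b') ^ 2 = |∑ b, ∑ b', c b * c b' * y b b'| ^ 2 := (sq_abs _).symm
    _ ≤ (∑ p : B × B, |c p.1| * |c p.2| * |y p.1 p.2|) ^ 2 := by
      apply pow_le_pow_left₀ (abs_nonneg _) h0
    _ ≤ _ := h1

/-- (2.4) From coordinates to combinations. -/
theorem combo (hP : IsProb P) (hF : Antitone F) {x : ℕ → ℝ} {L k m : ℕ}
    (hkm : k ≤ m) (hmL : m ≤ L) {y0 : ℝ} (hy : 0 < y0) (hx : ∀ l ∈ Finset.Ioc k L, y0 ≤ x l)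
    (hx1 : ∀ l ∈ Finset.Ioc k L, x l ≤ 1)
    {ι B : Type*} [DecidableEq ι] [Fintype B] (U : Finset ι) (v : ι → B → Ω → ℝ)
    (hv : ∀ i b ω, |v i b ω| ≤ 1) (c : B → ℝ) {Q β N : ℝ} (hQ : 0 ≤ Q) (hN : (U.card : ℝ) ≤ N)
    (hβ : ∀ b b', ∑ i ∈ U, ∑ j ∈ U.erase i,
      eE P (fun ω => (Yf P F x L k (v i b) (v j b') ω) ^ 2) ≤ β) :
    ∑ i ∈ U, ∑ j ∈ U, eE P (fun ω => (covR P (F k)
        (cE P (F m) (fun a => ∑ b, (Q * c b) * v i b a))
        (cE P (F m) (fun a => ∑ b, (Q * c b) * v j b a)) ω) ^ 2) ≤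
      (y0 ^ 2)⁻¹ * (Q ^ 4 * (∑ b, |c b|) ^ 4 * β + N * (Q * ∑ b, |c b|) ^ 4) := by
  set C : ℝ := ∑ b, |c b| with hC
  have hC0 : 0 ≤ C := Finset.sum_nonneg fun b _ => abs_nonneg _
  set φ : ι → Ω → ℝ := fun i a => ∑ b, (Q * c b) * v i b a with hφ
  have hφb : ∀ i ω, |φ i ω| ≤ Q * C := by
    intro i ω
    refine (Finset.abs_sum_le_sum_abs _ _).trans ?_
    rw [hC, Finset.mul_sum]
    apply Finset.sum_le_sum
    intro b _
    rw [abs_mul, abs_mul, abs_of_nonneg hQ]
    calc Q * |c b| * |v i b ω| ≤ Q * |c b| * 1 :=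
          mul_le_mul_of_nonneg_left (hv i b ω) (by positivity)
      _ = Q * |c b| := mul_one _
  have hpsd : ∀ ω, y0 ^ 2 * ∑ i ∈ U, ∑ j ∈ U,
      (covR P (F k) (cE P (F m) (φ i)) (cE P (F m) (φ j)) ω) ^ 2 ≤
      ∑ i ∈ U, ∑ j ∈ U, (Yf P F x L k (φ i) (φ j) ω) ^ 2 := fun ω =>
    psd_compare hP hF hkm hmL hy.le hx U φ ω
  have hsum : y0 ^ 2 * ∑ i ∈ U, ∑ j ∈ U, eE P (fun ω => (covR P (F k)
      (cE P (F m) (φ i)) (cE P (F m) (φ j)) ω) ^ 2) ≤
      ∑ i ∈ U, ∑ j ∈ U, eE P (fun ω => (Yf P F x L k (φ i) (φ j) ω) ^ 2) := by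
    have := eE_mono hP hpsd
    rw [eE_smul, eE_sum, eE_sum] at this
    simp only [eE_sum] at this
    exact this
  have hoff : ∀ i j, eE P (fun ω => (Yf P F x L k (φ i) (φ j) ω) ^ 2) ≤
      Q ^ 4 * (C ^ 2 * ∑ b, ∑ b', |c b| * |c b'| *
        eE P (fun ω => (Yf P F x L k (v i b) (v j b') ω) ^ 2)) := by
    intro i j
    have h1 : ∀ ω, (Yf P F x L k (φ i) (φ j) ω) ^ 2 ≤
        Q ^ 4 * (C ^ 2 * ∑ b, ∑ b', |c b| * |c b'| * (Yf P F x L k (v i b) (v j b') ω) ^ 2) := by
      intro ω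
      have h2 : Yf P F x L k (φ i) (φ j) ω =
          Q ^ 2 * ∑ b, ∑ b', c b * c b' * Yf P F x L k (v i b) (v j b') ω := by
        rw [hφ]
        rw [Yf_sum_sum univ univ P F x L k (fun b => Q * c b) (fun b => Q * c b) (v i) (v j) ω,
          Finset.mul_sum]
        apply Finset.sum_congr rfl; intro b _
        rw [Finset.mul_sum]
        apply Finset.sum_congr rfl; intro b' _
        ring
      rw [h2, mul_pow]
      have h3 := cs_double c (fun b b' => Yf P F x L k (v i b) (v j b') ω)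
      have h4 : (Q ^ 2) ^ 2 = Q ^ 4 := by ring
      rw [h4]
      exact mul_le_mul_of_nonneg_left h3 (by positivity)
    have h2 := eE_mono hP h1
    rw [eE_smul, eE_smul, eE_sum] at h2
    simp only [eE_sum, eE_smul] at h2
    exact h2
  have hdiag : ∀ i, eE P (fun ω => (Yf P F x L k (φ i) (φ i) ω) ^ 2) ≤ (Q * C) ^ 4 := by
    intro i
    rw [← eE_const hP ((Q * C) ^ 4)]
    apply eE_mono hP
    intro ω
    have hsq : cE P (F k) (fun a => φ i a ^ 2) ω ≤ (Q * C) ^ 2 := by
      apply cE_le_of_le hP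
      intro a
      exact sq_le_sq' (by have := (abs_le.1 (hφb i a)).1; linarith) (abs_le.1 (hφb i a)).2
    have hY := Yf_abs_le hP hF (fun l hl => hy.le.trans (hx l hl)) hx1 hsq hsq
    calc (Yf P F x L k (φ i) (φ i) ω) ^ 2 ≤ ((Q * C) ^ 2) ^ 2 :=
          sq_le_sq' (by have := (abs_le.1 hY).1; linarith) (abs_le.1 hY).2
      _ = (Q * C) ^ 4 := by ring
  have hβ0 : ∀ i j b b', 0 ≤ eE P (fun ω => (Yf P F x L k (v i b) (v j b') ω) ^ 2) :=
    fun i j b b' => eE_nonneg hP (fun ω => sq_nonneg _)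
  have htot : ∑ i ∈ U, ∑ j ∈ U, eE P (fun ω => (Yf P F x L k (φ i) (φ j) ω) ^ 2) ≤
      Q ^ 4 * C ^ 4 * β + N * (Q * C) ^ 4 := by
    have h1 : ∑ i ∈ U, ∑ j ∈ U, eE P (fun ω => (Yf P F x L k (φ i) (φ j) ω) ^ 2) =
        ∑ i ∈ U, ∑ j ∈ U.erase i, eE P (fun ω => (Yf P F x L k (φ i) (φ j) ω) ^ 2) +
        ∑ i ∈ U, eE P (fun ω => (Yf P F x L k (φ i) (φ i) ω) ^ 2) := by
      rw [← Finset.sum_add_distrib]
      apply Finset.sum_congr rfl
      intro i hi
      rw [Finset.sum_erase_add _ _ hi]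
    rw [h1]
    apply add_le_add
    · calc ∑ i ∈ U, ∑ j ∈ U.erase i, eE P (fun ω => (Yf P F x L k (φ i) (φ j) ω) ^ 2)
          ≤ ∑ i ∈ U, ∑ j ∈ U.erase i, Q ^ 4 * (C ^ 2 * ∑ b, ∑ b', |c b| * |c b'| *
            eE P (fun ω => (Yf P F x L k (v i b) (v j b') ω) ^ 2)) :=
            Finset.sum_le_sum fun i _ => Finset.sum_le_sum fun j _ => hoff i j
        _ = Q ^ 4 * (C ^ 2 * ∑ b, ∑ b', |c b| * |c b'| * ∑ i ∈ U, ∑ j ∈ U.erase i,
            eE P (fun ω => (Yf P F x L k (v i b) (v j b') ω) ^ 2)) := by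
          simp only [← Finset.mul_sum]
          congr 2
          simp only [Finset.mul_sum]
          have e1 : ∀ i ∈ U, ∑ j ∈ U.erase i, ∑ b, ∑ b', |c b| * |c b'| *
              eE P (fun ω => (Yf P F x L k (v i b) (v j b') ω) ^ 2) =
              ∑ b, ∑ b', ∑ j ∈ U.erase i, |c b| * |c b'| *
              eE P (fun ω => (Yf P F x L k (v i b) (v j b') ω) ^ 2) := by
            intro i _
            rw [Finset.sum_comm]
            apply Finset.sum_congr rfl; intro b _
            rw [Finset.sum_comm]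
          rw [Finset.sum_congr rfl e1, Finset.sum_comm]
          apply Finset.sum_congr rfl; intro b _
          rw [Finset.sum_comm]
        _ ≤ Q ^ 4 * (C ^ 2 * ∑ b, ∑ b', |c b| * |c b'| * β) := by
          apply mul_le_mul_of_nonneg_left _ (by positivity)
          apply mul_le_mul_of_nonneg_left _ (by positivity)
          apply Finset.sum_le_sum; intro b _
          apply Finset.sum_le_sum; intro b' _
          exact mul_le_mul_of_nonneg_left (hβ b b') (by positivity)
        _ = Q ^ 4 * C ^ 4 * β := by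
          have : ∑ b, ∑ b', |c b| * |c b'| * β = C ^ 2 * β := by
            rw [hC, sq, Finset.sum_mul_sum, Finset.sum_mul]
            apply Finset.sum_congr rfl; intro b _
            rw [Finset.sum_mul]
          rw [this]; ring
    · calc ∑ i ∈ U, eE P (fun ω => (Yf P F x L k (φ i) (φ i) ω) ^ 2) ≤ ∑ i ∈ U, (Q * C) ^ 4 :=
            Finset.sum_le_sum fun i _ => hdiag i
        _ = (U.card : ℝ) * (Q * C) ^ 4 := by rw [Finset.sum_const, nsmul_eq_mul]
        _ ≤ N * (Q * C) ^ 4 := mul_le_mul_of_nonneg_right hN (by positivity)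
  have hy2 : 0 < y0 ^ 2 := by positivity
  rw [inv_mul_eq_div, le_div_iff₀ hy2, mul_comm]
  exact hsum.trans htot

/-- covariance perturbation. -/
theorem covR_diff (hP : IsProb P) (r : Setoid Ω) {f f' h h' : Ω → ℝ} {δ : ℝ} (hδ0 : 0 ≤ δ)
    (hδ : δ ≤ 1) (hf : ∀ ω, |f ω| ≤ 1) (hf' : ∀ ω, |f' ω| ≤ 1) (hh : ∀ ω, |f ω - h ω| ≤ δ)
    (hh' : ∀ ω, |f' ω - h' ω| ≤ δ) (ω : Ω) :
    |covR P r f f' ω - covR P r h h' ω| ≤ 6 * δ := by
  have hhb : ∀ ω, |h ω| ≤ 1 + δ := by
    intro ω
    have h1 := abs_le.1 (hf ω)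
    have h2 := abs_le.1 (hh ω)
    rw [abs_le]; constructor <;> linarith [h1.1, h1.2, h2.1, h2.2]
  have e1 : |cE P r (fun a => f a * f' a) ω - cE P r (fun a => h a * h' a) ω| ≤ 3 * δ := by
    rw [← cE_sub]
    apply abs_cE_le_of_le hP
    intro a
    have : f a * f' a - h a * h' a = (f a - h a) * f' a + h a * (f' a - h' a) := by ring
    rw [this]
    calc |(f a - h a) * f' a + h a * (f' a - h' a)|
        ≤ |(f a - h a) * f' a| + |h a * (f' a - h' a)| := abs_add_le _ _
      _ ≤ δ * 1 + (1 + δ) * δ := by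
        rw [abs_mul, abs_mul]
        exact add_le_add (mul_le_mul (hh a) (hf' a) (abs_nonneg _) hδ0)
          (mul_le_mul (hhb a) (hh' a) (abs_nonneg _) (by linarith))
      _ ≤ 3 * δ := by nlinarith
  have a1 : |cE P r f ω - cE P r h ω| ≤ δ := by
    rw [← cE_sub]; exact abs_cE_le_of_le hP hh ω
  have a2 : |cE P r f' ω - cE P r h' ω| ≤ δ := by
    rw [← cE_sub]; exact abs_cE_le_of_le hP hh' ω
  have a3 : |cE P r f' ω| ≤ 1 := abs_cE_le_of_le hP hf' ω
  have a4 : |cE P r h ω| ≤ 1 + δ := abs_cE_le_of_le hP hhb ω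
  have e2 : |cE P r f ω * cE P r f' ω - cE P r h ω * cE P r h' ω| ≤ 3 * δ := by
    have : cE P r f ω * cE P r f' ω - cE P r h ω * cE P r h' ω =
        (cE P r f ω - cE P r h ω) * cE P r f' ω + cE P r h ω * (cE P r f' ω - cE P r h' ω) := by ring
    rw [this]
    calc _ ≤ |(cE P r f ω - cE P r h ω) * cE P r f' ω| +
          |cE P r h ω * (cE P r f' ω - cE P r h' ω)| := abs_add_le _ _
      _ ≤ δ * 1 + (1 + δ) * δ := by
        rw [abs_mul, abs_mul]
        exact add_le_add (mul_le_mul a1 a3 (abs_nonneg _) hδ0)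
          (mul_le_mul a4 a2 (abs_nonneg _) (by linarith))
      _ ≤ 3 * δ := by nlinarith
  unfold covR
  have : cE P r (fun a => f a * f' a) ω - cE P r f ω * cE P r f' ω -
      (cE P r (fun a => h a * h' a) ω - cE P r h ω * cE P r h' ω) =
      (cE P r (fun a => f a * f' a) ω - cE P r (fun a => h a * h' a) ω) -
      (cE P r f ω * cE P r f' ω - cE P r h ω * cE P r h' ω) := by ring
  rw [this]
  calc _ ≤ |cE P r (fun a => f a * f' a) ω - cE P r (fun a => h a * h' a) ω| +
        |cE P r f ω * cE P r f' ω - cE P r h ω * cE P r h' ω| := abs_sub _ _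
    _ ≤ 3 * δ + 3 * δ := add_le_add e1 e2
    _ = 6 * δ := by ring

theorem covR_abs_le (hP : IsProb P) (r : Setoid Ω) {f f' : Ω → ℝ} (hf : ∀ ω, |f ω| ≤ 1)
    (hf' : ∀ ω, |f' ω| ≤ 1) (ω : Ω) : |covR P r f f' ω| ≤ 2 := by
  unfold covR
  have e1 : |cE P r (fun a => f a * f' a) ω| ≤ 1 := by
    apply abs_cE_le_of_le hP
    intro a
    rw [abs_mul]
    calc _ ≤ (1:ℝ) * 1 := mul_le_mul (hf a) (hf' a) (abs_nonneg _) zero_le_one
      _ = 1 := one_mul 1
  have e2 : |cE P r f ω * cE P r f' ω| ≤ 1 := by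
    rw [abs_mul]
    calc _ ≤ (1:ℝ) * 1 := mul_le_mul (abs_cE_le_of_le hP hf ω) (abs_cE_le_of_le hP hf' ω)
          (abs_nonneg _) zero_le_one
      _ = 1 := one_mul 1
  calc _ ≤ |cE P r (fun a => f a * f' a) ω| + |cE P r f ω * cE P r f' ω| := abs_sub _ _
    _ ≤ 1 + 1 := add_le_add e1 e2
    _ = 2 := by norm_num

end

end Crest.Agent.R141.Pur
end

-- ▼ part R141/PurB

/-!
Row 141 (S0192), Part L, section 2.3: purity of coordinates, averaged over the outer randomness.
-/

set_option autoImplicit false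

namespace Crest.Agent.R141.Pur

open Finset Crest.Agent.R141

noncomputable section

/-- exchange of a null step with a random coordinate of type `o'`. -/
theorem exch (p : Par) {N : ℕ} (hN : 0 < N) (k : Stp p) (o' : Option (Fin p.nb)) (G : DD p N → ℝ) :
    Ed p N (fun d => if d k = none then
        (N : ℝ)⁻¹ * ∑ j : Fin N, G (Function.update d k (some (j, o'))) else 0) =
      ((p.nb : ℝ) + 1) * Ed p N (fun d => if (∃ j : Fin N, d k = some (j, o')) then G d else 0) := by
  classical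
  set e := Equiv.funSplitAt k (Option (Crd p N)) with he
  have hdw : ∀ (a : Option (Crd p N)) (r : {j : Stp p // j ≠ k} → Option (Crd p N)),
      dw p N (e.symm (a, r)) = dw1 p N a * ∏ j, dw1 p N (r j) := by
    intro a r
    unfold dw
    rw [← Finset.mul_prod_erase Finset.univ _ (Finset.mem_univ k)]
    have h1 : e.symm (a, r) k = a := by simp [e]
    rw [h1]
    congr 1
    have h2 : ∀ j : {j : Stp p // j ≠ k}, e.symm (a, r) j = r j := by
      intro j
      have := j.2
      simp [e, Equiv.funSplitAt, Equiv.piSplitAt, this]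
    rw [Finset.prod_subtype (Finset.univ.erase k) (p := fun j => j ≠ k) (by intro x; simp)
      (fun j => dw1 p N (e.symm (a, r) j))]
    apply Finset.prod_congr rfl
    intro j _
    rw [h2]
  have hk1 : ∀ (a : Option (Crd p N)) (r : {j : Stp p // j ≠ k} → Option (Crd p N)),
      e.symm (a, r) k = a := by intro a r; simp [e]
  have hupd : ∀ (a b : Option (Crd p N)) (r : {j : Stp p // j ≠ k} → Option (Crd p N)),
      Function.update (e.symm (a, r)) k b = e.symm (b, r) := by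
    intro a b r
    funext j
    by_cases hj : j = k
    · subst hj; rw [Function.update_self, hk1]
    · rw [Function.update_of_ne hj]
      simp [e, Equiv.funSplitAt, Equiv.piSplitAt, hj]
  unfold Ed
  rw [← e.symm.sum_comp, ← e.symm.sum_comp, Fintype.sum_prod_type_right,
    Fintype.sum_prod_type_right, Finset.mul_sum]
  apply Finset.sum_congr rfl
  intro r _
  simp only [hdw, hk1, hupd]
  set w := ∏ j, dw1 p N (r j)
  rw [Fintype.sum_option, Fintype.sum_option]
  have hL : ∑ c : Crd p N, dw1 p N (some c) * w * (if (some c : Option (Crd p N)) = none then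
      (N : ℝ)⁻¹ * ∑ j : Fin N, G (e.symm (some (j, o'), r)) else 0) = 0 := by
    apply Finset.sum_eq_zero; intro c _
    simp
  rw [hL, add_zero, if_pos rfl]
  have hR0 : dw1 p N none * w * (if (∃ j : Fin N, (none : Option (Crd p N)) = some (j, o')) then
      G (e.symm (none, r)) else 0) = 0 := by
    rw [if_neg (by simp), mul_zero]
  rw [hR0, zero_add, Fintype.sum_prod_type]
  have hR1 : ∀ j : Fin N, ∑ o : Option (Fin p.nb), dw1 p N (some (j, o)) * w *
      (if (∃ j' : Fin N, (some (j, o) : Option (Crd p N)) = some (j', o')) then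
        G (e.symm (some (j, o), r)) else 0) =
      1 / (2 * ((N : ℝ) * ((p.nb : ℝ) + 1))) * w * G (e.symm (some (j, o'), r)) := by
    intro j
    rw [Finset.sum_eq_single o']
    · rw [if_pos ⟨j, rfl⟩]; rfl
    · intro o _ ho
      rw [if_neg, mul_zero]
      rintro ⟨j', hj'⟩
      apply ho
      have := Option.some.inj hj'
      exact (Prod.ext_iff.1 this).2
    · intro h; exact absurd (Finset.mem_univ _) h
  simp only [hR1]
  rw [← Finset.mul_sum]
  have hN' : (N : ℝ) ≠ 0 := by positivity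
  have hb : ((p.nb : ℝ) + 1) ≠ 0 := by positivity
  show (1 / 2 : ℝ) * w * ((N : ℝ)⁻¹ * ∑ j, G (e.symm (some (j, o'), r))) = _
  field_simp

open scoped Classical in
/-- untouched sites. -/
def Un (p : Par) (N : ℕ) (d : DD p N) : Finset (Fin N) := univ.filter (fun i => ¬ touched p N d i)

theorem mem_Un {p : Par} {N : ℕ} {d : DD p N} {i : Fin N} : i ∈ Un p N d ↔ ¬ touched p N d i := by
  simp [Un]

theorem Un_card_le (p : Par) (N : ℕ) (d : DD p N) : ((Un p N d).card : ℝ) ≤ N := by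
  have := Finset.card_le_univ (Un p N d)
  simp only [Fintype.card_fin] at this
  exact_mod_cast this

theorem Un_update {p : Par} {N : ℕ} {d : DD p N} {k : Stp p} (hk : d k = none) {i j : Fin N}
    {o : Option (Fin p.nb)} (hi : i ∈ Un p N d) (hij : i ≠ j) :
    i ∈ Un p N (Function.update d k (some (j, o))) := by
  rw [mem_Un] at hi ⊢
  rintro ⟨k', o', h⟩
  by_cases hkk : k' = k
  · subst hkk
    rw [Function.update_self] at h
    have := Option.some.inj h
    exact hij (Prod.ext_iff.1 this).1.symm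
  · rw [Function.update_of_ne hkk] at h
    exact hi ⟨k', o', h⟩

/-- the variance of the coordinate `(i,o)` at the coin step `k`. -/
def Wv (p : Par) (N : ℕ) (H : (Fin N → Bool) → ℝ) (k : Stp p) (o : Option (Fin p.nb))
    (d : DD p N) (i : Fin N) : ℝ :=
  eE (PP p N H d) (fun ω => (cE (PP p N H d) ((fil p N).F (p.ct k.1 k.2)) (cv p N (i, o)) ω -
    cE (PP p N H d) ((fil p N).F (p.ct k.1 k.2 - 1)) (cv p N (i, o)) ω) ^ 2)

/-- the impurity of the types `o, o'` at the coin step `k`. -/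
def bad (p : Par) (N : ℕ) (H : (Fin N → Bool) → ℝ) (k : Stp p) (o o' : Option (Fin p.nb))
    (d : DD p N) : ℝ :=
  ((N : ℝ) ^ 2)⁻¹ * ∑ i ∈ Un p N d, ∑ j ∈ (Un p N d).erase i, eE (PP p N H d) (fun ω =>
    (Yf (PP p N H d) (fil p N).F p.xs p.L (p.ct k.1 k.2) (cv p N (i, o)) (cv p N (j, o')) ω) ^ 2)

theorem Wv_nonneg (p : Par) (N : ℕ) (H : (Fin N → Bool) → ℝ) (k : Stp p) (o : Option (Fin p.nb))
    (d : DD p N) (i : Fin N) : 0 ≤ Wv p N H k o d i :=
  eE_nonneg (PP_isProb p N H d) (fun _ => sq_nonneg _)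

theorem bad_nonneg (p : Par) (N : ℕ) (H : (Fin N → Bool) → ℝ) (k : Stp p)
    (o o' : Option (Fin p.nb)) (d : DD p N) : 0 ≤ bad p N H k o o' d := by
  apply mul_nonneg (by positivity)
  apply Finset.sum_nonneg; intro i _
  apply Finset.sum_nonneg; intro j _
  exact eE_nonneg (PP_isProb p N H d) (fun _ => sq_nonneg _)

theorem bad_le_one (p : Par) {N : ℕ} (hN : 0 < N) (H : (Fin N → Bool) → ℝ) (k : Stp p)
    (o o' : Option (Fin p.nb)) (d : DD p N) : bad p N H k o o' d ≤ 1 := by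
  have h1 : ∀ i j : Fin N, eE (PP p N H d) (fun ω =>
      (Yf (PP p N H d) (fil p N).F p.xs p.L (p.ct k.1 k.2) (cv p N (i, o)) (cv p N (j, o')) ω) ^ 2)
      ≤ 1 := by
    intro i j
    rw [← eE_const (PP_isProb p N H d) 1]
    apply eE_mono (PP_isProb p N H d)
    intro ω
    have hsq : ∀ c : Crd p N, cE (PP p N H d) ((fil p N).F (p.ct k.1 k.2))
        (fun a => cv p N c a ^ 2) ω ≤ 1 := by
      intro c
      apply cE_le_of_le (PP_isProb p N H d)
      intro a
      rcases cv_mem p N c a with h | h <;> rw [h] <;> norm_num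
    have hY := Yf_abs_le (x := p.xs) (L := p.L) (PP_isProb p N H d) (fil p N).antitone
      (fun l _ => (p.xs_expo.pos l).le) (fun l _ => p.xs_expo.le_one l) (hsq (i, o)) (hsq (j, o'))
    rw [← sq_abs]
    calc _ ≤ (1:ℝ) ^ 2 := pow_le_pow_left₀ (abs_nonneg _) hY 2
      _ = 1 := one_pow 2
  have hN' : (0 : ℝ) < N := by exact_mod_cast hN
  have h2 : ∑ i ∈ Un p N d, ∑ j ∈ (Un p N d).erase i, eE (PP p N H d) (fun ω =>
      (Yf (PP p N H d) (fil p N).F p.xs p.L (p.ct k.1 k.2) (cv p N (i, o)) (cv p N (j, o')) ω) ^ 2)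
      ≤ (N : ℝ) ^ 2 := by
    calc _ ≤ ∑ i ∈ Un p N d, ∑ j ∈ (Un p N d).erase i, (1 : ℝ) :=
          Finset.sum_le_sum fun i _ => Finset.sum_le_sum fun j _ => h1 i j
      _ ≤ ∑ i ∈ Un p N d, (N : ℝ) := by
          apply Finset.sum_le_sum; intro i _
          rw [Finset.sum_const, nsmul_eq_mul, mul_one]
          calc (((Un p N d).erase i).card : ℝ) ≤ ((Un p N d).card : ℝ) := by
                exact_mod_cast Finset.card_le_card (Finset.erase_subset _ _)
            _ ≤ N := Un_card_le p N d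
      _ = (Un p N d).card * (N : ℝ) := by rw [Finset.sum_const, nsmul_eq_mul]
      _ ≤ N * N := mul_le_mul_of_nonneg_right (Un_card_le p N d) hN'.le
      _ = (N : ℝ) ^ 2 := by ring
  unfold bad
  rw [inv_mul_eq_div, div_le_one (by positivity)]
  exact h2

/-- sum over the coin steps of a cell of the variances. -/
theorem Wv_sum (p : Par) (N : ℕ) (H : (Fin N → Bool) → ℝ) (g : Fin p.nc) (o : Option (Fin p.nb))
    (d : DD p N) (i : Fin N) {κ : ℝ}
    (hκ : ∀ ω, |cE (PP p N H d) ((fil p N).F (p.mt g - 1)) (cv p N (i, o)) ω| ≤ κ) :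
    ∑ t : Fin p.T, Wv p N H (g, t) o d i ≤ κ ^ 2 := by
  have hab : (g : ℕ) * (p.T + 1) ≤ p.mt g - 1 := by
    unfold Par.mt
    have : ((g : ℕ) + 1) * (p.T + 1) = (g : ℕ) * (p.T + 1) + (p.T + 1) := by ring
    omega
  have h := var_sum_le (PP_isProb p N H d) (fil p N).antitone (cv p N (i, o)) hab hκ
  refine le_trans ?_ h
  have hinj : Function.Injective (fun t : Fin p.T => p.ct g t) := by
    intro a b hab
    simp only [Par.ct] at hab
    exact Fin.ext (by omega)
  have himg := Finset.sum_image (s := (univ : Finset (Fin p.T))) (g := fun t : Fin p.T => p.ct g t)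
    (f := fun k => eE (PP p N H d) (fun ω =>
      (cE (PP p N H d) ((fil p N).F k) (cv p N (i, o)) ω -
        cE (PP p N H d) ((fil p N).F (k - 1)) (cv p N (i, o)) ω) ^ 2))
    (fun a _ b _ hab => hinj hab)
  refine le_trans (le_of_eq himg.symm) ?_
  apply Finset.sum_le_sum_of_subset_of_nonneg
  · intro k hk
    rw [Finset.mem_image] at hk
    obtain ⟨t, _, rfl⟩ := hk
    rw [Finset.mem_Ioc]
    have ht := t.2
    have : ((g : ℕ) + 1) * (p.T + 1) = (g : ℕ) * (p.T + 1) + (p.T + 1) := by ring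
    unfold Par.ct Par.mt
    constructor <;> omega
  · intro k _ _
    exact eE_nonneg (PP_isProb p N H d) (fun _ => sq_nonneg _)

/-- (2.3): the impurities of a cell are small on average. -/
theorem badSum (p : Par) {N : ℕ} (hN : 0 < N) (H : (Fin N → Bool) → ℝ) (g : Fin p.nc)
    (o o' : Option (Fin p.nb)) {κ : ℝ}
    (hnoise : ∀ (d : DD p N) (t : Fin p.T) (i j : Fin N), d (g, t) = none → i ≠ j →
      i ∈ Un p N d → j ∈ Un p N d →
      eE (PP p N H d) (fun ω => (Yf (PP p N H d) (fil p N).F p.xs p.L (p.ct g t)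
        (cv p N (i, o)) (cv p N (j, o')) ω) ^ 2) ≤
      16 / p.τ ^ 2 * Wv p N H (g, t) o (Function.update d (g, t) (some (j, o'))) i +
        242 * p.τ ^ 2 * κ ^ 4)
    (hdens : ∀ (d : DD p N) (i : Fin N), i ∈ Un p N d →
      ∀ ω, |cE (PP p N H d) ((fil p N).F (p.mt g - 1)) (cv p N (i, o)) ω| ≤ κ) :
    ∑ t : Fin p.T, Ed p N (fun d => if d (g, t) = none then bad p N H (g, t) o o' d else 0) ≤
      16 / p.τ ^ 2 * (((p.nb : ℝ) + 1) * κ ^ 2) + p.T * (242 * p.τ ^ 2 * κ ^ 4) := by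
  classical
  have hN' : (0 : ℝ) < N := by exact_mod_cast hN
  have hτ0 := p.hτ0
  -- the averaged variance
  set G : Fin p.T → DD p N → ℝ := fun t d => (N : ℝ)⁻¹ * ∑ i ∈ Un p N d, Wv p N H (g, t) o d i with hG
  have hG0 : ∀ t d, 0 ≤ G t d := fun t d => mul_nonneg (by positivity)
    (Finset.sum_nonneg fun i _ => Wv_nonneg p N H (g, t) o d i)
  have hpt : ∀ t (d : DD p N), (if d (g, t) = none then bad p N H (g, t) o o' d else 0) ≤
      16 / p.τ ^ 2 * (if d (g, t) = none then (N : ℝ)⁻¹ *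
        ∑ j : Fin N, G t (Function.update d (g, t) (some (j, o'))) else 0) +
      242 * p.τ ^ 2 * κ ^ 4 := by
    intro t d
    by_cases hd : d (g, t) = none
    · rw [if_pos hd, if_pos hd]
      have h1 : bad p N H (g, t) o o' d ≤ ((N : ℝ) ^ 2)⁻¹ * ∑ i ∈ Un p N d, ∑ j ∈ (Un p N d).erase i,
          (16 / p.τ ^ 2 * Wv p N H (g, t) o (Function.update d (g, t) (some (j, o'))) i +
            242 * p.τ ^ 2 * κ ^ 4) := by
        apply mul_le_mul_of_nonneg_left _ (by positivity)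
        apply Finset.sum_le_sum; intro i hi
        apply Finset.sum_le_sum; intro j hj
        rw [Finset.mem_erase] at hj
        exact hnoise d t i j hd (Ne.symm hj.1) hi hj.2
      have h2 : ∑ i ∈ Un p N d, ∑ j ∈ (Un p N d).erase i,
          (16 / p.τ ^ 2 * Wv p N H (g, t) o (Function.update d (g, t) (some (j, o'))) i +
            242 * p.τ ^ 2 * κ ^ 4) ≤
          16 / p.τ ^ 2 * ∑ j : Fin N, ∑ i ∈ Un p N (Function.update d (g, t) (some (j, o'))),
            Wv p N H (g, t) o (Function.update d (g, t) (some (j, o'))) i +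
          (N : ℝ) ^ 2 * (242 * p.τ ^ 2 * κ ^ 4) := by
        simp only [Finset.sum_add_distrib]
        apply add_le_add
        · simp only [← Finset.mul_sum]
          apply mul_le_mul_of_nonneg_left _ (by positivity)
          have e1 : ∑ i ∈ Un p N d, ∑ j ∈ (Un p N d).erase i,
              Wv p N H (g, t) o (Function.update d (g, t) (some (j, o'))) i =
              ∑ i : Fin N, ∑ j : Fin N, if (i ∈ Un p N d ∧ j ∈ (Un p N d).erase i) then
                Wv p N H (g, t) o (Function.update d (g, t) (some (j, o'))) i else 0 := by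
            rw [← Finset.sum_subset (Finset.subset_univ (Un p N d))]
            · apply Finset.sum_congr rfl; intro i hi
              rw [← Finset.sum_subset (Finset.subset_univ ((Un p N d).erase i))]
              · apply Finset.sum_congr rfl; intro j hj
                rw [if_pos ⟨hi, hj⟩]
              · intro j _ hj
                rw [if_neg (fun h => hj h.2)]
            · intro i _ hi
              apply Finset.sum_eq_zero; intro j _
              rw [if_neg (fun h => hi h.1)]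
          rw [e1, Finset.sum_comm]
          apply Finset.sum_le_sum; intro j _
          rw [← Finset.sum_subset (Finset.subset_univ
            (Un p N (Function.update d (g, t) (some (j, o')))))]
          · apply Finset.sum_le_sum; intro i _
            split_ifs
            · exact le_rfl
            · exact Wv_nonneg p N H (g, t) o _ i
          · intro i _ hi
            rw [if_neg]
            rintro ⟨h3, h4⟩
            rw [Finset.mem_erase] at h4
            exact hi (Un_update hd h3 (Ne.symm h4.1))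
        · have hc : 0 ≤ 242 * p.τ ^ 2 * κ ^ 4 := by positivity
          calc ∑ i ∈ Un p N d, ∑ j ∈ (Un p N d).erase i, 242 * p.τ ^ 2 * κ ^ 4
              ≤ ∑ i ∈ Un p N d, (N : ℝ) * (242 * p.τ ^ 2 * κ ^ 4) := by
                apply Finset.sum_le_sum; intro i _
                rw [Finset.sum_const, nsmul_eq_mul]
                apply mul_le_mul_of_nonneg_right _ hc
                calc (((Un p N d).erase i).card : ℝ) ≤ ((Un p N d).card : ℝ) := by
                      exact_mod_cast Finset.card_le_card (Finset.erase_subset _ _)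
                  _ ≤ N := Un_card_le p N d
            _ = (Un p N d).card * ((N : ℝ) * (242 * p.τ ^ 2 * κ ^ 4)) := by
                rw [Finset.sum_const, nsmul_eq_mul]
            _ ≤ N * ((N : ℝ) * (242 * p.τ ^ 2 * κ ^ 4)) :=
                mul_le_mul_of_nonneg_right (Un_card_le p N d) (by positivity)
            _ = (N : ℝ) ^ 2 * (242 * p.τ ^ 2 * κ ^ 4) := by ring
      refine h1.trans ((mul_le_mul_of_nonneg_left h2 (by positivity)).trans (le_of_eq ?_))
      simp only [hG, ← Finset.mul_sum]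
      field_simp
    · rw [if_neg hd, if_neg hd]
      positivity
  have hEd : ∀ t, Ed p N (fun d => if d (g, t) = none then bad p N H (g, t) o o' d else 0) ≤
      16 / p.τ ^ 2 * (((p.nb : ℝ) + 1) * Ed p N (G t)) + 242 * p.τ ^ 2 * κ ^ 4 := by
    intro t
    refine (Ed_mono p N (hpt t)).trans ?_
    rw [Ed_add, Ed_smul, exch p hN (g, t) o' (G t), Ed_const p hN]
    gcongr
    apply Ed_mono
    intro d
    split_ifs
    · exact le_rfl
    · exact hG0 t d
  have hsumG : ∑ t, Ed p N (G t) ≤ κ ^ 2 := by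
    rw [← Ed_sum]
    rw [← Ed_const p hN (κ ^ 2)]
    apply Ed_mono
    intro d
    simp only [hG]
    rw [← Finset.mul_sum, Finset.sum_comm]
    calc (N : ℝ)⁻¹ * ∑ i ∈ Un p N d, ∑ t, Wv p N H (g, t) o d i
        ≤ (N : ℝ)⁻¹ * ∑ i ∈ Un p N d, κ ^ 2 := by
          apply mul_le_mul_of_nonneg_left _ (by positivity)
          apply Finset.sum_le_sum; intro i hi
          exact Wv_sum p N H g o d i (hdens d i hi)
      _ = (N : ℝ)⁻¹ * ((Un p N d).card * κ ^ 2) := by rw [Finset.sum_const, nsmul_eq_mul]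
      _ ≤ (N : ℝ)⁻¹ * (N * κ ^ 2) := by
          apply mul_le_mul_of_nonneg_left _ (by positivity)
          exact mul_le_mul_of_nonneg_right (Un_card_le p N d) (sq_nonneg _)
      _ = κ ^ 2 := by field_simp
  calc ∑ t : Fin p.T, Ed p N (fun d => if d (g, t) = none then bad p N H (g, t) o o' d else 0)
      ≤ ∑ t : Fin p.T, (16 / p.τ ^ 2 * (((p.nb : ℝ) + 1) * Ed p N (G t)) +
        242 * p.τ ^ 2 * κ ^ 4) := Finset.sum_le_sum fun t _ => hEd t
    _ = 16 / p.τ ^ 2 * (((p.nb : ℝ) + 1) * ∑ t, Ed p N (G t)) +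
        p.T * (242 * p.τ ^ 2 * κ ^ 4) := by
      rw [Finset.sum_add_distrib, ← Finset.mul_sum, ← Finset.mul_sum, Finset.sum_const,
        Finset.card_univ, Fintype.card_fin, nsmul_eq_mul]
    _ ≤ _ := by gcongr

end

end Crest.Agent.R141.Pur
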