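import Mathlib
import Crest.Prelude.Def_DilutedSpinGlass
import Crest.Agent.R141.FactDef
import Crest.Agent.R141.Fact
import Crest.Agent.R141.HierE
import Crest.Agent.R141.HierA
import Crest.Agent.R141.KerS
import Crest.Agent.R141.Bridge36b

-- ▼ part R141/FactMain
section

/-!
Row 141, Part L, section 3.5: comparison of the common-path nested functional `Theta` with the
independent-path one `ThetaI` (main theorem `fact_main`).
-/

set_option autoImplicit false

namespace Crest.Agent.R141.Fact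

open Finset
open Crest.ProbabilityR.Diluted (spinVal)

/-- the approximation claim, by induction on the depth -/
theorem approx {ns : ℕ} (W0 : (Fin ns → Bool) → ℝ) (f : ℕ → ℝ → ℝ)
    (hf : ∀ n, Continuous (f n)) (n : ℕ) : ∀ ε : ℝ, 0 < ε →
    ∃ (E : Expr ns n) (SS : (m : ℕ) → List (Shape m)) (δ : ℝ), 0 < δ ∧ (∀ m, n ≤ m → SS m = []) ∧
      ∀ (Ω I : Type) [Fintype Ω] [Fintype I] (P : Ω → ℝ) (K : ℕ → Ω → Ω → ℝ)
        (sg : I → Ω → Bool), Nonempty I → (∀ ω, 0 ≤ P ω) → (∑ ω, P ω = 1) →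
        (∀ m, IsMarkov (K m)) → (∀ m < n, ∀ ω', ∑ ω, P ω * K m ω ω' = P ω') →
        (∀ m, ∀ s ∈ SS m, ∑ ω, P ω * avgCov (K m) ω (Vf K sg m s) ≤ δ) →
        (∀ i w, |ThetaI K sg W0 f n i w - evalI K sg E i w| ≤ ε) ∧
        avg (fun i : Fin ns → I => ∑ ω, P ω *
          |Theta K sg W0 f n i ω - evalI K sg E i (fun _ => ω)|) ≤ ε := by
  induction n with
  | zero =>
    intro ε hε
    obtain ⟨E, hE⟩ := exists_expr_zero W0
    refine ⟨E, fun _ => [], 1, one_pos, fun _ _ => rfl, ?_⟩
    intro Ω I _ _ P K sg _ _ _ _ _ _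
    refine ⟨?_, ?_⟩
    · intro i w
      rw [hE]
      simp only [ThetaI, sub_self, abs_zero]
      exact hε.le
    · have : ∀ (i : Fin ns → I) (ω : Ω),
          Theta K sg W0 f 0 i ω - evalI K sg E i (fun _ => ω) = 0 := by
        intro i ω
        rw [hE]
        simp only [Theta, sub_self]
      simp only [this, abs_zero, mul_zero, Finset.sum_const_zero, avg]
      exact hε.le
  | succ n ih =>
    intro ε hε
    obtain ⟨R, hR0, hR⟩ := exists_bound W0 f hf n
    obtain ⟨C, hC0, hC⟩ := exists_modulus (hf n) (R + 1) (ε := ε / 3) (by positivity)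
    obtain ⟨Q, hQ⟩ := exists_polynomial_near_of_continuousOn (-(R + 1)) (R + 1) (f n)
      (hf n).continuousOn (ε / 3) (by positivity)
    -- accuracy at the previous depth
    set ε' : ℝ := min 1 (ε / (6 * (C + 1))) with hε'
    have hε'0 : 0 < ε' := lt_min one_pos (by positivity)
    obtain ⟨E, SS, δ, hδ, hSS, hE⟩ := ih ε' hε'0
    obtain ⟨E', hE'⟩ := exists_poly_expr E Q
    set M : ℝ := (E.map fun t => |t.1|).sum with hM
    have hM0 : 0 ≤ M := List.sum_nonneg (by
      intro x hx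
      obtain ⟨t, _, rfl⟩ := List.mem_map.1 hx
      exact abs_nonneg _)
    set δ' : ℝ := (ε / (6 * (C + 1) * (M + 1) * (ns + 1))) ^ 2 with hδ'
    have hδ'0 : 0 < δ' := by positivity
    refine ⟨E', Function.update SS n (E.flatMap fun t => List.ofFn t.2), min δ δ',
      lt_min hδ hδ'0, ?_, ?_⟩
    · intro m hm
      rw [Function.update_of_ne (by omega)]
      exact hSS m (by omega)
    intro Ω I _ _ P K sg hI hP hP1 hK hinv hpure
    have hpure1 : ∀ m, ∀ s ∈ SS m, ∑ ω, P ω * avgCov (K m) ω (Vf K sg m s) ≤ δ := by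
      intro m s hs
      by_cases hm : m = n
      · subst hm
        rw [hSS m le_rfl] at hs
        exact absurd hs (List.not_mem_nil)
      · refine (hpure m s ?_).trans (min_le_left _ _)
        rwa [Function.update_of_ne hm]
    have hpure2 : ∀ t ∈ E, ∀ l, ∑ ω, P ω * avgCov (K n) ω (Vf K sg n (t.2 l)) ≤ δ' := by
      intro t ht l
      refine (hpure n (t.2 l) ?_).trans (min_le_right _ _)
      rw [Function.update_self]
      exact List.mem_flatMap.2 ⟨t, ht, by rw [List.mem_ofFn]; exact ⟨l, rfl⟩⟩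
    obtain ⟨hind, hcom⟩ := hE Ω I P K sg hI hP hP1 hK (fun m hm => hinv m (by omega)) hpure1
    obtain ⟨hRI, hRC⟩ := hR Ω I K sg hK
    have hε'1 : ε' ≤ 1 := min_le_left _ _
    have hε'2 : C * ε' ≤ ε / 6 := by
      have h1 : ε' ≤ ε / (6 * (C + 1)) := min_le_right _ _
      calc C * ε' ≤ (C + 1) * (ε / (6 * (C + 1))) := by
            apply mul_le_mul _ h1 hε'0.le (by positivity); linarith
        _ = ε / 6 := by field_simp
    -- range of the expression evaluations
    have hev : ∀ i w, evalI K sg E i w ∈ Set.Icc (-(R + 1)) (R + 1) := by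
      intro i w
      have h1 := abs_le.1 (hind i w)
      have h2 := hRI i w
      constructor
      · linarith [h1.2, h2.1]
      · linarith [h1.1, h2.2]
    have hkev : ∀ i w, kevalI K sg E i w ∈ Set.Icc (-(R + 1)) (R + 1) := by
      intro i w
      rw [← EkInd_evalI K sg E i w]
      exact EkInd_mem_Icc (hK n) (hev i) w
    have hsub : Set.Icc (-R) R ⊆ Set.Icc (-(R + 1)) (R + 1) :=
      Set.Icc_subset_Icc (by linarith) (by linarith)
    -- the basic estimate
    have hbasic : ∀ x ∈ Set.Icc (-(R + 1)) (R + 1), ∀ y ∈ Set.Icc (-(R + 1)) (R + 1),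
        |f n x - Q.eval y| ≤ 2 * (ε / 3) + C * |x - y| := by
      intro x hx y hy
      have h1 := hC x hx y hy
      have h2 := (hQ y hy).le
      have h3 : |f n x - Q.eval y| ≤ |f n x - f n y| + |Q.eval y - f n y| := by
        have := abs_sub_le (f n x) (f n y) (Q.eval y)
        rwa [abs_sub_comm (f n y)] at this
      linarith
    refine ⟨?_, ?_⟩
    · intro i w
      rw [hE']
      simp only [ThetaI]
      have hx : EkInd (K n) (ThetaI K sg W0 f n i) w ∈ Set.Icc (-R) R :=
        EkInd_mem_Icc (hK n) (hRI i) w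
      refine (hbasic _ (hsub hx) _ (hkev i w)).trans ?_
      have h1 : |EkInd (K n) (ThetaI K sg W0 f n i) w - kevalI K sg E i w| ≤ ε' := by
        rw [← EkInd_evalI K sg E i w, ← EkInd_sub]
        have := EkInd_mem_Icc (hK n) (F := fun a => ThetaI K sg W0 f n i a - evalI K sg E i a)
          (a := -ε') (b := ε') (fun a => abs_le.1 (hind i a)) w
        exact abs_le.2 this
      have h2 : C * |EkInd (K n) (ThetaI K sg W0 f n i) w - kevalI K sg E i w| ≤ C * ε' :=
        mul_le_mul_of_nonneg_left h1 hC0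
      linarith
    · simp only [hE', Theta]
      have h1 : ∀ (i : Fin ns → I) (ω : Ω),
          |f n (Ek (K n) (Theta K sg W0 f n i) ω) - Q.eval (kevalI K sg E i fun _ => ω)| ≤
          2 * (ε / 3) + (C * Ek (K n) (fun ω' => |Theta K sg W0 f n i ω' -
            evalI K sg E i (fun _ => ω')|) ω +
            C * |Ek (K n) (fun ω' => evalI K sg E i (fun _ => ω')) ω -
              kevalI K sg E i (fun _ => ω)|) := by
        intro i ω
        have hx : Ek (K n) (Theta K sg W0 f n i) ω ∈ Set.Icc (-R) R :=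
          Ek_mem_Icc (hK n) (hRC i) ω
        refine (hbasic _ (hsub hx) _ (hkev i _)).trans ?_
        rw [← mul_add]
        refine add_le_add le_rfl (mul_le_mul_of_nonneg_left ?_ hC0)
        have h2 := abs_sub_le (Ek (K n) (Theta K sg W0 f n i) ω)
          (Ek (K n) (fun ω' => evalI K sg E i (fun _ => ω')) ω) (kevalI K sg E i (fun _ => ω))
        have h3 : |Ek (K n) (Theta K sg W0 f n i) ω -
            Ek (K n) (fun ω' => evalI K sg E i (fun _ => ω')) ω| ≤
            Ek (K n) (fun ω' => |Theta K sg W0 f n i ω' - evalI K sg E i (fun _ => ω')|) ω := by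
          rw [← Ek_sub]
          exact Ek_abs_le (hK n) _ ω
        linarith
      have h2 : avg (fun i : Fin ns → I => ∑ ω, P ω *
          |f n (Ek (K n) (Theta K sg W0 f n i) ω) - Q.eval (kevalI K sg E i fun _ => ω)|) ≤
          2 * (ε / 3) + (C * avg (fun i : Fin ns → I => ∑ ω, P ω *
            |Theta K sg W0 f n i ω - evalI K sg E i (fun _ => ω)|) +
            C * avg (fun i : Fin ns → I => ∑ ω, P ω *
              |Ek (K n) (fun ω' => evalI K sg E i (fun _ => ω')) ω -
              kevalI K sg E i (fun _ => ω)|)) := by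
        rw [← avg_smul, ← avg_smul, ← avg_add]
        have hc : (2 * (ε / 3)) = avg (fun _ : Fin ns → I => 2 * (ε / 3)) := (avg_const _).symm
        rw [hc, ← avg_add]
        refine avg_mono fun i => ?_
        have e1 := sum_P_Ek (hinv n (Nat.lt_succ_self n)) (fun ω' => |Theta K sg W0 f n i ω' -
            evalI K sg E i (fun _ => ω')|)
        have e2 : 2 * (ε / 3) = ∑ ω, P ω * (2 * (ε / 3)) := by
          rw [← Finset.sum_mul, hP1, one_mul]
        rw [e2, ← e1, Finset.mul_sum, Finset.mul_sum, ← Finset.sum_add_distrib,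
          ← Finset.sum_add_distrib]
        refine Finset.sum_le_sum fun ω _ => ?_
        refine (mul_le_mul_of_nonneg_left (h1 i ω) (hP ω)).trans (le_of_eq ?_)
        ring
      have h3 := expr_factorization hI hP hP1 hK E hpure2
      have h4 : C * (M * (ns * Real.sqrt δ')) ≤ ε / 6 := by
        have e1 : Real.sqrt δ' = ε / (6 * (C + 1) * (M + 1) * (ns + 1)) := by
          rw [hδ']
          exact Real.sqrt_sq (by positivity)
        rw [e1]
        have h5 : C * (M * (ns * (ε / (6 * (C + 1) * (M + 1) * (ns + 1))))) ≤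
            (C + 1) * ((M + 1) * ((ns + 1) * (ε / (6 * (C + 1) * (M + 1) * (ns + 1))))) := by
          gcongr <;> linarith
        refine h5.trans (le_of_eq ?_)
        field_simp
      have h5 : C * avg (fun i : Fin ns → I => ∑ ω, P ω *
            |Theta K sg W0 f n i ω - evalI K sg E i (fun _ => ω)|) ≤ C * ε' :=
        mul_le_mul_of_nonneg_left hcom hC0
      have h6 : C * avg (fun i : Fin ns → I => ∑ ω, P ω *
              |Ek (K n) (fun ω' => evalI K sg E i (fun _ => ω')) ω -
              kevalI K sg E i (fun _ => ω)|) ≤ C * (M * (ns * Real.sqrt δ')) :=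
        mul_le_mul_of_nonneg_left h3 hC0
      linarith

/-- **Main theorem of 3.4/3.5** (globally continuous version). -/
theorem fact_main_cont {ns : ℕ} (W0 : (Fin ns → Bool) → ℝ) (f : ℕ → ℝ → ℝ)
    (hf : ∀ n, Continuous (f n)) (n : ℕ) (ε : ℝ) (hε : 0 < ε) :
    ∃ (SS : (m : ℕ) → List (Shape m)) (δ : ℝ), 0 < δ ∧ (∀ m, n ≤ m → SS m = []) ∧
      ∀ (Ω I : Type) [Fintype Ω] [Fintype I] (P : Ω → ℝ) (K : ℕ → Ω → Ω → ℝ)
        (sg : I → Ω → Bool), Nonempty I → (∀ ω, 0 ≤ P ω) → (∑ ω, P ω = 1) →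
        (∀ m, IsMarkov (K m)) → (∀ m < n, ∀ ω', ∑ ω, P ω * K m ω ω' = P ω') →
        (∀ m, ∀ s ∈ SS m, ∑ ω, P ω * avgCov (K m) ω (Vf K sg m s) ≤ δ) →
        avg (fun i : Fin ns → I => ∑ ω, P ω *
          |Theta K sg W0 f n i ω - ThetaI K sg W0 f n i (fun _ => ω)|) ≤ ε := by
  obtain ⟨E, SS, δ, hδ, hSS, hE⟩ := approx W0 f hf n (ε / 2) (by positivity)
  refine ⟨SS, δ, hδ, hSS, ?_⟩
  intro Ω I _ _ P K sg hI hP hP1 hK hinv hpure
  obtain ⟨hind, hcom⟩ := hE Ω I P K sg hI hP hP1 hK hinv hpure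
  have h1 : avg (fun i : Fin ns → I => ∑ ω, P ω *
      |Theta K sg W0 f n i ω - ThetaI K sg W0 f n i (fun _ => ω)|) ≤
      avg (fun i : Fin ns → I => ∑ ω, P ω *
          |Theta K sg W0 f n i ω - evalI K sg E i (fun _ => ω)|) + avg (fun _ : Fin ns → I => ε / 2) := by
    rw [← avg_add]
    refine avg_mono fun i => ?_
    have e2 : ε / 2 = ∑ ω, P ω * (ε / 2) := by rw [← Finset.sum_mul, hP1, one_mul]
    conv_rhs => rw [e2]
    rw [← Finset.sum_add_distrib]
    refine Finset.sum_le_sum fun ω _ => ?_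
    rw [← mul_add]
    refine mul_le_mul_of_nonneg_left ?_ (hP ω)
    have h2 := abs_sub_le (Theta K sg W0 f n i ω) (evalI K sg E i (fun _ => ω))
      (ThetaI K sg W0 f n i (fun _ => ω))
    have h3 := hind i (fun _ => ω)
    rw [abs_sub_comm] at h3
    linarith
  rw [avg_const] at h1
  linarith

/-- clamp -/
noncomputable def clamp (a b x : ℝ) : ℝ := max a (min x b)

lemma clamp_of_mem {a b x : ℝ} (h : x ∈ Set.Icc a b) : clamp a b x = x := by
  unfold clamp
  rw [min_eq_left h.2, max_eq_right h.1]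

lemma clamp_mem {a b x : ℝ} (h : a ≤ b) : clamp a b x ∈ Set.Icc a b :=
  ⟨le_max_left _ _, max_le h (min_le_right _ _)⟩

lemma continuous_clamp (a b : ℝ) : Continuous (clamp a b) := by
  unfold clamp
  fun_prop

/-- **Main theorem of 3.4/3.5.** -/
theorem fact_main {ns : ℕ} (W0 : (Fin ns → Bool) → ℝ) (f : ℕ → ℝ → ℝ) (lo hi : ℕ → ℝ) (n : ℕ)
    (hW0 : ∀ b, W0 b ∈ Set.Icc (lo 0) (hi 0))
    (hf : ∀ m < n, ContinuousOn (f m) (Set.Icc (lo m) (hi m)))
    (hmaps : ∀ m < n, Set.MapsTo (f m) (Set.Icc (lo m) (hi m)) (Set.Icc (lo (m + 1)) (hi (m + 1))))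
    (ε : ℝ) (hε : 0 < ε) :
    ∃ (SS : (m : ℕ) → List (Shape m)) (δ : ℝ), 0 < δ ∧ (∀ m, n ≤ m → SS m = []) ∧
      ∀ (Ω I : Type) [Fintype Ω] [Fintype I] (P : Ω → ℝ) (K : ℕ → Ω → Ω → ℝ)
        (sg : I → Ω → Bool), Nonempty I → (∀ ω, 0 ≤ P ω) → (∑ ω, P ω = 1) →
        (∀ m, IsMarkov (K m)) → (∀ m < n, ∀ ω', ∑ ω, P ω * K m ω ω' = P ω') →
        (∀ m, ∀ s ∈ SS m, ∑ ω, P ω * avgCov (K m) ω (Vf K sg m s) ≤ δ) →
        avg (fun i : Fin ns → I => ∑ ω, P ω *
          |Theta K sg W0 f n i ω - ThetaI K sg W0 f n i (fun _ => ω)|) ≤ ε := by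
  have hle : ∀ m ≤ n, lo m ≤ hi m := by
    intro m
    induction m with
    | zero => intro _; exact (hW0 (fun _ => true)).1.trans (hW0 (fun _ => true)).2
    | succ m ih =>
      intro hm
      have h1 := hmaps m (by omega) (Set.left_mem_Icc.2 (ih (by omega)))
      exact h1.1.trans h1.2
  set f' : ℕ → ℝ → ℝ := fun m x => if m < n then f m (clamp (lo m) (hi m) x) else 0 with hf'
  have hcont : ∀ m, Continuous (f' m) := by
    intro m
    by_cases hm : m < n
    · have : f' m = fun x => f m (clamp (lo m) (hi m) x) := by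
        funext x; simp only [hf', if_pos hm]
      rw [this]
      exact (hf m hm).comp_continuous (continuous_clamp _ _) (fun x => clamp_mem (hle m hm.le))
    · have : f' m = fun _ => 0 := by
        funext x; simp only [hf', if_neg hm]
      rw [this]; exact continuous_const
  obtain ⟨SS, δ, hδ, hSS, hE⟩ := fact_main_cont W0 f' hcont n ε hε
  refine ⟨SS, δ, hδ, hSS, ?_⟩
  intro Ω I _ _ P K sg hI hP hP1 hK hinv hpure
  have hT : ∀ m ≤ n, (∀ i ω, Theta K sg W0 f m i ω ∈ Set.Icc (lo m) (hi m)) ∧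
      (∀ i ω, Theta K sg W0 f' m i ω = Theta K sg W0 f m i ω) := by
    intro m
    induction m with
    | zero => intro _; exact ⟨fun i ω => hW0 _, fun i ω => rfl⟩
    | succ m ih =>
      intro hm
      obtain ⟨h1, h2⟩ := ih (by omega)
      have h3 : ∀ i, Theta K sg W0 f' m i = Theta K sg W0 f m i := fun i => funext (h2 i)
      have h4 : ∀ i ω, Ek (K m) (Theta K sg W0 f m i) ω ∈ Set.Icc (lo m) (hi m) :=
        fun i ω => Ek_mem_Icc (hK m) (h1 i) ω
      refine ⟨fun i ω => hmaps m (by omega) (h4 i ω), fun i ω => ?_⟩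
      simp only [Theta, h3]
      simp only [hf', if_pos (show m < n by omega), clamp_of_mem (h4 i ω)]
  have hTI : ∀ m ≤ n, (∀ i w, ThetaI K sg W0 f m i w ∈ Set.Icc (lo m) (hi m)) ∧
      (∀ i w, ThetaI K sg W0 f' m i w = ThetaI K sg W0 f m i w) := by
    intro m
    induction m with
    | zero => intro _; exact ⟨fun i ω => hW0 _, fun i ω => rfl⟩
    | succ m ih =>
      intro hm
      obtain ⟨h1, h2⟩ := ih (by omega)
      have h3 : ∀ i, ThetaI K sg W0 f' m i = ThetaI K sg W0 f m i := fun i => funext (h2 i)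
      have h4 : ∀ i w, EkInd (K m) (ThetaI K sg W0 f m i) w ∈ Set.Icc (lo m) (hi m) :=
        fun i w => EkInd_mem_Icc (hK m) (h1 i) w
      refine ⟨fun i w => hmaps m (by omega) (h4 i w), fun i w => ?_⟩
      simp only [ThetaI, h3]
      simp only [hf', if_pos (show m < n by omega), clamp_of_mem (h4 i w)]
  have := hE Ω I P K sg hI hP hP1 hK hinv hpure
  simpa only [(hT n le_rfl).2, (hTI n le_rfl).2] using this

end Crest.Agent.R141.Fact
end

-- ▼ part R141/FactHier
section

/-!
Row 141, Part L: bridge between the kernel form (`Fact`) and the conditional expectations `cE`,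
and the version of `fact_main` for finite families of site functions averaged over an outer finite
randomness.
-/

set_option autoImplicit false

namespace Crest.Agent.R141.Fact

open Finset
open Crest.ProbabilityR.Diluted (spinVal)

/-! ### kernels of conditional expectations -/

section kern

variable {Ω : Type} [Fintype Ω]

open scoped Classical in
/-- The kernel of the conditional expectation `cE P r`. -/
noncomputable def kern (P : Ω → ℝ) (r : Setoid Ω) (ω ω' : Ω) : ℝ :=
  if r ω ω' then P ω' / (∑ a ∈ univ.filter (fun a => r ω a), P a) else 0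







end kern

/-! ### ranges -/

section ranges

variable {Ω I : Type} [Fintype Ω] {ns : ℕ} {K : ℕ → Ω → Ω → ℝ} {sg : I → Ω → Bool}
  {W0 : (Fin ns → Bool) → ℝ} {f : ℕ → ℝ → ℝ} {lo hi : ℕ → ℝ} {n : ℕ}

theorem Theta_mem (hK : ∀ m, IsMarkov (K m)) (hW0 : ∀ b, W0 b ∈ Set.Icc (lo 0) (hi 0))
    (hmaps : ∀ m < n, Set.MapsTo (f m) (Set.Icc (lo m) (hi m))
      (Set.Icc (lo (m + 1)) (hi (m + 1)))) :
    ∀ m ≤ n, ∀ i ω, Theta K sg W0 f m i ω ∈ Set.Icc (lo m) (hi m) := by
  intro m
  induction m with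
  | zero => intro _ i ω; exact hW0 _
  | succ m ih =>
    intro hm i ω
    exact hmaps m (by omega) (Ek_mem_Icc (hK m) (ih (by omega) i) ω)

theorem ThetaI_mem (hK : ∀ m, IsMarkov (K m)) (hW0 : ∀ b, W0 b ∈ Set.Icc (lo 0) (hi 0))
    (hmaps : ∀ m < n, Set.MapsTo (f m) (Set.Icc (lo m) (hi m))
      (Set.Icc (lo (m + 1)) (hi (m + 1)))) :
    ∀ m ≤ n, ∀ i w, ThetaI K sg W0 f m i w ∈ Set.Icc (lo m) (hi m) := by
  intro m
  induction m with
  | zero => intro _ i ω; exact hW0 _
  | succ m ih =>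
    intro hm i w
    exact hmaps m (by omega) (EkInd_mem_Icc (hK m) (ih (by omega) i) w)

end ranges

/-- **Family version of `fact_main` with an outer average.** -/
theorem fact_family {A : Type} [Fintype A] (ns : A → ℕ)
    (W0 : (a : A) → (Fin (ns a) → Bool) → ℝ) (f : ℕ → ℝ → ℝ) (lo hi : ℕ → ℝ) (n : ℕ)
    (hW0 : ∀ a b, W0 a b ∈ Set.Icc (lo 0) (hi 0))
    (hf : ∀ m < n, ContinuousOn (f m) (Set.Icc (lo m) (hi m)))
    (hmaps : ∀ m < n, Set.MapsTo (f m) (Set.Icc (lo m) (hi m)) (Set.Icc (lo (m + 1)) (hi (m + 1))))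
    (ε : ℝ) (hε : 0 < ε) :
    ∃ (SS : (m : ℕ) → List (Shape m)) (δ : ℝ), 0 < δ ∧ (∀ m, n ≤ m → SS m = []) ∧
      ∀ (Ω I D : Type) [Fintype Ω] [Fintype I] [Fintype D] (q : D → ℝ) (P : D → Ω → ℝ)
        (K : D → ℕ → Ω → Ω → ℝ) (sg : I → Ω → Bool), Nonempty I →
        (∀ d, 0 ≤ q d) → (∑ d, q d ≤ 1) → (∀ d ω, 0 ≤ P d ω) → (∀ d, ∑ ω, P d ω = 1) →
        (∀ d m, IsMarkov (K d m)) → (∀ d, ∀ m < n, ∀ ω', ∑ ω, P d ω * K d m ω ω' = P d ω') →
        (∀ m, ∀ s ∈ SS m, ∑ d, q d * ∑ ω, P d ω * avgCov (K d m) ω (Vf (K d) sg m s) ≤ δ) →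
        ∀ a, ∑ d, q d * avg (fun i : Fin (ns a) → I => ∑ ω, P d ω *
          |Theta (K d) sg (W0 a) f n i ω - ThetaI (K d) sg (W0 a) f n i (fun _ => ω)|) ≤ ε := by
  classical
  choose SS δ hδ hSS hmain using fun a => fact_main (W0 a) f lo hi n (hW0 a) hf hmaps (ε / 2)
    (by positivity)
  -- number of shapes for `a`
  set c : A → ℝ := fun a => ∑ m ∈ Finset.range n, ((SS a m).length : ℝ) with hc
  have hc0 : ∀ a, 0 ≤ c a := fun a => Finset.sum_nonneg fun _ _ => by positivity
  set Rg : ℝ := |hi n - lo n| with hRg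
  have hRg0 : 0 ≤ Rg := abs_nonneg _
  set η : A → ℝ := fun a => (ε / 2) * δ a / ((Rg + 1) * (c a + 1)) with hη
  have hη0 : ∀ a, 0 < η a := fun a => by
    have := hδ a; have := hc0 a
    simp only [hη]; positivity
  obtain ⟨δ0, hδ0, hδ0le⟩ : ∃ δ0 : ℝ, 0 < δ0 ∧ ∀ a, δ0 ≤ η a := by
    by_cases hA : Nonempty A
    · refine ⟨Finset.univ.inf' Finset.univ_nonempty η, ?_, fun a => Finset.inf'_le _ (Finset.mem_univ a)⟩
      rw [Finset.lt_inf'_iff]
      exact fun a _ => hη0 a
    · exact ⟨1, one_pos, fun a => absurd ⟨a⟩ hA⟩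
  refine ⟨fun m => (Finset.univ : Finset A).toList.flatMap (fun a => SS a m), δ0, hδ0, ?_, ?_⟩
  · intro m hm
    simp only [hSS _ m hm]
    induction (Finset.univ : Finset A).toList with
    | nil => rfl
    | cons a L ih => simp
  intro Ω I D _ _ _ q P K sg hI hq hq1 hP hP1 hK hinv hpure a
  -- total impurity for `a`
  set imp : D → ℝ := fun d => ∑ m ∈ Finset.range n,
    ((SS a m).map fun s => ∑ ω, P d ω * avgCov (K d m) ω (Vf (K d) sg m s)).sum with himp
  have hterm0 : ∀ d m (s : Shape m), 0 ≤ ∑ ω, P d ω * avgCov (K d m) ω (Vf (K d) sg m s) :=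
    fun d m s => Finset.sum_nonneg fun ω _ => mul_nonneg (hP d ω) (avgCov_nonneg _ _)
  have himp0 : ∀ d, 0 ≤ imp d := fun d => Finset.sum_nonneg fun m _ => List.sum_nonneg (by
    intro x hx
    obtain ⟨s, _, rfl⟩ := List.mem_map.1 hx
    exact hterm0 d m s)
  have hle : ∀ d, ∀ m, ∀ s ∈ SS a m,
      ∑ ω, P d ω * avgCov (K d m) ω (Vf (K d) sg m s) ≤ imp d := by
    intro d m s hs
    have hm : m < n := by
      by_contra h
      rw [hSS a m (not_lt.1 h)] at hs
      exact absurd hs List.not_mem_nil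
    calc _ ≤ ((SS a m).map fun s => ∑ ω, P d ω * avgCov (K d m) ω (Vf (K d) sg m s)).sum := by
          apply List.single_le_sum
          · intro x hx
            obtain ⟨s, _, rfl⟩ := List.mem_map.1 hx
            exact hterm0 d m s
          · exact List.mem_map.2 ⟨s, hs, rfl⟩
      _ ≤ imp d := Finset.single_le_sum (f := fun m => ((SS a m).map fun s =>
            ∑ ω, P d ω * avgCov (K d m) ω (Vf (K d) sg m s)).sum)
          (fun m _ => List.sum_nonneg (by
            intro x hx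
            obtain ⟨s, _, rfl⟩ := List.mem_map.1 hx
            exact hterm0 d m s)) (Finset.mem_range.2 hm)
  have hfac : ∀ d, avg (fun i : Fin (ns a) → I => ∑ ω, P d ω *
      |Theta (K d) sg (W0 a) f n i ω - ThetaI (K d) sg (W0 a) f n i (fun _ => ω)|) ≤
      ε / 2 + Rg / δ a * imp d := by
    intro d
    by_cases h : imp d ≤ δ a
    · have h1 := hmain a Ω I (P d) (K d) sg hI (hP d) (hP1 d) (hK d) (hinv d)
        (fun m s hs => (hle d m s hs).trans h)
      have h2 : 0 ≤ Rg / δ a * imp d :=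
        mul_nonneg (div_nonneg hRg0 (hδ a).le) (himp0 d)
      linarith
    · have h1 : ∀ (i : Fin (ns a) → I) (ω : Ω),
          |Theta (K d) sg (W0 a) f n i ω - ThetaI (K d) sg (W0 a) f n i (fun _ => ω)| ≤ Rg := by
        intro i ω
        have h2 := Theta_mem (sg := sg) (hK d) (hW0 a) hmaps n le_rfl i ω
        have h3 := ThetaI_mem (sg := sg) (hK d) (hW0 a) hmaps n le_rfl i (fun _ => ω)
        refine le_trans ?_ (le_abs_self _)
        rw [abs_le]
        constructor
        · linarith [h2.1, h3.2]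
        · linarith [h2.2, h3.1]
      have h2 : avg (fun i : Fin (ns a) → I => ∑ ω, P d ω *
          |Theta (K d) sg (W0 a) f n i ω - ThetaI (K d) sg (W0 a) f n i (fun _ => ω)|) ≤ Rg := by
        refine (avg_mono (g := fun _ => Rg) fun i => ?_).trans (avg_const _).le
        calc _ ≤ ∑ ω, P d ω * Rg :=
              Finset.sum_le_sum fun ω _ => mul_le_mul_of_nonneg_left (h1 i ω) (hP d ω)
          _ = Rg := by rw [← Finset.sum_mul, hP1, one_mul]
      have h3 : Rg ≤ Rg / δ a * imp d := by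
        rw [div_mul_eq_mul_div, le_div_iff₀ (hδ a)]
        exact mul_le_mul_of_nonneg_left (not_le.1 h).le hRg0
      linarith
  have hsum_imp : ∑ d, q d * imp d ≤ c a * δ0 := by
    have e1 : ∑ d, q d * imp d = ∑ m ∈ Finset.range n, ((SS a m).map fun s =>
        ∑ d, q d * ∑ ω, P d ω * avgCov (K d m) ω (Vf (K d) sg m s)).sum := by
      simp only [himp, Finset.mul_sum]
      rw [Finset.sum_comm]
      refine Finset.sum_congr rfl fun m _ => ?_
      induction SS a m with
      | nil => simp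
      | cons s L ih =>
        simp only [List.map_cons, List.sum_cons, mul_add, Finset.sum_add_distrib, Finset.mul_sum]
        rw [ih]
    rw [e1, hc, Finset.sum_mul]
    refine Finset.sum_le_sum fun m _ => ?_
    have hb : ∀ s ∈ SS a m, ∑ d, q d * ∑ ω, P d ω * avgCov (K d m) ω (Vf (K d) sg m s) ≤ δ0 := by
      intro s hs
      exact hpure m s (List.mem_flatMap.2 ⟨a, by simp, hs⟩)
    have : ∀ L : List (Shape m), (∀ s ∈ L, ∑ d, q d * ∑ ω, P d ω *
        avgCov (K d m) ω (Vf (K d) sg m s) ≤ δ0) →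
        (L.map fun s => ∑ d, q d * ∑ ω, P d ω * avgCov (K d m) ω (Vf (K d) sg m s)).sum ≤
          (L.length : ℝ) * δ0 := by
      intro L
      induction L with
      | nil => intro _; simp
      | cons s L ih =>
        intro h
        simp only [List.map_cons, List.sum_cons, List.length_cons]
        have h1 := h s List.mem_cons_self
        have h2 := ih fun s' hs' => h s' (List.mem_cons_of_mem _ hs')
        push_cast
        linarith
    exact this _ hb
  calc _ ≤ ∑ d, q d * (ε / 2 + Rg / δ a * imp d) :=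
        Finset.sum_le_sum fun d _ => mul_le_mul_of_nonneg_left (hfac d) (hq d)
    _ = (∑ d, q d) * (ε / 2) + Rg / δ a * ∑ d, q d * imp d := by
        rw [Finset.mul_sum, Finset.sum_mul, ← Finset.sum_add_distrib]
        exact Finset.sum_congr rfl fun _ _ => by ring
    _ ≤ 1 * (ε / 2) + Rg / δ a * (c a * δ0) := by
        refine add_le_add (mul_le_mul_of_nonneg_right hq1 (by positivity))
          (mul_le_mul_of_nonneg_left hsum_imp (div_nonneg hRg0 (hδ a).le))
    _ ≤ ε / 2 + ε / 2 := by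
        rw [one_mul]
        refine add_le_add le_rfl ?_
        have h1 : Rg / δ a * (c a * δ0) ≤ (Rg + 1) / δ a * ((c a + 1) * η a) := by
          have := hδ a
          have := hc0 a
          have := hδ0le a
          have := (hη0 a).le
          gcongr <;> linarith
        refine h1.trans (le_of_eq ?_)
        simp only [hη]
        have := hδ a
        have := hc0 a
        field_simp
    _ = ε := by ring

end Crest.Agent.R141.Fact
end

-- ▼ part R141/SkelPm

/-!
Row 141, Part L: the nested functional `Theta` with the skeleton exponents in log form (`skelA`,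
chain of `pm`), and the final form `fact_skel` of the comparison between the common-path skeleton
value and the independent-path recursion `Br.thInd`, for finite families of site functions with
arbitrary finite slot types.
-/

set_option autoImplicit false

namespace Crest.Agent.R141.Fact

open Finset
open Crest.ProbabilityR.Diluted (spinVal)
open Crest.Agent.R141.KerS

/-- skeleton exponents by depth: `ySk J n = (J + 1 - n) / (J + 1)` -/
noncomputable def ySk (J n : ℕ) : ℝ := ((J : ℝ) + 1 - n) / ((J : ℝ) + 1)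

theorem ySk_zero (J : ℕ) : ySk J 0 = 1 := by
  unfold ySk
  have : (0 : ℝ) < (J : ℝ) + 1 := by positivity
  rw [Nat.cast_zero, sub_zero, div_self this.ne']

theorem ySk_pos {J n : ℕ} (h : n ≤ J) : 0 < ySk J n := by
  unfold ySk
  have h1 : (n : ℝ) ≤ J := by exact_mod_cast h
  apply div_pos <;> [linarith; positivity]

theorem ySk_le_one (J n : ℕ) : ySk J n ≤ 1 := by
  unfold ySk
  rw [div_le_one (by positivity)]
  have : (0 : ℝ) ≤ n := by positivity
  linarith

/-- the chain of log power means along the partitions `r 0, r 1, ...` (inner to outer) -/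
noncomputable def skelA {Ω : Type} [Fintype Ω] (P : Ω → ℝ) (r : ℕ → Setoid Ω) (y : ℕ → ℝ)
    (U : Ω → ℝ) : ℕ → Ω → ℝ
  | 0 => U
  | n + 1 => pm P (r n) (y n) (skelA P r y U n)

section skel

variable {Ω I : Type} [Fintype Ω] {P : Ω → ℝ} {ns : ℕ}

theorem fExp_step {J n : ℕ} (hJ : 1 ≤ J) (hn : n < J) (z : ℝ) :
    Br.fExp J (Br.mSk J) n (Real.exp (ySk J n * z)) = Real.exp (ySk J (n + 1) * z) := by
  rw [Br.fExp_mSk J hJ]
  have hJ0 : (0 : ℝ) < (J : ℝ) + 1 := by positivity
  have hn' : (n : ℝ) < J := by exact_mod_cast hn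
  by_cases h0 : n = 0
  · subst h0
    rw [if_pos rfl, ySk_zero, one_mul, ← Real.exp_mul]
    congr 1
    unfold ySk
    push_cast
    field_simp
    ring
  · rw [if_neg h0, if_pos hn, ← Real.exp_mul]
    congr 1
    unfold ySk
    push_cast
    have h1 : (0 : ℝ) < (J : ℝ) - n + 1 := by linarith
    field_simp
    ring

theorem fExp_last {J : ℕ} (hJ : 1 ≤ J) (z : ℝ) :
    Br.fExp J (Br.mSk J) J (Real.exp (ySk J J * z)) = z := by
  rw [Br.fExp_mSk J hJ, if_neg (by omega), if_neg (lt_irrefl _), Real.log_exp]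
  unfold ySk
  have hJ0 : (0 : ℝ) < (J : ℝ) + 1 := by positivity
  field_simp
  ring

theorem Theta_eq_exp_skelA (hP : IsProb P) {J : ℕ} (hJ : 1 ≤ J) (r : ℕ → Setoid Ω)
    (sg : I → Ω → Bool) (W0 : (Fin ns → Bool) → ℝ) (hW0 : ∀ b, 0 < W0 b) (i : Fin ns → I) :
    ∀ n ≤ J, ∀ ω, Theta (fun m => kerS P (r m)) sg W0 (Br.fExp J (Br.mSk J)) n i ω =
      Real.exp (ySk J n * skelA P r (ySk J) (fun ω => Real.log (W0 (fun l => sg (i l) ω))) n ω) := by
  intro n
  induction n with
  | zero =>
    intro _ ω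
    rw [ySk_zero, one_mul]
    simp only [skelA, Theta]
    rw [Real.exp_log (hW0 _)]
  | succ n ih =>
    intro hn ω
    simp only [Theta, Ek_kerS]
    have h1 : Theta (fun m => kerS P (r m)) sg W0 (Br.fExp J (Br.mSk J)) n i = fun ω =>
        Real.exp (ySk J n * skelA P r (ySk J) (fun ω => Real.log (W0 (fun l => sg (i l) ω))) n ω) :=
      funext (ih (by omega))
    rw [h1, ← exp_pm hP (r n) (ySk_pos (by omega))]
    simp only [skelA]
    exact fExp_step hJ (by omega) _

theorem Theta_eq_skelA (hP : IsProb P) {J : ℕ} (hJ : 1 ≤ J) (r : ℕ → Setoid Ω)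
    (sg : I → Ω → Bool) (W0 : (Fin ns → Bool) → ℝ) (hW0 : ∀ b, 0 < W0 b) (i : Fin ns → I) (ω : Ω) :
    Theta (fun m => kerS P (r m)) sg W0 (Br.fExp J (Br.mSk J)) (J + 1) i ω =
      skelA P r (ySk J) (fun ω => Real.log (W0 (fun l => sg (i l) ω))) (J + 1) ω := by
  simp only [Theta, Ek_kerS]
  have h1 : Theta (fun m => kerS P (r m)) sg W0 (Br.fExp J (Br.mSk J)) J i = fun ω =>
      Real.exp (ySk J J * skelA P r (ySk J) (fun ω => Real.log (W0 (fun l => sg (i l) ω))) J ω) :=
    funext (Theta_eq_exp_skelA hP hJ r sg W0 hW0 i J le_rfl)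
  rw [h1, ← exp_pm hP (r J) (ySk_pos le_rfl)]
  simp only [skelA]
  exact fExp_last hJ _

end skel

theorem ThetaI_eq_thInd {Ω I : Type} [Fintype Ω] {ns : ℕ} (K : ℕ → Ω → Ω → ℝ)
    (sg : I → Ω → Bool) (W0 : (Fin ns → Bool) → ℝ) (f : ℕ → ℝ → ℝ) (n : ℕ) (i : Fin ns → I)
    (w : Fin ns → Ω) : ThetaI K sg W0 f n i w = Br.thInd K sg f W0 i n w := by
  induction n generalizing w with
  | zero => rfl
  | succ n ih =>
    simp only [ThetaI, Br.thInd, EkInd, ih]

/-- **Final comparison of Part L**: skeleton value along the common path versus the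
independent-path recursion. -/
theorem fact_skel {A : Type} [Fintype A] (S : A → Type) [∀ a, Fintype (S a)]
    [∀ a, DecidableEq (S a)] (W0 : (a : A) → (S a → Bool) → ℝ) (hW0 : ∀ a b, 0 < W0 a b)
    (c : ℝ) (hc : ∀ a b, |Real.log (W0 a b)| ≤ c) (J : ℕ) (hJ : 1 ≤ J) (ε : ℝ) (hε : 0 < ε) :
    ∃ (SS : (m : ℕ) → List (Shape m)) (δ : ℝ), 0 < δ ∧ (∀ m, J + 1 ≤ m → SS m = []) ∧
      ∀ (Ω I D : Type) [Fintype Ω] [Fintype I] [Fintype D] (q : D → ℝ) (P : D → Ω → ℝ)
        (r : D → ℕ → Setoid Ω) (sg : I → Ω → Bool), Nonempty I →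
        (∀ d, 0 ≤ q d) → (∑ d, q d ≤ 1) → (∀ d, IsProb (P d)) →
        (∀ m, ∀ s ∈ SS m, ∑ d, q d * ∑ ω, P d ω *
          avgCov (kerS (P d) (r d m)) ω (VS (P d) (r d) sg m s) ≤ δ) →
        ∀ a, ∑ d, q d * avg (fun i : S a → I => ∑ ω, P d ω *
          |skelA (P d) (r d) (ySk J) (fun ω => Real.log (W0 a (fun l => sg (i l) ω))) (J + 1) ω -
            Br.thInd (fun m => kerS (P d) (r d m)) sg (Br.fExp J (Br.mSk J)) (W0 a) i (J + 1)
              (fun _ => ω)|) ≤ ε := by
  classical
  set ns : A → ℕ := fun a => Fintype.card (S a) with hns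
  let e : (a : A) → S a ≃ Fin (ns a) := fun a => Fintype.equivFin (S a)
  set W1 : (a : A) → (Fin (ns a) → Bool) → ℝ := fun a σ => W0 a (fun l => σ (e a l)) with hW1
  have hc0 : ∀ a b, W1 a b ∈ Set.Icc (Real.exp (-c)) (Real.exp c) := by
    intro a b
    have h1 := abs_le.1 (hc a (fun l => b (e a l)))
    have h2 : W1 a b = Real.exp (Real.log (W0 a (fun l => b (e a l)))) :=
      (Real.exp_log (hW0 _ _)).symm
    rw [h2]
    exact ⟨Real.exp_le_exp.2 h1.1, Real.exp_le_exp.2 h1.2⟩
  set lo : ℕ → ℝ := fun n => if n ≤ J then Real.exp (-c) else -(((J : ℝ) + 1) * |c|) with hlo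
  set hi : ℕ → ℝ := fun n => if n ≤ J then Real.exp c else ((J : ℝ) + 1) * |c| with hhi
  have hJ0 : (0 : ℝ) < (J : ℝ) + 1 := by positivity
  have hf : ∀ m < J + 1, ContinuousOn (Br.fExp J (Br.mSk J) m) (Set.Icc (lo m) (hi m)) := by
    intro m hm
    have hpos : ∀ x ∈ Set.Icc (lo m) (hi m), 0 < x := by
      intro x hx
      have h1 : lo m = Real.exp (-c) := by simp only [hlo, if_pos (show m ≤ J by omega)]
      exact lt_of_lt_of_le (h1 ▸ Real.exp_pos _) hx.1
    by_cases h0 : m = 0
    · have : Br.fExp J (Br.mSk J) m = fun s : ℝ => s ^ ((J : ℝ) / ((J : ℝ) + 1)) := by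
        funext s; rw [Br.fExp_mSk J hJ, if_pos h0]
      rw [this]
      exact fun x hx => (Real.continuousAt_rpow_const x _ (Or.inl (hpos x hx).ne')).continuousWithinAt
    · by_cases h1 : m < J
      · have : Br.fExp J (Br.mSk J) m = fun s : ℝ => s ^ (((J : ℝ) - m) / ((J : ℝ) - m + 1)) := by
          funext s; rw [Br.fExp_mSk J hJ, if_neg h0, if_pos h1]
        rw [this]
        exact fun x hx =>
          (Real.continuousAt_rpow_const x _ (Or.inl (hpos x hx).ne')).continuousWithinAt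
      · have : Br.fExp J (Br.mSk J) m = fun s : ℝ => ((J : ℝ) + 1) * Real.log s := by
          funext s; rw [Br.fExp_mSk J hJ, if_neg h0, if_neg h1]
        rw [this]
        exact fun x hx =>
          (continuousAt_const.mul (Real.continuousAt_log (hpos x hx).ne')).continuousWithinAt
  have hmaps : ∀ m < J + 1, Set.MapsTo (Br.fExp J (Br.mSk J) m) (Set.Icc (lo m) (hi m))
      (Set.Icc (lo (m + 1)) (hi (m + 1))) := by
    intro m hm x hx
    have e1 : lo m = Real.exp (-c) := by simp only [hlo, if_pos (show m ≤ J by omega)]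
    have e2 : hi m = Real.exp c := by simp only [hhi, if_pos (show m ≤ J by omega)]
    rw [e1, e2] at hx
    have hx0 : 0 < x := lt_of_lt_of_le (Real.exp_pos _) hx.1
    have hl1 : -c ≤ Real.log x := by
      rw [← Real.log_exp (-c)]; exact Real.log_le_log (Real.exp_pos _) hx.1
    have hl2 : Real.log x ≤ c := by
      rw [← Real.log_exp c]; exact Real.log_le_log hx0 hx.2
    have hcc : 0 ≤ c := by linarith
    -- power case
    have hpow : ∀ ρ : ℝ, 0 ≤ ρ → ρ ≤ 1 → x ^ ρ ∈ Set.Icc (Real.exp (-c)) (Real.exp c) := by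
      intro ρ h0 h1
      rw [Real.rpow_def_of_pos hx0]
      have hlow : -c ≤ Real.log x * ρ := by nlinarith
      have hupp : Real.log x * ρ ≤ c := by nlinarith
      exact ⟨Real.exp_le_exp.2 hlow, Real.exp_le_exp.2 hupp⟩
    rw [Br.fExp_mSk J hJ]
    by_cases h0 : m = 0
    · have e3 : lo (m + 1) = Real.exp (-c) := by simp only [hlo, if_pos (show m + 1 ≤ J by omega)]
      have e4 : hi (m + 1) = Real.exp c := by simp only [hhi, if_pos (show m + 1 ≤ J by omega)]
      rw [if_pos h0, e3, e4]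
      apply hpow
      · positivity
      · rw [div_le_one hJ0]; linarith
    · by_cases h1 : m < J
      · have e3 : lo (m + 1) = Real.exp (-c) := by
          simp only [hlo, if_pos (show m + 1 ≤ J by omega)]
        have e4 : hi (m + 1) = Real.exp c := by simp only [hhi, if_pos (show m + 1 ≤ J by omega)]
        have hm' : (m : ℝ) < J := by exact_mod_cast h1
        rw [if_neg h0, if_pos h1, e3, e4]
        apply hpow
        · apply div_nonneg <;> linarith
        · rw [div_le_one (by linarith)]; linarith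
      · have e3 : lo (m + 1) = -(((J : ℝ) + 1) * |c|) := by
          simp only [hlo, if_neg (show ¬ (m + 1 ≤ J) by omega)]
        have e4 : hi (m + 1) = ((J : ℝ) + 1) * |c| := by
          simp only [hhi, if_neg (show ¬ (m + 1 ≤ J) by omega)]
        rw [if_neg h0, if_neg h1, e3, e4, abs_of_nonneg hcc]
        constructor <;> nlinarith
  obtain ⟨SS, δ, hδ, hSS, hmain⟩ := fact_family ns W1 (Br.fExp J (Br.mSk J)) lo hi (J + 1)
    (by
      intro a b
      have e1 : lo 0 = Real.exp (-c) := by simp only [hlo, if_pos (Nat.zero_le J)]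
      have e2 : hi 0 = Real.exp c := by simp only [hhi, if_pos (Nat.zero_le J)]
      rw [e1, e2]
      exact hc0 a b) hf hmaps ε hε
  refine ⟨SS, δ, hδ, hSS, ?_⟩
  intro Ω I D _ _ _ q P r sg hI hq hq1 hP hpure a
  have h := hmain Ω I D q P (fun d m => kerS (P d) (r d m)) sg hI hq hq1
    (fun d ω => ((hP d).pos ω).le) (fun d => (hP d).sum) (fun d m => isMarkov_kerS (hP d) _)
    (fun d m _ => stat_kerS (hP d) _) hpure a
  refine le_trans (le_of_eq ?_) h
  refine Finset.sum_congr rfl fun d _ => ?_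
  congr 1
  unfold avg
  have hcard : Fintype.card (S a → I) = Fintype.card (Fin (ns a) → I) :=
    Fintype.card_congr (Equiv.arrowCongr (e a) (Equiv.refl I))
  rw [hcard]
  congr 1
  refine Fintype.sum_equiv (Equiv.arrowCongr (e a) (Equiv.refl I)) _ _ fun i => ?_
  refine Finset.sum_congr rfl fun ω _ => ?_
  congr 2
  have hi' : ∀ l, (Equiv.arrowCongr (e a) (Equiv.refl I)) i (e a l) = i l := by
    intro l; simp [Equiv.arrowCongr]
  rw [Theta_eq_skelA (hP d) hJ (r d) sg (W1 a) (fun b => hW0 _ _), ThetaI_eq_thInd]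
  congr 1
  · simp only [hW1, hi']
  · have h2 := Br.thInd_reindex (e a) (fun m => kerS (P d) (r d m)) sg (Br.fExp J (Br.mSk J))
      (W0 a) ((Equiv.arrowCongr (e a) (Equiv.refl I)) i) (J + 1) (fun _ => ω)
    simp only [hi'] at h2
    exact h2.symm

end Crest.Agent.R141.Fact
private theorem rz_15ca44489a : type_of% @_root_.Crest.Agent.R141.Fact.skelA.eq_def := @_root_.Crest.Agent.R141.Fact.skelA.eq_def -- L42
private theorem rz_fe4de65182 : type_of% @_root_.Crest.Agent.R141.Fact.skelA.eq_1 := @_root_.Crest.Agent.R141.Fact.skelA.eq_1 -- L42
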