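import Crest.Agent.R141.KerS
import Crest.Agent.R141.Fact
import Crest.Agent.R141.Skel31
import Crest.Agent.R141.SkelPm
import Crest.Agent.R141.Sys
import Crest.Agent.R141.Asm0
import Crest.Agent.R141.SysSym
import Crest.Agent.R141.PurD
import Crest.Agent.R141.OuterSys2
import Crest.Agent.R141.Closure
import Crest.Agent.R141.SysCtx

-- ▼ part R141/Quiet
section

/-!
Row 141 (S0192), Part L, 3.2: quiet cells.  Deterministic part, for a fixed finite filtered
probability space.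

`st g` is the index of the end of cell `g-1` (= start of cell `g`), `t g` the observation step in
cell `g`: `st g ≤ t g < st (g+1)`.  `c n` is the cell chosen at depth `n`.
-/

set_option autoImplicit false

namespace Crest.Agent.R141.Quiet

open Finset Crest.Agent.R141.KerS
open Crest.Agent.R141.Fact hiding Shape
open Crest.ProbabilityR.Diluted (spinVal)
open Crest.Agent.R141.Clo (Shape)

noncomputable section

/-! ### L2 lemmas -/

section L2

variable {Ω : Type} [Fintype Ω] {P : Ω → ℝ}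

theorem pythag (hP : IsProb P) {r s : Setoid Ω} (h : s ≤ r) (φ : Ω → ℝ) :
    eE P (fun ω => (cE P s φ ω - cE P r φ ω) ^ 2) =
      eE P (fun ω => cE P s φ ω ^ 2) - eE P (fun ω => cE P r φ ω ^ 2) := by
  have h1 : (fun ω => (cE P s φ ω - cE P r φ ω) ^ 2) = fun ω =>
      cE P s φ ω ^ 2 - (2 * (cE P r φ ω * cE P s φ ω) - cE P r φ ω * cE P r φ ω) := by
    funext ω; ring
  have h2 : eE P (fun ω => cE P r φ ω * cE P s φ ω) = eE P (fun ω => cE P r φ ω ^ 2) := by
    rw [← eE_cE hP r (fun ω => cE P r φ ω * cE P s φ ω)]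
    congr 1
    funext ω
    rw [cE_mul_left (cE_meas P r φ), cE_tower hP h, sq]
  have h3 : eE P (fun ω => cE P r φ ω * cE P r φ ω) = eE P (fun ω => cE P r φ ω ^ 2) := by
    congr 1; funext ω; rw [sq]
  rw [h1, eE_sub, eE_sub, eE_smul, h2, h3]
  ring

theorem sq_mono (hP : IsProb P) {r s : Setoid Ω} (h : s ≤ r) (φ : Ω → ℝ) :
    eE P (fun ω => cE P r φ ω ^ 2) ≤ eE P (fun ω => cE P s φ ω ^ 2) := by
  have h1 := pythag hP h φ
  have h2 : 0 ≤ eE P (fun ω => (cE P s φ ω - cE P r φ ω) ^ 2) :=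
    eE_nonneg hP (fun _ => sq_nonneg _)
  linarith

theorem l2_between (hP : IsProb P) {r r' s : Setoid Ω} (h1 : s ≤ r') (h2 : r' ≤ r)
    (φ : Ω → ℝ) :
    eE P (fun ω => (cE P s φ ω - cE P r' φ ω) ^ 2) ≤
      eE P (fun ω => (cE P s φ ω - cE P r φ ω) ^ 2) := by
  rw [pythag hP h1, pythag hP (h1.trans h2)]
  linarith [sq_mono hP h2 φ]

theorem eE_sq_le (hP : IsProb P) (f : Ω → ℝ) : (eE P f) ^ 2 ≤ eE P (fun ω => f ω ^ 2) := by
  have h : eE P (fun ω => (f ω - eE P f) ^ 2) = eE P (fun ω => f ω ^ 2) - (eE P f) ^ 2 := by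
    have h1 : (fun ω => (f ω - eE P f) ^ 2) = fun ω =>
        f ω ^ 2 - ((2 * eE P f) * f ω - (eE P f) ^ 2) := by
      funext ω; ring
    rw [h1, eE_sub, eE_sub, eE_smul, eE_const hP]
    ring
  have h2 : 0 ≤ eE P (fun ω => (f ω - eE P f) ^ 2) := eE_nonneg hP (fun _ => sq_nonneg _)
  linarith

variable {I : Type} [Fintype I]

theorem avg_sq_le (a : I → ℝ) : (avg a) ^ 2 ≤ avg (fun i => a i ^ 2) := by
  rcases isEmpty_or_nonempty I with hI | hI
  · simp [avg]
  · unfold avg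
    have h := sq_sum_le_card_mul_sum_sq (s := (Finset.univ : Finset I)) (f := a)
    have hc : (0 : ℝ) < Fintype.card I := by exact_mod_cast Fintype.card_pos
    rw [Finset.card_univ] at h
    rw [mul_pow]
    calc ((Fintype.card I : ℝ)⁻¹) ^ 2 * (∑ i, a i) ^ 2
        ≤ ((Fintype.card I : ℝ)⁻¹) ^ 2 * ((Fintype.card I : ℝ) * ∑ i, a i ^ 2) :=
          mul_le_mul_of_nonneg_left h (sq_nonneg _)
      _ = (Fintype.card I : ℝ)⁻¹ * ∑ i, a i ^ 2 := by field_simp

/-- average of L1 norms is at most the square root of the average of squared L2 norms -/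
theorem avg_abs_le_sqrt (hP : IsProb P) (f : I → Ω → ℝ) :
    avg (fun i => eE P (fun ω => |f i ω|)) ≤
      Real.sqrt (avg (fun i => eE P (fun ω => f i ω ^ 2))) := by
  apply Real.le_sqrt_of_sq_le
  refine (avg_sq_le _).trans (avg_mono fun i => ?_)
  refine (eE_sq_le hP _).trans (le_of_eq ?_)
  congr 1
  funext ω
  exact sq_abs _

theorem eE_abs_cE_le (hP : IsProb P) (r : Setoid Ω) (f : Ω → ℝ) :
    eE P (fun ω => |cE P r f ω|) ≤ eE P (fun ω => |f ω|) := by
  rw [← eE_cE hP r (fun ω => |f ω|)]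
  exact eE_mono hP (fun ω => cE_abs_le hP f ω)

end L2

/-! ### bounded shapes -/

/-- finitely many shapes: all lists have length at most `M` -/
theorem exists_SSb (M : ℕ) : ∃ SS : (n : ℕ) → Finset (Shape n),
    (∀ s : Shape 0, s ∈ SS 0) ∧
    ∀ n (s : Shape (n + 1)), s ∈ SS (n + 1) ↔ s.toList.length ≤ M ∧ ∀ q ∈ s.toList, q ∈ SS n := by
  classical
  have hfin : ∀ n, ∀ S : Finset (Shape n),
      {s : Shape (n + 1) | s.toList.length ≤ M ∧ ∀ q ∈ s.toList, q ∈ S}.Finite := by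
    intro n S
    have h1 : {l : List S | l.length ≤ M}.Finite := List.finite_length_le S M
    refine (h1.image (fun l : List S =>
      (Shape.ofList (List.map Subtype.val l) : Shape (n + 1)))).subset ?_
    intro s hs
    refine ⟨s.toList.attach.map (fun x => ⟨x.1, hs.2 x.1 x.2⟩), ?_, ?_⟩
    · show (s.toList.attach.map (fun x => (⟨x.1, hs.2 x.1 x.2⟩ : S))).length ≤ M
      rw [List.length_map, List.length_attach]; exact hs.1
    · show Shape.ofList (List.map Subtype.val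
        (List.map (fun x => (⟨x.1, hs.2 x.1 x.2⟩ : S)) s.toList.attach)) = s
      rw [List.map_map]
      have : ((Subtype.val : S → Shape n) ∘
          (fun x : {x // x ∈ s.toList} => (⟨x.1, hs.2 x.1 x.2⟩ : S))) =
          Subtype.val := rfl
      rw [this, List.attach_map_subtype_val]
      rfl
  refine ⟨fun n => Nat.rec (motive := fun n => Finset (Shape n))
    (show Finset (Shape 0) from (Finset.univ : Finset Bool))
    (fun n S => (hfin n S).toFinset) n, ?_, ?_⟩
  · intro s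
    exact Finset.mem_univ (show Bool from s)
  · intro n s
    exact (hfin n _).mem_toFinset

/-- every finite list of shapes is contained in a bounded family -/
theorem exists_bound_shape : ∀ (n : ℕ) (s : Shape n), ∃ M : ℕ, ∀ M' ≥ M,
    ∀ SS : (n : ℕ) → Finset (Shape n),
    (∀ s : Shape 0, s ∈ SS 0) →
    (∀ n (s : Shape (n + 1)), s ∈ SS (n + 1) ↔
      s.toList.length ≤ M' ∧ ∀ q ∈ s.toList, q ∈ SS n) → s ∈ SS n := by
  intro n
  induction n with
  | zero => intro s; exact ⟨0, fun _ _ SS h _ => h s⟩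
  | succ n ih =>
    intro s
    choose Mf hMf using ih
    refine ⟨max s.toList.length ((s.toList.map Mf).sum), fun M' hM' SS h0 h1 => ?_⟩
    rw [h1]
    refine ⟨(le_max_left _ _).trans hM', fun q hq => ?_⟩
    apply hMf q M' _ SS h0 h1
    refine le_trans ?_ ((le_max_right _ _).trans hM')
    exact List.single_le_sum (fun x _ => Nat.zero_le x) _ (List.mem_map_of_mem hq)

/-! ### quiet cells -/

section cells

variable {Ω I : Type} [Fintype Ω] [Fintype I] {P : Ω → ℝ}

/-- partitions at the ends of the chosen cells -/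
def Rm (𝓕 : Filt Ω) (st : ℕ → ℕ) (c : ℕ → ℕ) (n : ℕ) : Setoid Ω := 𝓕.F (st (c n + 1))

/-- partitions at the observation steps of the chosen cells -/
def Rt (𝓕 : Filt Ω) (t : ℕ → ℕ) (c : ℕ → ℕ) (n : ℕ) : Setoid Ω := 𝓕.F (t (c n))

/-- (non)quietness of the cell `g` for the family `φ` -/
def qt (P : Ω → ℝ) (𝓕 : Filt Ω) (st : ℕ → ℕ) (φ : I → Ω → ℝ) (g : ℕ) : ℝ :=
  avg (fun i => eE P (fun ω =>
    (cE P (𝓕.F (st (g + 1))) (φ i) ω - cE P (𝓕.F (st g)) (φ i) ω) ^ 2))

theorem qt_nonneg (hP : IsProb P) (𝓕 : Filt Ω) (st : ℕ → ℕ) (φ : I → Ω → ℝ) (g : ℕ) :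
    0 ≤ qt P 𝓕 st φ g :=
  avg_nonneg fun _ => eE_nonneg hP fun _ => sq_nonneg _

omit [Fintype Ω] in
theorem filt_anti (𝓕 : Filt Ω) {k m : ℕ} (h : k ≤ m) : 𝓕.F m ≤ 𝓕.F k := by
  induction h with
  | refl => exact le_rfl
  | step _ ih => exact (𝓕.anti _).trans ih

theorem sum_qt_le (hP : IsProb P) (𝓕 : Filt Ω) {st : ℕ → ℕ} (hst : Monotone st)
    {φ : I → Ω → ℝ} (hφ : ∀ i ω, |φ i ω| ≤ 1) {a b : ℕ} (hab : a ≤ b) :
    ∑ g ∈ Ico a b, qt P 𝓕 st φ g ≤ 1 := by
  have h1 : ∀ g, qt P 𝓕 st φ g =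
      avg (fun i => eE P (fun ω => cE P (𝓕.F (st (g + 1))) (φ i) ω ^ 2)) -
      avg (fun i => eE P (fun ω => cE P (𝓕.F (st g)) (φ i) ω ^ 2)) := by
    intro g
    unfold qt
    have h2 : ∀ i, eE P (fun ω =>
        (cE P (𝓕.F (st (g + 1))) (φ i) ω - cE P (𝓕.F (st g)) (φ i) ω) ^ 2) =
        eE P (fun ω => cE P (𝓕.F (st (g + 1))) (φ i) ω ^ 2) +
          (-1) * eE P (fun ω => cE P (𝓕.F (st g)) (φ i) ω ^ 2) := by
      intro i
      rw [pythag hP (filt_anti 𝓕 (hst (Nat.le_succ g)))]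
      ring
    simp only [h2]
    rw [avg_add, avg_smul]
    ring
  have htel : ∑ g ∈ Ico a b, qt P 𝓕 st φ g =
      avg (fun i => eE P (fun ω => cE P (𝓕.F (st b)) (φ i) ω ^ 2)) -
      avg (fun i => eE P (fun ω => cE P (𝓕.F (st a)) (φ i) ω ^ 2)) := by
    simp only [h1]
    exact Finset.sum_Ico_sub
      (fun g => avg (fun i => eE P (fun ω => cE P (𝓕.F (st g)) (φ i) ω ^ 2))) hab
  rw [htel]
  have h2 : 0 ≤ avg (fun i => eE P (fun ω => cE P (𝓕.F (st a)) (φ i) ω ^ 2)) :=
    avg_nonneg fun _ => eE_nonneg hP fun _ => sq_nonneg _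
  have h3 : avg (fun i => eE P (fun ω => cE P (𝓕.F (st b)) (φ i) ω ^ 2)) ≤ 1 := by
    rcases isEmpty_or_nonempty I with hI | hI
    · simp [avg]
    · calc _ ≤ avg (fun _ : I => (1 : ℝ)) := avg_mono fun i => by
            rw [← eE_const hP 1]
            apply eE_mono hP
            intro ω
            have := abs_cE_le_of_le hP (r := 𝓕.F (st b)) (hφ i) ω
            rw [abs_le] at this
            nlinarith
        _ = 1 := avg_const 1
  linarith

/-- choice of one quiet cell in a window -/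
theorem exists_cell (hP : IsProb P) (𝓕 : Filt Ω) {st : ℕ → ℕ} (hst : Monotone st)
    {α : Type} (S : Finset α) (φ : α → I → Ω → ℝ) (hφ : ∀ s ∈ S, ∀ i ω, |φ s i ω| ≤ 1)
    (a w : ℕ) (hw : 0 < w) :
    ∃ g, a ≤ g ∧ g < a + w ∧ ∀ s ∈ S, qt P 𝓕 st (φ s) g ≤ (S.card : ℝ) / w := by
  have hne : (Ico a (a + w)).Nonempty := by
    rw [Finset.nonempty_Ico]; omega
  have h1 : ∑ g ∈ Ico a (a + w), ∑ s ∈ S, qt P 𝓕 st (φ s) g ≤
      ∑ _g ∈ Ico a (a + w), (S.card : ℝ) / w := by
    rw [Finset.sum_comm, Finset.sum_const, Nat.card_Ico]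
    have : (w : ℝ) ≠ 0 := by positivity
    have e1 : (a + w - a) • ((S.card : ℝ) / w) = ∑ _s ∈ S, (1 : ℝ) := by
      rw [Nat.add_sub_cancel_left, nsmul_eq_mul, Finset.sum_const, nsmul_eq_mul, mul_one]
      field_simp
    rw [e1]
    exact Finset.sum_le_sum fun s hs => sum_qt_le hP 𝓕 hst (hφ s hs) (Nat.le_add_right a w)
  obtain ⟨g, hg, hg2⟩ := Finset.exists_le_of_sum_le hne h1
  rw [mem_Ico] at hg
  refine ⟨g, hg.1, hg.2, fun s hs => ?_⟩
  refine le_trans ?_ hg2
  exact Finset.single_le_sum (f := fun s => qt P 𝓕 st (φ s) g)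
    (fun s _ => qt_nonneg hP 𝓕 st (φ s) g) hs

/-- choice of all cells, going down -/
theorem exists_cells (hP : IsProb P) (𝓕 : Filt Ω) {st : ℕ → ℕ} (hst : Monotone st)
    (sg : I → Ω → Bool) (SS : (n : ℕ) → Finset (Shape n)) (J w : ℕ) (hw : 0 < w) :
    ∃ c : ℕ → ℕ, (∀ n, n ≤ J → (J - n) * w ≤ c n ∧ c n < (J - n + 1) * w) ∧
      ∀ n, n ≤ J → ∀ s ∈ SS n, qt P 𝓕 st (VS P (Rm 𝓕 st c) sg n s) (c n) ≤
        ((SS n).card : ℝ) / w := by
  have key : ∀ m, ∃ c : ℕ → ℕ, ∀ n, n < m → n ≤ J →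
      ((J - n) * w ≤ c n ∧ c n < (J - n + 1) * w) ∧
      ∀ s ∈ SS n, qt P 𝓕 st (VS P (Rm 𝓕 st c) sg n s) (c n) ≤ ((SS n).card : ℝ) / w := by
    intro m
    induction m with
    | zero => exact ⟨fun _ => 0, fun n hn => absurd hn (by omega)⟩
    | succ m ih =>
      obtain ⟨c, hc⟩ := ih
      obtain ⟨g, hg1, hg2, hg3⟩ := exists_cell hP 𝓕 hst (SS m)
        (fun s => VS P (Rm 𝓕 st c) sg m s)
        (fun s _ i ω => VS_abs_le hP _ sg s i ω) ((J - m) * w) w hw
      refine ⟨Function.update c m g, fun n hn hJ => ?_⟩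
      have hcongr : ∀ n, n ≤ m → ∀ s : Shape n, VS P (Rm 𝓕 st (Function.update c m g)) sg n s =
          VS P (Rm 𝓕 st c) sg n s := by
        intro n hn s
        funext i
        apply VS_congr
        intro k hk
        unfold Rm
        rw [Function.update_of_ne (by omega)]
      rcases Nat.lt_succ_iff_lt_or_eq.mp hn with h | h
      · rw [Function.update_of_ne (by omega)]
        refine ⟨(hc n h hJ).1, fun s hs => ?_⟩
        rw [hcongr n h.le]
        exact (hc n h hJ).2 s hs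
      · subst h
        rw [Function.update_self]
        refine ⟨⟨hg1, ?_⟩, fun s hs => ?_⟩
        · rw [add_mul, one_mul]; exact hg2
        · rw [hcongr n le_rfl]
          exact hg3 s hs
  obtain ⟨c, hc⟩ := key (J + 1)
  exact ⟨c, fun n hn => (hc n (by omega) hn).1, fun n hn => (hc n (by omega) hn).2⟩

theorem list_prod_sub_le {α : Type*} (l : List α) (f g : α → ℝ) (hf : ∀ q ∈ l, |f q| ≤ 1)
    (hg : ∀ q ∈ l, |g q| ≤ 1) :
    |(l.map f).prod - (l.map g).prod| ≤ (l.map (fun q => |f q - g q|)).sum := by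
  induction l with
  | nil => simp
  | cons a l ih =>
    simp only [List.map_cons, List.prod_cons, List.sum_cons]
    have ih' := ih (fun q hq => hf q (by simp [hq])) (fun q hq => hg q (by simp [hq]))
    have e : f a * (l.map f).prod - g a * (l.map g).prod =
        (f a - g a) * (l.map f).prod + g a * ((l.map f).prod - (l.map g).prod) := by ring
    rw [e]
    refine (abs_add_le _ _).trans ?_
    rw [abs_mul, abs_mul]
    have h1 : |(l.map f).prod| ≤ 1 :=
      list_prod_abs_le_one l f (fun q hq => hf q (by simp [hq]))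
    have h2 : |g a| ≤ 1 := hg a (by simp)
    have h3 : |f a - g a| * |(l.map f).prod| ≤ |f a - g a| * 1 :=
      mul_le_mul_of_nonneg_left h1 (abs_nonneg _)
    have h4 : |g a| * |(l.map f).prod - (l.map g).prod| ≤
        1 * |(l.map f).prod - (l.map g).prod| :=
      mul_le_mul_of_nonneg_right h2 (abs_nonneg _)
    linarith

theorem eE_list_sum {α : Type*} (l : List α) (f : α → Ω → ℝ) :
    eE P (fun ω => (l.map (fun q => f q ω)).sum) = (l.map (fun q => eE P (f q))).sum := by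
  induction l with
  | nil => simp [eE]
  | cons a l ih =>
    simp only [List.map_cons, List.sum_cons]
    rw [eE_add, ih]

theorem avg_list_sum {α : Type*} (l : List α) (f : α → I → ℝ) :
    avg (fun i => (l.map (fun q => f q i)).sum) = (l.map (fun q => avg (f q))).sum := by
  induction l with
  | nil => simp [avg]
  | cons a l ih =>
    simp only [List.map_cons, List.sum_cons]
    rw [avg_add, ih]

theorem list_sum_le_length {α : Type*} (l : List α) (f : α → ℝ) {b : ℝ}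
    (h : ∀ q ∈ l, f q ≤ b) : (l.map f).sum ≤ (l.length : ℝ) * b := by
  induction l with
  | nil => simp
  | cons a l ih =>
    simp only [List.map_cons, List.sum_cons, List.length_cons]
    have h1 := h a (by simp)
    have h2 := ih (fun q hq => h q (by simp [hq]))
    push_cast
    linarith

/-- product of conditional expectations: L1 distance -/
theorem avg_prod_sub_le (hP : IsProb P) {n : ℕ} (l : List (Shape n)) (f g : Shape n → I → Ω → ℝ)
    (hf : ∀ q ∈ l, ∀ i ω, |f q i ω| ≤ 1) (hg : ∀ q ∈ l, ∀ i ω, |g q i ω| ≤ 1) {b : ℝ}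
    (hb : ∀ q ∈ l, avg (fun i => eE P (fun ω => |f q i ω - g q i ω|)) ≤ b) :
    avg (fun i => eE P (fun ω => |(l.map (fun q => f q i ω)).prod -
      (l.map (fun q => g q i ω)).prod|)) ≤ (l.length : ℝ) * b := by
  calc avg (fun i => eE P (fun ω => |(l.map (fun q => f q i ω)).prod -
      (l.map (fun q => g q i ω)).prod|))
      ≤ avg (fun i => eE P (fun ω => (l.map (fun q => |f q i ω - g q i ω|)).sum)) :=
        avg_mono fun i => eE_mono hP fun ω => list_prod_sub_le l (fun q => f q i ω)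
          (fun q => g q i ω) (fun q hq => hf q hq i ω) (fun q hq => hg q hq i ω)
    _ = (l.map (fun q => avg (fun i => eE P (fun ω => |f q i ω - g q i ω|)))).sum := by
        have : ∀ i, eE P (fun ω => (l.map (fun q => |f q i ω - g q i ω|)).sum) =
            (l.map (fun q => eE P (fun ω => |f q i ω - g q i ω|))).sum :=
          fun i => eE_list_sum l (fun q ω => |f q i ω - g q i ω|)
        simp only [this]
        exact avg_list_sum l (fun q i => eE P (fun ω => |f q i ω - g q i ω|))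
    _ ≤ (l.length : ℝ) * b := list_sum_le_length l _ hb

/-- constants of the comparison -/
def Bn (M : ℕ) : ℕ → ℝ
  | 0 => 0
  | n + 1 => (M : ℝ) * (Bn M n + 1)

theorem Bn_nonneg (M : ℕ) : ∀ n, 0 ≤ Bn M n
  | 0 => le_rfl
  | n + 1 => by
    unfold Bn
    have := Bn_nonneg M n
    positivity

variable {𝓕 : Filt Ω} {st t : ℕ → ℕ} {sg : I → Ω → Bool} {SS : (n : ℕ) → Finset (Shape n)}
  {M J : ℕ} {c : ℕ → ℕ} {κ : ℝ}

/-- 3.2: t-version versus m-version of the shape functionals -/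
theorem VS_close (hP : IsProb P)
    (ht1 : ∀ g, st g ≤ t g) (ht2 : ∀ g, t g < st (g + 1))
    (hSS : ∀ n (s : Shape (n + 1)), s ∈ SS (n + 1) ↔
      s.toList.length ≤ M ∧ ∀ q ∈ s.toList, q ∈ SS n)
    (hq : ∀ n, n < J → ∀ s ∈ SS n, qt P 𝓕 st (VS P (Rm 𝓕 st c) sg n s) (c n) ≤ κ) :
    ∀ n, n ≤ J → ∀ s ∈ SS n, avg (fun i => eE P (fun ω =>
      |VS P (Rt 𝓕 t c) sg n s i ω - VS P (Rm 𝓕 st c) sg n s i ω|)) ≤ Bn M n * Real.sqrt κ := by
  intro n
  induction n with
  | zero =>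
    intro _ s _
    have : ∀ i ω, VS P (Rt 𝓕 t c) sg 0 s i ω - VS P (Rm 𝓕 st c) sg 0 s i ω = 0 := by
      intro i ω; rw [VS_zero, VS_zero, sub_self]
    simp only [this, abs_zero]
    rw [Bn, zero_mul]
    have : eE P (fun _ => (0 : ℝ)) = 0 := by simp [eE]
    simp only [this]
    simp [avg]
  | succ n ih =>
    intro hn s hs
    rw [hSS] at hs
    simp only [VS_succ]
    have hb : ∀ q ∈ s.toList, avg (fun i => eE P (fun ω =>
        |cE P (Rt 𝓕 t c n) (VS P (Rt 𝓕 t c) sg n q i) ω -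
          cE P (Rm 𝓕 st c n) (VS P (Rm 𝓕 st c) sg n q i) ω|)) ≤ (Bn M n + 1) * Real.sqrt κ := by
      intro q hqq
      have hqS := hs.2 q hqq
      have h1 := ih (by omega) q hqS
      have h2 : avg (fun i => eE P (fun ω =>
          |cE P (Rm 𝓕 st c n) (VS P (Rm 𝓕 st c) sg n q i) ω -
            cE P (Rt 𝓕 t c n) (VS P (Rm 𝓕 st c) sg n q i) ω|)) ≤ Real.sqrt κ := by
        refine (avg_abs_le_sqrt hP _).trans (Real.sqrt_le_sqrt ?_)
        refine le_trans (avg_mono fun i => ?_) (hq n (by omega) q hqS)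
        exact l2_between hP (filt_anti 𝓕 (ht2 (c n)).le) (filt_anti 𝓕 (ht1 (c n))) _
      calc _ ≤ avg (fun i => eE P (fun ω =>
              |VS P (Rt 𝓕 t c) sg n q i ω - VS P (Rm 𝓕 st c) sg n q i ω|) +
            eE P (fun ω => |cE P (Rm 𝓕 st c n) (VS P (Rm 𝓕 st c) sg n q i) ω -
            cE P (Rt 𝓕 t c n) (VS P (Rm 𝓕 st c) sg n q i) ω|)) := by
            apply avg_mono
            intro i
            have e1 := eE_abs_cE_le hP (Rt 𝓕 t c n)
              (fun ω => VS P (Rt 𝓕 t c) sg n q i ω - VS P (Rm 𝓕 st c) sg n q i ω)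
            refine le_trans ?_ (add_le_add_left e1 _)
            rw [← eE_add]
            apply eE_mono hP
            intro ω
            have e2 := cE_sub P (Rt 𝓕 t c n) (VS P (Rt 𝓕 t c) sg n q i)
              (VS P (Rm 𝓕 st c) sg n q i) ω
            rw [e2]
            have e3 := abs_sub_le (cE P (Rt 𝓕 t c n) (VS P (Rt 𝓕 t c) sg n q i) ω)
              (cE P (Rt 𝓕 t c n) (VS P (Rm 𝓕 st c) sg n q i) ω)
              (cE P (Rm 𝓕 st c n) (VS P (Rm 𝓕 st c) sg n q i) ω)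
            rw [abs_sub_comm (cE P (Rm 𝓕 st c n) (VS P (Rm 𝓕 st c) sg n q i) ω)]
            exact e3
        _ = _ := avg_add _ _
        _ ≤ Bn M n * Real.sqrt κ + Real.sqrt κ := add_le_add h1 h2
        _ = (Bn M n + 1) * Real.sqrt κ := by ring
    refine (avg_prod_sub_le hP s.toList _ _
      (fun q _ i ω => abs_cE_le_of_le hP (fun a => VS_abs_le hP _ sg q i a) ω)
      (fun q _ i ω => abs_cE_le_of_le hP (fun a => VS_abs_le hP _ sg q i a) ω) hb).trans ?_
    rw [Bn, mul_assoc]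
    apply mul_le_mul_of_nonneg_right _
      (mul_nonneg (by linarith [Bn_nonneg M n]) (Real.sqrt_nonneg _))
    exact_mod_cast hs.1

/-- 3.2 (second half): the m-version at depth `n+1` is almost measurable before the label step of
its cell. -/
theorem VS_pred (hP : IsProb P) (hst : StrictMono st)
    (hSS : ∀ n (s : Shape (n + 1)), s ∈ SS (n + 1) ↔
      s.toList.length ≤ M ∧ ∀ q ∈ s.toList, q ∈ SS n)
    (hq : ∀ n, n < J → ∀ s ∈ SS n, qt P 𝓕 st (VS P (Rm 𝓕 st c) sg n s) (c n) ≤ κ)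
    {n : ℕ} (hn : n < J) {s : Shape (n + 1)} (hs : s ∈ SS (n + 1)) :
    avg (fun i => eE P (fun ω => |VS P (Rm 𝓕 st c) sg (n + 1) s i ω -
      cE P (𝓕.F (st (c n + 1) - 1)) (VS P (Rm 𝓕 st c) sg (n + 1) s i) ω|)) ≤
      2 * M * Real.sqrt κ := by
  rw [hSS] at hs
  -- the comparison function
  set Y : I → Ω → ℝ := fun i ω =>
    (s.toList.map (fun q : Shape n => cE P (𝓕.F (st (c n))) (VS P (Rm 𝓕 st c) sg n q i) ω)).prod
    with hY
  have hYmeas : ∀ i, RMeas (𝓕.F (st (c n + 1) - 1)) (Y i) := by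
    intro i a b hab
    simp only [hY]
    congr 1
    apply List.map_congr_left
    intro q _
    have hle : st (c n) ≤ st (c n + 1) - 1 := by
      have : st (c n) < st (c n + 1) := hst (Nat.lt_succ_self (c n))
      omega
    exact (cE_meas P (𝓕.F (st (c n))) _).mono (filt_anti 𝓕 hle) a b hab
  have h1 : avg (fun i => eE P (fun ω => |VS P (Rm 𝓕 st c) sg (n + 1) s i ω - Y i ω|)) ≤
      M * Real.sqrt κ := by
    simp only [VS_succ, hY]
    refine (avg_prod_sub_le hP s.toList _ _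
      (fun q _ i ω => abs_cE_le_of_le hP (fun a => VS_abs_le hP _ sg q i a) ω)
      (fun q _ i ω => abs_cE_le_of_le hP (fun a => VS_abs_le hP _ sg q i a) ω)
      (b := Real.sqrt κ) ?_).trans ?_
    · intro q hqq
      refine (avg_abs_le_sqrt hP _).trans (Real.sqrt_le_sqrt ?_)
      exact hq n hn q (hs.2 q hqq)
    · apply mul_le_mul_of_nonneg_right _ (Real.sqrt_nonneg _)
      exact_mod_cast hs.1
  calc _ ≤ avg (fun i => 2 * eE P (fun ω => |VS P (Rm 𝓕 st c) sg (n + 1) s i ω - Y i ω|)) := by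
        apply avg_mono
        intro i
        have e1 := eE_abs_cE_le hP (𝓕.F (st (c n + 1) - 1))
          (fun ω => VS P (Rm 𝓕 st c) sg (n + 1) s i ω - Y i ω)
        have e2 : eE P (fun ω => |VS P (Rm 𝓕 st c) sg (n + 1) s i ω -
            cE P (𝓕.F (st (c n + 1) - 1)) (VS P (Rm 𝓕 st c) sg (n + 1) s i) ω|) ≤
            eE P (fun ω => |VS P (Rm 𝓕 st c) sg (n + 1) s i ω - Y i ω|) +
            eE P (fun ω => |cE P (𝓕.F (st (c n + 1) - 1))
              (fun ω => VS P (Rm 𝓕 st c) sg (n + 1) s i ω - Y i ω) ω|) := by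
          rw [← eE_add]
          apply eE_mono hP
          intro ω
          rw [cE_sub, cE_of_meas hP (hYmeas i)]
          have e3 := abs_sub_le (VS P (Rm 𝓕 st c) sg (n + 1) s i ω) (Y i ω)
            (cE P (𝓕.F (st (c n + 1) - 1)) (VS P (Rm 𝓕 st c) sg (n + 1) s i) ω)
          rw [abs_sub_comm (Y i ω)] at e3
          exact e3
        linarith
    _ = 2 * avg (fun i => eE P (fun ω => |VS P (Rm 𝓕 st c) sg (n + 1) s i ω - Y i ω|)) :=
        avg_smul _ _
    _ ≤ 2 * (M * Real.sqrt κ) := by linarith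
    _ = _ := by ring

end cells

end

end Crest.Agent.R141.Quiet
private theorem rz_1468f04da2 : type_of% @_root_.Crest.Agent.R141.Quiet.Bn.eq_def := @_root_.Crest.Agent.R141.Quiet.Bn.eq_def -- L354
private theorem rz_b751cedf51 : type_of% @_root_.Crest.Agent.R141.Quiet.Bn.eq_1 := @_root_.Crest.Agent.R141.Quiet.Bn.eq_1 -- L354
end

-- ▼ part R141/QuietT
section

/-!
Row 141 (S0192), Part L, 3.3: purity transfer from the full-depth shape functionals (evaluated at
the ends of all cells) to the shape functionals of the skeleton.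
-/

set_option autoImplicit false

namespace Crest.Agent.R141.Quiet

open Finset Crest.Agent.R141.KerS
open Crest.Agent.R141.Fact hiding Shape
open Crest.ProbabilityR.Diluted (spinVal)
open Crest.Agent.R141.Clo (Shape)

noncomputable section

section cov

variable {Ω I : Type} [Fintype Ω] [Fintype I] {P : Ω → ℝ}

/-- purity number of the family `φ` at the partition `r` -/
def pur (P : Ω → ℝ) (r : Setoid Ω) (φ : I → Ω → ℝ) : ℝ :=
  ∑ ω, P ω * avgCov (kerS P r) ω φ

theorem pur_nonneg (hP : IsProb P) (r : Setoid Ω) (φ : I → Ω → ℝ) : 0 ≤ pur P r φ :=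
  Finset.sum_nonneg fun ω _ => mul_nonneg (hP.pos ω).le (avgCov_nonneg _ _)

theorem covS_sub_le (hP : IsProb P) (r : Setoid Ω) {f f' h h' : Ω → ℝ}
    (hf : ∀ ω, |f ω| ≤ 1) (hf' : ∀ ω, |f' ω| ≤ 1) (hh : ∀ ω, |h ω| ≤ 1) (hh' : ∀ ω, |h' ω| ≤ 1)
    (ω : Ω) :
    |covS P r f f' ω| ≤ |covS P r h h' ω| + 2 * cE P r (fun a => |f a - h a|) ω +
      2 * cE P r (fun a => |f' a - h' a|) ω := by
  set E := fun g : Ω → ℝ => cE P r g ω with hE
  have e1 : |E (fun a => f a * f' a) - E (fun a => h a * h' a)| ≤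
      E (fun a => |f a - h a|) + E (fun a => |f' a - h' a|) := by
    have : E (fun a => f a * f' a) - E (fun a => h a * h' a) =
        E (fun a => (f a - h a) * f' a + h a * (f' a - h' a)) := by
      simp only [hE]
      rw [← cE_sub]
      congr 1; funext a; ring
    rw [this]
    refine (cE_abs_le hP _ ω).trans ?_
    simp only [hE]
    rw [← cE_add]
    apply cE_mono' hP
    intro a
    refine (abs_add_le _ _).trans (add_le_add ?_ ?_)
    · rw [abs_mul]
      calc |f a - h a| * |f' a| ≤ |f a - h a| * 1 :=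
            mul_le_mul_of_nonneg_left (hf' a) (abs_nonneg _)
        _ = _ := mul_one _
    · rw [abs_mul]
      calc |h a| * |f' a - h' a| ≤ 1 * |f' a - h' a| :=
            mul_le_mul_of_nonneg_right (hh a) (abs_nonneg _)
        _ = _ := one_mul _
  have e2 : |E f - E h| ≤ E (fun a => |f a - h a|) := by
    have : E f - E h = E (fun a => f a - h a) := by simp only [hE]; rw [← cE_sub]
    rw [this]; exact cE_abs_le hP _ ω
  have e3 : |E f' - E h'| ≤ E (fun a => |f' a - h' a|) := by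
    have : E f' - E h' = E (fun a => f' a - h' a) := by simp only [hE]; rw [← cE_sub]
    rw [this]; exact cE_abs_le hP _ ω
  have e4 : |E f'| ≤ 1 := abs_cE_le_of_le hP hf' ω
  have e5 : |E h| ≤ 1 := abs_cE_le_of_le hP hh ω
  have e6 : |E f * E f' - E h * E h'| ≤
      E (fun a => |f a - h a|) + E (fun a => |f' a - h' a|) := by
    have : E f * E f' - E h * E h' = (E f - E h) * E f' + E h * (E f' - E h') := by ring
    rw [this]
    refine (abs_add_le _ _).trans (add_le_add ?_ ?_)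
    · rw [abs_mul]
      calc |E f - E h| * |E f'| ≤ |E f - E h| * 1 :=
            mul_le_mul_of_nonneg_left e4 (abs_nonneg _)
        _ ≤ _ := by rw [mul_one]; exact e2
    · rw [abs_mul]
      calc |E h| * |E f' - E h'| ≤ 1 * |E f' - E h'| :=
            mul_le_mul_of_nonneg_right e5 (abs_nonneg _)
        _ ≤ _ := by rw [one_mul]; exact e3
  have e7 : covS P r f f' ω = covS P r h h' ω +
      ((E (fun a => f a * f' a) - E (fun a => h a * h' a)) -
        (E f * E f' - E h * E h')) := by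
    simp only [covS, hE]; ring
  rw [e7]
  have e8 := abs_add_le (covS P r h h' ω) ((E (fun a => f a * f' a) - E (fun a => h a * h' a)) -
        (E f * E f' - E h * E h'))
  have e9 := abs_sub (E (fun a => f a * f' a) - E (fun a => h a * h' a))
        (E f * E f' - E h * E h')
  simp only [hE] at *
  linarith

/-- transfer of purity -/
theorem pur_le (hP : IsProb P) [Nonempty I] (r : Setoid Ω) {f h : I → Ω → ℝ}
    (hf : ∀ i ω, |f i ω| ≤ 1) (hh : ∀ i ω, |h i ω| ≤ 1) {b : ℝ}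
    (hb : avg (fun i => eE P (fun ω => |f i ω - h i ω|)) ≤ b) :
    pur P r f ≤ pur P r h + 4 * b := by
  set D : I → Ω → ℝ := fun i ω => cE P r (fun a => |f i a - h i a|) ω with hD
  have h1 : ∀ ω, avgCov (kerS P r) ω f ≤ avgCov (kerS P r) ω h + 4 * avg (fun i => D i ω) := by
    intro ω
    unfold avgCov
    calc avg (fun i => avg (fun i' => |Cov (kerS P r) ω (f i) (f i')|))
        ≤ avg (fun i => avg (fun i' => |Cov (kerS P r) ω (h i) (h i')|) +
            (2 * D i ω + 2 * avg (fun i' => D i' ω))) := by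
          apply avg_mono
          intro i
          calc avg (fun i' => |Cov (kerS P r) ω (f i) (f i')|)
              ≤ avg (fun i' => |Cov (kerS P r) ω (h i) (h i')| + (2 * D i ω + 2 * D i' ω)) := by
                apply avg_mono
                intro i'
                rw [Cov_kerS, Cov_kerS]
                have := covS_sub_le hP r (hf i) (hf i') (hh i) (hh i') ω
                simp only [hD]
                linarith
            _ = _ := by rw [avg_add, avg_add, avg_const, avg_smul]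
      _ = avg (fun i => avg (fun i' => |Cov (kerS P r) ω (h i) (h i')|)) +
            4 * avg (fun i => D i ω) := by
          rw [avg_add, avg_add, avg_const, avg_smul]; ring
  have h2 : ∑ ω, P ω * avg (fun i => D i ω) = avg (fun i => eE P (fun ω => |f i ω - h i ω|)) := by
    have e1 : ∀ i, eE P (fun ω => |f i ω - h i ω|) = ∑ ω, P ω * D i ω := by
      intro i
      exact (eE_cE hP r (fun ω => |f i ω - h i ω|)).symm
    simp only [e1]
    unfold avg
    simp only [Finset.mul_sum]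
    rw [Finset.sum_comm]
    apply Finset.sum_congr rfl; intro i _
    apply Finset.sum_congr rfl; intro ω _
    ring
  calc pur P r f ≤ ∑ ω, P ω * (avgCov (kerS P r) ω h + 4 * avg (fun i => D i ω)) :=
        Finset.sum_le_sum fun ω _ => mul_le_mul_of_nonneg_left (h1 ω) (hP.pos ω).le
    _ = pur P r h + 4 * ∑ ω, P ω * avg (fun i => D i ω) := by
        unfold pur
        rw [Finset.mul_sum, ← Finset.sum_add_distrib]
        apply Finset.sum_congr rfl; intro ω _; ring
    _ ≤ pur P r h + 4 * b := by rw [h2]; linarith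

end cov

/-! ### full-depth shapes -/

section full

variable {Ω I : Type} [Fintype Ω] {P : Ω → ℝ}

/-- the full sequence of partitions: height `k+1` (level `g = nc-(k+1)`) uses the end of the
cell `g`. -/
def Rfull (𝓕 : Filt Ω) (st : ℕ → ℕ) (nc k : ℕ) : Setoid Ω := 𝓕.F (st (nc - k))

/-- raising a shape by one-element lists -/
def up : (j : ℕ) → {k : ℕ} → Shape k → Shape (k + j)
  | 0, _, s => s
  | j + 1, _, s => Shape.ofList [up j s]

theorem cE_up (hP : IsProb P) (𝓕 : Filt Ω) {st : ℕ → ℕ} (hst : Monotone st) (nc : ℕ)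
    (sg : I → Ω → Bool) (j : ℕ) {k : ℕ} (s : Shape k) (i : I) (ω : Ω) :
    cE P (Rfull 𝓕 st nc (k + j)) (VS P (Rfull 𝓕 st nc) sg (k + j) (up j s) i) ω =
      cE P (Rfull 𝓕 st nc (k + j)) (VS P (Rfull 𝓕 st nc) sg k s i) ω := by
  induction j generalizing ω with
  | zero => rfl
  | succ j ih =>
    have h1 : VS P (Rfull 𝓕 st nc) sg (k + (j + 1)) (up (j + 1) s) i =
        cE P (Rfull 𝓕 st nc (k + j)) (VS P (Rfull 𝓕 st nc) sg k s i) := by
      funext ω'
      have h2 := VS_succ P (Rfull 𝓕 st nc) sg (n := k + j) (Shape.ofList [up j s]) i ω'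
      rw [Shape.toList_ofList] at h2
      simp only [List.map_cons, List.map_nil, List.prod_cons, List.prod_nil, mul_one] at h2
      rw [← ih ω']
      exact h2
    rw [h1]
    apply cE_tower hP
    apply filt_anti
    apply hst
    omega

/-- height of the functional of depth `n` -/
def hgt (nc : ℕ) (c : ℕ → ℕ) : ℕ → ℕ
  | 0 => 0
  | n + 1 => nc - c n

/-- `x` is a full-depth representation of the depth `n` shape `s` for the cells `c` -/
def Rep (nc : ℕ) (c : ℕ → ℕ) (n : ℕ) (s : Shape n) (x : Σ k, Shape k) : Prop :=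
  x.1 = hgt nc c n ∧ ∀ (Ω I : Type) [Fintype Ω] (P : Ω → ℝ), IsProb P → ∀ (𝓕 : Filt Ω)
    (st : ℕ → ℕ), Monotone st → ∀ (sg : I → Ω → Bool) (i : I) (ω : Ω),
    VS P (Rfull 𝓕 st nc) sg x.1 x.2 i ω = VS P (Rm 𝓕 st c) sg n s i ω

theorem exists_full (nc : ℕ) : ∀ (n : ℕ) (c : ℕ → ℕ), (∀ m, m < n → c m < nc) →
    (∀ m, m + 1 < n → c (m + 1) < c m) → ∀ s : Shape n,
    ∃ s' : Shape (hgt nc c n), Rep nc c n s ⟨hgt nc c n, s'⟩ := by
  intro n
  induction n with
  | zero =>
    intro c _ _ s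
    refine ⟨s, rfl, ?_⟩
    intro Ω I _ P hP 𝓕 st hst sg i ω
    show VS P (Rfull 𝓕 st nc) sg 0 s i ω = _
    rw [VS_zero, VS_zero]
  | succ n ih =>
    intro c hc hdec s
    have ih' := ih c (fun m hm => hc m (by omega)) (fun m hm => hdec m (by omega))
    choose F hF using ih'
    obtain ⟨j, hj⟩ : ∃ j, hgt nc c (n + 1) = hgt nc c n + j + 1 := by
      have h1 : hgt nc c n + 1 ≤ hgt nc c (n + 1) := by
        have hcn := hc n (by omega)
        cases n with
        | zero => show 0 + 1 ≤ nc - c 0; omega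
        | succ m =>
          show (nc - c m) + 1 ≤ nc - c (m + 1)
          have := hdec m (by omega)
          have := hc m (by omega)
          omega
      exact ⟨hgt nc c (n + 1) - (hgt nc c n + 1), by omega⟩
    have hcn : nc - (hgt nc c n + j) = c n + 1 := by
      have h1 : hgt nc c (n + 1) = nc - c n := rfl
      have h2 := hc n (by omega)
      omega
    rw [hj]
    refine ⟨Shape.ofList (s.toList.map (fun r : Shape n => up j (F r))), hj.symm, ?_⟩
    intro Ω I _ P hP 𝓕 st hst sg i ω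
    have h2 := VS_succ P (Rfull 𝓕 st nc) sg (n := hgt nc c n + j)
      (Shape.ofList (s.toList.map (fun r : Shape n => up j (F r)))) i ω
    rw [Shape.toList_ofList, List.map_map] at h2
    refine h2.trans ?_
    rw [VS_succ]
    congr 1
    apply List.map_congr_left
    intro r _
    show cE P (Rfull 𝓕 st nc (hgt nc c n + j))
      (VS P (Rfull 𝓕 st nc) sg (hgt nc c n + j) (up j (F r)) i) ω = _
    rw [cE_up hP 𝓕 hst nc sg j (F r) i ω]
    have h3 : VS P (Rfull 𝓕 st nc) sg (hgt nc c n) (F r) i = VS P (Rm 𝓕 st c) sg n r i := by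
      funext ω'
      exact (hF r).2 Ω I P hP 𝓕 st hst sg i ω'
    rw [h3]
    show cE P (𝓕.F (st (nc - (hgt nc c n + j)))) _ ω = cE P (𝓕.F (st (c n + 1))) _ ω
    rw [hcn]

end full

/-! ### the transfer theorem -/

section transfer

/-- extension of a finite sequence of cells -/
def cfun {J nc : ℕ} (cx : Fin (J + 1) → Fin nc) (k : ℕ) : ℕ :=
  if h : k < J + 1 then (cx ⟨k, h⟩ : ℕ) else 0

theorem cfun_apply {J nc : ℕ} (c0 : ℕ → ℕ) (h : ∀ n, n ≤ J → c0 n < nc) {n : ℕ} (hn : n ≤ J) :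
    cfun (fun k : Fin (J + 1) => (⟨c0 k, h k (Nat.lt_succ_iff.mp k.2)⟩ : Fin nc)) n = c0 n := by
  unfold cfun
  rw [dif_pos (Nat.lt_succ_of_le hn)]

open scoped Classical in
/-- the finite family of full-depth shapes -/
def FSet (J nc : ℕ) (SS : (n : ℕ) → Finset (Shape n)) : Finset (Σ k, Shape k) :=
  (Finset.univ : Finset (Fin (J + 1) → Fin nc)).biUnion fun cx =>
    (Finset.range (J + 1)).biUnion fun n => (SS n).biUnion fun s =>
      if h : ∃ x, Rep nc (cfun cx) n s x ∧ 1 ≤ x.1 ∧ x.1 ≤ nc then {h.choose} else ∅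

theorem FSet_height {J nc : ℕ} {SS : (n : ℕ) → Finset (Shape n)} {x : Σ k, Shape k}
    (hx : x ∈ FSet J nc SS) : 1 ≤ x.1 ∧ x.1 ≤ nc := by
  classical
  unfold FSet at hx
  simp only [Finset.mem_biUnion] at hx
  obtain ⟨cx, _, n, _, s, _, hx⟩ := hx
  split_ifs at hx with h
  · rw [Finset.mem_singleton] at hx
    rw [hx]
    exact h.choose_spec.2
  · exact absurd hx (Finset.notMem_empty _)

theorem FSet_mem {J nc : ℕ} {SS : (n : ℕ) → Finset (Shape n)} (cx : Fin (J + 1) → Fin nc)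
    {n : ℕ} (hn : n ≤ J) {s : Shape n} (hs : s ∈ SS n)
    (h : ∃ x, Rep nc (cfun cx) n s x ∧ 1 ≤ x.1 ∧ x.1 ≤ nc) :
    ∃ x ∈ FSet J nc SS, Rep nc (cfun cx) n s x := by
  classical
  refine ⟨h.choose, ?_, h.choose_spec.1⟩
  unfold FSet
  simp only [Finset.mem_biUnion]
  refine ⟨cx, Finset.mem_univ _, n, Finset.mem_range.mpr (by omega), s, hs, ?_⟩
  rw [dif_pos h]
  exact Finset.mem_singleton_self _

variable {Ω I : Type} [Fintype Ω] [Fintype I] {P : Ω → ℝ}

/-- total purity number of the structure: spins at all observation steps plus the full-depth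
functionals of the family `FS` at all observation steps up to their level. -/
def totPur (P : Ω → ℝ) (𝓕 : Filt Ω) (st t : ℕ → ℕ) (sg : I → Ω → Bool) (nc : ℕ)
    (FS : Finset (Σ k, Shape k)) : ℝ :=
  (∑ g ∈ range nc, pur P (𝓕.F (t g)) (fun i ω => spinVal (sg i ω))) +
  ∑ x ∈ FS, ∑ g ∈ range (nc - x.1 + 1), pur P (𝓕.F (t g))
    (fun i => cE P (𝓕.F (st (nc - x.1 + 1) - 1)) (VS P (Rfull 𝓕 st nc) sg x.1 x.2 i))

/-- 3.2 + 3.3: QUIET CELLS AND PURITY TRANSFER. -/
theorem purity_transfer (J M : ℕ) (SS : (n : ℕ) → Finset (Shape n))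
    (hSS : ∀ n (s : Shape (n + 1)), s ∈ SS (n + 1) ↔
      s.toList.length ≤ M ∧ ∀ q ∈ s.toList, q ∈ SS n) :
    ∃ C : ℝ, 0 ≤ C ∧ ∀ (w : ℕ), 0 < w → ∀ (Ω I : Type) [Fintype Ω] [Fintype I], Nonempty I →
      ∀ (P : Ω → ℝ), IsProb P → ∀ (𝓕 : Filt Ω) (st t : ℕ → ℕ), StrictMono st →
      (∀ g, st g ≤ t g) → (∀ g, t g < st (g + 1)) → ∀ (sg : I → Ω → Bool),
      ∃ c : ℕ → ℕ, (∀ n, n ≤ J → (J - n) * w ≤ c n ∧ c n < (J - n + 1) * w) ∧
        ∀ n, n ≤ J → ∀ s ∈ SS n,
          pur P (𝓕.F (t (c n))) (VS P (Rt 𝓕 t c) sg n s) ≤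
            totPur P 𝓕 st t sg ((J + 1) * w) (FSet J ((J + 1) * w) SS) +
              C / Real.sqrt w := by
  classical
  obtain ⟨K, hK⟩ : ∃ K : ℝ, K = ∑ n ∈ range (J + 1), ((SS n).card : ℝ) := ⟨_, rfl⟩
  obtain ⟨B, hB⟩ : ∃ B : ℝ, B = ∑ n ∈ range (J + 1), Bn M n := ⟨_, rfl⟩
  have hK0 : 0 ≤ K := by rw [hK]; exact Finset.sum_nonneg fun _ _ => Nat.cast_nonneg _
  have hB0 : 0 ≤ B := by rw [hB]; exact Finset.sum_nonneg fun n _ => Bn_nonneg M n
  have hC00 : 0 ≤ 4 * (B + 2 * (M : ℝ)) * Real.sqrt K := by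
    have := Real.sqrt_nonneg K
    have hM : (0 : ℝ) ≤ M := Nat.cast_nonneg M
    exact mul_nonneg (by linarith) this
  refine ⟨4 * (B + 2 * M) * Real.sqrt K, hC00, ?_⟩
  intro w hw Ω I _ _ hI P hP 𝓕 st t hst ht1 ht2 sg
  obtain ⟨c0, hc0, hq0⟩ := exists_cells hP 𝓕 hst.monotone sg SS J w hw
  have hJn : ∀ n, J - n + 1 ≤ J + 1 := fun n => Nat.succ_le_succ (Nat.sub_le J n)
  generalize hnc : (J + 1) * w = nc
  have hc0lt : ∀ n, n ≤ J → c0 n < nc := by
    intro n hn
    refine (hc0 n hn).2.trans_le ?_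
    rw [← hnc]
    exact Nat.mul_le_mul_right w (hJn n)
  obtain ⟨cx, hcx⟩ : ∃ cx : Fin (J + 1) → Fin nc, ∀ n, n ≤ J → cfun cx n = c0 n :=
    ⟨_, fun n hn => cfun_apply c0 hc0lt hn⟩
  obtain ⟨c, hc⟩ : ∃ c, c = cfun cx := ⟨_, rfl⟩
  have hcc : ∀ n, n ≤ J → c n = c0 n := by
    intro n hn
    rw [hc]; exact hcx n hn
  have hwin : ∀ n, n ≤ J → (J - n) * w ≤ c n ∧ c n < (J - n + 1) * w := by
    intro n hn; rw [hcc n hn]; exact hc0 n hn
  have hclt : ∀ n, n ≤ J → c n < nc := by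
    intro n hn; rw [hcc n hn]; exact hc0lt n hn
  have hdec : ∀ m, m + 1 ≤ J → c (m + 1) < c m := by
    intro m hm
    have h1 := (hwin (m + 1) hm).2
    have h2 := (hwin m (by omega)).1
    have h3 : J - (m + 1) + 1 = J - m := by omega
    rw [h3] at h1
    omega
  obtain ⟨κ, hκ⟩ : ∃ κ : ℝ, κ = K / w := ⟨_, rfl⟩
  have hq : ∀ n, n < J → ∀ s ∈ SS n, qt P 𝓕 st (VS P (Rm 𝓕 st c) sg n s) (c n) ≤ κ := by
    intro n hn s hs
    have h1 : VS P (Rm 𝓕 st c) sg n s = VS P (Rm 𝓕 st c0) sg n s := by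
      funext i
      apply VS_congr
      intro k hk
      unfold Rm
      rw [hcc k (by omega)]
    rw [h1, hcc n hn.le]
    refine (hq0 n hn.le s hs).trans ?_
    rw [hκ, hK]
    apply div_le_div_of_nonneg_right _ (Nat.cast_nonneg w)
    exact Finset.single_le_sum (f := fun n => ((SS n).card : ℝ)) (fun _ _ => Nat.cast_nonneg _)
      (Finset.mem_range.mpr (by omega))
  refine ⟨c, hwin, ?_⟩
  intro n hn s hs
  have hC0 : 0 ≤ 4 * (B + 2 * M) * Real.sqrt K / Real.sqrt w :=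
    div_nonneg hC00 (Real.sqrt_nonneg _)
  have hsp0 : ∀ g ∈ range nc, 0 ≤ pur P (𝓕.F (t g)) (fun i ω => spinVal (sg i ω)) :=
    fun g _ => pur_nonneg hP _ _
  have hfs0 : ∀ x ∈ FSet J nc SS, 0 ≤ ∑ g ∈ range (nc - x.1 + 1), pur P (𝓕.F (t g))
      (fun i => cE P (𝓕.F (st (nc - x.1 + 1) - 1)) (VS P (Rfull 𝓕 st nc) sg x.1 x.2 i)) :=
    fun x _ => Finset.sum_nonneg fun g _ => pur_nonneg hP _ _
  have hsum1 : 0 ≤ ∑ g ∈ range nc, pur P (𝓕.F (t g)) (fun i ω => spinVal (sg i ω)) :=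
    Finset.sum_nonneg hsp0
  have hsum2 : 0 ≤ ∑ x ∈ FSet J nc SS, ∑ g ∈ range (nc - x.1 + 1), pur P (𝓕.F (t g))
      (fun i => cE P (𝓕.F (st (nc - x.1 + 1) - 1)) (VS P (Rfull 𝓕 st nc) sg x.1 x.2 i)) :=
    Finset.sum_nonneg hfs0
  cases n with
  | zero =>
    have h1 : pur P (𝓕.F (t (c 0))) (VS P (Rt 𝓕 t c) sg 0 s) ≤
        ∑ g ∈ range nc, pur P (𝓕.F (t g)) (fun i ω => spinVal (sg i ω)) := by
      by_cases hb : s.toBool = true
      · have h2 : VS P (Rt 𝓕 t c) sg 0 s = fun i ω => spinVal (sg i ω) := by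
          funext i ω
          rw [VS_zero, if_pos hb]
        rw [h2]
        exact Finset.single_le_sum hsp0 (Finset.mem_range.mpr (hclt 0 hn))
      · have h2 : VS P (Rt 𝓕 t c) sg 0 s = fun _ _ => 1 := by
          funext i ω
          rw [VS_zero, if_neg hb]
        rw [h2]
        have h3 : pur P (𝓕.F (t (c 0))) (fun (_ : I) (_ : Ω) => (1 : ℝ)) = 0 := by
          unfold pur avgCov
          have : ∀ ω, Cov (kerS P (𝓕.F (t (c 0)))) ω (fun _ => (1 : ℝ)) (fun _ => 1) = 0 := by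
            intro ω
            rw [Cov_kerS]
            unfold covS
            rw [cE_const hP, mul_one, cE_const hP]
            norm_num
          simp only [this]
          simp [avg]
        rw [h3]
        exact hsum1
    unfold totPur
    linarith
  | succ m =>
    have hrep : ∃ x, Rep nc c (m + 1) s x ∧ 1 ≤ x.1 ∧ x.1 ≤ nc := by
      obtain ⟨s', hs'⟩ := exists_full nc (m + 1) c (fun k hk => hclt k (by omega))
        (fun k hk => hdec k (by omega)) s
      refine ⟨_, hs', ?_, ?_⟩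
      · show 1 ≤ nc - c m
        have := hclt m (by omega)
        omega
      · show nc - c m ≤ nc
        omega
    obtain ⟨x, hx, hx1, hx2⟩ : ∃ x ∈ FSet J nc SS, Rep nc c (m + 1) s x := by
      rw [hc] at hrep ⊢
      exact FSet_mem cx hn hs hrep
    have hxh : x.1 = nc - c m := hx1
    have hnx : nc - x.1 = c m := by
      have := hclt m (by omega)
      omega
    -- the comparison function
    have hVS : ∀ i, VS P (Rm 𝓕 st c) sg (m + 1) s i = VS P (Rfull 𝓕 st nc) sg x.1 x.2 i := by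
      intro i
      funext ω
      exact (hx2 Ω I P hP 𝓕 st hst.monotone sg i ω).symm
    set Z : I → Ω → ℝ := fun i =>
      cE P (𝓕.F (st (c m + 1) - 1)) (VS P (Rm 𝓕 st c) sg (m + 1) s i) with hZ
    have hZ1 : ∀ i ω, |Z i ω| ≤ 1 := fun i ω =>
      abs_cE_le_of_le hP (fun a => VS_abs_le hP _ sg s i a) ω
    have hd1 := VS_close (t := t) (sg := sg) hP ht1 ht2 hSS hq (m + 1) hn s hs
    have hd2 := VS_pred (sg := sg) hP hst hSS hq (by omega : m < J) hs
    have hd : avg (fun i => eE P (fun ω => |VS P (Rt 𝓕 t c) sg (m + 1) s i ω - Z i ω|)) ≤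
        (Bn M (m + 1) + 2 * M) * Real.sqrt κ := by
      calc _ ≤ avg (fun i => eE P (fun ω => |VS P (Rt 𝓕 t c) sg (m + 1) s i ω -
              VS P (Rm 𝓕 st c) sg (m + 1) s i ω|) +
            eE P (fun ω => |VS P (Rm 𝓕 st c) sg (m + 1) s i ω - Z i ω|)) := by
            apply avg_mono
            intro i
            rw [← eE_add]
            apply eE_mono hP
            intro ω
            exact abs_sub_le _ _ _
        _ = _ := avg_add _ _
        _ ≤ Bn M (m + 1) * Real.sqrt κ + 2 * M * Real.sqrt κ := add_le_add hd1 hd2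
        _ = _ := by ring
    have hpl := pur_le hP (𝓕.F (t (c (m + 1)))) (f := VS P (Rt 𝓕 t c) sg (m + 1) s) (h := Z)
      (fun i ω => VS_abs_le hP _ sg s i ω) hZ1 hd
    have hZle : pur P (𝓕.F (t (c (m + 1)))) Z ≤ ∑ x ∈ FSet J nc SS,
        ∑ g ∈ range (nc - x.1 + 1), pur P (𝓕.F (t g))
        (fun i => cE P (𝓕.F (st (nc - x.1 + 1) - 1)) (VS P (Rfull 𝓕 st nc) sg x.1 x.2 i)) := by
      have e1 : Z = fun i => cE P (𝓕.F (st (nc - x.1 + 1) - 1))
          (VS P (Rfull 𝓕 st nc) sg x.1 x.2 i) := by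
        funext i
        simp only [hZ]
        rw [hVS i, hnx]
      rw [e1]
      refine le_trans ?_ (Finset.single_le_sum hfs0 hx)
      have hmem : c (m + 1) ∈ range (nc - x.1 + 1) := by
        rw [Finset.mem_range, hnx]
        have := hdec m hn
        omega
      exact Finset.single_le_sum (f := fun g => pur P (𝓕.F (t g))
        (fun i => cE P (𝓕.F (st (nc - x.1 + 1) - 1)) (VS P (Rfull 𝓕 st nc) sg x.1 x.2 i)))
        (fun g _ => pur_nonneg hP _ _) hmem
    have hBle : Bn M (m + 1) ≤ B := by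
      rw [hB]
      exact Finset.single_le_sum (f := fun n => Bn M n) (fun n _ => Bn_nonneg M n)
        (Finset.mem_range.mpr (by omega))
    have hsq : Real.sqrt κ = Real.sqrt K / Real.sqrt w := by
      rw [hκ, Real.sqrt_div hK0]
    have hfin : 4 * ((Bn M (m + 1) + 2 * M) * Real.sqrt κ) ≤
        4 * (B + 2 * M) * Real.sqrt K / Real.sqrt w := by
      rw [hsq]
      have : 0 ≤ Real.sqrt K / Real.sqrt w := div_nonneg (Real.sqrt_nonneg _) (Real.sqrt_nonneg _)
      have h1 : (Bn M (m + 1) + 2 * M) * (Real.sqrt K / Real.sqrt w) ≤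
          (B + 2 * M) * (Real.sqrt K / Real.sqrt w) :=
        mul_le_mul_of_nonneg_right (by linarith) this
      calc _ ≤ 4 * ((B + 2 * M) * (Real.sqrt K / Real.sqrt w)) := by linarith
        _ = _ := by ring
    unfold totPur
    linarith

end transfer

end

end Crest.Agent.R141.Quiet
end

-- ▼ part R141/Sec3
section

/-!
Row 141 (S0192), Part L: combination of 3.1 (`Skel31.skeleton_value`), 3.2+3.3
(`Quiet.purity_transfer`) and 3.4+3.5 (`Fact.fact_skel`).
-/

set_option autoImplicit false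

namespace Crest.Agent.R141.Sec3

open Finset Crest.Agent.R141.KerS Crest.Agent.R141.Quiet
open Crest.Agent.R141.Fact hiding Shape
open Crest.ProbabilityR.Diluted (spinVal)
open Crest.Agent.R141.Clo (Shape)

noncomputable section

/-- all shapes of a finite list of lists are bounded by a common `M` -/
theorem exists_common_bound (J : ℕ) (S0 : (m : ℕ) → List (Shape m)) :
    ∃ M : ℕ, ∀ SS : (n : ℕ) → Finset (Shape n),
      (∀ s : Shape 0, s ∈ SS 0) →
      (∀ n (s : Shape (n + 1)), s ∈ SS (n + 1) ↔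
        s.toList.length ≤ M ∧ ∀ q ∈ s.toList, q ∈ SS n) →
      ∀ m, m ≤ J → ∀ s ∈ S0 m, s ∈ SS m := by
  choose Mf hMf using exists_bound_shape
  refine ⟨∑ m ∈ range (J + 1), ((S0 m).map (Mf m)).sum, ?_⟩
  intro SS h0 h1 m hm s hs
  refine hMf m s _ ?_ SS h0 h1
  calc Mf m s ≤ ((S0 m).map (Mf m)).sum :=
        List.single_le_sum (fun x _ => Nat.zero_le x) _ (List.mem_map_of_mem hs)
    _ ≤ _ := Finset.single_le_sum (f := fun m => ((S0 m).map (Mf m)).sum)
        (fun _ _ => Nat.zero_le _) (Finset.mem_range.mpr (by omega))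

/-- the exponent estimate -/
theorem expo_close {J w g j : ℕ} (hw : 0 < w) (hj : j ≤ J + 1) (h1 : j * w ≤ g + w)
    (h2 : g < (j + 1) * w) :
    |((g : ℝ) + 1) / ((((J + 1) * w : ℕ) : ℝ) + 1) - (j : ℝ) / ((J : ℝ) + 1)| ≤
      1 / ((J : ℝ) + 1) := by
  have hJ : (0 : ℝ) < (J : ℝ) + 1 := by positivity
  have hw' : (0 : ℝ) < w := by exact_mod_cast hw
  have h1' : (j : ℝ) * w ≤ g + w := by exact_mod_cast h1
  have h2' : (g : ℝ) + 1 ≤ ((j : ℝ) + 1) * w := by exact_mod_cast h2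
  have hjJ : (j : ℝ) ≤ (J : ℝ) + 1 := by exact_mod_cast hj
  push_cast
  have hD : (0 : ℝ) < ((J : ℝ) + 1) * w + 1 := by positivity
  have k1 : ((j : ℝ) - 1) / ((J : ℝ) + 1) ≤ ((g : ℝ) + 1) / (((J : ℝ) + 1) * w + 1) := by
    rw [div_le_div_iff₀ hJ hD]
    have := mul_le_mul_of_nonneg_right h1' hJ.le
    nlinarith
  have k2 : ((g : ℝ) + 1) / (((J : ℝ) + 1) * w + 1) ≤ ((j : ℝ) + 1) / ((J : ℝ) + 1) := by
    rw [div_le_div_iff₀ hD hJ]
    have := mul_le_mul_of_nonneg_right h2' hJ.le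
    have hj0 : (0 : ℝ) ≤ j := Nat.cast_nonneg j
    nlinarith
  rw [sub_div] at k1
  rw [add_div (j : ℝ) 1] at k2
  rw [abs_le]
  constructor <;> linarith

/-- the cell structure of the exponents: cell `g < nc` consists of the steps
`st g < k ≤ st (g+1)` with exponent `(g+1)/(nc+1)`; the steps after `st nc` have exponent 1. -/
structure Cells (x : ℕ → ℝ) (L nc : ℕ) (st : ℕ → ℕ) : Prop where
  expo : IsExpo x
  mono : StrictMono st
  zero : st 0 = 0
  last : st nc ≤ L
  cell : ∀ g, g < nc → ∀ k, st g < k → k ≤ st (g + 1) → x k = ((g : ℝ) + 1) / ((nc : ℝ) + 1)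
  top : ∀ k, st nc < k → k ≤ L → x k = 1

theorem Cells.find {x : ℕ → ℝ} {L nc : ℕ} {st : ℕ → ℕ} (h : Cells x L nc st) {l : ℕ} (hl : 0 < l) :
    ∀ n, l ≤ st n → ∃ g, g < n ∧ st g < l ∧ l ≤ st (g + 1) := by
  intro n
  induction n with
  | zero => intro hn; rw [h.zero] at hn; omega
  | succ n ih =>
    intro hn
    by_cases h1 : l ≤ st n
    · obtain ⟨g, hg, h2, h3⟩ := ih h1
      exact ⟨g, by omega, h2, h3⟩
    · exact ⟨n, by omega, by omega, hn⟩

/-- window facts for the levels `t (c (J - j))` -/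
theorem cells_win {J w L : ℕ} (hw : 0 < w) {x : ℕ → ℝ}
    {st t : ℕ → ℕ} (hC : Cells x L ((J + 1) * w) st) (ht1 : ∀ g, st g ≤ t g)
    (ht2 : ∀ g, t g < st (g + 1)) {c : ℕ → ℕ}
    (hc : ∀ n, n ≤ J → (J - n) * w ≤ c n ∧ c n < (J - n + 1) * w) :
    Monotone (fun j => t (c (J - j))) ∧ t (c (J - J)) < L ∧
    (∀ l, l ≤ t (c (J - 0)) → x l ≤ 1 / ((J : ℝ) + 1)) ∧
    (∀ j, 1 ≤ j → j ≤ J → ∀ l, t (c (J - (j - 1))) < l → l ≤ t (c (J - j)) →
      |x l - (j : ℝ) / ((J : ℝ) + 1)| ≤ 1 / ((J : ℝ) + 1)) ∧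
    (∀ l, t (c (J - J)) < l → l ≤ L → 1 - x l ≤ 1 / ((J : ℝ) + 1)) := by
  have hdec : ∀ m, m + 1 ≤ J → c (m + 1) < c m := by
    intro m hm
    have h1 := (hc (m + 1) hm).2
    have h2 := (hc m (by omega)).1
    have h3 : J - (m + 1) + 1 = J - m := by omega
    rw [h3] at h1
    omega
  have hcanti : ∀ m n, m ≤ n → n ≤ J → c n ≤ c m := by
    intro m n hmn
    induction hmn with
    | refl => intro _; exact le_rfl
    | @step k hk ih =>
      intro hk2
      have h1 : c (k + 1) < c k := hdec k (by omega)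
      have h2 := ih (by omega)
      exact h1.le.trans h2
  have htmono : Monotone t := by
    apply monotone_nat_of_le_succ
    intro g
    have h1 := ht2 g
    have h2 := ht1 (g + 1)
    omega
  have hclt : ∀ n, n ≤ J → c n < (J + 1) * w := by
    intro n hn
    exact (hc n hn).2.trans_le (Nat.mul_le_mul_right w (by omega))
  have htst : ∀ n, n ≤ J → t (c n) < st ((J + 1) * w) := by
    intro n hn
    exact (ht2 (c n)).trans_le (hC.mono.monotone (by have := hclt n hn; omega))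
  have hpos : (0 : ℝ) ≤ 1 / ((J : ℝ) + 1) := by positivity
  refine ⟨?_, ?_, ?_, ?_, ?_⟩
  · intro j j' hjj
    exact htmono (hcanti _ _ (by omega) (by omega))
  · exact (htst _ (by omega)).trans_le hC.last
  · -- low part
    intro l hl
    have hl' : l ≤ t (c J) := hl
    have key : ∀ g, g < (J + 1) * w → ∀ l, 0 < l → st g < l → l ≤ st (g + 1) → g < w →
        x l ≤ 1 / ((J : ℝ) + 1) := by
      intro g hg l hl0 h1 h2 h3
      rw [hC.cell g hg l h1 h2]
      have := expo_close (J := J) (w := w) (g := g) (j := 0) hw (by omega) (by omega) (by simpa using h3)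
      rw [Nat.cast_zero, zero_div, sub_zero] at this
      exact (abs_le.mp this).2
    have hcw : c J < w := by
      have := (hc J le_rfl).2
      simpa using this
    rcases Nat.eq_zero_or_pos l with h0 | h0
    · subst h0
      have h1 : st 0 < st 1 := hC.mono (by omega)
      rw [hC.zero] at h1
      refine (hC.expo.mono (by omega : 0 ≤ 1)).trans ?_
      exact key 0 (by positivity) 1 (by omega) (by rw [hC.zero]; omega) (by show 1 ≤ st 1; omega) hw
    · obtain ⟨g, hg, h1, h2⟩ := hC.find h0 ((J + 1) * w) (hl'.trans (htst J le_rfl).le)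
      refine key g hg l h0 h1 h2 ?_
      have h3 : st g < st (c J + 1) := by
        have := ht2 (c J)
        omega
      have h4 : g < c J + 1 := hC.mono.lt_iff_lt.mp h3
      omega
  · -- middle part
    intro j hj1 hjJ l hl1 hl2
    have hl1' : t (c (J - (j - 1))) < l := hl1
    have hl2' : l ≤ t (c (J - j)) := hl2
    obtain ⟨g, hg, h1, h2⟩ := hC.find (by omega : 0 < l) ((J + 1) * w)
      (hl2'.trans (htst _ (by omega)).le)
    rw [hC.cell g hg l h1 h2]
    have e1 : st (c (J - (j - 1))) < st (g + 1) := by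
      have := ht1 (c (J - (j - 1)))
      omega
    have e2 : c (J - (j - 1)) < g + 1 := hC.mono.lt_iff_lt.mp e1
    have e3 : st g < st (c (J - j) + 1) := by
      have := ht2 (c (J - j))
      omega
    have e4 : g < c (J - j) + 1 := hC.mono.lt_iff_lt.mp e3
    have w1 := (hc (J - (j - 1)) (by omega)).1
    have w2 := (hc (J - j) (by omega)).2
    have e5 : J - (J - (j - 1)) = j - 1 := by omega
    have e6 : J - (J - j) + 1 = j + 1 := by omega
    rw [e5] at w1
    rw [e6] at w2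
    apply expo_close hw (by omega) _ (by omega)
    obtain ⟨i, rfl⟩ : ∃ i, j = i + 1 := ⟨j - 1, by omega⟩
    rw [Nat.add_sub_cancel] at w1 e2
    rw [add_mul, one_mul]
    omega
  · -- top part
    intro l hl1 hl2
    have hl1' : t (c (J - J)) < l := hl1
    rw [Nat.sub_self] at hl1'
    by_cases hl3 : st ((J + 1) * w) < l
    · rw [hC.top l hl3 hl2, sub_self]; exact hpos
    · obtain ⟨g, hg, h1, h2⟩ := hC.find (by omega : 0 < l) ((J + 1) * w) (by omega)
      rw [hC.cell g hg l h1 h2]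
      have e1 : st (c 0) < st (g + 1) := by
        have := ht1 (c 0)
        omega
      have e2 : c 0 < g + 1 := hC.mono.lt_iff_lt.mp e1
      have w1 := (hc 0 (by omega)).1
      rw [Nat.sub_zero] at w1
      have := expo_close (J := J) (w := w) (g := g) (j := J + 1) hw le_rfl
        (by rw [add_mul, one_mul]; omega)
        (by
          refine hg.trans_le (Nat.mul_le_mul_right w (by omega)))
      have hJ : (0 : ℝ) < (J : ℝ) + 1 := by positivity
      rw [Nat.cast_add, Nat.cast_one, div_self hJ.ne'] at this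
      have := (abs_le.mp this).1
      linarith

section one

variable {Ω : Type} [Fintype Ω] {P : Ω → ℝ} {𝓕 : Filt Ω}


end one


end

end Crest.Agent.R141.Sec3
end

-- ▼ part R141/PurStmt
section

/-!
Row 141 (S0192), Part L: statement of the purity theorem (2.3 + 2.4 + 2.5 + 2.6).
-/

set_option autoImplicit false

namespace Crest.Agent.R141.Pur

open Crest.Agent.R141

/-- **Purity theorem**: proved in `PurE.lean` (`purity_main : PurityMain`). -/
def PurityMain : Prop :=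
  ∀ (nc : ℕ), 0 < nc → ∀ (FS : Finset (Σ k, Clo.Shape k)), (∀ x ∈ FS, 1 ≤ x.1 ∧ x.1 ≤ nc) →
    ∀ eps eta : ℝ, 0 < eps → 0 < eta →
      ∃ p : Par, p.nc = nc ∧ (p.nb : ℝ) / p.Q ≤ eps ∧ ∃ N0 : ℕ, ∀ N, N0 ≤ N →
        ∀ H : (Fin N → Bool) → ℝ, ∃ t : DD p N → ℕ → ℕ,
          (∀ d g, g * (p.T + 1) ≤ t d g ∧ t d g < (g + 1) * (p.T + 1)) ∧
          Ed p N (fun d => Quiet.totPur (PP p N H d) (fil p N) (fun g => g * (p.T + 1)) (t d)
            (fun (i : Fin N) (ω : Om p N) => ω.1 i) nc FS) ≤ eta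

end Crest.Agent.R141.Pur
end

-- ▼ part R141/Sec23
section

/-!
Row 141 (S0192), Part L: `Asm.Sec23` from the purity theorem of section 2 (`Pur.PurityMain`).
-/

set_option autoImplicit false

namespace Crest.Agent.R141.Sec3

open Finset Crest.Agent.R141.KerS Crest.Agent.R141.Quiet
open Crest.Agent.R141.Fact hiding Shape
open Crest.ProbabilityR.Diluted (spinVal)
open Crest.Agent.R141.Clo (Shape)

noncomputable section

/-- the cell structure of the enriched system -/
theorem cells_sys (p : Par) : Cells p.xs p.L p.nc (fun g => g * (p.T + 1)) where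
  expo := p.xs_expo
  mono := fun a b h => Nat.mul_lt_mul_of_pos_right h (Nat.succ_pos _)
  zero := Nat.zero_mul _
  last := Nat.le_succ _
  cell g hg k h1 h2 := by
    rw [p.xs_cell hg h1 h2]
    rfl
  top k h1 _ := p.xs_last (by unfold Par.L; exact h1)

theorem sec23_of_purity (hpm : Pur.PurityMain) : Asm.Sec23 := by
  classical
  intro J hJ S0 δ ε hδ hε
  obtain ⟨M, hM⟩ := exists_common_bound J S0
  obtain ⟨SS, hSS0, hSS⟩ := exists_SSb M
  have hsub := hM SS hSS0 hSS
  obtain ⟨C, hC0, htr⟩ := purity_transfer J M SS hSS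
  obtain ⟨w, hw1⟩ := exists_nat_gt ((2 * C / δ) ^ 2 + 1)
  have hwR : (0 : ℝ) < w := lt_trans (by positivity) hw1
  have hw : 0 < w := by exact_mod_cast hwR
  have hCw : C / Real.sqrt w ≤ δ / 2 := by
    have h1 : 2 * C / δ ≤ Real.sqrt w := by
      apply Real.le_sqrt_of_sq_le
      linarith
    have h2 : 0 < Real.sqrt w := Real.sqrt_pos.mpr hwR
    rw [div_le_iff₀ h2]
    rw [div_le_iff₀ hδ] at h1
    nlinarith
  obtain ⟨p, hpnc, hpe, N0, hN0⟩ := hpm ((J + 1) * w) (Nat.mul_pos (Nat.succ_pos J) hw)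
    (FSet J ((J + 1) * w) SS) (fun y hy => FSet_height hy) ε (δ / 2) hε (by positivity)
  refine ⟨p, hpe, max N0 1, fun N hN H => ?_⟩
  have hN1 : 0 < N := lt_of_lt_of_le Nat.one_pos ((le_max_right _ _).trans hN)
  obtain ⟨t, ht, htp⟩ := hN0 N ((le_max_left _ _).trans hN) H
  have hI : Nonempty (Fin N) := ⟨⟨0, hN1⟩⟩
  have hCs := cells_sys p
  have ht1 : ∀ d g, (fun g => g * (p.T + 1)) g ≤ t d g := fun d g => (ht d g).1
  have ht2 : ∀ d g, t d g < (fun g => g * (p.T + 1)) (g + 1) := fun d g => (ht d g).2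
  choose c hc1 hc2 using fun d => htr w hw (Om p N) (Fin N) hI (PP p N H d) (PP_isProb p N H d)
    (fil p N) (fun g => g * (p.T + 1)) (t d) hCs.mono (ht1 d) (ht2 d)
    (fun (i : Fin N) (ω : Om p N) => ω.1 i)
  have hCs' : Cells p.xs p.L ((J + 1) * w) (fun g => g * (p.T + 1)) := by
    have := hCs
    rw [hpnc] at this
    exact this
  refine ⟨fun d j => t d (c d (J - j)), fun d => ?_, ?_⟩
  · obtain ⟨h1, h2, h3, h4, h5⟩ := cells_win hw hCs' (ht1 d) (ht2 d) (hc1 d)
    have hle : 1 / ((J : ℝ) + 1) ≤ 2 / ((J : ℝ) + 1) := by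
      apply div_le_div_of_nonneg_right _ (by positivity)
      norm_num
    exact ⟨h1, h2, fun l hl => (h3 l hl).trans hle,
      fun j hj1 hj2 l hl1 hl2 => (h4 j hj1 hj2 l hl1 hl2).trans hle,
      fun l hl1 hl2 => (h5 l hl1 hl2).trans hle⟩
  · intro m hm s hs
    have hterm : ∀ d, ∑ ω, PP p N H d ω *
        avgCov (kerS (PP p N H d) ((fil p N).F (t d (c d (J - (J - m)))))) ω
          (VS (PP p N H d) (fun n => (fil p N).F (t d (c d (J - (J - n))))) (Asm.sgN p N) m s) ≤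
        totPur (PP p N H d) (fil p N) (fun g => g * (p.T + 1)) (t d)
          (fun (i : Fin N) (ω : Om p N) => ω.1 i) ((J + 1) * w) (FSet J ((J + 1) * w) SS) +
          δ / 2 := by
      intro d
      have h1 := hc2 d m hm s (hsub m hm s hs)
      have e1 : VS (PP p N H d) (fun n => (fil p N).F (t d (c d (J - (J - n))))) (Asm.sgN p N) m s
          = VS (PP p N H d) (Rt (fil p N) (t d) (c d))
            (fun (i : Fin N) (ω : Om p N) => ω.1 i) m s := by
        funext i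
        apply VS_congr
        intro k hk
        show (fil p N).F (t d (c d (J - (J - k)))) = (fil p N).F (t d (c d k))
        have : J - (J - k) = k := by omega
        rw [this]
      have e2 : J - (J - m) = m := by omega
      rw [e1, e2]
      have h2 : pur (PP p N H d) ((fil p N).F (t d (c d m)))
          (VS (PP p N H d) (Rt (fil p N) (t d) (c d))
            (fun (i : Fin N) (ω : Om p N) => ω.1 i) m s) ≤
          totPur (PP p N H d) (fil p N) (fun g => g * (p.T + 1)) (t d)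
          (fun (i : Fin N) (ω : Om p N) => ω.1 i) ((J + 1) * w) (FSet J ((J + 1) * w) SS) +
          δ / 2 := by
        linarith
      exact h2
    refine (Ed_mono p N hterm).trans ?_
    rw [Ed_add, Ed_const p hN1]
    linarith

end

end Crest.Agent.R141.Sec3
end

-- ▼ part R141/SysF
section

/-!
Row 141 (S0192), Part L: removal of gadgets and the density bounds (2.2).
-/

set_option autoImplicit false

namespace Crest.Agent.R141.Sym

open Finset Crest.Agent.R141

noncomputable section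

variable {p : Par} {N : ℕ}

theorem Qpos (p : Par) : (0 : ℝ) < p.Q := by have := p.hQ; positivity

theorem gval_sv_abs (b : Fin p.nb) (l : Fin p.nc → Fin p.Q) (s : Bool) :
    |gval p b l * sv s| ≤ 1 / 2 := by
  rw [abs_mul, sv_abs, mul_one]; exact gval_abs p b l

theorem gfac_abs (i : Fin N) (b : Fin p.nb) (ω : Om p N) : |gfac p N i b ω| ≤ Real.log 2 := by
  have h := abs_le.mp (gval_sv_abs (p := p) b (ω.2.1 i b) (ω.1 i))
  unfold gfac
  rw [abs_le]
  constructor
  · rw [← Real.log_inv]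
    apply Real.log_le_log (by norm_num)
    linarith [h.1]
  · apply Real.log_le_log (by linarith [h.1])
    linarith [h.2]


theorem gval_of_absent {b : Fin p.nb} {l : Fin p.nc → Fin p.Q} (h : vb p b l = 0) :
    gval p b l = 0 := by
  unfold vb at h
  unfold gval
  split_ifs with h1
  · rw [if_pos h1] at h; exact absurd h one_ne_zero
  · rfl

theorem gfac_of_absent {i : Fin N} {b : Fin p.nb} {ω : Om p N} (h : cv p N (i, some b) ω = 0) :
    gfac p N i b ω = 0 := by
  unfold gfac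
  rw [gval_of_absent h]
  simp






theorem mt_pos (g : ℕ) : 0 < p.mt g := by unfold Par.mt; positivity

/-! ### the system without one gadget -/

/-- log-weight without the gadgets of `t`. -/
def Umin (p : Par) (N : ℕ) (H : (Fin N → Bool) → ℝ) (d : DD p N) (t : Finset (Fin N × Fin p.nb))
    (ω : Om p N) : ℝ :=
  (H ω.1 + ∑ c ∈ tᶜ, gfac p N c.1 c.2 ω) + ∑ k, cfac p N (d k) k ω

theorem UU_eq (H : (Fin N → Bool) → ℝ) (d : DD p N) (t : Finset (Fin N × Fin p.nb)) :
    UU p N H d = fun ω => Umin p N H d t ω + ∑ c ∈ t, gfac p N c.1 c.2 ω := by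
  funext ω
  unfold UU WW Umin
  have h : ∑ i, ∑ b, gfac p N i b ω = ∑ c : Fin N × Fin p.nb, gfac p N c.1 c.2 ω := by
    rw [Fintype.sum_prod_type]
  rw [h, ← Finset.sum_add_sum_compl t (fun c : Fin N × Fin p.nb => gfac p N c.1 c.2 ω)]
  ring

theorem Inv.umin {H : (Fin N → Bool) → ℝ} {d : DD p N} {t : Finset (Fin N × Fin p.nb)}
    {i : Fin N} {b : Fin p.nb} {g : Fin p.nc} (hi : ¬ touched p N d i) (hc : (i, b) ∈ t) :
    Inv i b g (Umin p N H d t) := by
  unfold Umin
  refine ((Inv.spin H).add (Inv.sum fun c' hc' => Inv.gfac ?_)).add (Inv.coins hi)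
  rintro ⟨e1, e2⟩
  rw [Finset.mem_compl] at hc'
  exact hc' (by rw [(Prod.ext e1 e2 : c' = (i, b))]; exact hc)

/-- the law without the gadgets of `t`. -/
def Pmin (p : Par) (N : ℕ) (H : (Fin N → Bool) → ℝ) (d : DD p N) (t : Finset (Fin N × Fin p.nb)) :
    Om p N → ℝ :=
  tl (prior p N) (fil p N) p.xs (Umin p N H d t)

theorem Pmin_isProb (H : (Fin N → Bool) → ℝ) (d : DD p N) (t : Finset (Fin N × Fin p.nb)) :
    IsProb (Pmin p N H d t) := tl_isProb (prior_isProb p N) p.xs_expo.pos _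

theorem symP_Pmin {H : (Fin N → Bool) → ℝ} {d : DD p N} {t : Finset (Fin N × Fin p.nb)}
    {i : Fin N} {b : Fin p.nb} {g : Fin p.nc} (hi : ¬ touched p N d i) (hc : (i, b) ∈ t) :
    SymP i b g (Pmin p N H d t) :=
  symP_tl (prior_isProb p N) p.xs_expo.pos (symP_prior i b g) (Inv.umin hi hc)

theorem PP_eq (H : (Fin N → Bool) → ℝ) (d : DD p N) (t : Finset (Fin N × Fin p.nb)) :
    PP p N H d = tl (Pmin p N H d t) (fil p N) p.xs (fun ω => ∑ c ∈ t, gfac p N c.1 c.2 ω) := by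
  unfold PP Pmin
  rw [← tl_add (prior_isProb p N) p.xs_expo.pos, ← UU_eq H d t]

theorem exp_two_log_two : Real.exp (2 * Real.log 2) = 4 := by
  rw [mul_comm, Real.exp_mul, Real.exp_log (by norm_num)]; norm_num

/-- **density of a gadget** (2.2). -/
theorem density (H : (Fin N → Bool) → ℝ) {d : DD p N} {i : Fin N} (hi : ¬ touched p N d i)
    (b : Fin p.nb) {k : ℕ} (hk : k < p.mt (p.lev b)) (ω : Om p N) :
    cE (PP p N H d) ((fil p N).F k) (cv p N (i, some b)) ω ≤ 4 / p.Q := by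
  rw [PP_eq H d {(i, b)}]
  refine (cE_tl_le (Pmin_isProb _ _ _) p.xs_expo (a := Real.log 2) (fun ω => ?_)
    (cv_nonneg p N _) k ω).trans ?_
  · rw [Finset.sum_singleton]; exact gfac_abs i b ω
  · rw [cE_vb (Pmin_isProb _ _ _) (symP_Pmin hi (Finset.mem_singleton_self _)) hk,
      exp_two_log_two]
    exact le_of_eq (by ring)

/-- **joint density of two gadgets** (2.2). -/
theorem density2 (H : (Fin N → Bool) → ℝ) {d : DD p N} {i j : Fin N} {b b' : Fin p.nb}
    (hij : (i, b) ≠ (j, b')) (hi : ¬ touched p N d i) (hj : ¬ touched p N d j)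
    {k : ℕ} (hk : k < p.mt (p.lev b)) (hk' : k < p.mt (p.lev b')) (ω : Om p N) :
    cE (PP p N H d) ((fil p N).F k) (fun w => cv p N (i, some b) w * cv p N (j, some b') w) ω ≤
      (4 / p.Q) ^ 2 := by
  have hne : ¬ (j = i ∧ b' = b) := by
    rintro ⟨rfl, rfl⟩; exact hij rfl
  rw [PP_eq H d {(i, b), (j, b')}]
  have hm1 : (i, b) ∈ ({(i, b), (j, b')} : Finset (Fin N × Fin p.nb)) := by simp
  have hm2 : (j, b') ∈ ({(i, b), (j, b')} : Finset (Fin N × Fin p.nb)) := by simp
  refine (cE_tl_le (Pmin_isProb _ _ _) p.xs_expo (a := 2 * Real.log 2) (fun ω => ?_)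
    (fun w => mul_nonneg (cv_nonneg p N _ w) (cv_nonneg p N _ w)) k ω).trans ?_
  · rw [Finset.sum_pair hij]
    refine (abs_add_le _ _).trans ?_
    linarith [gfac_abs i b ω, gfac_abs j b' ω]
  · rw [cE_vb_mul (Pmin_isProb _ _ _) (symP_Pmin hi hm1) hk (Inv.vb hne),
      cE_vb (Pmin_isProb _ _ _) (symP_Pmin hj hm2) hk']
    have e : Real.exp (2 * (2 * Real.log 2)) = 16 := by
      have h : (2 : ℝ) * (2 * Real.log 2) = 2 * Real.log 2 + 2 * Real.log 2 := by ring
      rw [h, Real.exp_add, exp_two_log_two]; norm_num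
    rw [e]
    exact le_of_eq (by ring)

end

end Crest.Agent.R141.Sym
end

-- ▼ part R141/PurC
section

/-!
Row 141 (S0192), Part L, section 2.3: instantiation of `badSum` and selection of the observation
steps (helper354).
-/

set_option autoImplicit false

namespace Crest.Agent.R141.Pur

open Finset Crest.Agent.R141

noncomputable section

open scoped Classical in
theorem tot_le_M0 (p : Par) {N : ℕ} (hN : 0 < N) (H : (Fin N → Bool) → ℝ) (k : Stp p)
    (d : DD p N) : tot p N H k d ≤ M0 p := by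
  unfold tot M0
  have h1 := bad_le_one p hN H k none none d
  have h2 : ∑ b, ∑ b2, (if (k.1 ≤ p.lev b ∧ k.1 ≤ p.lev b2) then
      bad p N H k (some b) (some b2) d else 0) ≤ (p.nb : ℝ) ^ 2 := by
    calc _ ≤ ∑ _b : Fin p.nb, ∑ _b2 : Fin p.nb, (1 : ℝ) := by
          refine Finset.sum_le_sum fun b _ => Finset.sum_le_sum fun b2 _ => ?_
          split_ifs
          · exact bad_le_one p hN H k _ _ d
          · exact zero_le_one
      _ = (p.nb : ℝ) ^ 2 := by simp [sq]
  have h3 := mul_le_mul_of_nonneg_left h2 (show (0 : ℝ) ≤ (p.Q : ℝ) ^ 4 by positivity)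
  linarith

theorem RMeas_L (p : Par) (N : ℕ) (f : Om p N → ℝ) : RMeas ((fil p N).F p.L) f := by
  intro a b h
  rw [(fil p N).bot p.L le_rfl] at h
  have h : a = b := h
  rw [h]

/-- the spin coordinates. -/
theorem badSum_none (p : Par) (hτ : p.τ ≤ 1 / 3) {N : ℕ} (hN : 0 < N) (H : (Fin N → Bool) → ℝ)
    (g : Fin p.nc) :
    ∑ t : Fin p.T, Ed p N (fun d => if d (g, t) = none then bad p N H (g, t) none none d else 0) ≤
      16 / p.τ ^ 2 * (((p.nb : ℝ) + 1) * 1 ^ 2) + p.T * (242 * p.τ ^ 2 * 1 ^ 4) := by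
  refine badSum p hN H g none none ?_ ?_
  · intro d t i j hd hij hi hj
    have h := noise_sys p N hτ H d (g, t) hd (i, none) (j, none) (m := p.L) (RMeas_L p N _)
      (κc := 1) (κd := 1) zero_le_one zero_le_one le_rfl
      (fun l _ _ ω => cE_le_of_le (PP_isProb p N H d) (cv_le_one p N _) ω)
      (fun ω => cE_le_of_le (PP_isProb p N H d) (fun a =>
        mul_le_mul (cv_le_one p N _ a) (cv_le_one p N _ a) (cv_nonneg p N _ a) zero_le_one) ω)
      (fun ω => cE_le_of_le (PP_isProb p N H d) (cv_le_one p N _) ω)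
    unfold eE Wv
    refine h.trans (le_of_eq ?_)
    unfold eE
    norm_num
  · intro d i _ ω
    refine abs_cE_le_of_le (PP_isProb p N H d) (fun a => ?_) ω
    rw [abs_of_nonneg (cv_nonneg p N _ a)]
    exact cv_le_one p N _ a

/-- the gadget coordinates of the level of the cell. -/
theorem badSum_some (p : Par) (hτ : p.τ ≤ 1 / 3) (hQ4 : 4 ≤ p.Q) {N : ℕ} (hN : 0 < N)
    (H : (Fin N → Bool) → ℝ) (g : Fin p.nc) (b b2 : Fin p.nb) (hb : g ≤ p.lev b)
    (hb2 : g ≤ p.lev b2) :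
    ∑ t : Fin p.T, Ed p N (fun d => if d (g, t) = none then
      bad p N H (g, t) (some b) (some b2) d else 0) ≤
      16 / p.τ ^ 2 * (((p.nb : ℝ) + 1) * (4 / p.Q) ^ 2) +
        p.T * (242 * p.τ ^ 2 * (4 / p.Q) ^ 4) := by
  have hQpos : (0 : ℝ) < p.Q := Sym.Qpos p
  have hκ0 : (0 : ℝ) ≤ 4 / p.Q := by positivity
  have hκ1 : (4 : ℝ) / p.Q ≤ 1 := by
    rw [div_le_one hQpos]
    exact_mod_cast hQ4
  have hmt : 0 < p.mt g := by unfold Par.mt; positivity
  have hmono : ∀ b' : Fin p.nb, g ≤ p.lev b' → p.mt g ≤ p.mt (p.lev b') := by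
    intro b' hb'
    have h1 : (g : ℕ) ≤ (p.lev b' : ℕ) := hb'
    unfold Par.mt
    exact Nat.mul_le_mul_right _ (by omega)
  have hmb := hmono b hb
  have hmb2 := hmono b2 hb2
  refine badSum p hN H g (some b) (some b2) ?_ ?_
  · intro d t i j hd hij hi hj
    rw [mem_Un] at hi hj
    have hct : p.ct g t < p.mt g := p.ct_lt_mt t.2
    have h := noise_sys p N hτ H d (g, t) hd (i, some b) (j, some b2) (m := p.mt (p.lev b2))
      (cv_meas_some p N j b2 le_rfl)
      (κc := 4 / p.Q) (κd := 4 / p.Q) hκ0 hκ0 hκ1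
      (fun l _ hl ω => Sym.density H hj b2 hl ω)
      (fun ω => by
        have := Sym.density2 H (b := b) (b' := b2) (i := i) (j := j)
          (fun hh => hij (Prod.ext_iff.1 hh).1) hi hj (k := p.ct g t)
          (by omega) (by omega) ω
        rw [sq] at this
        exact this)
      (fun ω => Sym.density H hi b (k := p.ct g t) (by omega) ω)
    unfold eE Wv
    refine h.trans (le_of_eq ?_)
    unfold eE
    ring
  · intro d i hi ω
    rw [mem_Un] at hi
    rw [abs_of_nonneg (cE_nonneg (PP_isProb p N H d) (cv_nonneg p N _) ω)]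
    exact Sym.density H hi b (by omega) ω

open scoped Classical in
/-- selection of good observation steps, one in each cell. -/
theorem selBad (p : Par) (hτ : p.τ ≤ 1 / 3) (hQ4 : 4 ≤ p.Q) {N : ℕ} (hN : 0 < N) (hT : 0 < p.T)
    (H : (Fin N → Bool) → ℝ) :
    ∃ sel : Fin p.nc → DD p N → Fin p.T, ∀ g,
      Ed p N (fun d => if d (g, sel g d) = none then tot p N H (g, sel g d) d else M0 p) ≤
        4 / p.T * (16 / p.τ ^ 2 * (p.nb + 1) * (1 + 16 * p.Q ^ 2 * p.nb ^ 2) + M0 p) +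
          4 * (242 * p.τ ^ 2 * (1 + 256 * p.nb ^ 2)) := by
  have hQpos : (0 : ℝ) < p.Q := Sym.Qpos p
  have hτ0 := p.hτ0
  have hTpos : (0 : ℝ) < p.T := by exact_mod_cast hT
  set S : ℝ := 16 / p.τ ^ 2 * (p.nb + 1) * (1 + 16 * p.Q ^ 2 * p.nb ^ 2) +
    p.T * (242 * p.τ ^ 2 * (1 + 256 * p.nb ^ 2)) with hS
  have hsum : ∀ g : Fin p.nc, ∑ t : Fin p.T,
      Ed p N (fun d => (if d (g, t) = none then tot p N H (g, t) d else 0)) ≤ S := by
    intro g
    have e1 : ∀ t : Fin p.T,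
        Ed p N (fun d => (if d (g, t) = none then tot p N H (g, t) d else 0)) =
        Ed p N (fun d => if d (g, t) = none then bad p N H (g, t) none none d else 0) +
        (p.Q : ℝ) ^ 4 * ∑ b, ∑ b2, (if (g ≤ p.lev b ∧ g ≤ p.lev b2) then
          Ed p N (fun d => if d (g, t) = none then
            bad p N H (g, t) (some b) (some b2) d else 0) else 0) := by
      intro t
      have e2 : ∀ d : DD p N, (if d (g, t) = none then tot p N H (g, t) d else 0) =
          (if d (g, t) = none then bad p N H (g, t) none none d else 0) +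
          (p.Q : ℝ) ^ 4 * ∑ b, ∑ b2, (if (g ≤ p.lev b ∧ g ≤ p.lev b2) then
            (if d (g, t) = none then bad p N H (g, t) (some b) (some b2) d else 0) else 0) := by
        intro d
        unfold tot
        split_ifs with h
        · rfl
        · simp
      simp only [e2]
      rw [Ed_add, Ed_smul, Ed_sum]
      congr 2
      refine Finset.sum_congr rfl fun b _ => ?_
      rw [Ed_sum]
      refine Finset.sum_congr rfl fun b2 _ => ?_
      split_ifs
      · rfl
      · rw [Ed_const p hN]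
    simp only [e1]
    rw [Finset.sum_add_distrib, ← Finset.mul_sum, Finset.sum_comm]
    have h1 := badSum_none p hτ hN H g
    have h2 : ∑ b, ∑ t : Fin p.T, ∑ b2, (if (g ≤ p.lev b ∧ g ≤ p.lev b2) then
          Ed p N (fun d => if d (g, t) = none then
            bad p N H (g, t) (some b) (some b2) d else 0) else 0) ≤
        (p.nb : ℝ) ^ 2 * (16 / p.τ ^ 2 * (((p.nb : ℝ) + 1) * (4 / p.Q) ^ 2) +
        p.T * (242 * p.τ ^ 2 * (4 / p.Q) ^ 4)) := by
      calc _ ≤ ∑ _b : Fin p.nb, ∑ _b2 : Fin p.nb,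
            (16 / p.τ ^ 2 * (((p.nb : ℝ) + 1) * (4 / p.Q) ^ 2) +
              p.T * (242 * p.τ ^ 2 * (4 / p.Q) ^ 4)) := by
            refine Finset.sum_le_sum fun b _ => ?_
            rw [Finset.sum_comm]
            refine Finset.sum_le_sum fun b2 _ => ?_
            by_cases h : g ≤ p.lev b ∧ g ≤ p.lev b2
            · simp only [if_pos h]
              exact badSum_some p hτ hQ4 hN H g b b2 h.1 h.2
            · simp only [if_neg h, Finset.sum_const_zero]
              positivity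
        _ = _ := by
            simp only [Finset.sum_const, Finset.card_univ, Fintype.card_fin, nsmul_eq_mul]
            ring
    have h3 := mul_le_mul_of_nonneg_left h2 (show (0 : ℝ) ≤ (p.Q : ℝ) ^ 4 by positivity)
    refine (add_le_add h1 h3).trans (le_of_eq ?_)
    rw [hS]
    field_simp
    ring
  obtain ⟨sel, hsel⟩ := selection_cell p hN hT (M := M0 p) (S := S) (tot p N H)
    (fun k d => tot_nonneg p N H k d) (fun k d => tot_le_M0 p hN H k d) hsum
  refine ⟨sel, fun g => (hsel g).trans (le_of_eq ?_)⟩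
  rw [hS]
  field_simp
  ring

end

end Crest.Agent.R141.Pur
end

-- ▼ part R141/PurBuild
section

/-!
Row 141 (S0192), Part L: a common finite family of gadget trees approximating finitely many shape
functionals.
-/

set_option autoImplicit false

namespace Crest.Agent.R141.Bld

open Finset Crest.Agent.R141.Clo

noncomputable section

/-- change of alphabet and of depth. -/
theorem exists_tree {ρ : ℕ → ℝ} {n n' Q Q' m : ℕ} (hn : n = n') (hQ : Q * m = Q') (hm : 0 < m)
    (Y : Tree Q n) (hY : Tree.Good n Y) :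
    ∃ Y' : Tree Q' n', Tree.Good n' Y' ∧ BX ρ Q' n' Y' = BX ρ Q n Y := by
  subst hn; subst hQ
  exact ⟨Tree.refine m n Y, Tree.refine_good m n Y hY, BX_refine hm n Y⟩

/-- the approximation of a shape functional by the family of trees. -/
def Approx (nc : ℕ) (ρ : ℕ → ℝ) (η C : ℝ) {ι : Type} [Fintype ι] (Q : ℕ) (lev : ι → Fin nc)
    (tree : ∀ b : ι, Tree Q (nc - 1 - (lev b : ℕ))) (n : ℕ) (s : Shape (n + 1)) : Prop :=
  ∃ c : ι → ℝ, (∀ b, c b ≠ 0 → nc - 1 - (lev b : ℕ) = n) ∧ ∑ b, |c b| ≤ C ∧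
    ∀ x : Pt, |VX (n + 1) s x - ∑ b, c b * BX ρ Q (nc - 1 - (lev b : ℕ)) (tree b) x| ≤ η

theorem build_ind (nc : ℕ) {ρ : ℕ → ℝ} (hρ : ∀ n, 0 < ρ n ∧ ρ n < 1) {η : ℝ} (hη : 0 < η) :
    ∀ AP : List (Σ n : Fin nc, Shape ((n : ℕ) + 1)),
    ∃ (ι : Type) (_ : Fintype ι) (Q : ℕ) (_ : 0 < Q) (lev : ι → Fin nc)
      (tree : ∀ b : ι, Tree Q (nc - 1 - (lev b : ℕ))) (_ : ∀ b, Tree.Good _ (tree b))
      (C : ℝ) (_ : 0 ≤ C), ∀ q ∈ AP, Approx nc ρ η C Q lev tree (q.1 : ℕ) q.2
  | [] => ⟨Empty, inferInstance, 1, one_pos, Empty.elim, fun b => b.elim, fun b => b.elim, 0,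
      le_rfl, fun q hq => absurd hq (by simp)⟩
  | (⟨n, s⟩ : Σ n : Fin nc, Shape ((n : ℕ) + 1)) :: AP => by
    obtain ⟨ι, hι, Q1, hQ1, lev, tree, good, C, hC, hAP⟩ := build_ind nc hρ hη AP
    obtain ⟨Q2, L, hQ2, hL, happ⟩ := closure_AS hρ (n : ℕ) s η hη
    have hn := n.2
    -- level of the new trees
    let g : Fin nc := ⟨nc - 1 - (n : ℕ), by omega⟩
    have hg : (n : ℕ) = nc - 1 - (g : ℕ) := by simp only [g]; omega
    have h1 : ∀ b : ι, ∃ Y' : Tree (Q1 * Q2) (nc - 1 - (lev b : ℕ)), Tree.Good _ Y' ∧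
        BX ρ (Q1 * Q2) _ Y' = BX ρ Q1 _ (tree b) := fun b =>
      exists_tree rfl rfl hQ2 (tree b) (good b)
    have h2 : ∀ j : Fin L.length, ∃ Y' : Tree (Q1 * Q2) (nc - 1 - (g : ℕ)), Tree.Good _ Y' ∧
        BX ρ (Q1 * Q2) _ Y' = BX ρ Q2 n (L.get j).2 := fun j =>
      exists_tree hg (Nat.mul_comm _ _) hQ1 (L.get j).2 (hL _ (List.get_mem _ _))
    choose T1 hT1 hT1' using h1
    choose T2 hT2 hT2' using h2
    let lev' : ι ⊕ Fin L.length → Fin nc := Sum.elim lev (fun _ => g)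
    let tree' : ∀ b : ι ⊕ Fin L.length, Tree (Q1 * Q2) (nc - 1 - (lev' b : ℕ)) := fun b =>
      match b with
      | Sum.inl b => T1 b
      | Sum.inr j => T2 j
    refine ⟨ι ⊕ Fin L.length, inferInstance, Q1 * Q2, by positivity, lev', tree', ?_,
      C + ∑ j : Fin L.length, |(L.get j).1|, by positivity, ?_⟩
    · intro b
      match b with
      | Sum.inl b => exact hT1 b
      | Sum.inr j => exact hT2 j
    · intro q hq
      rw [List.mem_cons] at hq
      rcases hq with rfl | hq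
      · refine ⟨Sum.elim (fun _ => 0) (fun j => (L.get j).1), ?_, ?_, ?_⟩
        · intro b hb
          match b with
          | Sum.inl b => exact absurd rfl hb
          | Sum.inr j => exact hg.symm
        · rw [Fintype.sum_sum_type]
          simp only [Sum.elim_inl, Sum.elim_inr, abs_zero, Finset.sum_const_zero, zero_add]
          linarith
        · intro x
          rw [Fintype.sum_sum_type]
          simp only [Sum.elim_inl, Sum.elim_inr, zero_mul, Finset.sum_const_zero, zero_add]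
          have e : ∑ j : Fin L.length, (L.get j).1 * BX ρ (Q1 * Q2) (nc - 1 - (lev' (Sum.inr j) : ℕ))
              (tree' (Sum.inr j)) x = (L.map (fun y => y.1 * BX ρ Q2 (n : ℕ) y.2 x)).sum := by
            rw [← List.sum_ofFn]
            congr 1
            apply List.ext_get
            · simp
            · intro k hk1 hk2
              simp only [List.get_eq_getElem, List.getElem_ofFn, List.getElem_map]
              have := congrFun (hT2' ⟨k, by simpa using hk2⟩) x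
              show _ * BX ρ (Q1 * Q2) (nc - 1 - (g : ℕ)) (T2 ⟨k, _⟩) x = _
              rw [this]
              rfl
          rw [e]
          exact happ x
      · obtain ⟨c, hc1, hc2, hc3⟩ := hAP q hq
        refine ⟨Sum.elim c (fun _ => 0), ?_, ?_, ?_⟩
        · intro b hb
          match b with
          | Sum.inl b => exact hc1 b hb
          | Sum.inr j => exact absurd rfl hb
        · rw [Fintype.sum_sum_type]
          simp only [Sum.elim_inl, Sum.elim_inr, abs_zero, Finset.sum_const_zero, add_zero]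
          have : 0 ≤ ∑ j : Fin L.length, |(L.get j).1| := Finset.sum_nonneg fun _ _ => abs_nonneg _
          linarith
        · intro x
          rw [Fintype.sum_sum_type]
          simp only [Sum.elim_inl, Sum.elim_inr, zero_mul, Finset.sum_const_zero, add_zero]
          have e : ∀ b : ι, BX ρ (Q1 * Q2) (nc - 1 - (lev' (Sum.inl b) : ℕ)) (tree' (Sum.inl b)) x =
              BX ρ Q1 (nc - 1 - (lev b : ℕ)) (tree b) x := fun b => congrFun (hT1' b) x
          simp only [e]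
          exact hc3 x

/-- A finite family of trees over a common alphabet, whose refinements are also available. -/
theorem build (nc : ℕ) {ρ : ℕ → ℝ} (hρ : ∀ n, 0 < ρ n ∧ ρ n < 1) {η : ℝ} (hη : 0 < η)
    (FS : (n : ℕ) → List (Shape (n + 1))) :
    ∃ (nb : ℕ) (Q0 : ℕ) (_ : 0 < Q0) (lev : Fin nb → Fin nc) (C : ℝ) (_ : 0 ≤ C), ∀ m : ℕ, 0 < m →
      ∃ (tree : ∀ b : Fin nb, Tree (Q0 * m) (nc - 1 - (lev b : ℕ)))
        (_ : ∀ b, Tree.Good _ (tree b)), ∀ n, n < nc → ∀ s ∈ FS n,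
          Approx nc ρ η C (Q0 * m) lev tree n s := by
  classical
  obtain ⟨ι, hι, Q, hQ, lev, tree, good, C, hC, hAP⟩ := build_ind nc hρ hη
    ((List.finRange nc).flatMap (fun n : Fin nc => (FS (n : ℕ)).map (fun s => ⟨n, s⟩)))
  let e := Fintype.equivFin ι
  refine ⟨Fintype.card ι, Q, hQ, fun b => lev (e.symm b), C, hC, ?_⟩
  intro m hm
  have h1 : ∀ b : Fin (Fintype.card ι), ∃ Y' : Tree (Q * m) (nc - 1 - (lev (e.symm b) : ℕ)),
      Tree.Good _ Y' ∧ BX ρ (Q * m) _ Y' = BX ρ Q _ (tree (e.symm b)) := fun b =>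
    exists_tree rfl rfl hm (tree (e.symm b)) (good (e.symm b))
  choose T1 hT1 hT1' using h1
  refine ⟨T1, hT1, ?_⟩
  intro n hn s hs
  have hmem : (⟨⟨n, hn⟩, s⟩ : Σ n : Fin nc, Shape ((n : ℕ) + 1)) ∈
      ((List.finRange nc).flatMap (fun n : Fin nc => (FS (n : ℕ)).map (fun s => ⟨n, s⟩)) :
        List (Σ n : Fin nc, Shape ((n : ℕ) + 1))) := by
    rw [List.mem_flatMap]
    refine ⟨⟨n, hn⟩, List.mem_finRange _, ?_⟩
    rw [List.mem_map]
    exact ⟨s, hs, rfl⟩
  obtain ⟨c, hc1, hc2, hc3⟩ := hAP _ hmem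
  refine ⟨fun b => c (e.symm b), fun b hb => hc1 (e.symm b) hb, ?_, ?_⟩
  · rw [e.symm.sum_comp (fun b => |c b|)]
    exact hc2
  · intro x
    have h2 : ∑ b, c (e.symm b) * BX ρ (Q * m) (nc - 1 - (lev (e.symm b) : ℕ)) (T1 b) x =
        ∑ b, c b * BX ρ Q (nc - 1 - (lev b : ℕ)) (tree b) x := by
      rw [← e.symm.sum_comp (fun b => c b * BX ρ Q (nc - 1 - (lev b : ℕ)) (tree b) x)]
      apply Finset.sum_congr rfl
      intro b _
      rw [hT1' b]
    rw [h2]
    exact hc3 x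

end

end Crest.Agent.R141.Bld
end

-- ▼ part R141/SysV
section

/-!
Row 141 (S0192), Part L, section 2.5: the V-lemma.
-/

set_option autoImplicit false

namespace Crest.Agent.R141.Sym

open Finset Crest.Agent.R141

noncomputable section

variable {p : Par} {N : ℕ}

theorem Qnat (p : Par) : 0 < p.Q := by have := p.hQ; omega

theorem BB_mem {P : Om p N → ℝ} (hP : IsProb P) (i : Fin N) (n : ℕ) (Y : Clo.Tree p.Q n)
    (hY : Clo.Tree.Good n Y) (ω : Om p N) :
    1 / 2 ≤ BB p N P hP i n Y ω ∧ BB p N P hP i n Y ω ≤ 3 / 2 :=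
  Clo.BX_mem p.rho_mem (Qnat p) n Y hY ⟨Om p N, ctx p N P hP i, ω⟩

/-- `B` is invariant under relabelling. -/
theorem Inv.bb {P : Om p N → ℝ} (hP : IsProb P) {i : Fin N} {b : Fin p.nb} {g : Fin p.nc}
    (hs : SymP i b g P) (j : Fin N) : ∀ (n : ℕ) (Y : Clo.Tree p.Q n),
    Inv i b g (BB p N P hP j n Y)
  | 0, y => by
    intro π ω
    rw [BB_zero, BB_zero, Inv.cE hs (Inv.spin (fun s => sv (s j))) _ π ω]
  | n + 1, Y => by
    intro π ω
    rw [BB_succ, BB_succ]
    congr 2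
    refine Finset.sum_congr rfl fun q _ => ?_
    exact Inv.cE hs (Inv.bb hP hs j n (Y q)) _ π ω

theorem BB_meas {P : Om p N → ℝ} (hP : IsProb P) (i : Fin N) (n : ℕ) (Y : Clo.Tree p.Q n) :
    RMeas ((fil p N).F (p.mt (p.nc - 1 - n))) (BB p N P hP i n Y) := by
  cases n with
  | zero =>
    intro a b h
    have h' : ((fil p N).F (p.mt (p.nc - 1))) a b := h
    rw [BB_zero, BB_zero]
    rw [cE_meas P ((fil p N).F (p.mt (p.nc - 1))) _ a b h']
  | succ n =>
    intro a b h
    rw [BB_succ, BB_succ]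
    congr 2
    exact Finset.sum_congr rfl fun q _ => cE_meas P _ _ a b h

theorem mt_mono {g h : ℕ} (hgh : g ≤ h) : p.mt g ≤ p.mt h := by
  unfold Par.mt
  exact Nat.mul_le_mul_right _ (by omega)

theorem mt_lt {g h : ℕ} (hgh : g < h) : p.mt g < p.mt h := by
  unfold Par.mt
  exact Nat.mul_lt_mul_of_pos_right (by omega) (by omega)

theorem mt_last (p : Par) : p.mt (p.nc - 1) + 1 = p.L := by
  have := p.hnc
  unfold Par.mt Par.L
  have h : p.nc - 1 + 1 = p.nc := by omega
  rw [h]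

/-- the recursion for the free energy of a gadget above its level. -/
theorem A_tree {P : Om p N → ℝ} (hP : IsProb P) {i : Fin N} {b : Fin p.nb}
    (hs : ∀ g, SymP i b g P) : ∀ (n : ℕ), n < p.nc → ∀ (Y : Clo.Tree p.Q n), Clo.Tree.Good n Y →
      ∀ (U : Om p N → ℝ) (ω : Om p N),
      (∀ a, (fil p N).F (p.mt (p.nc - 1 - n)) ω a →
        U a = Real.log (1 + tval p (ext p (a.2.1 i b)) n Y * sv (a.1 i))) →
      Real.exp (p.xi (p.nc - 1 - n) * A P (fil p N) p.xs U (p.mt (p.nc - 1 - n)) ω) =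
        BB p N P hP i n Y ω
  | 0, _, y, hy, U, ω, hU => by
    have hy' : |(show ℝ from y)| ≤ 1 / 2 := hy
    have hy2 := abs_le.mp hy'
    have hstep := exp_A_step (𝓕 := fil p N) hP p.xs_expo.pos U (p.mt (p.nc - 1)) ω
    have hL : p.mt (p.nc - 1) + 1 = p.L := mt_last p
    rw [hL, p.xs_last le_rfl, one_mul] at hstep
    have hA : A P (fil p N) p.xs U p.L = U := A_of_ge U le_rfl
    rw [hA] at hstep
    have h1 : cE P ((fil p N).F (p.mt (p.nc - 1))) (fun w => Real.exp (1 * U w)) ω =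
        1 + (show ℝ from y) * cE P ((fil p N).F (p.mt (p.nc - 1))) (fun w => sv (w.1 i)) ω := by
      rw [← cE_smul, ← cE_const hP ((fil p N).F (p.mt (p.nc - 1))) 1 ω, ← cE_add]
      refine cE_congr ω fun a ha => ?_
      have hs1 := sv_abs (a.1 i)
      have hb : |(show ℝ from y) * sv (a.1 i)| ≤ 1 / 2 := by rw [abs_mul, hs1, mul_one]; exact hy'
      have hb2 := (abs_le.mp hb).1
      rw [cE_const hP, one_mul, hU a ha]
      show Real.exp (Real.log (1 + (show ℝ from y) * sv (a.1 i))) = _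
      rw [Real.exp_log (by linarith)]
    rw [h1] at hstep
    rw [BB_zero, p.rho_zero]
    have hpos : 0 < 1 + (show ℝ from y) *
        cE P ((fil p N).F (p.mt (p.nc - 1))) (fun w => sv (w.1 i)) ω := by
      rw [← hstep]; exact Real.exp_pos _
    show Real.exp (p.xi (p.nc - 1) * A P (fil p N) p.xs U (p.mt (p.nc - 1)) ω) = _
    rw [mul_comm, Real.exp_mul, hstep]
  | n + 1, hn, Y, hY, U, ω, hU => by
    have hh : p.nc - 1 - n = p.nc - 1 - (n + 1) + 1 := by omega
    have hlt : p.nc - (n + 1) < p.nc := by omega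
    have hcell : p.nc - (n + 1) = p.nc - 1 - n := by omega
    have hxi : 0 < p.xi (p.nc - 1 - n) := p.xi_pos _
    have hcol := A_collapse (𝓕 := fil p N) hP p.xs_expo.pos (y := p.xi (p.nc - 1 - n)) hxi U
      (k := p.mt (p.nc - 1 - (n + 1))) (l := p.mt (p.nc - 1 - n)) (mt_mono (by omega))
      (fun j h1 h2 => by
        refine p.xs_cell (by omega) ?_ h2
        rw [hh]
        exact h1) ω
    have hexp := exp_pm hP ((fil p N).F (p.mt (p.nc - 1 - (n + 1)))) hxi
      (A P (fil p N) p.xs U (p.mt (p.nc - 1 - n))) ω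
    rw [← hcol] at hexp
    have h2 : cE P ((fil p N).F (p.mt (p.nc - 1 - (n + 1))))
        (fun a => Real.exp (p.xi (p.nc - 1 - n) *
          A P (fil p N) p.xs U (p.mt (p.nc - 1 - n)) a)) ω =
        cE P ((fil p N).F (p.mt (p.nc - 1 - (n + 1))))
          (fun a => BB p N P hP i n (Y (a.2.1 i b ⟨p.nc - (n + 1), hlt⟩)) a) ω := by
      refine cE_congr ω fun a ha => ?_
      refine A_tree hP hs n (by omega) _ (hY _) U a fun a' ha' => ?_
      have h3 : (fil p N).F (p.mt (p.nc - 1 - (n + 1))) ω a' :=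
        ((fil p N).F (p.mt (p.nc - 1 - (n + 1)))).trans ha
          ((fil p N).anti' (mt_mono (by omega)) ha')
      rw [hU a' h3]
      have h4 : a.2.1 i b ⟨p.nc - (n + 1), hlt⟩ = a'.2.1 i b ⟨p.nc - (n + 1), hlt⟩ := by
        have h5 : frel p N (p.mt (p.nc - 1 - n)) a a' := ha'
        refine h5.1 i b ⟨p.nc - (n + 1), hlt⟩ ?_
        exact mt_mono (le_of_eq hcell)
      have h6 : tval p (ext p (a'.2.1 i b)) (n + 1) Y =
          tval p (ext p (a'.2.1 i b)) n (Y (a.2.1 i b ⟨p.nc - (n + 1), hlt⟩)) := by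
        rw [h4]
        show tval p (ext p (a'.2.1 i b)) n (Y (ext p (a'.2.1 i b) (p.nc - (n + 1)))) = _
        congr 2
        unfold ext
        rw [dif_pos hlt]
      rw [h6]
    have h7 := cE_label hP (hs ⟨p.nc - (n + 1), hlt⟩) (k := p.mt (p.nc - 1 - (n + 1)))
      (mt_lt (by show p.nc - 1 - (n + 1) < p.nc - (n + 1); omega))
      (fun q a => BB p N P hP i n (Y q) a) (fun q => Inv.bb hP (hs _) i n (Y q)) ω
    rw [h2, h7] at hexp
    rw [BB_succ, p.rho_succ hn, ← hexp, ← Real.exp_mul]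
    congr 1
    field_simp

theorem gval_of_present {b : Fin p.nb} {l : Fin p.nc → Fin p.Q} (h : vb p b l = 1) :
    gval p b l = tval p (ext p l) (p.nc - 1 - (p.lev b : ℕ)) (p.tree b) := by
  unfold vb at h
  unfold gval
  split_ifs with h1
  · rfl
  · rw [if_neg h1] at h; exact absurd h zero_ne_one

theorem lev_eq (b : Fin p.nb) : p.nc - 1 - (p.nc - 1 - (p.lev b : ℕ)) = p.lev b := by
  have := (p.lev b).2; omega

/-- free energy of a gadget from its own label step on. -/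
theorem exp_A_gfac {P : Om p N → ℝ} (hP : IsProb P) {i : Fin N} {b : Fin p.nb}
    (hs : ∀ g, SymP i b g P) (ω : Om p N) :
    Real.exp (p.xi (p.lev b) * A P (fil p N) p.xs (gfac p N i b) (p.mt (p.lev b)) ω) =
      1 + cv p N (i, some b) ω *
        (BB p N P hP i (p.nc - 1 - (p.lev b : ℕ)) (p.tree b) ω - 1) := by
  rcases cv_mem p N (i, some b) ω with h | h
  · rw [h, zero_mul, add_zero]
    have h1 : A P (fil p N) p.xs (gfac p N i b) (p.mt (p.lev b)) ω = 0 := by
      rw [A_congr_class hP p.xs_expo.pos (V := fun _ => (0:ℝ)) _ ω (fun a ha => ?_),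
        A_const hP p.xs_expo.pos]
      apply gfac_of_absent
      rw [← cv_meas_some p N i b le_rfl ω a ha, h]
    rw [h1]; simp
  · rw [h, one_mul]
    have hn : p.nc - 1 - (p.lev b : ℕ) < p.nc := by have := p.hnc; omega
    have h1 := A_tree hP hs (p.nc - 1 - (p.lev b : ℕ)) hn (p.tree b) (p.good b) (gfac p N i b) ω
      (fun a ha => ?_)
    · rw [lev_eq] at h1
      rw [h1]; ring
    · rw [lev_eq] at ha
      have h2 : vb p b (a.2.1 i b) = 1 := by
        rw [← cv_some, ← cv_meas_some p N i b le_rfl ω a ha, h]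
      unfold gfac
      rw [gval_of_present h2]

theorem xs_mt (g : Fin p.nc) : p.xs (p.mt g) = p.xi g := by
  refine p.xs_cell g.2 ?_ le_rfl
  unfold Par.mt
  exact Nat.mul_lt_mul_of_pos_right (by omega) (by omega)

/-- free energy of a gadget just before its own label step. -/
theorem exp_A_gfac_pred {P : Om p N → ℝ} (hP : IsProb P) {i : Fin N} {b : Fin p.nb}
    (hs : ∀ g, SymP i b g P) (ω : Om p N) :
    Real.exp (p.xi (p.lev b) * A P (fil p N) p.xs (gfac p N i b) (p.mt (p.lev b) - 1) ω) =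
      1 + (p.Q : ℝ)⁻¹ * (cE P ((fil p N).F (p.mt (p.lev b) - 1))
        (BB p N P hP i (p.nc - 1 - (p.lev b : ℕ)) (p.tree b)) ω - 1) := by
  have hmt := mt_pos (p := p) (p.lev b)
  have hk : p.mt (p.lev b) - 1 + 1 = p.mt (p.lev b) := by omega
  have h := exp_A_step (𝓕 := fil p N) hP p.xs_expo.pos (gfac p N i b) (p.mt (p.lev b) - 1) ω
  rw [hk, xs_mt] at h
  rw [h]
  have e : (fun w => Real.exp (p.xi (p.lev b) *
      A P (fil p N) p.xs (gfac p N i b) (p.mt (p.lev b)) w)) = fun w => 1 + cv p N (i, some b) w *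
        (BB p N P hP i (p.nc - 1 - (p.lev b : ℕ)) (p.tree b) w - 1) := by
    funext w; exact exp_A_gfac hP hs w
  rw [e, cE_add, cE_const hP]
  congr 1
  have hinv : Inv i b (p.lev b)
      (fun w => BB p N P hP i (p.nc - 1 - (p.lev b : ℕ)) (p.tree b) w - 1) :=
    (Inv.bb hP (hs _) i _ _).comp (fun t => t - 1)
  rw [cE_vb_mul hP (hs _) (by omega) hinv, cE_sub, cE_const hP]

/-- conditional expectations under the law tilted by one gadget. -/
theorem cE_tl_gfac {P : Om p N → ℝ} (hP : IsProb P) {i : Fin N} {b : Fin p.nb}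
    (hs : ∀ g, SymP i b g P) {f : Om p N → ℝ} (hf : RMeas ((fil p N).F (p.mt (p.lev b))) f)
    (ω : Om p N) :
    cE (tl P (fil p N) p.xs (gfac p N i b)) ((fil p N).F (p.mt (p.lev b) - 1)) f ω =
      (1 + (p.Q : ℝ)⁻¹ * (cE P ((fil p N).F (p.mt (p.lev b) - 1))
        (BB p N P hP i (p.nc - 1 - (p.lev b : ℕ)) (p.tree b)) ω - 1))⁻¹ *
      cE P ((fil p N).F (p.mt (p.lev b) - 1)) (fun w => (1 + cv p N (i, some b) w *
        (BB p N P hP i (p.nc - 1 - (p.lev b : ℕ)) (p.tree b) w - 1)) * f w) ω := by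
  have hmt := mt_pos (p := p) (p.lev b)
  have hk : p.mt (p.lev b) - 1 + 1 = p.mt (p.lev b) := by omega
  rw [cE_tl_meas hP p.xs_expo.pos _ (by omega : p.mt (p.lev b) - 1 ≤ p.mt (p.lev b)) hf,
    ← cE_smul]
  refine cE_congr ω fun a ha => ?_
  have hS : S P (fil p N) p.xs (gfac p N i b) (p.mt (p.lev b) - 1) (p.mt (p.lev b)) a =
      p.xi (p.lev b) * A P (fil p N) p.xs (gfac p N i b) (p.mt (p.lev b)) a -
      p.xi (p.lev b) * A P (fil p N) p.xs (gfac p N i b) (p.mt (p.lev b) - 1) a := by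
    have h1 := S_succ (P := P) (𝓕 := fil p N) (x := p.xs) (gfac p N i b)
      (le_refl (p.mt (p.lev b) - 1)) a
    rw [hk, S_self, zero_add, xs_mt] at h1
    rw [h1]; ring
  rw [hS, Real.exp_sub, exp_A_gfac hP hs, exp_A_gfac_pred hP hs]
  rw [cE_meas P ((fil p N).F (p.mt (p.lev b) - 1))
    (BB p N P hP i (p.nc - 1 - (p.lev b : ℕ)) (p.tree b)) ω a ha]
  ring

/-- where the gadget is absent, the tilt is not seen after its label step. -/
theorem cE_tl_absent {P : Om p N → ℝ} (hP : IsProb P) {i : Fin N} {b : Fin p.nb} {l : ℕ}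
    (hl : p.mt (p.lev b) ≤ l) (f : Om p N → ℝ) {ω : Om p N} (hω : cv p N (i, some b) ω = 0) :
    cE (tl P (fil p N) p.xs (gfac p N i b)) ((fil p N).F l) f ω = cE P ((fil p N).F l) f ω := by
  rw [cE_tl hP p.xs_expo.pos]
  refine cE_congr ω fun a ha => ?_
  have hA : ∀ j, l ≤ j → A P (fil p N) p.xs (gfac p N i b) j a = 0 := by
    intro j hj
    rw [A_congr_class hP p.xs_expo.pos (V := fun _ => (0:ℝ)) _ a (fun a' ha' => ?_),
      A_const hP p.xs_expo.pos]
    apply gfac_of_absent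
    rw [← cv_meas_some p N i b (hl.trans hj) a a' ha', ← cv_meas_some p N i b hl ω a ha, hω]
  have hS : S P (fil p N) p.xs (gfac p N i b) l (fil p N).L a = 0 := by
    unfold S
    refine Finset.sum_eq_zero fun j hj => ?_
    rw [Finset.mem_Ico] at hj
    rw [hA (j + 1) (by omega), hA j hj.1]; ring
  rw [hS]; simp

theorem BB_absent {P : Om p N → ℝ} (hP : IsProb P) {i : Fin N} {b : Fin p.nb} (j : Fin N) :
    ∀ (n : ℕ), n ≤ p.nc - 1 - (p.lev b : ℕ) → ∀ (Y : Clo.Tree p.Q n)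
      (hP' : IsProb (tl P (fil p N) p.xs (gfac p N i b))) (ω : Om p N),
      cv p N (i, some b) ω = 0 →
      BB p N (tl P (fil p N) p.xs (gfac p N i b)) hP' j n Y ω = BB p N P hP j n Y ω
  | 0, _, y, hP', ω, hω => by
    have h2 := (p.lev b).2
    rw [BB_zero, BB_zero, cE_tl_absent hP (mt_mono (by omega)) _ hω]
  | n + 1, hn, Y, hP', ω, hω => by
    have h2 := (p.lev b).2
    have hl : p.mt (p.lev b) ≤ p.mt (p.nc - 1 - (n + 1)) := mt_mono (by omega)
    rw [BB_succ, BB_succ]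
    congr 2
    refine Finset.sum_congr rfl fun q _ => ?_
    rw [cE_tl_absent hP hl _ hω]
    refine cE_congr ω fun a ha => ?_
    refine BB_absent hP j n (by omega) (Y q) hP' a ?_
    rw [← cv_meas_some p N i b hl ω a ha, hω]

theorem v_lemma_aux {q β X V W : ℝ} (hq : 2 ≤ q) (hβ1 : 1 / 2 ≤ β) (hβ2 : β ≤ 3 / 2)
    (hV : V = (1 + q⁻¹ * (β - 1))⁻¹ * (q⁻¹ * β))
    (hX : X = (1 + q⁻¹ * (β - 1))⁻¹ * (β - q⁻¹ * β) + W) (hW0 : 0 ≤ W) (hW : W ≤ 3 / 2 * V) :
    |q * V - X| ≤ 8 / q := by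
  have hq0 : 0 < q := by linarith
  have hD : 0 < q + (β - 1) := by linarith
  have hV' : V = β / (q + (β - 1)) := by
    rw [hV]; field_simp
  have hX' : X = (q - 1) * β / (q + (β - 1)) + W := by
    rw [hX]; field_simp
  have hV2 : V ≤ 2 / q := by
    rw [hV', div_le_div_iff₀ hD hq0]
    nlinarith
  have e : q * V - X = β / (q + (β - 1)) - W := by
    rw [hX', hV']; field_simp; ring
  rw [e, ← hV', abs_le]
  have h2 : (0 : ℝ) ≤ 1 / q := by positivity
  have e2 : 2 / q = 2 * (1 / q) := by ring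
  have e8 : 8 / q = 8 * (1 / q) := by ring
  have hV0 : 0 ≤ V := by rw [hV']; positivity
  rw [e2] at hV2
  rw [e8]
  constructor <;> linarith

/-- the V-lemma for one gadget added to a law which does not see its labels. -/
theorem v_core {P0 : Om p N → ℝ} (hP0 : IsProb P0) {i : Fin N} {b : Fin p.nb}
    (hs : ∀ g, SymP i b g P0) (hP : IsProb (tl P0 (fil p N) p.xs (gfac p N i b))) (ω : Om p N) :
    |(p.Q : ℝ) * cE (tl P0 (fil p N) p.xs (gfac p N i b)) ((fil p N).F (p.mt (p.lev b) - 1))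
        (cv p N (i, some b)) ω -
      cE (tl P0 (fil p N) p.xs (gfac p N i b)) ((fil p N).F (p.mt (p.lev b) - 1))
        (BB p N (tl P0 (fil p N) p.xs (gfac p N i b)) hP i (p.nc - 1 - (p.lev b : ℕ))
          (p.tree b)) ω| ≤ 8 / p.Q := by
  have hq : (2 : ℝ) ≤ p.Q := by exact_mod_cast p.hQ
  have hmt := mt_pos (p := p) (p.lev b)
  have hBmeas : RMeas ((fil p N).F (p.mt (p.lev b)))
      (BB p N P0 hP0 i (p.nc - 1 - (p.lev b : ℕ)) (p.tree b)) := by
    have h := BB_meas (p := p) (N := N) hP0 i (p.nc - 1 - (p.lev b : ℕ)) (p.tree b)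
    have e : p.mt (p.nc - 1 - (p.nc - 1 - (p.lev b : ℕ))) = p.mt (p.lev b) := by rw [lev_eq]
    rw [e] at h
    exact h
  have hinv : Inv i b (p.lev b) (BB p N P0 hP0 i (p.nc - 1 - (p.lev b : ℕ)) (p.tree b)) :=
    Inv.bb hP0 (hs _) i _ _
  have hVf := fun (f : Om p N → ℝ) (hf : RMeas ((fil p N).F (p.mt (p.lev b))) f) =>
    cE_tl_gfac hP0 hs hf ω
  have habs := fun (w : Om p N) (hw : cv p N (i, some b) w = 0) =>
    BB_absent (b := b) (i := i) hP0 i (p.nc - 1 - (p.lev b : ℕ)) le_rfl (p.tree b) hP w hw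
  have hBmem : ∀ w, 1 / 2 ≤ BB p N P0 hP0 i (p.nc - 1 - (p.lev b : ℕ)) (p.tree b) w ∧
      BB p N P0 hP0 i (p.nc - 1 - (p.lev b : ℕ)) (p.tree b) w ≤ 3 / 2 :=
    fun w => BB_mem hP0 i _ _ (p.good b) w
  have hBPmem : ∀ w, 1 / 2 ≤ BB p N (tl P0 (fil p N) p.xs (gfac p N i b)) hP i
        (p.nc - 1 - (p.lev b : ℕ)) (p.tree b) w ∧
      BB p N (tl P0 (fil p N) p.xs (gfac p N i b)) hP i
        (p.nc - 1 - (p.lev b : ℕ)) (p.tree b) w ≤ 3 / 2 :=
    fun w => BB_mem hP i _ _ (p.good b) w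
  have hvmeas := cv_meas_some p N i b (le_refl (p.mt (p.lev b)))
  have hv01 := cv_mem p N (i, some b)
  have hv0 := cv_nonneg p N (i, some b)
  have hvmul := fun (f : Om p N → ℝ) (hf : Inv i b (p.lev b) f) =>
    cE_vb_mul hP0 (hs _) (show p.mt (p.lev b) - 1 < p.mt (p.lev b) by omega) hf ω
  generalize BB p N P0 hP0 i (p.nc - 1 - (p.lev b : ℕ)) (p.tree b) = B at *
  generalize BB p N (tl P0 (fil p N) p.xs (gfac p N i b)) hP i
        (p.nc - 1 - (p.lev b : ℕ)) (p.tree b) = BP at *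
  generalize cv p N (i, some b) = v at *
  -- conditional expectation of `v`
  have hV := hVf v hvmeas
  have e1 : (fun w => (1 + v w * (B w - 1)) * v w) = fun w => v w * B w := by
    funext w
    rcases hv01 w with h | h <;> rw [h] <;> ring
  rw [e1, hvmul B hinv] at hV
  -- conditional expectation of `(1 - v) B`
  have hmeas2 : RMeas ((fil p N).F (p.mt (p.lev b))) (fun w => (1 - v w) * B w) := by
    intro a a' h
    show (1 - v a) * B a = (1 - v a') * B a'
    rw [hvmeas a a' h, hBmeas a a' h]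
  have hX := hVf _ hmeas2
  have e2 : (fun w => (1 + v w * (B w - 1)) * ((1 - v w) * B w)) = fun w => B w - v w * B w := by
    funext w
    rcases hv01 w with h | h <;> rw [h] <;> ring
  rw [e2, cE_sub, hvmul B hinv] at hX
  -- splitting of `BP`
  have e3 : BP = fun w => (1 - v w) * B w + v w * BP w := by
    funext w
    rcases hv01 w with h | h
    · rw [h, habs w h]; ring
    · rw [h]; ring
  have e4 : cE (tl P0 (fil p N) p.xs (gfac p N i b)) ((fil p N).F (p.mt (p.lev b) - 1)) BP ω =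
      cE (tl P0 (fil p N) p.xs (gfac p N i b)) ((fil p N).F (p.mt (p.lev b) - 1))
        (fun w => (1 - v w) * B w) ω +
      cE (tl P0 (fil p N) p.xs (gfac p N i b)) ((fil p N).F (p.mt (p.lev b) - 1))
        (fun w => v w * BP w) ω := by
    rw [← cE_add, ← e3]
  rw [hX] at e4
  have hβ1 : 1 / 2 ≤ cE P0 ((fil p N).F (p.mt (p.lev b) - 1)) B ω :=
    le_cE_of_le hP0 (fun w => (hBmem w).1) ω
  have hβ2 : cE P0 ((fil p N).F (p.mt (p.lev b) - 1)) B ω ≤ 3 / 2 :=
    cE_le_of_le hP0 (fun w => (hBmem w).2) ω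
  refine v_lemma_aux hq hβ1 hβ2 hV e4 ?_ ?_
  · exact cE_nonneg hP (fun w => mul_nonneg (hv0 w) (by linarith [(hBPmem w).1])) ω
  · rw [← cE_smul]
    refine cE_mono' hP (fun w => ?_) ω
    have := (hBPmem w).2
    nlinarith [hv0 w]

/-- **V-LEMMA** (2.5), explicit constant. -/
theorem v_lemma_step (H : (Fin N → Bool) → ℝ) {d : DD p N} {i : Fin N}
    (hi : ¬ touched p N d i) (b : Fin p.nb) (ω : Om p N) :
    |(p.Q : ℝ) * cE (PP p N H d) ((fil p N).F (p.mt (p.lev b) - 1)) (cv p N (i, some b)) ω -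
      cE (PP p N H d) ((fil p N).F (p.mt (p.lev b) - 1))
        (BB p N (PP p N H d) (PP_isProb p N H d) i (p.nc - 1 - (p.lev b : ℕ)) (p.tree b)) ω| ≤
      8 / p.Q := by
  have hP0 : IsProb (Pmin p N H d {(i, b)}) := Pmin_isProb H d _
  have hs : ∀ g, SymP i b g (Pmin p N H d {(i, b)}) :=
    fun g => symP_Pmin hi (Finset.mem_singleton_self _)
  have hPP : PP p N H d = tl (Pmin p N H d {(i, b)}) (fil p N) p.xs (gfac p N i b) := by
    rw [PP_eq H d {(i, b)}]
    simp only [Finset.sum_singleton]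
  have gen : ∀ (P : Om p N → ℝ) (hP : IsProb P),
      P = tl (Pmin p N H d {(i, b)}) (fil p N) p.xs (gfac p N i b) →
      |(p.Q : ℝ) * cE P ((fil p N).F (p.mt (p.lev b) - 1)) (cv p N (i, some b)) ω -
      cE P ((fil p N).F (p.mt (p.lev b) - 1))
        (BB p N P hP i (p.nc - 1 - (p.lev b : ℕ)) (p.tree b)) ω| ≤ 8 / p.Q := by
    intro P hP hPeq
    subst hPeq
    exact v_core hP0 hs hP ω
  exact gen _ _ hPP


end

end Crest.Agent.R141.Sym

namespace Crest.Agent.R141


end Crest.Agent.R141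
end

-- ▼ part R141/PurW
section

/-!
Row 141 (S0192), Part L: bridges for the purity theorem.
-/

set_option autoImplicit false

namespace Crest.Agent.R141.Pur

open Finset Crest.Agent.R141
open Crest.ProbabilityR.Diluted (spinVal)

noncomputable section


/-- the shape functionals in the two languages. -/
theorem VS_eq_VV (p : Par) (N : ℕ) (P : Om p N → ℝ) (hP : IsProb P) (i : Fin N) :
    ∀ (n : ℕ) (s : Clo.Shape n), KerS.VS P (fun n => (fil p N).F (p.mt (p.nc - 1 - n)))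
      (fun (i : Fin N) (ω : Om p N) => ω.1 i) n s i = VV p N P hP i n s
  | 0, s => by
    funext ω
    rw [KerS.VS_zero, VV_zero]
    show (if (show Bool from s) = true then sv (ω.1 i) else 1) =
      (if (show Bool from s) = true then (fun ω : Om p N => sv (ω.1 i)) else 1) ω
    split_ifs
    · rfl
    · rfl
  | n + 1, s => by
    funext ω
    rw [KerS.VS_succ]
    show _ = ((show List (Clo.Shape n) from s).map (fun s =>
      cE P ((fil p N).F (p.mt (p.nc - 1 - n))) (VV p N P hP i n s) ω)).prod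
    congr 1
    apply List.map_congr_left
    intro q _
    rw [VS_eq_VV p N P hP i n q]

/-- the shape functionals along the full structure. -/
theorem VS_full (p : Par) (N : ℕ) (P : Om p N → ℝ) (hP : IsProb P) (i : Fin N) {n : ℕ}
    (hn : n ≤ p.nc) (s : Clo.Shape n) :
    KerS.VS P (Quiet.Rfull (fil p N) (fun g => g * (p.T + 1)) p.nc)
      (fun (i : Fin N) (ω : Om p N) => ω.1 i) n s i = VV p N P hP i n s := by
  rw [← VS_eq_VV p N P hP i n s]
  apply KerS.VS_congr
  intro k hk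
  unfold Quiet.Rfull Par.mt
  have : p.nc - k = p.nc - 1 - k + 1 := by omega
  rw [this]

/-- purity numbers in the two languages. -/
theorem pur_eq_avc (p : Par) (N : ℕ) (P : Om p N → ℝ) (r : Setoid (Om p N))
    (f : Fin N → Om p N → ℝ) : Quiet.pur P r f = avc p N P r f := by
  unfold Quiet.pur avc
  have h : ∀ ω, Fact.avgCov (KerS.kerS P r) ω f =
      ((N : ℝ) ^ 2)⁻¹ * ∑ i, ∑ j, |covR P r (f i) (f j) ω| := by
    intro ω
    unfold Fact.avgCov Fact.avg
    rw [Fintype.card_fin, Finset.mul_sum, Finset.mul_sum]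
    apply Finset.sum_congr rfl; intro i _
    rw [← mul_assoc]
    have h2 : ∑ i' : Fin N, |Fact.Cov (KerS.kerS P r) ω (f i) (f i')| =
        ∑ j, |covR P r (f i) (f j) ω| := by
      apply Finset.sum_congr rfl; intro j _
      rw [KerS.Cov_kerS]
      rfl
    rw [h2]
    congr 1
    rw [pow_two, mul_inv]
  simp only [h]
  unfold eE
  calc ∑ ω, P ω * (((N : ℝ) ^ 2)⁻¹ * ∑ i, ∑ j, |covR P r (f i) (f j) ω|)
      = ((N : ℝ) ^ 2)⁻¹ * ∑ ω, ∑ i, ∑ j, P ω * |covR P r (f i) (f j) ω| := by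
        rw [Finset.mul_sum]
        apply Finset.sum_congr rfl; intro ω _
        simp only [Finset.mul_sum]
        apply Finset.sum_congr rfl; intro i _
        apply Finset.sum_congr rfl; intro j _
        ring
    _ = _ := by
        congr 1
        rw [Finset.sum_comm]
        apply Finset.sum_congr rfl; intro i _
        rw [Finset.sum_comm]

theorem VV_abs (p : Par) (N : ℕ) (P : Om p N → ℝ) (hP : IsProb P) (i : Fin N) (n : ℕ)
    (s : Clo.Shape n) (ω : Om p N) : |VV p N P hP i n s ω| ≤ 1 := by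
  rw [← VS_eq_VV p N P hP i n s]
  exact KerS.VS_abs_le hP _ _ s i ω

/-- the shape functional is, up to a small error, a combination of gadget coordinates. -/
theorem VV_approx (p : Par) {N : ℕ} (H : (Fin N → Bool) → ℝ) {d : DD p N} {i : Fin N}
    (hi : ¬ touched p N d i) {n : ℕ} (hn : n < p.nc) (s : Clo.Shape (n + 1)) (c : Fin p.nb → ℝ)
    (hc : ∀ b, c b ≠ 0 → p.nc - 1 - (p.lev b : ℕ) = n) {η C : ℝ} (hC : ∑ b, |c b| ≤ C)
    (happ : ∀ x : Clo.Pt, |Clo.VX (n + 1) s x - ∑ b, c b *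
      Clo.BX p.rho p.Q (p.nc - 1 - (p.lev b : ℕ)) (p.tree b) x| ≤ η) (ω : Om p N) :
    |cE (PP p N H d) ((fil p N).F (p.mt (p.nc - 1 - n) - 1))
        (VV p N (PP p N H d) (PP_isProb p N H d) i (n + 1) s) ω -
      cE (PP p N H d) ((fil p N).F (p.mt (p.nc - 1 - n) - 1))
        (fun a => ∑ b, ((p.Q : ℝ) * c b) * cv p N (i, some b) a) ω| ≤ η + C * (8 / p.Q) := by
  have hQ : (0 : ℝ) < p.Q := by have := p.hQ; exact_mod_cast (by omega : 0 < p.Q)
  have hP := PP_isProb p N H d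
  set P := PP p N H d with hPdef
  set r := (fil p N).F (p.mt (p.nc - 1 - n) - 1) with hr
  have h1 : |cE P r (VV p N P hP i (n + 1) s) ω - cE P r (fun a => ∑ b, c b *
      BB p N P hP i (p.nc - 1 - (p.lev b : ℕ)) (p.tree b) a) ω| ≤ η := by
    rw [← cE_sub]
    apply abs_cE_le_of_le hP
    intro a
    exact happ ⟨Om p N, ctx p N P hP i, a⟩
  have h2 : cE P r (fun a => ∑ b, c b *
      BB p N P hP i (p.nc - 1 - (p.lev b : ℕ)) (p.tree b) a) ω =
      ∑ b, c b * cE P r (BB p N P hP i (p.nc - 1 - (p.lev b : ℕ)) (p.tree b)) ω := by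
    rw [cE_sum]
    apply Finset.sum_congr rfl; intro b _
    rw [cE_smul]
  have h3 : cE P r (fun a => ∑ b, ((p.Q : ℝ) * c b) * cv p N (i, some b) a) ω =
      ∑ b, c b * ((p.Q : ℝ) * cE P r (cv p N (i, some b)) ω) := by
    rw [cE_sum]
    apply Finset.sum_congr rfl; intro b _
    rw [cE_smul]
    ring
  have h4 : |(∑ b, c b * cE P r (BB p N P hP i (p.nc - 1 - (p.lev b : ℕ)) (p.tree b)) ω) -
      ∑ b, c b * ((p.Q : ℝ) * cE P r (cv p N (i, some b)) ω)| ≤ C * (8 / p.Q) := by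
    rw [← Finset.sum_sub_distrib]
    calc |∑ b, (c b * cE P r (BB p N P hP i (p.nc - 1 - (p.lev b : ℕ)) (p.tree b)) ω -
          c b * ((p.Q : ℝ) * cE P r (cv p N (i, some b)) ω))| ≤ ∑ b, |c b| * (8 / p.Q) := by
          refine (Finset.abs_sum_le_sum_abs _ _).trans (Finset.sum_le_sum fun b _ => ?_)
          by_cases hb : c b = 0
          · simp [hb]
          · have hlev := hc b hb
            have hlb := (p.lev b).2
            have h5 : p.nc - 1 - n = (p.lev b : ℕ) := by omega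
            have h6 := Sym.v_lemma_step H hi b ω
            rw [← mul_sub, abs_mul]
            apply mul_le_mul_of_nonneg_left _ (abs_nonneg _)
            rw [abs_sub_comm]
            rw [hr, h5]
            exact h6
      _ = (∑ b, |c b|) * (8 / p.Q) := by rw [Finset.sum_mul]
      _ ≤ C * (8 / p.Q) := mul_le_mul_of_nonneg_right hC (by positivity)
  rw [h3]
  rw [h2] at h1
  have h7 := abs_sub_le (cE P r (VV p N P hP i (n + 1) s) ω)
    (∑ b, c b * cE P r (BB p N P hP i (p.nc - 1 - (p.lev b : ℕ)) (p.tree b)) ω)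
    (∑ b, c b * ((p.Q : ℝ) * cE P r (cv p N (i, some b)) ω))
  linarith

end

end Crest.Agent.R141.Pur
end

-- ▼ part R141/PurE

/-!
Row 141 (S0192), Part L: the purity theorem `purity_main : PurityMain`.
-/

set_option autoImplicit false

namespace Crest.Agent.R141.Pur

open Finset Crest.Agent.R141
open Crest.ProbabilityR.Diluted (spinVal)

noncomputable section

/-- the bound of `selBad`. -/
def RR (p : Par) : ℝ :=
  4 / p.T * (16 / p.τ ^ 2 * (p.nb + 1) * (1 + 16 * p.Q ^ 2 * p.nb ^ 2) + M0 p) +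
    4 * (242 * p.τ ^ 2 * (1 + 256 * p.nb ^ 2))

theorem Ed_tot_le (p : Par) {N : ℕ} (hN : 0 < N) (H : (Fin N → Bool) → ℝ)
    (sel : Fin p.nc → DD p N → Fin p.T) (g : Fin p.nc)
    (hsel : Ed p N (fun d => if d (g, sel g d) = none then tot p N H (g, sel g d) d else M0 p) ≤
      RR p) : Ed p N (fun d => tot p N H (g, sel g d) d) ≤ RR p := by
  refine (Ed_mono p N (fun d => ?_)).trans hsel
  split_ifs
  · exact le_rfl
  · exact tot_le_M0 p hN H _ d

theorem Ed_spin (p : Par) {N : ℕ} (hN : 0 < N) (H : (Fin N → Bool) → ℝ)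
    (sel : Fin p.nc → DD p N → Fin p.T) (g : Fin p.nc)
    (hsel : Ed p N (fun d => tot p N H (g, sel g d) d) ≤ RR p) {ε : ℝ} (hε : 0 < ε) :
    Ed p N (fun d => Quiet.pur (PP p N H d) ((fil p N).F (p.ct g (sel g d)))
      (fun (i : Fin N) (ω : Om p N) => spinVal (ω.1 i))) ≤
      16 * (p.nc * p.T) / N + ε +
        ε⁻¹ * (((p.nc : ℝ) + 1) ^ 2 * (16 * RR p + 16 / N)) := by
  have h1 : ∀ d, Quiet.pur (PP p N H d) ((fil p N).F (p.ct g (sel g d)))
      (fun (i : Fin N) (ω : Om p N) => spinVal (ω.1 i)) ≤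
      (16 * (p.nc * p.T) / N + ε + ε⁻¹ * (((p.nc : ℝ) + 1) ^ 2 * (16 / N))) +
        (ε⁻¹ * (((p.nc : ℝ) + 1) ^ 2 * 16)) * tot p N H (g, sel g d) d := by
    intro d
    rw [pur_eq_avc]
    refine (avc_spin p hN (H := H) d (g, sel g d) hε).trans (le_of_eq ?_)
    ring
  refine (Ed_mono p N h1).trans ?_
  rw [Ed_add, Ed_const p hN, Ed_smul]
  have h2 := mul_le_mul_of_nonneg_left hsel
    (by positivity : 0 ≤ ε⁻¹ * (((p.nc : ℝ) + 1) ^ 2 * 16))
  linarith

theorem Ed_gadget (p : Par) {N : ℕ} (hN : 0 < N) (H : (Fin N → Bool) → ℝ)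
    (sel : Fin p.nc → DD p N → Fin p.T) (g : Fin p.nc)
    (hsel : Ed p N (fun d => tot p N H (g, sel g d) d) ≤ RR p) {n : ℕ} (hn : n < p.nc)
    (hg : (g : ℕ) ≤ p.nc - 1 - n) (s : Clo.Shape (n + 1)) {η C : ℝ} (hη : 0 ≤ η) (hC : 0 ≤ C)
    (happ : Bld.Approx p.nc p.rho η C p.Q p.lev p.tree n s) (hδ1 : η + C * (8 / p.Q) ≤ 1)
    {ε : ℝ} (hε : 0 < ε) :
    Ed p N (fun d => Quiet.pur (PP p N H d) ((fil p N).F (p.ct g (sel g d)))
      (fun (i : Fin N) => cE (PP p N H d) ((fil p N).F (p.mt (p.nc - 1 - n) - 1))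
        (VV p N (PP p N H d) (PP_isProb p N H d) i (n + 1) s))) ≤
      4 * (p.nc * p.T) / N + 6 * (η + C * (8 / p.Q)) + ε +
        ε⁻¹ * (((p.nc : ℝ) + 1) ^ 2 * (C ^ 4 * RR p + (p.Q * C) ^ 4 / N)) := by
  obtain ⟨c, hc1, hc2, hc3⟩ := happ
  have hQ : (0 : ℝ) < p.Q := by have := p.hQ; exact_mod_cast (by omega : 0 < p.Q)
  let g' : Fin p.nc := ⟨p.nc - 1 - n, by omega⟩
  have h1 : ∀ d, Quiet.pur (PP p N H d) ((fil p N).F (p.ct g (sel g d)))
      (fun (i : Fin N) => cE (PP p N H d) ((fil p N).F (p.mt (p.nc - 1 - n) - 1))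
        (VV p N (PP p N H d) (PP_isProb p N H d) i (n + 1) s)) ≤
      (4 * (p.nc * p.T) / N + 6 * (η + C * (8 / p.Q)) + ε +
        ε⁻¹ * (((p.nc : ℝ) + 1) ^ 2 * ((p.Q * C) ^ 4 / N))) +
        (ε⁻¹ * (((p.nc : ℝ) + 1) ^ 2 * C ^ 4)) * tot p N H (g, sel g d) d := by
    intro d
    rw [pur_eq_avc]
    refine (avc_gadget p hN (H := H) d (g, sel g d) c g' hg ?_ hc2 ?_ hε (by positivity) hδ1
      ?_).trans (le_of_eq ?_)
    · intro b hb
      have h2 := hc1 b hb
      have h3 := (p.lev b).2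
      apply Fin.ext
      simp only [g']
      omega
    · intro i ω
      exact abs_cE_le_of_le (PP_isProb p N H d)
        (fun a => VV_abs p N (PP p N H d) (PP_isProb p N H d) i (n + 1) s a) ω
    · intro i hi ω
      exact VV_approx p H (mem_Un.1 hi) hn s c hc1 hc2 hc3 ω
    · ring
  refine (Ed_mono p N h1).trans ?_
  rw [Ed_add, Ed_const p hN, Ed_smul]
  have h2 := mul_le_mul_of_nonneg_left hsel
    (by positivity : 0 ≤ ε⁻¹ * (((p.nc : ℝ) + 1) ^ 2 * C ^ 4))
  linarith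

/-! ### Exponents -/

/-- exponents in terms of the number of cells. -/
def rhoN (nc n : ℕ) : ℝ :=
  if n = 0 then (((nc - 1 : ℕ) : ℝ) + 1) / ((nc : ℝ) + 1) else
    if n < nc then ((((nc - 1 - n : ℕ) : ℝ) + 1) / ((nc : ℝ) + 1)) /
      ((((nc - n : ℕ) : ℝ) + 1) / ((nc : ℝ) + 1)) else 1 / 2

theorem rho_eq (p : Par) : p.rho = rhoN p.nc := by
  funext n
  rfl

/-- a trivial set of parameters. -/
def p0 (nc : ℕ) (hnc : 0 < nc) : Par where
  nc := nc
  T := 1
  nb := 0
  Q := 2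
  lev := fun b => b.elim0
  tree := fun b => b.elim0
  good := fun b => b.elim0
  τ := 1 / 2
  hnc := hnc
  hQ := le_rfl
  hτ0 := by norm_num
  hτ1 := le_rfl

theorem rhoN_mem (nc : ℕ) (hnc : 0 < nc) (n : ℕ) : 0 < rhoN nc n ∧ rhoN nc n < 1 := by
  have := (p0 nc hnc).rho_mem n
  rw [rho_eq] at this
  exact this

/-- the shapes of a given height. -/
def shapesOf (FS : Finset (Σ k, Clo.Shape k)) (n : ℕ) : List (Clo.Shape (n + 1)) :=
  FS.toList.filterMap (fun x => if h : x.1 = n + 1 then some (h ▸ x.2) else none)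

theorem mem_shapesOf {FS : Finset (Σ k, Clo.Shape k)} {n : ℕ} {s : Clo.Shape (n + 1)}
    (h : (⟨n + 1, s⟩ : Σ k, Clo.Shape k) ∈ FS) : s ∈ shapesOf FS n := by
  unfold shapesOf
  rw [List.mem_filterMap]
  refine ⟨⟨n + 1, s⟩, Finset.mem_toList.2 h, ?_⟩
  simp

/-- the observation steps. -/
def tsel (p : Par) {N : ℕ} (sel : Fin p.nc → DD p N → Fin p.T) (d : DD p N) (g : ℕ) : ℕ :=
  if h : g < p.nc then p.ct g (sel ⟨g, h⟩ d) else g * (p.T + 1)

theorem tsel_mem (p : Par) {N : ℕ} (sel : Fin p.nc → DD p N → Fin p.T) (d : DD p N) (g : ℕ) :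
    g * (p.T + 1) ≤ tsel p sel d g ∧ tsel p sel d g < (g + 1) * (p.T + 1) := by
  have hm : (g + 1) * (p.T + 1) = g * (p.T + 1) + (p.T + 1) := by ring
  unfold tsel
  split_ifs with h
  · have := (sel ⟨g, h⟩ d).2
    unfold Par.ct
    omega
  · omega

/-- total purity of one set of parameters. -/
theorem Ed_totPur (p : Par) {N : ℕ} (hN : 0 < N) (H : (Fin N → Bool) → ℝ)
    (sel : Fin p.nc → DD p N → Fin p.T)
    (hsel : ∀ g, Ed p N (fun d => tot p N H (g, sel g d) d) ≤ RR p)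
    (FS : Finset (Σ k, Clo.Shape k)) (hFS : ∀ x ∈ FS, 1 ≤ x.1 ∧ x.1 ≤ p.nc)
    {η C ε η1 : ℝ} (hη : 0 ≤ η) (hC : 0 ≤ C) (hε : 0 < ε)
    (happ : ∀ n, n < p.nc → ∀ s ∈ shapesOf FS n, Bld.Approx p.nc p.rho η C p.Q p.lev p.tree n s)
    (hδ1 : η + C * (8 / p.Q) ≤ 1)
    (hs : 16 * (p.nc * p.T) / N + ε +
        ε⁻¹ * (((p.nc : ℝ) + 1) ^ 2 * (16 * RR p + 16 / N)) ≤ η1)
    (hg : 4 * (p.nc * p.T) / N + 6 * (η + C * (8 / p.Q)) + ε +
        ε⁻¹ * (((p.nc : ℝ) + 1) ^ 2 * (C ^ 4 * RR p + (p.Q * C) ^ 4 / N)) ≤ η1) :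
    Ed p N (fun d => Quiet.totPur (PP p N H d) (fil p N) (fun g => g * (p.T + 1))
      (tsel p sel d) (fun (i : Fin N) (ω : Om p N) => ω.1 i) p.nc FS) ≤
      (p.nc + FS.card * p.nc) * η1 := by
  have hη1 : 0 ≤ η1 := by
    refine le_trans ?_ hs
    have hR : 0 ≤ RR p := by
      refine le_trans ?_ (hsel ⟨0, p.hnc⟩)
      rw [← Ed_const p hN 0]
      exact Ed_mono p N (fun d => tot_nonneg p N H _ d)
    positivity
  have hts : ∀ (d : DD p N) (g : ℕ) (h : g < p.nc), tsel p sel d g = p.ct g (sel ⟨g, h⟩ d) := by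
    intro d g h
    unfold tsel
    rw [dif_pos h]
  unfold Quiet.totPur
  rw [Ed_add, Ed_sum, Ed_sum]
  have hA : ∑ g ∈ range p.nc, Ed p N (fun d => Quiet.pur (PP p N H d)
      ((fil p N).F (tsel p sel d g)) (fun (i : Fin N) (ω : Om p N) => spinVal (ω.1 i))) ≤
      p.nc * η1 := by
    calc _ ≤ ∑ g ∈ range p.nc, η1 := by
          apply Finset.sum_le_sum
          intro g hgr
          rw [Finset.mem_range] at hgr
          simp only [hts _ g hgr]
          exact (Ed_spin p hN H sel ⟨g, hgr⟩ (hsel _) hε).trans hs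
      _ = _ := by rw [Finset.sum_const, Finset.card_range, nsmul_eq_mul]
  have hB : ∑ x ∈ FS, Ed p N (fun d => ∑ g ∈ range (p.nc - x.1 + 1), Quiet.pur (PP p N H d)
      ((fil p N).F (tsel p sel d g)) (fun i => cE (PP p N H d) ((fil p N).F
        ((fun g => g * (p.T + 1)) (p.nc - x.1 + 1) - 1))
        (KerS.VS (PP p N H d) (Quiet.Rfull (fil p N) (fun g => g * (p.T + 1)) p.nc)
          (fun (i : Fin N) (ω : Om p N) => ω.1 i) x.1 x.2 i))) ≤
      FS.card * p.nc * η1 := by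
    calc _ ≤ ∑ x ∈ FS, (p.nc : ℝ) * η1 := by
          apply Finset.sum_le_sum
          rintro ⟨k, s⟩ hx
          obtain ⟨h1, h2⟩ := hFS _ hx
          simp only at h1 h2
          obtain ⟨n, rfl⟩ : ∃ n, k = n + 1 := ⟨k - 1, by omega⟩
          rw [Ed_sum]
          calc _ ≤ ∑ g ∈ range (p.nc - (n + 1) + 1), η1 := by
                apply Finset.sum_le_sum
                intro g hgr
                have hgr : g < p.nc - (n + 1) + 1 := Finset.mem_range.1 hgr
                have h2' : n + 1 ≤ p.nc := h2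
                have hgn : g < p.nc := by omega
                simp only [hts _ g hgn]
                have e1 : (p.nc - (n + 1) + 1) * (p.T + 1) - 1 = p.mt (p.nc - 1 - n) - 1 := by
                  unfold Par.mt
                  have : p.nc - (n + 1) + 1 = p.nc - 1 - n + 1 := by omega
                  rw [this]
                simp only [e1]
                have e2 : ∀ d, (fun i => cE (PP p N H d) ((fil p N).F (p.mt (p.nc - 1 - n) - 1))
                    (KerS.VS (PP p N H d) (Quiet.Rfull (fil p N) (fun g => g * (p.T + 1)) p.nc)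
                      (fun (i : Fin N) (ω : Om p N) => ω.1 i) (n + 1) s i)) =
                    (fun (i : Fin N) => cE (PP p N H d) ((fil p N).F (p.mt (p.nc - 1 - n) - 1))
                      (VV p N (PP p N H d) (PP_isProb p N H d) i (n + 1) s)) := by
                  intro d
                  funext i
                  rw [VS_full p N (PP p N H d) (PP_isProb p N H d) i h2' s]
                simp only [e2]
                exact (Ed_gadget p hN H sel ⟨g, hgn⟩ (hsel _) (n := n) (by omega)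
                  (by simp only; omega) s hη hC
                  (happ n (by omega) s (mem_shapesOf hx)) hδ1 hε).trans hg
            _ = ((p.nc - (n + 1) + 1 : ℕ) : ℝ) * η1 := by
                rw [Finset.sum_const, Finset.card_range, nsmul_eq_mul]
            _ ≤ (p.nc : ℝ) * η1 := by
                apply mul_le_mul_of_nonneg_right _ hη1
                exact_mod_cast (by omega : p.nc - (n + 1) + 1 ≤ p.nc)
      _ = _ := by rw [Finset.sum_const, nsmul_eq_mul]; ring
  have hsum := add_le_add hA hB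
  refine le_trans hsum (le_of_eq ?_)
  ring

theorem real_params {nc nb C η1 ε Q τ T N M : ℝ} (hnc : 0 ≤ nc) (hC : 0 ≤ C)
    (hη1 : 0 < η1) (hε : ε = η1 / 8) (hQ : 0 < Q) (hτ : 0 < τ) (hT : 0 < T) (hN : 0 < N)
    {ηc : ℝ} (hηc : ηc ≤ η1 / 96) (hCQ : C * (8 / Q) ≤ ηc)
    (h1 : (ε⁻¹ * ((nc + 1) ^ 2 * (C ^ 4 + 16))) * (4 * (242 * τ ^ 2 * (1 + 256 * nb ^ 2))) ≤ η1 / 8)
    (h2 : (ε⁻¹ * ((nc + 1) ^ 2 * (C ^ 4 + 16))) * (4 / T * (16 / τ ^ 2 * (nb + 1) *
      (1 + 16 * Q ^ 2 * nb ^ 2) + M)) ≤ η1 / 8)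
    (h3 : 16 * (nc * T) / N ≤ η1 / 8)
    (h4 : ε⁻¹ * ((nc + 1) ^ 2 * (((Q * C) ^ 4 + 16) / N)) ≤ η1 / 8) {R : ℝ} (hR0 : 0 ≤ R)
    (hR : R = 4 / T * (16 / τ ^ 2 * (nb + 1) * (1 + 16 * Q ^ 2 * nb ^ 2) + M) +
      4 * (242 * τ ^ 2 * (1 + 256 * nb ^ 2))) :
    16 * (nc * T) / N + ε + ε⁻¹ * ((nc + 1) ^ 2 * (16 * R + 16 / N)) ≤ η1 ∧
    4 * (nc * T) / N + 6 * (ηc + C * (8 / Q)) + ε +
        ε⁻¹ * ((nc + 1) ^ 2 * (C ^ 4 * R + (Q * C) ^ 4 / N)) ≤ η1 := by
  have hε0 : 0 < ε := by rw [hε]; positivity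
  have hKR : (ε⁻¹ * ((nc + 1) ^ 2 * (C ^ 4 + 16))) * R ≤ η1 / 4 := by
    rw [hR, mul_add]; linarith
  have hK0 : 0 ≤ ε⁻¹ * (nc + 1) ^ 2 := by positivity
  constructor
  · have e1 : ε⁻¹ * ((nc + 1) ^ 2 * (16 * R + 16 / N)) ≤
        (ε⁻¹ * ((nc + 1) ^ 2 * (C ^ 4 + 16))) * R +
          ε⁻¹ * ((nc + 1) ^ 2 * (((Q * C) ^ 4 + 16) / N)) := by
      have h5 : 16 / N ≤ ((Q * C) ^ 4 + 16) / N := by
        apply div_le_div_of_nonneg_right _ hN.le
        have : 0 ≤ (Q * C) ^ 4 := by positivity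
        linarith
      have h6 : 16 * R ≤ (C ^ 4 + 16) * R := by
        apply mul_le_mul_of_nonneg_right _ hR0
        have : 0 ≤ C ^ 4 := by positivity
        linarith
      have h7 := mul_le_mul_of_nonneg_left (add_le_add h6 h5) hK0
      have h8 : (ε⁻¹ * (nc + 1) ^ 2) * ((C ^ 4 + 16) * R + ((Q * C) ^ 4 + 16) / N) =
          (ε⁻¹ * ((nc + 1) ^ 2 * (C ^ 4 + 16))) * R +
          ε⁻¹ * ((nc + 1) ^ 2 * (((Q * C) ^ 4 + 16) / N)) := by ring
      rw [h8] at h7
      have h9 : ε⁻¹ * (nc + 1) ^ 2 * (16 * R + 16 / N) =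
        ε⁻¹ * ((nc + 1) ^ 2 * (16 * R + 16 / N)) := by ring
      rw [h9] at h7
      exact h7
    linarith
  · have e1 : ε⁻¹ * ((nc + 1) ^ 2 * (C ^ 4 * R + (Q * C) ^ 4 / N)) ≤
        (ε⁻¹ * ((nc + 1) ^ 2 * (C ^ 4 + 16))) * R +
          ε⁻¹ * ((nc + 1) ^ 2 * (((Q * C) ^ 4 + 16) / N)) := by
      have h5 : (Q * C) ^ 4 / N ≤ ((Q * C) ^ 4 + 16) / N := by
        apply div_le_div_of_nonneg_right _ hN.le
        linarith
      have h6 : C ^ 4 * R ≤ (C ^ 4 + 16) * R := by
        apply mul_le_mul_of_nonneg_right _ hR0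
        linarith
      have h7 := mul_le_mul_of_nonneg_left (add_le_add h6 h5) hK0
      have h8 : (ε⁻¹ * (nc + 1) ^ 2) * ((C ^ 4 + 16) * R + ((Q * C) ^ 4 + 16) / N) =
          (ε⁻¹ * ((nc + 1) ^ 2 * (C ^ 4 + 16))) * R +
          ε⁻¹ * ((nc + 1) ^ 2 * (((Q * C) ^ 4 + 16) / N)) := by ring
      rw [h8] at h7
      have h9 : ε⁻¹ * (nc + 1) ^ 2 * (C ^ 4 * R + (Q * C) ^ 4 / N) =
        ε⁻¹ * ((nc + 1) ^ 2 * (C ^ 4 * R + (Q * C) ^ 4 / N)) := by ring
      rw [h9] at h7
      exact h7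
    have e2 : 4 * (nc * T) / N ≤ 16 * (nc * T) / N := by
      apply div_le_div_of_nonneg_right _ hN.le
      have : 0 ≤ nc * T := by positivity
      linarith
    linarith

/-- **The purity theorem.** -/
theorem purity_main : PurityMain := by
  intro nc hnc FS hFS eps eta heps heta
  have hK : (0 : ℝ) < (nc : ℝ) + FS.card * nc + 1 := by positivity
  obtain ⟨η1, hη1d⟩ : ∃ η1 : ℝ, η1 = eta / ((nc : ℝ) + FS.card * nc + 1) := ⟨_, rfl⟩
  have hη1 : 0 < η1 := by rw [hη1d]; positivity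
  obtain ⟨ε, hε⟩ : ∃ ε : ℝ, ε = η1 / 8 := ⟨_, rfl⟩
  have hε0 : 0 < ε := by rw [hε]; positivity
  obtain ⟨ηc, hηcd⟩ : ∃ ηc : ℝ, ηc = min (1 / 2) (η1 / 96) := ⟨_, rfl⟩
  have hηc : 0 < ηc := by rw [hηcd]; positivity
  have hηc1 : ηc ≤ 1 / 2 := by rw [hηcd]; exact min_le_left _ _
  have hηc2 : ηc ≤ η1 / 96 := by rw [hηcd]; exact min_le_right _ _
  obtain ⟨nb, Q0, hQ0, lev, C, hC, hb⟩ := Bld.build nc (rhoN_mem nc hnc) hηc (shapesOf FS)
  obtain ⟨m, hm⟩ := exists_nat_ge (max 4 (max ((nb : ℝ) / eps) (8 * C / ηc)))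
  have hm4 : (4 : ℝ) ≤ m := (le_max_left _ _).trans hm
  have hm4' : 4 ≤ m := by exact_mod_cast hm4
  have hm1 : (nb : ℝ) / eps ≤ m := ((le_max_left _ _).trans (le_max_right _ _)).trans hm
  have hm2 : 8 * C / ηc ≤ m := ((le_max_right _ _).trans (le_max_right _ _)).trans hm
  obtain ⟨tree, good, happ⟩ := hb m (by omega)
  obtain ⟨Q, hQd⟩ : ∃ Q : ℝ, Q = ((Q0 * m : ℕ) : ℝ) := ⟨_, rfl⟩
  have hQm : (m : ℝ) ≤ Q := by
    rw [hQd]
    exact_mod_cast Nat.le_mul_of_pos_left m hQ0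
  have hQ4 : (4 : ℝ) ≤ Q := hm4.trans hQm
  have hQ4' : 4 ≤ Q0 * m := by
    have : ((4 : ℕ) : ℝ) ≤ ((Q0 * m : ℕ) : ℝ) := by rw [← hQd]; exact_mod_cast hQ4
    exact_mod_cast this
  have hQ0' : (0 : ℝ) < Q := by linarith
  have hCQ : C * (8 / Q) ≤ ηc := by
    have h1 : 8 * C ≤ ηc * m := by
      rw [div_le_iff₀ hηc] at hm2
      linarith
    have h2 : ηc * m ≤ ηc * Q := mul_le_mul_of_nonneg_left hQm hηc.le
    rw [← mul_div_assoc, div_le_iff₀ hQ0']
    linarith
  have hnbQ : (nb : ℝ) / Q ≤ eps := by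
    rw [div_le_iff₀ hQ0']
    rw [div_le_iff₀ heps] at hm1
    calc (nb : ℝ) ≤ m * eps := hm1
      _ ≤ Q * eps := mul_le_mul_of_nonneg_right hQm heps.le
      _ = eps * Q := mul_comm _ _
  -- the coin strength
  obtain ⟨K1, hK1d⟩ : ∃ K1 : ℝ, K1 = ε⁻¹ * (((nc : ℝ) + 1) ^ 2 * (C ^ 4 + 16)) := ⟨_, rfl⟩
  have hK1 : 0 < K1 := by rw [hK1d]; positivity
  obtain ⟨D, hDd⟩ : ∃ D : ℝ, D = 8 * K1 * (4 * (242 * (1 + 256 * (nb : ℝ) ^ 2))) := ⟨_, rfl⟩
  have hD : 0 < D := by rw [hDd]; positivity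
  obtain ⟨τ, hτd⟩ : ∃ τ : ℝ, τ = min (1 / 3) (η1 / D) := ⟨_, rfl⟩
  have hτ0 : 0 < τ := by rw [hτd]; positivity
  have hτ3 : τ ≤ 1 / 3 := by rw [hτd]; exact min_le_left _ _
  have hτD : τ ≤ η1 / D := by rw [hτd]; exact min_le_right _ _
  have h1 : K1 * (4 * (242 * τ ^ 2 * (1 + 256 * (nb : ℝ) ^ 2))) ≤ η1 / 8 := by
    have h2 : τ ^ 2 ≤ τ := by nlinarith
    have h3 : τ * D ≤ η1 := by rwa [le_div_iff₀ hD] at hτD
    have h4 : τ ^ 2 * D ≤ η1 := (mul_le_mul_of_nonneg_right h2 hD.le).trans h3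
    rw [hDd] at h4
    linarith
  -- the number of coins
  obtain ⟨X, hXd⟩ : ∃ X : ℝ, X = 16 / τ ^ 2 * ((nb : ℝ) + 1) * (1 + 16 * Q ^ 2 * (nb : ℝ) ^ 2) +
    (1 + Q ^ 4 * (nb : ℝ) ^ 2) := ⟨_, rfl⟩
  have hX : 0 < X := by rw [hXd]; positivity
  obtain ⟨T, hT⟩ := exists_nat_gt (8 * K1 * 4 * X / η1)
  have hT0 : (0 : ℝ) < T := lt_of_le_of_lt (by positivity) hT
  have hT0' : 0 < T := by exact_mod_cast hT0
  have h2 : K1 * (4 / T * X) ≤ η1 / 8 := by
    rw [div_lt_iff₀ hη1] at hT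
    rw [mul_comm (4 / (T : ℝ)), mul_div_assoc', ← mul_div_assoc, div_le_div_iff₀ hT0 (by norm_num)]
    linarith
  let p : Par :=
    { nc := nc
      T := T
      nb := nb
      Q := Q0 * m
      lev := lev
      tree := tree
      good := good
      τ := τ
      hnc := hnc
      hQ := by omega
      hτ0 := hτ0
      hτ1 := by linarith }
  obtain ⟨N0, hN0⟩ := exists_nat_gt (max (8 * (16 * ((nc : ℝ) * T)) / η1)
    (8 * (ε⁻¹ * (((nc : ℝ) + 1) ^ 2 * ((Q * C) ^ 4 + 16))) / η1))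
  refine ⟨p, rfl, ?_, N0 + 1, ?_⟩
  · show (nb : ℝ) / ((Q0 * m : ℕ) : ℝ) ≤ eps
    rw [← hQd]; exact hnbQ
  intro N hNN H
  have hN : 0 < N := by omega
  have hN' : (0 : ℝ) < N := by exact_mod_cast hN
  have hNN0 : (N0 : ℝ) ≤ N := by exact_mod_cast (by omega : N0 ≤ N)
  have h3 : 16 * ((nc : ℝ) * T) / N ≤ η1 / 8 := by
    have h5 := (lt_of_le_of_lt (le_max_left _ _) hN0).le.trans hNN0
    rw [div_le_iff₀ hη1] at h5
    rw [div_le_div_iff₀ hN' (by norm_num)]
    linarith
  have h4 : ε⁻¹ * (((nc : ℝ) + 1) ^ 2 * (((Q * C) ^ 4 + 16) / N)) ≤ η1 / 8 := by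
    have h5 := (lt_of_le_of_lt (le_max_right _ _) hN0).le.trans hNN0
    rw [div_le_iff₀ hη1] at h5
    rw [← mul_div_assoc, ← mul_div_assoc, div_le_div_iff₀ hN' (by norm_num)]
    linarith
  obtain ⟨sel, hsel⟩ := selBad p hτ3 hQ4' hN hT0' H
  have hsel' : ∀ g, Ed p N (fun d => tot p N H (g, sel g d) d) ≤ RR p :=
    fun g => Ed_tot_le p hN H sel g (hsel g)
  have hR0 : 0 ≤ RR p := by
    unfold RR M0
    positivity
  have hRR : RR p = 4 / (T : ℝ) * (16 / τ ^ 2 * ((nb : ℝ) + 1) * (1 + 16 * Q ^ 2 * (nb : ℝ) ^ 2) +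
      (1 + Q ^ 4 * (nb : ℝ) ^ 2)) + 4 * (242 * τ ^ 2 * (1 + 256 * (nb : ℝ) ^ 2)) := by
    rw [hQd]
    rfl
  rw [hXd] at h2
  rw [hK1d] at h1 h2
  obtain ⟨hs, hg⟩ := real_params (nc := (nc : ℝ)) (by positivity) hC hη1 hε hQ0' hτ0 hT0 hN' hηc2
    hCQ h1 h2 h3 h4 hR0 hRR
  refine ⟨fun d g => tsel p sel d g, fun d g => tsel_mem p sel d g, ?_⟩
  have hfin := Ed_totPur p hN H sel hsel' FS hFS (η := ηc) (C := C) (ε := ε) (η1 := η1) hηc.le hC
    hε0 (fun n hn s hs => happ n hn s hs) (by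
      show ηc + C * (8 / ((Q0 * m : ℕ) : ℝ)) ≤ 1
      rw [← hQd]
      linarith) hs (by
      show 4 * ((nc : ℝ) * T) / N + 6 * (ηc + C * (8 / ((Q0 * m : ℕ) : ℝ))) + ε +
        ε⁻¹ * (((nc : ℝ) + 1) ^ 2 * (C ^ 4 * RR p + (((Q0 * m : ℕ) : ℝ) * C) ^ 4 / N)) ≤ η1
      rw [← hQd]
      exact hg)
  refine hfin.trans ?_
  show ((nc : ℝ) + FS.card * nc) * η1 ≤ eta
  have h9 : ((nc : ℝ) + FS.card * nc + 1) * η1 = eta := by
    rw [hη1d]; field_simp
  linarith

end

end Crest.Agent.R141.Pur
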