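import Crest.Prelude.Def_DilutedSpinGlass

/-!
R141, Part U (upper bound `pressure ≤ trialFunctional`): frozen common definitions.

* `IterTendsto r f ℓ` : iterated limit `lim_{K_1 → ∞}` first, then `K_2`, ..., of
  `f : (Fin r → ℕ) → ℝ`; closed under integrals and sums by dominated convergence and order closed.
* `treeF A v-law Q-law W` : the tree functional.
-/

set_option autoImplicit false

namespace Crest.Agent.R141

open MeasureTheory Filter Topology Crest.ProbabilityR.Diluted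

/-- Iterated limit of `f (K_0, K_1, …, K_{r-1})`: `K_0 → ∞` first (the others fixed and positive),
then `K_1 → ∞`, and so on. -/
def IterTendsto : (r : ℕ) → ((Fin r → ℕ) → ℝ) → ℝ → Prop
  | 0, f, ℓ => f Fin.elim0 = ℓ
  | r + 1, f, ℓ => ∃ g : (Fin r → ℕ) → ℝ,
      (∀ K : Fin r → ℕ, (∀ i, 0 < K i) →
        Tendsto (fun k : ℕ => f (Fin.cons k K)) atTop (𝓝 (g K))) ∧ IterTendsto r g ℓ

theorem IterTendsto.congr {r : ℕ} {f f' : (Fin r → ℕ) → ℝ} {ℓ : ℝ}
    (h : IterTendsto r f ℓ) (hf : ∀ K : Fin r → ℕ, (∀ i, 0 < K i) → f K = f' K) :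
    IterTendsto r f' ℓ := by
  induction r generalizing ℓ with
  | zero =>
    simp only [IterTendsto] at h ⊢
    rw [← h, hf]
    intro i
    exact i.elim0
  | succ r ih =>
    obtain ⟨g, hg, hgl⟩ := h
    refine ⟨g, fun K hK => ?_, hgl⟩
    refine (hg K hK).congr' ?_
    filter_upwards [eventually_gt_atTop 0] with k hk
    apply hf
    intro i
    refine Fin.cases ?_ (fun j => ?_) i
    · simpa using hk
    · simpa using hK j

theorem IterTendsto.le {r : ℕ} {f f' : (Fin r → ℕ) → ℝ} {ℓ ℓ' : ℝ}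
    (h : IterTendsto r f ℓ) (h' : IterTendsto r f' ℓ')
    (hle : ∀ K : Fin r → ℕ, (∀ i, 0 < K i) → f K ≤ f' K) : ℓ ≤ ℓ' := by
  induction r generalizing ℓ ℓ' with
  | zero =>
    simp only [IterTendsto] at h h'
    rw [← h, ← h']
    apply hle
    intro i
    exact i.elim0
  | succ r ih =>
    obtain ⟨g, hg, hgl⟩ := h
    obtain ⟨g', hg', hgl'⟩ := h'
    refine ih hgl hgl' (fun K hK => ?_)
    refine le_of_tendsto_of_tendsto (hg K hK) (hg' K hK) ?_
    filter_upwards [eventually_gt_atTop 0] with k hk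
    apply hle
    intro i
    refine Fin.cases ?_ (fun j => ?_) i
    · simpa using hk
    · simpa using hK j

theorem IterTendsto.const (r : ℕ) (c : ℝ) : IterTendsto r (fun _ => c) c := by
  induction r with
  | zero => rfl
  | succ r ih => exact ⟨fun _ => c, fun _ _ => tendsto_const_nhds, ih⟩

theorem IterTendsto.add {r : ℕ} {f f' : (Fin r → ℕ) → ℝ} {ℓ ℓ' : ℝ}
    (h : IterTendsto r f ℓ) (h' : IterTendsto r f' ℓ') :
    IterTendsto r (fun K => f K + f' K) (ℓ + ℓ') := by
  induction r generalizing ℓ ℓ' with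
  | zero =>
    simp only [IterTendsto] at h h' ⊢
    rw [h, h']
  | succ r ih =>
    obtain ⟨g, hg, hgl⟩ := h
    obtain ⟨g', hg', hgl'⟩ := h'
    exact ⟨fun K => g K + g' K, fun K hK => (hg K hK).add (hg' K hK), ih hgl hgl'⟩

theorem IterTendsto.const_mul {r : ℕ} {f : (Fin r → ℕ) → ℝ} {ℓ : ℝ} (c : ℝ)
    (h : IterTendsto r f ℓ) : IterTendsto r (fun K => c * f K) (c * ℓ) := by
  induction r generalizing ℓ with
  | zero =>
    simp only [IterTendsto] at h ⊢
    rw [h]
  | succ r ih =>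
    obtain ⟨g, hg, hgl⟩ := h
    exact ⟨fun K => c * g K, fun K hK => (hg K hK).const_mul c, ih hgl⟩

theorem IterTendsto.finset_sum {r : ℕ} {ι : Type*} (s : Finset ι) {f : ι → (Fin r → ℕ) → ℝ}
    {ℓ : ι → ℝ} (h : ∀ i ∈ s, IterTendsto r (f i) (ℓ i)) :
    IterTendsto r (fun K => ∑ i ∈ s, f i K) (∑ i ∈ s, ℓ i) := by
  classical
  induction s using Finset.induction_on with
  | empty => simpa using IterTendsto.const r 0
  | insert a s ha ih =>
    simp only [Finset.sum_insert ha]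
    exact (h a (Finset.mem_insert_self _ _)).add
      (ih fun i hi => h i (Finset.mem_insert_of_mem hi))

/-- Dominated convergence for iterated limits. -/
theorem IterTendsto.integral {r : ℕ} {Ξ : Type*} [MeasurableSpace Ξ] {ρ : Measure Ξ}
    {f : Ξ → (Fin r → ℕ) → ℝ} {ℓ : Ξ → ℝ} {B : Ξ → ℝ}
    (hmeas : ∀ K : Fin r → ℕ, (∀ i, 0 < K i) → AEStronglyMeasurable (fun ξ => f ξ K) ρ)
    (hB : Integrable B ρ)
    (hbd : ∀ K : Fin r → ℕ, (∀ i, 0 < K i) → ∀ᵐ ξ ∂ρ, |f ξ K| ≤ B ξ)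
    (h : ∀ᵐ ξ ∂ρ, IterTendsto r (f ξ) (ℓ ξ)) :
    IterTendsto r (fun K => ∫ ξ, f ξ K ∂ρ) (∫ ξ, ℓ ξ ∂ρ) := by
  induction r generalizing ℓ with
  | zero =>
    simp only [IterTendsto] at h ⊢
    exact integral_congr_ae h
  | succ r ih =>
    classical
    let g : Ξ → (Fin r → ℕ) → ℝ := fun ξ =>
      if hξ : IterTendsto (r + 1) (f ξ) (ℓ ξ) then Classical.choose hξ else fun _ => 0
    have hg1 : ∀ᵐ ξ ∂ρ, (∀ K : Fin r → ℕ, (∀ i, 0 < K i) →
        Tendsto (fun k : ℕ => f ξ (Fin.cons k K)) atTop (𝓝 (g ξ K))) ∧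
        IterTendsto r (g ξ) (ℓ ξ) := by
      filter_upwards [h] with ξ hξ
      have := Classical.choose_spec hξ
      simp only [g, dif_pos hξ]
      exact this
    have hpos : ∀ (k : ℕ) (K : Fin r → ℕ), 0 < k → (∀ i, 0 < K i) →
        ∀ i, 0 < (Fin.cons k K : Fin (r + 1) → ℕ) i := by
      intro k K hk hK i
      refine Fin.cases ?_ (fun j => ?_) i
      · simpa using hk
      · simpa using hK j
    have hlim : ∀ K : Fin r → ℕ, (∀ i, 0 < K i) → ∀ᵐ ξ ∂ρ,
        Tendsto (fun k : ℕ => f ξ (Fin.cons (k + 1) K)) atTop (𝓝 (g ξ K)) := by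
      intro K hK
      filter_upwards [hg1] with ξ hξ
      exact (hξ.1 K hK).comp (tendsto_add_atTop_nat 1)
    have hgm : ∀ K : Fin r → ℕ, (∀ i, 0 < K i) → AEStronglyMeasurable (fun ξ => g ξ K) ρ := by
      intro K hK
      exact aestronglyMeasurable_of_tendsto_ae (u := atTop)
        (f := fun (k : ℕ) ξ => f ξ (Fin.cons (k + 1) K))
        (fun k => hmeas _ (hpos _ _ (Nat.succ_pos k) hK)) (hlim K hK)
    have hgb : ∀ K : Fin r → ℕ, (∀ i, 0 < K i) → ∀ᵐ ξ ∂ρ, |g ξ K| ≤ B ξ := by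
      intro K hK
      have h1 : ∀ᵐ ξ ∂ρ, ∀ k : ℕ, |f ξ (Fin.cons (k + 1) K)| ≤ B ξ :=
        ae_all_iff.2 fun k => hbd _ (hpos _ _ (Nat.succ_pos k) hK)
      filter_upwards [hlim K hK, h1] with ξ hξ h1ξ
      exact le_of_tendsto hξ.abs (Eventually.of_forall h1ξ)
    refine ⟨fun K => ∫ ξ, g ξ K ∂ρ, fun K hK => ?_, ?_⟩
    · rw [← tendsto_add_atTop_iff_nat 1]
      refine tendsto_integral_of_dominated_convergence B
        (fun k => hmeas _ (hpos _ _ (Nat.succ_pos k) hK)) hB (fun k => ?_) (hlim K hK)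
      filter_upwards [hbd _ (hpos _ _ (Nat.succ_pos k) hK)] with ξ hξ
      rwa [Real.norm_eq_abs]
    · exact ih hgm hgb (hg1.mono fun ξ hξ => hξ.2)

/-- Dominated convergence for iterated limits, series version. -/
theorem IterTendsto.tsum {r : ℕ} {f : ℕ → (Fin r → ℕ) → ℝ} {ℓ : ℕ → ℝ} {B : ℕ → ℝ}
    (hB : Summable B)
    (hbd : ∀ K : Fin r → ℕ, (∀ i, 0 < K i) → ∀ n, |f n K| ≤ B n)
    (h : ∀ n, IterTendsto r (f n) (ℓ n)) :
    IterTendsto r (fun K => ∑' n, f n K) (∑' n, ℓ n) := by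
  induction r generalizing ℓ with
  | zero =>
    simp only [IterTendsto] at h ⊢
    exact tsum_congr h
  | succ r ih =>
    choose g hg hgl using h
    have hpos : ∀ (k : ℕ) (K : Fin r → ℕ), 0 < k → (∀ i, 0 < K i) →
        ∀ i, 0 < (Fin.cons k K : Fin (r + 1) → ℕ) i := by
      intro k K hk hK i
      refine Fin.cases ?_ (fun j => ?_) i
      · simpa using hk
      · simpa using hK j
    refine ⟨fun K => ∑' n, g n K, fun K hK => ?_, ?_⟩
    · refine tendsto_tsum_of_dominated_convergence hB (fun n => hg n K hK) ?_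
      filter_upwards [eventually_gt_atTop 0] with k hk n
      rw [Real.norm_eq_abs]
      exact hbd _ (hpos k K hk hK) n
    · refine ih (fun K hK n => ?_) hgl
      have hl := (hg n K hK).abs
      refine le_of_tendsto hl ?_
      filter_upwards [eventually_gt_atTop 0] with k hk
      exact hbd _ (hpos k K hk hK) n

/-- The (finite) tree functional: `A` a finite set of leaves, `V` a law of weights `v : A → ℝ`,
`Q` the law of the array `A → Y` of labels of ONE message label; the message labels `L` carry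
independent arrays.  `treeF = E log Σ_a v_a W((y ω a)_ω) - E log Σ_a v_a`. -/
noncomputable def treeF {A Y L : Type*} [Fintype A] [Fintype L] [MeasurableSpace Y]
    (V : Measure (A → ℝ)) (Q : Measure (A → Y)) (W : (L → Y) → ℝ) : ℝ :=
  ∫ v, ((∫ y, Real.log (∑ a, v a * W (fun ω => y ω a)) ∂(Measure.pi fun _ : L => Q)) -
    Real.log (∑ a, v a)) ∂V

end Crest.Agent.R141
private theorem rz_bb17417128 : type_of% @_root_.Crest.Agent.R141.IterTendsto.eq_def := @_root_.Crest.Agent.R141.IterTendsto.eq_def -- L19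
private theorem rz_37ead662f9 : type_of% @_root_.Crest.Agent.R141.IterTendsto.eq_1 := @_root_.Crest.Agent.R141.IterTendsto.eq_1 -- L19
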