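import Crest.Prelude.Def_DilutedSpinGlass
import Crest.Agent.R141.RedBasic
import Crest.Agent.R141.KI0

-- ▼ part R141/UOps
section

/-!
R141, Part U, U2 part 1: averaging operators on Lipschitz functions of `S → ℝ`
(`S` finite), their commutation, positivity, iterates, Poisson sums and thinning.
-/

set_option autoImplicit false

namespace Crest.Agent.R141.U

open MeasureTheory Filter Topology Crest.ProbabilityR.Diluted
open scoped NNReal

/-- Lipschitz functions on `S → ℝ` as a submodule. -/
def LipS (S : Type) [Fintype S] : Submodule ℝ ((S → ℝ) → ℝ) where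
  carrier := {G | ∃ C : ℝ≥0, LipschitzWith C G}
  add_mem' := by
    rintro a b ⟨C, hC⟩ ⟨D, hD⟩
    exact ⟨C + D, hC.add hD⟩
  zero_mem' := ⟨0, LipschitzWith.const 0⟩
  smul_mem' := by
    rintro c a ⟨C, hC⟩
    refine ⟨‖c‖₊ * C, ?_⟩
    have h := (lipschitzWith_smul c (β := ℝ)).comp hC
    exact h

/-- A random element of `S → ℝ` with integrable norm, given on a probability space. -/
structure ULaw (S : Type) [Fintype S] where
  Y : Type
  mY : MeasurableSpace Y
  ρ : Measure Y
  prob : IsProbabilityMeasure ρ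
  ξ : Y → S → ℝ
  meas : Measurable ξ
  int : Integrable (fun y => ‖ξ y‖) ρ

attribute [instance] ULaw.mY ULaw.prob

variable {S : Type} [Fintype S]

theorem LipS.abs_sub_le {G : (S → ℝ) → ℝ} {C : ℝ≥0} (hG : LipschitzWith C G) (g h : S → ℝ) :
    |G (g + h) - G g| ≤ C * ‖h‖ := by
  have := hG.dist_le_mul (g + h) g
  rw [Real.dist_eq, dist_eq_norm, add_sub_cancel_left] at this
  exact this

theorem LipS.abs_le {G : (S → ℝ) → ℝ} {C : ℝ≥0} (hG : LipschitzWith C G) (g h : S → ℝ) :
    |G (g + h)| ≤ |G g| + C * ‖h‖ := by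
  have h1 := LipS.abs_sub_le hG g h
  have h2 : |G (g + h)| ≤ |G (g + h) - G g| + |G g| := by
    have := abs_add_le (G (g + h) - G g) (G g)
    simpa using this
  linarith

theorem ULaw.integrable (κ : ULaw S) {G : (S → ℝ) → ℝ} {C : ℝ≥0} (hG : LipschitzWith C G)
    (g : S → ℝ) : Integrable (fun y => G (g + κ.ξ y)) κ.ρ := by
  have hm : Measurable (fun y => G (g + κ.ξ y)) :=
    hG.continuous.measurable.comp (measurable_const.add κ.meas)
  refine Integrable.mono' ((integrable_const (|G g|)).add (κ.int.const_mul (C : ℝ)))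
    hm.aestronglyMeasurable (Eventually.of_forall fun y => ?_)
  simpa using LipS.abs_le hG g (κ.ξ y)

/-- The averaging operator as a function. -/
noncomputable def ULaw.app (κ : ULaw S) (G : (S → ℝ) → ℝ) (g : S → ℝ) : ℝ :=
  ∫ y, G (g + κ.ξ y) ∂κ.ρ

theorem ULaw.app_lip (κ : ULaw S) {G : (S → ℝ) → ℝ} {C : ℝ≥0} (hG : LipschitzWith C G) :
    LipschitzWith C (κ.app G) := by
  refine LipschitzWith.of_dist_le_mul fun g g' => ?_
  rw [Real.dist_eq]
  unfold ULaw.app
  rw [← integral_sub (κ.integrable hG g) (κ.integrable hG g')]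
  have : ∀ y, ‖G (g + κ.ξ y) - G (g' + κ.ξ y)‖ ≤ C * dist g g' := by
    intro y
    have := hG.dist_le_mul (g + κ.ξ y) (g' + κ.ξ y)
    rwa [Real.dist_eq, dist_add_right] at this
  have h2 := norm_integral_le_of_norm_le_const (μ := κ.ρ) (Eventually.of_forall this)
  simpa using h2

/-- The averaging operator as an endomorphism of the Lipschitz functions. -/
noncomputable def Kop (κ : ULaw S) : Module.End ℝ (LipS S) where
  toFun G := ⟨κ.app G.1, by obtain ⟨C, hC⟩ := G.2; exact ⟨C, κ.app_lip hC⟩⟩
  map_add' := by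
    rintro ⟨G, C, hC⟩ ⟨G', C', hC'⟩
    apply Subtype.ext
    funext g
    show κ.app (G + G') g = κ.app G g + κ.app G' g
    unfold ULaw.app
    simp only [Pi.add_apply]
    exact integral_add (κ.integrable hC g) (κ.integrable hC' g)
  map_smul' := by
    rintro c ⟨G, C, hC⟩
    apply Subtype.ext
    funext g
    show κ.app (c • G) g = c * κ.app G g
    unfold ULaw.app
    simp only [Pi.smul_apply, smul_eq_mul]
    exact integral_const_mul _ _

theorem Kop_apply (κ : ULaw S) (G : LipS S) (g : S → ℝ) :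
    ((Kop κ) G : (S → ℝ) → ℝ) g = ∫ y, (G : (S → ℝ) → ℝ) (g + κ.ξ y) ∂κ.ρ := rfl

theorem Kop_commute (κ κ' : ULaw S) : Commute (Kop κ) (Kop κ') := by
  apply LinearMap.ext
  rintro ⟨G, C, hC⟩
  apply Subtype.ext
  funext g
  simp only [Module.End.mul_apply, Kop_apply]
  have hint : Integrable (fun z : κ.Y × κ'.Y => G (g + κ.ξ z.1 + κ'.ξ z.2)) (κ.ρ.prod κ'.ρ) := by
    have hm : Measurable (fun z : κ.Y × κ'.Y => G (g + κ.ξ z.1 + κ'.ξ z.2)) :=
      hC.continuous.measurable.comp
        ((measurable_const.add (κ.meas.comp measurable_fst)).add (κ'.meas.comp measurable_snd))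
    have hb : Integrable (fun z : κ.Y × κ'.Y => |G g| + C * (‖κ.ξ z.1‖ + ‖κ'.ξ z.2‖))
        (κ.ρ.prod κ'.ρ) :=
      (integrable_const _).add (((κ.int.comp_fst κ'.ρ).add (κ'.int.comp_snd κ.ρ)).const_mul _)
    refine Integrable.mono' hb hm.aestronglyMeasurable (Eventually.of_forall fun z => ?_)
    have h1 := LipS.abs_le hC g (κ.ξ z.1 + κ'.ξ z.2)
    rw [← add_assoc] at h1
    have h2 : (C : ℝ) * ‖κ.ξ z.1 + κ'.ξ z.2‖ ≤ C * (‖κ.ξ z.1‖ + ‖κ'.ξ z.2‖) :=
      mul_le_mul_of_nonneg_left (norm_add_le _ _) C.2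
    rw [Real.norm_eq_abs]
    linarith
  rw [integral_integral_swap hint]
  refine integral_congr_ae (Eventually.of_forall fun y => ?_)
  refine integral_congr_ae (Eventually.of_forall fun y' => ?_)
  simp only
  congr 1
  rw [add_right_comm]

/-- Positive operators. -/
def OpMono (T : Module.End ℝ (LipS S)) : Prop :=
  ∀ G G' : LipS S, (∀ g, (G : (S → ℝ) → ℝ) g ≤ (G' : (S → ℝ) → ℝ) g) →
    ∀ g, (T G : (S → ℝ) → ℝ) g ≤ (T G' : (S → ℝ) → ℝ) g

theorem Kop_mono (κ : ULaw S) : OpMono (Kop κ) := by
  rintro ⟨G, C, hC⟩ ⟨G', C', hC'⟩ h g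
  rw [Kop_apply, Kop_apply]
  exact integral_mono (κ.integrable hC g) (κ.integrable hC' g) (fun y => h _)

theorem OpMono.add {T T' : Module.End ℝ (LipS S)} (h : OpMono T) (h' : OpMono T') :
    OpMono (T + T') := by
  intro G G' hG g
  have h1 := h G G' hG g
  have h2 := h' G G' hG g
  show (T G : (S → ℝ) → ℝ) g + (T' G : (S → ℝ) → ℝ) g ≤
    (T G' : (S → ℝ) → ℝ) g + (T' G' : (S → ℝ) → ℝ) g
  linarith

theorem OpMono.smul {T : Module.End ℝ (LipS S)} (h : OpMono T) {c : ℝ} (hc : 0 ≤ c) :
    OpMono (c • T) := by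
  intro G G' hG g
  show c * (T G : (S → ℝ) → ℝ) g ≤ c * (T G' : (S → ℝ) → ℝ) g
  exact mul_le_mul_of_nonneg_left (h G G' hG g) hc

theorem OpMono.pow {T : Module.End ℝ (LipS S)} (h : OpMono T) (M : ℕ) : OpMono (T ^ M) := by
  induction M with
  | zero =>
    intro G G' hG g
    simpa using hG g
  | succ M ih =>
    intro G G' hG g
    rw [pow_succ, Module.End.mul_apply, Module.End.mul_apply]
    exact ih _ _ (h G G' hG) g


/-- Bound on iterates. -/
theorem Kop_pow_lip (κ : ULaw S) (M : ℕ) (G : LipS S) {C : ℝ≥0}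
    (hG : LipschitzWith C (G : (S → ℝ) → ℝ)) :
    LipschitzWith C (((Kop κ) ^ M) G : (S → ℝ) → ℝ) := by
  induction M with
  | zero => simpa using hG
  | succ M ih =>
    rw [pow_succ', Module.End.mul_apply]
    exact κ.app_lip ih

theorem Kop_pow_sub_le (κ : ULaw S) (M : ℕ) (G : LipS S) {C : ℝ≥0}
    (hG : LipschitzWith C (G : (S → ℝ) → ℝ)) (g : S → ℝ) :
    |(((Kop κ) ^ M) G : (S → ℝ) → ℝ) g - (G : (S → ℝ) → ℝ) g| ≤
      M * (C * ∫ y, ‖κ.ξ y‖ ∂κ.ρ) := by
  induction M with
  | zero => simp
  | succ M ih =>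
    have hL := Kop_pow_lip κ M G hG
    have h1 : |(((Kop κ) ^ (M + 1)) G : (S → ℝ) → ℝ) g - (((Kop κ) ^ M) G : (S → ℝ) → ℝ) g| ≤
        C * ∫ y, ‖κ.ξ y‖ ∂κ.ρ := by
      rw [pow_succ', Module.End.mul_apply, Kop_apply]
      have e : (((Kop κ) ^ M) G : (S → ℝ) → ℝ) g =
          ∫ _y, (((Kop κ) ^ M) G : (S → ℝ) → ℝ) g ∂κ.ρ := by simp
      rw [e, ← integral_sub (κ.integrable hL g) (integrable_const _), ← integral_const_mul]
      rw [← Real.norm_eq_abs]
      refine (norm_integral_le_integral_norm _).trans ?_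
      refine integral_mono_of_nonneg (Eventually.of_forall fun y => norm_nonneg _)
        (κ.int.const_mul _) (Eventually.of_forall fun y => ?_)
      exact LipS.abs_sub_le hL g (κ.ξ y)
    have h2 := abs_add_le ((((Kop κ) ^ (M + 1)) G : (S → ℝ) → ℝ) g -
      (((Kop κ) ^ M) G : (S → ℝ) → ℝ) g) ((((Kop κ) ^ M) G : (S → ℝ) → ℝ) g -
        (G : (S → ℝ) → ℝ) g)
    rw [sub_add_sub_cancel] at h2
    push_cast
    linarith

/-- Iterates as integrals over products. -/
theorem Kop_pow_apply (κ : ULaw S) (M : ℕ) (G : LipS S) (g : S → ℝ) :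
    (((Kop κ) ^ M) G : (S → ℝ) → ℝ) g =
      ∫ ys : Fin M → κ.Y, (G : (S → ℝ) → ℝ) (g + ∑ j, κ.ξ (ys j)) ∂(Measure.pi fun _ => κ.ρ) := by
  induction M generalizing g with
  | zero => simp
  | succ M ih =>
    obtain ⟨C, hC⟩ := G.2
    rw [pow_succ', Module.End.mul_apply, Kop_apply]
    have e := measurePreserving_piFinSuccAbove (fun _ : Fin (M + 1) => κ.ρ) 0
    have h2 := e.symm.integral_comp' (g := fun ys : Fin (M + 1) → κ.Y =>
      (G : (S → ℝ) → ℝ) (g + ∑ j, κ.ξ (ys j)))
    rw [← h2, integral_prod]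
    · refine integral_congr_ae (Eventually.of_forall fun y => ?_)
      simp only
      rw [ih]
      refine integral_congr_ae (Eventually.of_forall fun ys => ?_)
      simp only [MeasurableEquiv.piFinSuccAbove_symm_apply, Fin.insertNthEquiv_zero,
        Fin.consEquiv_apply, Fin.sum_univ_succ, Fin.cons_zero, Fin.cons_succ]
      rw [add_assoc]
    · have hm : Measurable (fun z : κ.Y × (Fin M → κ.Y) =>
          (G : (S → ℝ) → ℝ) (g + (κ.ξ z.1 + ∑ j, κ.ξ (z.2 j)))) := by
        refine hC.continuous.measurable.comp (measurable_const.add ((κ.meas.comp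
          measurable_fst).add ?_))
        exact Finset.measurable_sum _ fun j _ => κ.meas.comp
          ((measurable_pi_apply j).comp measurable_snd)
      have hb : Integrable (fun z : κ.Y × (Fin M → κ.Y) => |(G : (S → ℝ) → ℝ) g| +
          C * (‖κ.ξ z.1‖ + ∑ j, ‖κ.ξ (z.2 j)‖)) (κ.ρ.prod (Measure.pi fun _ => κ.ρ)) := by
        refine (integrable_const _).add ((Integrable.add (κ.int.comp_fst _) ?_).const_mul _)
        refine Integrable.comp_snd (f := fun ys : Fin M → κ.Y => ∑ j, ‖κ.ξ (ys j)‖) ?_ κ.ρ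
        exact integrable_finsetSum _ fun j _ =>
          integrable_comp_eval (μ := fun _ : Fin M => κ.ρ) (i := j) (f := fun y => ‖κ.ξ y‖) κ.int
      refine (Integrable.mono' hb hm.aestronglyMeasurable
        (Eventually.of_forall fun z => ?_)).congr (Eventually.of_forall fun z => ?_)
      · have h1 := LipS.abs_le hC g (κ.ξ z.1 + ∑ j, κ.ξ (z.2 j))
        have h2 : (C : ℝ) * ‖κ.ξ z.1 + ∑ j, κ.ξ (z.2 j)‖ ≤
            C * (‖κ.ξ z.1‖ + ∑ j, ‖κ.ξ (z.2 j)‖) :=
          mul_le_mul_of_nonneg_left ((norm_add_le _ _).trans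
            (add_le_add le_rfl (norm_sum_le _ _))) C.2
        rw [Real.norm_eq_abs]
        linarith
      · simp only [MeasurableEquiv.piFinSuccAbove_symm_apply, Fin.insertNthEquiv_zero,
          Fin.consEquiv_apply, Fin.sum_univ_succ, Fin.cons_zero, Fin.cons_succ]

end Crest.Agent.R141.U
end

-- ▼ part R141/ULaws

/-!
R141, Part U, U2 part 2: the three types of events as `ULaw`s, log-sum-exp, and the hybrid
inequality for a fixed number of events, from `KIProp`.
-/

set_option autoImplicit false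

namespace Crest.Agent.R141.U

open MeasureTheory Filter Topology Crest.ProbabilityR.Diluted
open scoped NNReal ENNReal

/-- The uniform law on a finite type. -/
noncomputable def unif (I : Type) [Fintype I] [MeasurableSpace I] : Measure I :=
  ((Fintype.card I : ℝ≥0∞)⁻¹) • Measure.count

section Unif

variable {I : Type} [Fintype I] [Nonempty I] [MeasurableSpace I] [MeasurableSingletonClass I]

instance unif_prob : IsProbabilityMeasure (unif I) := by
  constructor
  have h : (Fintype.card I : ℝ≥0∞) ≠ 0 := by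
    simp
  simp only [unif, Measure.smul_apply, smul_eq_mul]
  rw [Measure.count_univ]
  simp only [ENat.card_eq_coe_fintype_card, ENat.toENNReal_coe]
  exact ENNReal.inv_mul_cancel h (ENNReal.natCast_ne_top _)

theorem unif_real_singleton (i : I) : (unif I).real {i} = (Fintype.card I : ℝ)⁻¹ := by
  simp only [unif, Measure.real, Measure.smul_apply, smul_eq_mul]
  rw [Measure.count_singleton, mul_one, ENNReal.toReal_inv, ENNReal.toReal_natCast]

theorem integral_unif (F : I → ℝ) : ∫ i, F i ∂(unif I) = (Fintype.card I : ℝ)⁻¹ * ∑ i, F i := by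
  rw [integral_fintype (Integrable.of_finite), Finset.mul_sum]
  refine Finset.sum_congr rfl fun i _ => ?_
  rw [unif_real_singleton, smul_eq_mul]

theorem integral_pi_unif {M : ℕ} (F : (Fin M → I) → ℝ) :
    ∫ i, F i ∂(Measure.pi fun _ : Fin M => unif I) =
      (Fintype.card (Fin M → I) : ℝ)⁻¹ * ∑ i, F i := by
  rw [integral_fintype (Integrable.of_finite), Finset.mul_sum]
  refine Finset.sum_congr rfl fun i _ => ?_
  have h : (Measure.pi fun _ : Fin M => unif I).real {i} = (Fintype.card (Fin M → I) : ℝ)⁻¹ := by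
    simp only [Measure.real]
    rw [Measure.pi_singleton, ENNReal.toReal_prod]
    have : ∀ j, ((unif I) {i j}).toReal = (Fintype.card I : ℝ)⁻¹ := fun j =>
      unif_real_singleton (i j)
    simp only [this, Finset.prod_const, Finset.card_univ, Fintype.card_fin]
    rw [Fintype.card_fun, Fintype.card_fin]
    push_cast
    rw [inv_pow]
  rw [h, smul_eq_mul]

end Unif

/-- log-sum-exp. -/
noncomputable def lse {S : Type} [Fintype S] (g : S → ℝ) : ℝ := Real.log (∑ s, Real.exp (g s))

section

variable {S : Type} [Fintype S] [Nonempty S]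

theorem lse_lip : LipschitzWith 1 (lse : (S → ℝ) → ℝ) := by
  refine LipschitzWith.of_dist_le_mul fun g g' => ?_
  rw [Real.dist_eq, NNReal.coe_one, one_mul]
  have := Red.abs_log_sum_exp_le (ι := S) (fun _ => 1) (fun _ => one_pos) g g' (dist g g')
    (fun i => by
      rw [← Real.dist_eq]; exact dist_le_pi_dist g g' i)
  simp only [one_mul] at this
  exact this

/-- `lse` as an element of `LipS`. -/
noncomputable def lseL (S : Type) [Fintype S] [Nonempty S] : LipS S := ⟨lse, 1, lse_lip⟩

@[simp] theorem coe_lseL : ((lseL S : LipS S) : (S → ℝ) → ℝ) = lse := rfl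

end

section Laws

variable {p : ℕ} {μ : Measure (Inter p)} [IsProbabilityMeasure μ]
  (hμ : Integrable (fun θ => supNorm θ) μ)
  {S : Type} [Fintype S] {N : ℕ} (hN : 0 < N) (sg : S → Fin N → Bool)
  {Y : Type} [MeasurableSpace Y] (Q : Measure Y) [IsProbabilityMeasure Q]
  (x : Y → S → ℝ) (hx : ∀ s, Measurable fun y => x y s)

include hμ in
theorem integrable_norm_of_le {Z : Type} [MeasurableSpace Z] (ρ : Measure Z)
    [IsProbabilityMeasure ρ] {ξ : Inter p × Z → S → ℝ} (hξ : Measurable ξ)
    (hb : ∀ z s, |ξ z s| ≤ supNorm z.1) : Integrable (fun z => ‖ξ z‖) (μ.prod ρ) := by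
  have h1 : Integrable (fun z : Inter p × Z => supNorm z.1) (μ.prod ρ) := hμ.comp_fst ρ
  refine h1.mono' hξ.norm.aestronglyMeasurable (Eventually.of_forall fun z => ?_)
  rw [norm_norm]
  refine (pi_norm_le_iff_of_nonneg (Red.supNorm_nonneg _)).2 fun s => ?_
  rw [Real.norm_eq_abs]
  exact hb z s

/-- measurability of evaluation of interactions. -/
theorem measurable_inter_eval {Z : Type} [MeasurableSpace Z] {f : Z → Inter p}
    (hf : Measurable f) (s : Fin p → Bool) : Measurable fun z => f z s :=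
  (measurable_pi_apply s).comp hf

theorem measurable_tilt_comp {Z : Type} [MeasurableSpace Z] {f : Z → ℝ} (hf : Measurable f)
    (s : Bool) : Measurable fun z => tilt (f z) s :=
  (Red.continuous_tilt s).measurable.comp hf

theorem measurable_edgeTerm_comp {Z : Type} [MeasurableSpace Z] {f : Z → Inter p}
    (hf : Measurable f) {y : Z → Fin p → ℝ} (hy : ∀ ℓ, Measurable fun z => y z ℓ) :
    Measurable fun z => edgeTerm (f z) (y z) := by
  unfold edgeTerm
  refine Finset.measurable_sum _ fun s _ => ?_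
  refine ((measurable_inter_eval hf s).exp).mul ?_
  exact Finset.measurable_prod _ fun ℓ _ => measurable_tilt_comp (hy ℓ) (s ℓ)

theorem measurable_siteMessage_comp {Z : Type} [MeasurableSpace Z] {f : Z → Inter p}
    (hf : Measurable f) {y : Z → Fin (p - 1) → ℝ} (hy : ∀ ℓ, Measurable fun z => y z ℓ)
    (ε : Bool) : Measurable fun z => siteMessage (f z) (y z) ε := by
  unfold siteMessage
  refine Measurable.log (Finset.measurable_sum _ fun s _ => ?_)
  refine ((measurable_inter_eval hf _).exp).mul ?_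
  exact Finset.measurable_prod _ fun ℓ _ => measurable_tilt_comp (hy ℓ) (s ℓ)

theorem law1_meas : Measurable (fun (z : Inter p × (Fin p → Fin N)) (s : S) =>
    z.1 fun ℓ => sg s (z.2 ℓ)) := by
  refine measurable_pi_lambda _ fun s => ?_
  refine measurable_from_prod_countable_left fun I => ?_
  exact measurable_pi_apply (fun ℓ => sg s (I ℓ))

/-- Type 1 events: an edge of the model. -/
noncomputable def law1 : ULaw S :=
  haveI : Nonempty (Fin N) := ⟨⟨0, hN⟩⟩
  { Y := Inter p × (Fin p → Fin N)
    mY := inferInstance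
    ρ := μ.prod (unif (Fin p → Fin N))
    prob := inferInstance
    ξ := fun z s => z.1 fun ℓ => sg s (z.2 ℓ)
    meas := law1_meas sg
    int := integrable_norm_of_le hμ _ (law1_meas sg) fun z s => Red.abs_le_supNorm _ _ }

/-- Type 3 events: an edge of the cavity fields. -/
noncomputable def law3 : ULaw S where
  Y := Inter p × (Fin p → Y)
  mY := inferInstance
  ρ := μ.prod (Measure.pi fun _ => Q)
  prob := inferInstance
  ξ := fun z s => Real.log (edgeTerm z.1 fun ℓ => x (z.2 ℓ) s)
  meas := by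
    refine measurable_pi_lambda _ fun s => Measurable.log ?_
    exact measurable_edgeTerm_comp measurable_fst fun ℓ =>
      (hx s).comp ((measurable_pi_apply ℓ).comp measurable_snd)
  int := by
    refine integrable_norm_of_le hμ _ ?_ fun z s => Red.abs_log_edgeTerm_le _ _
    refine measurable_pi_lambda _ fun s => Measurable.log ?_
    exact measurable_edgeTerm_comp measurable_fst fun ℓ =>
      (hx s).comp ((measurable_pi_apply ℓ).comp measurable_snd)

/-- Type 2 events: a cavity field on a uniform site. -/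
noncomputable def law2 : ULaw S :=
  haveI : Nonempty (Fin N) := ⟨⟨0, hN⟩⟩
  { Y := Inter p × ((Fin (p - 1) → Y) × Fin N)
    mY := inferInstance
    ρ := μ.prod ((Measure.pi fun _ => Q).prod (unif (Fin N)))
    prob := inferInstance
    ξ := fun z s => siteMessage z.1 (fun ℓ => x (z.2.1 ℓ) s) (sg s z.2.2)
    meas := by
      refine measurable_pi_lambda _ fun s => ?_
      have h : ∀ ε : Bool, Measurable fun z : Inter p × ((Fin (p - 1) → Y) × Fin N) =>
          siteMessage z.1 (fun ℓ => x (z.2.1 ℓ) s) ε := fun ε =>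
        measurable_siteMessage_comp measurable_fst (fun ℓ => (hx s).comp
          ((measurable_pi_apply ℓ).comp (measurable_fst.comp measurable_snd))) ε
      have h2 : Measurable fun z : Inter p × ((Fin (p - 1) → Y) × Fin N) =>
          (z, sg s z.2.2) := measurable_id.prodMk
            ((measurable_of_finite (sg s)).comp (measurable_snd.comp measurable_snd))
      exact (measurable_from_prod_countable_left (f := fun w : (Inter p ×
        ((Fin (p - 1) → Y) × Fin N)) × Bool =>
          siteMessage w.1.1 (fun ℓ => x (w.1.2.1 ℓ) s) w.2) h).comp h2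
    int := by
      refine integrable_norm_of_le hμ _ ?_ fun z s => Red.abs_siteMessage_le _ _ _
      refine measurable_pi_lambda _ fun s => ?_
      have h : ∀ ε : Bool, Measurable fun z : Inter p × ((Fin (p - 1) → Y) × Fin N) =>
          siteMessage z.1 (fun ℓ => x (z.2.1 ℓ) s) ε := fun ε =>
        measurable_siteMessage_comp measurable_fst (fun ℓ => (hx s).comp
          ((measurable_pi_apply ℓ).comp (measurable_fst.comp measurable_snd))) ε
      have h2 : Measurable fun z : Inter p × ((Fin (p - 1) → Y) × Fin N) =>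
          (z, sg s z.2.2) := measurable_id.prodMk
            ((measurable_of_finite (sg s)).comp (measurable_snd.comp measurable_snd))
      exact (measurable_from_prod_countable_left (f := fun w : (Inter p ×
        ((Fin (p - 1) → Y) × Fin N)) × Bool =>
          siteMessage w.1.1 (fun ℓ => x (w.1.2.1 ℓ) s) w.2) h).comp h2 }

end Laws

end Crest.Agent.R141.U
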