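import Crest.Agent.R141.ULaws
import Mathlib
import Crest.Prelude.Def_DilutedSpinGlass
import Crest.Agent.R141.UPi
import Crest.Agent.R141.Red0
import Crest.Agent.R141.RedBasic
import Crest.Agent.R141.UDefs
import Crest.Agent.R141.Red1
import Crest.Agent.R141.RedP
import Crest.Agent.R141.FinTrial2
import Crest.Agent.R141.Red3

-- ▼ part R141/UHyb
section

/-!
R141, Part U, U2 part 3: from `KIProp` to the hybrid inequality.
-/

set_option autoImplicit false

namespace Crest.Agent.R141.U

open MeasureTheory Filter Topology Crest.ProbabilityR.Diluted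
open scoped NNReal ENNReal

section

variable {p : ℕ} {μ : Measure (Inter p)} [IsProbabilityMeasure μ]
  (hμ : Integrable (fun θ => supNorm θ) μ)
  {S : Type} [Fintype S] [Nonempty S] {N : ℕ} (hN : 0 < N) (sg : S → Fin N → Bool)
  {Y : Type} [MeasurableSpace Y] (Q : Measure Y) [IsProbabilityMeasure Q]
  (x : Y → S → ℝ) (hx : ∀ s, Measurable fun y => x y s)

theorem lse_add_log (g w : S → ℝ) (hw : ∀ s, 0 < w s) :
    lse (g + fun s => Real.log (w s)) = Real.log (∑ s, Real.exp (g s) * w s) := by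
  unfold lse
  congr 1
  refine Finset.sum_congr rfl fun s _ => ?_
  rw [Pi.add_apply, Real.exp_add, Real.exp_log (hw s)]

theorem lse_add (g w : S → ℝ) :
    lse (g + w) = Real.log (∑ s, Real.exp (g s) * Real.exp (w s)) := by
  unfold lse
  congr 1
  refine Finset.sum_congr rfl fun s _ => ?_
  rw [Pi.add_apply, Real.exp_add]

/-- one type 1 event. -/
theorem K1_apply (g : S → ℝ) :
    ((Kop (law1 hμ hN sg)) (lseL S) : (S → ℝ) → ℝ) g =
      (Fintype.card (Fin p → Fin N) : ℝ)⁻¹ * ∑ I : Fin p → Fin N,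
        ∫ θ, Real.log (∑ s, Real.exp (g s) * Real.exp (θ fun ℓ => sg s (I ℓ))) ∂μ := by
  haveI : Nonempty (Fin N) := ⟨⟨0, hN⟩⟩
  have h0 := (law1 hμ hN sg).integrable (lse_lip (S := S)) g
  rw [Kop_apply, coe_lseL]
  show ∫ z, lse (g + fun s => z.1 fun ℓ => sg s (z.2 ℓ)) ∂(μ.prod (unif (Fin p → Fin N))) = _
  rw [integral_prod_symm]
  · rw [integral_unif]
    simp only [lse_add]
  · exact h0

/-- one type 3 event. -/
theorem K3_apply (g : S → ℝ) :
    ((Kop (law3 hμ Q x hx)) (lseL S) : (S → ℝ) → ℝ) g =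
      ∫ θ, ∫ y, Real.log (∑ s, Real.exp (g s) * edgeTerm θ fun ℓ => x (y ℓ) s)
        ∂(Measure.pi fun _ : Fin p => Q) ∂μ := by
  have h0 := (law3 hμ Q x hx).integrable (lse_lip (S := S)) g
  rw [Kop_apply, coe_lseL]
  show ∫ z, lse (g + fun s => Real.log (edgeTerm z.1 fun ℓ => x (z.2 ℓ) s))
    ∂(μ.prod (Measure.pi fun _ : Fin p => Q)) = _
  rw [integral_prod]
  · refine integral_congr_ae (Eventually.of_forall fun θ => ?_)
    refine integral_congr_ae (Eventually.of_forall fun y => ?_)
    exact lse_add_log _ _ fun s => Red.edgeTerm_pos _ _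
  · exact h0

/-- one type 2 event. -/
theorem K2_apply (g : S → ℝ) :
    ((Kop (law2 hμ hN sg Q x hx)) (lseL S) : (S → ℝ) → ℝ) g =
      (N : ℝ)⁻¹ * ∑ i : Fin N, ∫ θ, ∫ y, Real.log (∑ s, Real.exp (g s) *
        Real.exp (siteMessage θ (fun ℓ => x (y ℓ) s) (sg s i)))
        ∂(Measure.pi fun _ : Fin (p - 1) => Q) ∂μ := by
  haveI : Nonempty (Fin N) := ⟨⟨0, hN⟩⟩
  have h0 := (law2 hμ hN sg Q x hx).integrable (lse_lip (S := S)) g
  rw [Kop_apply, coe_lseL]
  let F : Inter p × ((Fin (p - 1) → Y) × Fin N) → ℝ := fun z =>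
    lse (g + fun s => siteMessage z.1 (fun ℓ => x (z.2.1 ℓ) s) (sg s z.2.2))
  have h0' : Integrable F (μ.prod ((Measure.pi fun _ : Fin (p - 1) => Q).prod (unif (Fin N)))) := h0
  show ∫ z, F z ∂(μ.prod ((Measure.pi fun _ : Fin (p - 1) => Q).prod (unif (Fin N)))) = _
  have h1 : Integrable (fun w : (Inter p × (Fin (p - 1) → Y)) × Fin N => F (w.1.1, (w.1.2, w.2)))
      ((μ.prod (Measure.pi fun _ : Fin (p - 1) => Q)).prod (unif (Fin N))) :=
    (measurePreserving_prodAssoc μ (Measure.pi fun _ : Fin (p - 1) => Q)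
      (unif (Fin N))).integrable_comp_of_integrable h0'
  have h2 : ∫ z, F z ∂(μ.prod ((Measure.pi fun _ : Fin (p - 1) => Q).prod (unif (Fin N)))) =
      ∫ w : (Inter p × (Fin (p - 1) → Y)) × Fin N, F (w.1.1, (w.1.2, w.2))
        ∂((μ.prod (Measure.pi fun _ : Fin (p - 1) => Q)).prod (unif (Fin N))) :=
    ((measurePreserving_prodAssoc μ (Measure.pi fun _ : Fin (p - 1) => Q)
      (unif (Fin N))).integral_comp' F).symm
  rw [h2, integral_prod_symm _ h1, integral_unif, Fintype.card_fin]
  congr 1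
  refine Finset.sum_congr rfl fun i _ => ?_
  have h3 : Integrable (fun w : Inter p × (Fin (p - 1) → Y) => F (w.1, (w.2, i)))
      (μ.prod (Measure.pi fun _ : Fin (p - 1) => Q)) := by
    have h4 := h1.prod_left_ae
    have h5 : ∀ i : Fin N, (unif (Fin N)) {i} ≠ 0 := by
      intro i hi
      have := unif_real_singleton (I := Fin N) i
      rw [Measure.real, hi] at this
      simp only [ENNReal.toReal_zero, Fintype.card_fin] at this
      have h6 : (0 : ℝ) < (N : ℝ)⁻¹ := by positivity
      linarith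
    rw [ae_iff] at h4
    by_contra hcon
    have h6 : ({i} : Set (Fin N)) ⊆ {a | ¬Integrable (fun w : Inter p × (Fin (p - 1) → Y) =>
        F (w.1, (w.2, a))) (μ.prod (Measure.pi fun _ : Fin (p - 1) => Q))} := by
      intro a ha
      rw [Set.mem_singleton_iff] at ha
      subst ha
      exact hcon
    exact h5 i (measure_mono_null h6 h4)
  rw [integral_prod _ h3]
  refine integral_congr_ae (Eventually.of_forall fun θ => ?_)
  refine integral_congr_ae (Eventually.of_forall fun y => ?_)
  exact lse_add _ _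

/-- The operator of a mixed event. -/
noncomputable def Kmix : Module.End ℝ (LipS S) :=
  (1 / (p : ℝ)) • Kop (law1 hμ hN sg) + ((p - 1 : ℝ) / p) • Kop (law3 hμ Q x hx)

theorem KI_op (hp : 0 < p) (hKI : KIProp p μ) (g : S → ℝ) :
    ((Kmix hμ hN sg Q x hx) (lseL S) : (S → ℝ) → ℝ) g ≤
      ((Kop (law2 hμ hN sg Q x hx)) (lseL S) : (S → ℝ) → ℝ) g := by
  have h := hKI S N hN sg Y Q x hx (fun s => Real.exp (g s)) (fun s => Real.exp_pos _)
  have e : ((Kmix hμ hN sg Q x hx) (lseL S) : (S → ℝ) → ℝ) g =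
      (1 / (p : ℝ)) * ((Kop (law1 hμ hN sg)) (lseL S) : (S → ℝ) → ℝ) g +
      ((p - 1 : ℝ) / p) * ((Kop (law3 hμ Q x hx)) (lseL S) : (S → ℝ) → ℝ) g := rfl
  rw [e, K1_apply, K3_apply, K2_apply]
  exact h




end

end Crest.Agent.R141.U
end

-- ▼ part R141/UPois
section

/-!
# Row 141, Part U: Poisson splitting, thinning and the hybrid argument for real sequences (helper318)

* `hasSum_poissonWeight`, `tsum_poissonWeight_mul_id` : total mass and mean.
* `tsum_poissonWeight_binomial` : `Poisson(lam)` many events, each independently of kind 1 with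
  probability `q` and of kind 2 otherwise, are independent `Poisson(lam q)` and
  `Poisson(lam (1-q))` numbers of events.
* `poisson_split` : the number of events at one of `N` sites.
* `hybrid_binomial`, `hybrid_poisson` : the replacement of the events one by one.
-/

set_option autoImplicit false

open Crest.ProbabilityR.Diluted

namespace Crest.Agent.R141.UPois

theorem poissonWeight_nonneg {lam : ℝ} (h : 0 ≤ lam) (n : ℕ) : 0 ≤ poissonWeight lam n := by
  unfold poissonWeight; positivity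

theorem poissonWeight_succ (lam : ℝ) (n : ℕ) :
    poissonWeight lam (n + 1) * ((n + 1 : ℕ) : ℝ) = lam * poissonWeight lam n := by
  unfold poissonWeight
  rw [Nat.factorial_succ]
  have h1 : ((n + 1 : ℕ) : ℝ) ≠ 0 := by positivity
  have h2 : ((Nat.factorial n : ℕ) : ℝ) ≠ 0 := by positivity
  push_cast
  push_cast at h1
  field_simp
  ring

theorem hasSum_poissonWeight (lam : ℝ) : HasSum (poissonWeight lam) 1 := by
  have h := (NormedSpace.expSeries_div_hasSum_exp (lam : ℝ)).mul_left (Real.exp (-lam))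
  rw [← Real.exp_eq_exp_ℝ, ← Real.exp_add, neg_add_cancel, Real.exp_zero] at h
  have e : poissonWeight lam = fun i : ℕ => Real.exp (-lam) * (lam ^ i / (i.factorial : ℝ)) := by
    funext n
    unfold poissonWeight
    ring
  rw [e]
  exact h

theorem hasSum_poissonWeight_mul_id (lam : ℝ) :
    HasSum (fun n : ℕ => poissonWeight lam n * (n : ℝ)) lam := by
  have h := (hasSum_poissonWeight lam).mul_left lam
  rw [mul_one] at h
  have h2 : HasSum (fun n : ℕ => poissonWeight lam (n + 1) * ((n + 1 : ℕ) : ℝ)) lam := by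
    have e : (fun n : ℕ => poissonWeight lam (n + 1) * ((n + 1 : ℕ) : ℝ)) =
        fun n => lam * poissonWeight lam n := by
      funext n
      exact poissonWeight_succ lam n
    rw [e]
    exact h
  have h3 := (hasSum_nat_add_iff (f := fun n : ℕ => poissonWeight lam n * (n : ℝ)) 1).1 h2
  simpa using h3

theorem tsum_poissonWeight_mul_id (lam : ℝ) :
    ∑' K : ℕ, poissonWeight lam K * (K : ℝ) = lam :=
  (hasSum_poissonWeight_mul_id lam).tsum_eq

theorem summable_poissonWeight_mul {lam C : ℝ} (hlam : 0 ≤ lam) {φ : ℕ → ℝ}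
    (hφ : ∀ k, |φ k| ≤ C * (1 + k)) : Summable (fun k => poissonWeight lam k * φ k) := by
  have h1 : Summable (fun k : ℕ => C * (poissonWeight lam k + poissonWeight lam k * (k : ℝ))) :=
    ((hasSum_poissonWeight lam).summable.add
      (hasSum_poissonWeight_mul_id lam).summable).mul_left C
  refine Summable.of_norm_bounded h1 fun k => ?_
  rw [Real.norm_eq_abs, abs_mul, abs_of_nonneg (poissonWeight_nonneg hlam k)]
  calc poissonWeight lam k * |φ k| ≤ poissonWeight lam k * (C * (1 + k)) :=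
        mul_le_mul_of_nonneg_left (hφ k) (poissonWeight_nonneg hlam k)
    _ = C * (poissonWeight lam k + poissonWeight lam k * (k : ℝ)) := by ring

/-- the identity behind Poisson thinning -/
theorem poissonWeight_mul_choose (lam q : ℝ) (j k : ℕ) :
    poissonWeight lam (j + k) * (((j + k).choose j : ℝ) * q ^ j * (1 - q) ^ k) =
      poissonWeight (lam * q) j * poissonWeight (lam * (1 - q)) k := by
  unfold poissonWeight
  have hj : (Nat.factorial j : ℝ) ≠ 0 := by positivity
  have hk : (Nat.factorial k : ℝ) ≠ 0 := by positivity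
  have hjk : (Nat.factorial (j + k) : ℝ) ≠ 0 := by positivity
  have hch : ((j + k).choose j : ℝ) =
      (Nat.factorial (j + k) : ℝ) / ((Nat.factorial j : ℝ) * (Nat.factorial k : ℝ)) := by
    rw [Nat.cast_choose ℝ (Nat.le_add_right j k), Nat.add_sub_cancel_left]
  have hexp : Real.exp (-lam) = Real.exp (-(lam * q)) * Real.exp (-(lam * (1 - q))) := by
    rw [← Real.exp_add]; congr 1; ring
  rw [hch, hexp, pow_add, mul_pow, mul_pow]
  field_simp

theorem tsum_antidiagonal {f : ℕ × ℕ → ℝ} (hf : Summable f) :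
    ∑' n, ∑ kl ∈ Finset.HasAntidiagonal.antidiagonal n, f kl = ∑' q, f q := by
  have h := hf.hasSum
  have h2 : HasSum (f ∘ Finset.HasAntidiagonal.sigmaAntidiagonalEquivProd) (∑' q, f q) :=
    (Finset.HasAntidiagonal.sigmaAntidiagonalEquivProd.hasSum_iff).2 h
  have h3 := h2.sigma (g := fun n => ∑ kl ∈ Finset.HasAntidiagonal.antidiagonal n, f kl) (fun n => by
    have := hasSum_fintype (fun c : Finset.HasAntidiagonal.antidiagonal n => f (c : ℕ × ℕ))
    rw [Finset.sum_coe_sort (Finset.HasAntidiagonal.antidiagonal n) f] at this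
    exact this)
  exact h3.tsum_eq

theorem summable_antidiagonal {f : ℕ × ℕ → ℝ} (hf : Summable f) :
    Summable (fun n => ∑ kl ∈ Finset.HasAntidiagonal.antidiagonal n, f kl) := by
  have h := hf.hasSum
  have h2 : HasSum (f ∘ Finset.HasAntidiagonal.sigmaAntidiagonalEquivProd) (∑' q, f q) :=
    (Finset.HasAntidiagonal.sigmaAntidiagonalEquivProd.hasSum_iff).2 h
  have h3 := h2.sigma (g := fun n => ∑ kl ∈ Finset.HasAntidiagonal.antidiagonal n, f kl) (fun n => by
    have := hasSum_fintype (fun c : Finset.HasAntidiagonal.antidiagonal n => f (c : ℕ × ℕ))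
    rw [Finset.sum_coe_sort (Finset.HasAntidiagonal.antidiagonal n) f] at this
    exact this)
  exact h3.summable

/-- summability of a double sequence of at most linear growth against a product of Poisson
weights -/
theorem summable_poisson_double {l1 l2 C : ℝ} (h1 : 0 ≤ l1) (h2 : 0 ≤ l2) {b : ℕ → ℕ → ℝ}
    (hb : ∀ j k, |b j k| ≤ C * (1 + j + k)) :
    Summable (fun jk : ℕ × ℕ =>
      poissonWeight l1 jk.1 * poissonWeight l2 jk.2 * b jk.1 jk.2) := by
  have e1 : Summable (fun jk : ℕ × ℕ => (poissonWeight l1 jk.1 * (1 + (jk.1 : ℝ))) *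
      (poissonWeight l2 jk.2 * (1 + (jk.2 : ℝ)))) := by
    have s1 : Summable (fun j : ℕ => poissonWeight l1 j * (1 + (j : ℝ))) := by
      have := (hasSum_poissonWeight l1).summable.add (hasSum_poissonWeight_mul_id l1).summable
      refine this.congr fun j => ?_
      ring
    have s2 : Summable (fun j : ℕ => poissonWeight l2 j * (1 + (j : ℝ))) := by
      have := (hasSum_poissonWeight l2).summable.add (hasSum_poissonWeight_mul_id l2).summable
      refine this.congr fun j => ?_
      ring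
    exact Summable.mul_of_nonneg s1 s2
      (fun j => mul_nonneg (poissonWeight_nonneg h1 j) (by positivity))
      (fun j => mul_nonneg (poissonWeight_nonneg h2 j) (by positivity))
  refine Summable.of_norm_bounded (e1.mul_left C) fun jk => ?_
  have hC : 0 ≤ C := by
    have := (abs_nonneg _).trans (hb 0 0)
    simpa using this
  rw [Real.norm_eq_abs, abs_mul, abs_mul, abs_of_nonneg (poissonWeight_nonneg h1 _),
    abs_of_nonneg (poissonWeight_nonneg h2 _)]
  have hp := mul_nonneg (poissonWeight_nonneg h1 jk.1) (poissonWeight_nonneg h2 jk.2)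
  calc poissonWeight l1 jk.1 * poissonWeight l2 jk.2 * |b jk.1 jk.2|
      ≤ poissonWeight l1 jk.1 * poissonWeight l2 jk.2 * (C * (1 + jk.1 + jk.2)) :=
        mul_le_mul_of_nonneg_left (hb _ _) hp
    _ ≤ poissonWeight l1 jk.1 * poissonWeight l2 jk.2 *
          (C * ((1 + (jk.1 : ℝ)) * (1 + (jk.2 : ℝ)))) := by
        refine mul_le_mul_of_nonneg_left (mul_le_mul_of_nonneg_left ?_ hC) hp
        have : (0 : ℝ) ≤ (jk.1 : ℝ) * jk.2 := by positivity
        nlinarith
    _ = C * (poissonWeight l1 jk.1 * (1 + (jk.1 : ℝ)) *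
          (poissonWeight l2 jk.2 * (1 + (jk.2 : ℝ)))) := by ring

/-- **Poisson splitting.** -/
theorem tsum_poissonWeight_binomial {lam q C : ℝ} (hlam : 0 ≤ lam) (hq0 : 0 ≤ q) (hq1 : q ≤ 1)
    {b : ℕ → ℕ → ℝ} (hb : ∀ j k, |b j k| ≤ C * (1 + j + k)) :
    ∑' n, poissonWeight lam n *
        ∑ jk ∈ Finset.HasAntidiagonal.antidiagonal n, ((n.choose jk.1 : ℝ) * q ^ jk.1 * (1 - q) ^ jk.2) *
          b jk.1 jk.2 =
      ∑' jk : ℕ × ℕ, poissonWeight (lam * q) jk.1 * poissonWeight (lam * (1 - q)) jk.2 *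
        b jk.1 jk.2 := by
  have hs := summable_poisson_double (mul_nonneg hlam hq0)
    (mul_nonneg hlam (sub_nonneg.2 hq1)) hb
  rw [← tsum_antidiagonal hs]
  congr 1
  funext n
  rw [Finset.mul_sum]
  refine Finset.sum_congr rfl fun jk hjk => ?_
  rw [Finset.HasAntidiagonal.mem_antidiagonal] at hjk
  subst hjk
  rw [← mul_assoc, poissonWeight_mul_choose]

theorem summable_poissonWeight_binomial {lam q C : ℝ} (hlam : 0 ≤ lam) (hq0 : 0 ≤ q)
    (hq1 : q ≤ 1) {b : ℕ → ℕ → ℝ} (hb : ∀ j k, |b j k| ≤ C * (1 + j + k)) :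
    Summable (fun n => poissonWeight lam n *
        ∑ jk ∈ Finset.HasAntidiagonal.antidiagonal n, ((n.choose jk.1 : ℝ) * q ^ jk.1 * (1 - q) ^ jk.2) *
          b jk.1 jk.2) := by
  have hs := summable_poisson_double (mul_nonneg hlam hq0)
    (mul_nonneg hlam (sub_nonneg.2 hq1)) hb
  refine (summable_antidiagonal hs).congr fun n => ?_
  rw [Finset.mul_sum]
  refine Finset.sum_congr rfl fun jk hjk => ?_
  rw [Finset.HasAntidiagonal.mem_antidiagonal] at hjk
  subst hjk
  rw [← mul_assoc, poissonWeight_mul_choose]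

/-- Poisson splitting for functions of the first number only. -/
theorem tsum_poissonWeight_binomial_fst {lam q C : ℝ} (hlam : 0 ≤ lam) (hq0 : 0 ≤ q)
    (hq1 : q ≤ 1) {φ : ℕ → ℝ} (hφ : ∀ j, |φ j| ≤ C * (1 + j)) :
    ∑' n, poissonWeight lam n *
        ∑ jk ∈ Finset.HasAntidiagonal.antidiagonal n, ((n.choose jk.1 : ℝ) * q ^ jk.1 * (1 - q) ^ jk.2) *
          φ jk.1 =
      ∑' j, poissonWeight (lam * q) j * φ j := by
  have hC : 0 ≤ C := by
    have := (abs_nonneg _).trans (hφ 0)
    simpa using this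
  have hb : ∀ j k : ℕ, |(fun j (_ : ℕ) => φ j) j k| ≤ C * (1 + j + k) := fun j k =>
    (hφ j).trans (mul_le_mul_of_nonneg_left (by have : (0 : ℝ) ≤ k := by positivity
                                                linarith) hC)
  have h := tsum_poissonWeight_binomial (b := fun j _ => φ j) hlam hq0 hq1 hb
  rw [h]
  have hs := summable_poisson_double (mul_nonneg hlam hq0)
    (mul_nonneg hlam (sub_nonneg.2 hq1)) hb
  rw [hs.tsum_prod]
  congr 1
  funext j
  have : ∀ k, poissonWeight (lam * q) j * poissonWeight (lam * (1 - q)) k * φ j =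
      (poissonWeight (lam * q) j * φ j) * poissonWeight (lam * (1 - q)) k := fun k => by ring
  simp only [this]
  rw [tsum_mul_left, (hasSum_poissonWeight _).tsum_eq, mul_one]

/-- Poisson splitting for sums of a function of the first and a function of the second number. -/
theorem tsum_poisson_double_add {l1 l2 C : ℝ} (h1 : 0 ≤ l1) (h2 : 0 ≤ l2) {A B : ℕ → ℝ}
    (hA : ∀ j, |A j| ≤ C * (1 + j)) (hB : ∀ j, |B j| ≤ C * (1 + j)) :
    ∑' jk : ℕ × ℕ, poissonWeight l1 jk.1 * poissonWeight l2 jk.2 * (A jk.1 + B jk.2) =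
      (∑' j, poissonWeight l1 j * A j) + ∑' k, poissonWeight l2 k * B k := by
  have hC : 0 ≤ C := by
    have := (abs_nonneg _).trans (hA 0)
    simpa using this
  have sA : Summable (fun jk : ℕ × ℕ =>
      poissonWeight l1 jk.1 * poissonWeight l2 jk.2 * A jk.1) :=
    summable_poisson_double (b := fun j _ => A j) (C := C) h1 h2 fun j k =>
      (hA j).trans (mul_le_mul_of_nonneg_left (by have : (0 : ℝ) ≤ k := by positivity
                                                  linarith) hC)
  have sB : Summable (fun jk : ℕ × ℕ =>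
      poissonWeight l1 jk.1 * poissonWeight l2 jk.2 * B jk.2) :=
    summable_poisson_double (b := fun _ k => B k) (C := C) h1 h2 fun j k =>
      (hB k).trans (mul_le_mul_of_nonneg_left (by have : (0 : ℝ) ≤ j := by positivity
                                                  linarith) hC)
  have e : ∀ jk : ℕ × ℕ, poissonWeight l1 jk.1 * poissonWeight l2 jk.2 * (A jk.1 + B jk.2) =
      poissonWeight l1 jk.1 * poissonWeight l2 jk.2 * A jk.1 +
      poissonWeight l1 jk.1 * poissonWeight l2 jk.2 * B jk.2 := fun jk => by ring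
  simp only [e]
  rw [sA.tsum_add sB]
  congr 1
  · rw [sA.tsum_prod]
    congr 1
    funext j
    have : ∀ k, poissonWeight l1 j * poissonWeight l2 k * A j =
        (poissonWeight l1 j * A j) * poissonWeight l2 k := fun k => by ring
    simp only [this]
    rw [tsum_mul_left, (hasSum_poissonWeight _).tsum_eq, mul_one]
  · rw [sB.tsum_prod]
    have hsB := summable_poissonWeight_mul h2 hB
    have : ∀ j, ∑' k, poissonWeight l1 j * poissonWeight l2 k * B k =
        poissonWeight l1 j * ∑' k, poissonWeight l2 k * B k := fun j => by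
      rw [← tsum_mul_left]
      congr 1
      funext k
      ring
    simp only [this]
    rw [tsum_mul_right, (hasSum_poissonWeight _).tsum_eq, one_mul]

/-! ### The number of events at one site -/

/-- sum over all assignments of `M` events to `N` sites of a function of the number of events at
the site `i` -/
theorem sum_card_eq (N : ℕ) (i : Fin N) (M : ℕ) (φ : ℕ → ℝ) :
    ∑ s : Fin M → Fin N, φ (Fintype.card {j // s j = i}) =
      ∑ jk ∈ Finset.HasAntidiagonal.antidiagonal M, (M.choose jk.1 : ℝ) * ((N : ℝ) - 1) ^ jk.2 * φ jk.1 := by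
  induction M generalizing φ with
  | zero => simp
  | succ M ih =>
    have key : ∀ (a : Fin N) (s : Fin M → Fin N),
        Fintype.card {j : Fin (M + 1) // (Fin.cons a s : Fin (M + 1) → Fin N) j = i} =
          Fintype.card {j : Fin M // s j = i} + if a = i then 1 else 0 := by
      intro a s
      rw [Fintype.card_subtype, Fintype.card_subtype, Finset.card_filter, Finset.card_filter,
        Fin.sum_univ_succ]
      simp only [Fin.cons_zero, Fin.cons_succ]
      ring
    have e1 : ∑ s : Fin (M + 1) → Fin N, φ (Fintype.card {j // s j = i}) =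
        ∑ a : Fin N, ∑ s : Fin M → Fin N,
          φ (Fintype.card {j // s j = i} + if a = i then 1 else 0) := by
      rw [← (Fin.consEquiv (fun _ : Fin (M + 1) => Fin N)).sum_comp, Fintype.sum_prod_type]
      refine Finset.sum_congr rfl fun a _ => Finset.sum_congr rfl fun s _ => ?_
      congr 1
      exact key a s
    rw [e1]
    have e2 : ∀ a : Fin N, ∑ s : Fin M → Fin N,
        φ (Fintype.card {j // s j = i} + if a = i then 1 else 0) =
        if a = i then ∑ s : Fin M → Fin N, φ (Fintype.card {j // s j = i} + 1) else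
          ∑ s : Fin M → Fin N, φ (Fintype.card {j // s j = i}) := by
      intro a
      by_cases ha : a = i <;> simp [ha]
    simp only [e2]
    rw [Finset.sum_ite, Finset.sum_const, Finset.sum_const]
    have c1 : (Finset.filter (fun a => a = i) (Finset.univ : Finset (Fin N))).card = 1 := by
      rw [Finset.filter_eq' Finset.univ i]; simp
    have c2 : ((Finset.filter (fun a => ¬ a = i) (Finset.univ : Finset (Fin N))).card : ℝ) =
        (N : ℝ) - 1 := by
      have h3 := Finset.card_filter_add_card_filter_not (s := (Finset.univ : Finset (Fin N)))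
        (fun a => a = i)
      rw [c1] at h3
      simp only [Finset.card_univ, Fintype.card_fin] at h3
      have h4 : (1 : ℝ) + ((Finset.filter (fun a => ¬ a = i)
          (Finset.univ : Finset (Fin N))).card : ℝ) = N := by exact_mod_cast h3
      linarith
    rw [nsmul_eq_mul, nsmul_eq_mul, c1, c2, ih (fun k => φ (k + 1)), ih φ]
    rw [Nat.cast_one, one_mul]
    have hchoose : ∀ jk ∈ Finset.HasAntidiagonal.antidiagonal (M + 1),
        ((M + 1).choose jk.1 : ℝ) * ((N : ℝ) - 1) ^ jk.2 * φ jk.1 =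
          (M.choose jk.1 : ℝ) * ((N : ℝ) - 1) ^ jk.2 * φ jk.1 +
          (if jk.1 = 0 then 0 else (M.choose (jk.1 - 1) : ℝ) * ((N : ℝ) - 1) ^ jk.2 * φ jk.1) := by
      intro jk _
      rcases Nat.eq_zero_or_pos jk.1 with h | h
      · simp [h]
      · obtain ⟨j, hj⟩ := Nat.exists_eq_succ_of_ne_zero h.ne'
        rw [if_neg h.ne', hj, Nat.succ_sub_one, Nat.choose_succ_succ]
        push_cast
        ring
    rw [Finset.sum_congr rfl hchoose, Finset.sum_add_distrib, add_comm]
    congr 1
    · rw [Finset.Nat.antidiagonal_succ', Finset.sum_cons, Finset.sum_map, Finset.mul_sum]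
      simp [Nat.choose_succ_self, pow_succ, mul_comm, mul_left_comm]
    · rw [Finset.Nat.antidiagonal_succ, Finset.sum_cons, Finset.sum_map]
      simp

/-- **U4b.** `Poisson(lam N)` events with uniform sites in `Fin N`: the number of events at each
site is `Poisson(lam)`. -/
theorem poisson_split {lam C : ℝ} (hlam : 0 ≤ lam) {N : ℕ} (hN : 1 ≤ N) {φ : ℕ → ℝ}
    (hφ : ∀ k, |φ k| ≤ C * (1 + k)) :
    ∑' M : ℕ, poissonWeight (lam * N) M * (((N : ℝ) ^ M)⁻¹ *
        ∑ s : Fin M → Fin N, ∑ i : Fin N, φ (Fintype.card {j // s j = i})) =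
      N * ∑' k, poissonWeight lam k * φ k := by
  have hN0 : (0 : ℝ) < N := by exact_mod_cast hN
  have hN1 : (1 : ℝ) ≤ N := by exact_mod_cast hN
  have hq0 : (0 : ℝ) ≤ 1 / N := by positivity
  have hq1 : (1 : ℝ) / N ≤ 1 := by rw [div_le_one hN0]; exact hN1
  have h := tsum_poissonWeight_binomial_fst (mul_nonneg hlam hN0.le) hq0 hq1 hφ
  have e1 : lam * N * (1 / N) = lam := by field_simp
  rw [e1] at h
  rw [← h, ← tsum_mul_left]
  congr 1
  funext M
  rw [Finset.sum_comm]
  simp only [sum_card_eq]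
  rw [Finset.sum_const, Finset.card_univ, Fintype.card_fin, nsmul_eq_mul]
  have e2 : ((N : ℝ) ^ M)⁻¹ * ∑ jk ∈ Finset.HasAntidiagonal.antidiagonal M,
      (M.choose jk.1 : ℝ) * ((N : ℝ) - 1) ^ jk.2 * φ jk.1 =
      ∑ jk ∈ Finset.HasAntidiagonal.antidiagonal M,
        (M.choose jk.1 : ℝ) * (1 / (N : ℝ)) ^ jk.1 * (1 - 1 / (N : ℝ)) ^ jk.2 * φ jk.1 := by
    rw [Finset.mul_sum]
    refine Finset.sum_congr rfl fun jk hjk => ?_
    rw [Finset.HasAntidiagonal.mem_antidiagonal] at hjk
    have e3 : (1 - 1 / (N : ℝ)) = ((N : ℝ) - 1) * (1 / N) := by field_simp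
    rw [e3, mul_pow, ← hjk, pow_add, one_div, inv_pow, inv_pow, mul_inv]
    ring
  rw [← e2]
  ring

theorem antidiagonal_pascal (n : ℕ) (x y : ℝ) (ψ : ℕ → ℕ → ℝ) :
    ∑ jk ∈ Finset.HasAntidiagonal.antidiagonal (n + 1),
        (((n + 1).choose jk.1 : ℝ) * x ^ jk.1 * y ^ jk.2) * ψ jk.1 jk.2 =
      x * (∑ jk ∈ Finset.HasAntidiagonal.antidiagonal n,
        ((n.choose jk.1 : ℝ) * x ^ jk.1 * y ^ jk.2) * ψ (jk.1 + 1) jk.2) +
      y * (∑ jk ∈ Finset.HasAntidiagonal.antidiagonal n,
        ((n.choose jk.1 : ℝ) * x ^ jk.1 * y ^ jk.2) * ψ jk.1 (jk.2 + 1)) := by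
  have hchoose : ∀ jk ∈ Finset.HasAntidiagonal.antidiagonal (n + 1),
      (((n + 1).choose jk.1 : ℝ) * x ^ jk.1 * y ^ jk.2) * ψ jk.1 jk.2 =
        ((n.choose jk.1 : ℝ) * x ^ jk.1 * y ^ jk.2) * ψ jk.1 jk.2 +
        (if jk.1 = 0 then 0 else
          ((n.choose (jk.1 - 1) : ℝ) * x ^ jk.1 * y ^ jk.2) * ψ jk.1 jk.2) := by
    intro jk _
    rcases Nat.eq_zero_or_pos jk.1 with h | h
    · simp [h]
    · obtain ⟨j, hj⟩ := Nat.exists_eq_succ_of_ne_zero h.ne'
      rw [if_neg h.ne', hj, Nat.succ_sub_one, Nat.choose_succ_succ]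
      push_cast
      ring
  rw [Finset.sum_congr rfl hchoose, Finset.sum_add_distrib, add_comm]
  congr 1
  · rw [Finset.Nat.antidiagonal_succ, Finset.sum_cons, Finset.sum_map, Finset.mul_sum]
    simp only [if_true, zero_add]
    refine Finset.sum_congr rfl fun jk _ => ?_
    simp [pow_succ]
    ring
  · rw [Finset.Nat.antidiagonal_succ', Finset.sum_cons, Finset.sum_map, Finset.mul_sum]
    simp only [Nat.choose_succ_self, Nat.cast_zero, zero_mul, zero_add]
    refine Finset.sum_congr rfl fun jk _ => ?_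
    simp [pow_succ]
    ring

/-- **Hybrid argument.** If one event of kind 2 may be replaced by an event of kind 1 (probability
`q`) or of kind 3 (probability `1 - q`), then `n` events of kind 2 may be replaced. -/
theorem hybrid_binomial {q : ℝ} (hq0 : 0 ≤ q) (hq1 : q ≤ 1) (a : ℕ → ℕ → ℕ → ℝ)
    (h : ∀ j k l, q * a (j + 1) k l + (1 - q) * a j (k + 1) l ≤ a j k (l + 1)) (n : ℕ) :
    ∀ j0 k0 : ℕ, ∑ jk ∈ Finset.HasAntidiagonal.antidiagonal n,
      ((n.choose jk.1 : ℝ) * q ^ jk.1 * (1 - q) ^ jk.2) * a (j0 + jk.1) (k0 + jk.2) 0 ≤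
        a j0 k0 n := by
  induction n with
  | zero => intro j0 k0; simp
  | succ n ih =>
    intro j0 k0
    rw [antidiagonal_pascal n q (1 - q) (fun j k => a (j0 + j) (k0 + k) 0)]
    refine le_trans ?_ (h j0 k0 n)
    refine add_le_add (mul_le_mul_of_nonneg_left ?_ hq0)
      (mul_le_mul_of_nonneg_left ?_ (sub_nonneg.2 hq1))
    · refine le_trans (le_of_eq ?_) (ih (j0 + 1) k0)
      refine Finset.sum_congr rfl fun jk _ => ?_
      rw [show j0 + 1 + jk.1 = j0 + (jk.1 + 1) by ring]
    · refine le_trans (le_of_eq ?_) (ih j0 (k0 + 1))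
      refine Finset.sum_congr rfl fun jk _ => ?_
      rw [show k0 + 1 + jk.2 = k0 + (jk.2 + 1) by ring]

/-- The Poisson version of the hybrid argument. -/
theorem hybrid_poisson {lam q C : ℝ} (hlam : 0 ≤ lam) (hq0 : 0 ≤ q) (hq1 : q ≤ 1)
    (a : ℕ → ℕ → ℕ → ℝ)
    (h : ∀ j k l, q * a (j + 1) k l + (1 - q) * a j (k + 1) l ≤ a j k (l + 1))
    (hb : ∀ j k, |a j k 0| ≤ C * (1 + j + k)) (hb2 : ∀ n, |a 0 0 n| ≤ C * (1 + n)) :
    ∑' jk : ℕ × ℕ, poissonWeight (lam * q) jk.1 * poissonWeight (lam * (1 - q)) jk.2 *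
        a jk.1 jk.2 0 ≤
      ∑' n, poissonWeight lam n * a 0 0 n := by
  rw [← tsum_poissonWeight_binomial hlam hq0 hq1 hb]
  refine (summable_poissonWeight_binomial hlam hq0 hq1 hb).tsum_le_tsum ?_
    (summable_poissonWeight_mul hlam hb2)
  intro n
  refine mul_le_mul_of_nonneg_left ?_ (poissonWeight_nonneg hlam n)
  have := hybrid_binomial hq0 hq1 a h n 0 0
  simpa using this

/-- The Poisson version of the hybrid argument when the left end splits as a sum. -/
theorem hybrid_poisson_add {lam q C : ℝ} (hlam : 0 ≤ lam) (hq0 : 0 ≤ q) (hq1 : q ≤ 1)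
    (a : ℕ → ℕ → ℕ → ℝ)
    (h : ∀ j k l, q * a (j + 1) k l + (1 - q) * a j (k + 1) l ≤ a j k (l + 1))
    {A B : ℕ → ℝ} (hab : ∀ j k, a j k 0 = A j + B k)
    (hA : ∀ j, |A j| ≤ C * (1 + j)) (hB : ∀ j, |B j| ≤ C * (1 + j))
    (hb2 : ∀ n, |a 0 0 n| ≤ C * (1 + n)) :
    (∑' j, poissonWeight (lam * q) j * A j) + (∑' k, poissonWeight (lam * (1 - q)) k * B k) ≤
      ∑' n, poissonWeight lam n * a 0 0 n := by
  have hC : 0 ≤ C := by
    have := (abs_nonneg _).trans (hA 0)
    simpa using this
  have hb : ∀ j k, |a j k 0| ≤ (2 * C) * (1 + j + k) := by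
    intro j k
    rw [hab]
    refine (abs_add_le _ _).trans ?_
    have h1 := hA j
    have h2 := hB k
    have h3 : (0 : ℝ) ≤ C * j := by positivity
    have h4 : (0 : ℝ) ≤ C * k := by positivity
    nlinarith
  have hb2' : ∀ n, |a 0 0 n| ≤ (2 * C) * (1 + n) := by
    intro n
    have h3 : (0 : ℝ) ≤ C * (1 + n) := by positivity
    nlinarith [hb2 n]
  have h1 := hybrid_poisson hlam hq0 hq1 a h hb hb2'
  refine le_trans (le_of_eq ?_) h1
  rw [← tsum_poisson_double_add (mul_nonneg hlam hq0) (mul_nonneg hlam (sub_nonneg.2 hq1)) hA hB]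
  congr 1
  funext jk
  rw [hab]

end Crest.Agent.R141.UPois
end

-- ▼ part R141/UEval
section

/-!
R141, Part U, U2 part 4: evaluation of the operator iterates at the two ends and the hybrid theorem.
-/

set_option autoImplicit false

namespace Crest.Agent.R141.U

open MeasureTheory Filter Topology Crest.ProbabilityR.Diluted
open scoped NNReal ENNReal

section

variable {p : ℕ} {μ : Measure (Inter p)} [IsProbabilityMeasure μ]
  (hμ : Integrable (fun θ => supNorm θ) μ)
  {A : Type} [Fintype A] [Nonempty A] {N : ℕ} (hN : 0 < N)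
  {Y : Type} [MeasurableSpace Y] (Q : Measure Y) [IsProbabilityMeasure Q]
  (x : Y → A → ℝ) (hx : ∀ a, Measurable fun y => x y a)
  (v : A → ℝ) (hv : ∀ a, 0 < v a) (hs : Fin N → ℝ)

/-- The base energy `log v_a + Σ_i h_i σ_i`. -/
noncomputable def g0 (v : A → ℝ) (hs : Fin N → ℝ) (s : A × (Fin N → Bool)) : ℝ :=
  Real.log (v s.1) + ∑ i, hs i * spinVal (s.2 i)

/-- messages on `A × config`. -/
def xS (N : ℕ) (x : Y → A → ℝ) (y : Y) (s : A × (Fin N → Bool)) : ℝ := x y s.1

omit [MeasurableSpace Y] [Fintype A] [Nonempty A] in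
theorem xS_meas [MeasurableSpace Y] (hx : ∀ a, Measurable fun y => x y a)
    (s : A × (Fin N → Bool)) : Measurable fun y => xS N x y s := hx s.1

/-- `Σ` over types 1 and 3 factorizes. -/
theorem lse_split (j k : ℕ) (hv : ∀ a, 0 < v a) (θs : Fin j → Inter p)
    (idx : Fin j → Fin p → Fin N) (θs' : Fin k → Inter p) (y : Fin k → Fin p → Y) :
    lse (g0 v hs + ∑ i, (fun s : A × (Fin N → Bool) => θs i fun ℓ => s.2 (idx i ℓ)) +
      ∑ i, (fun s : A × (Fin N → Bool) => Real.log (edgeTerm (θs' i) fun ℓ => xS N x (y i ℓ) s))) =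
    logPartition N θs idx hs +
      Real.log (∑ a, v a * ∏ i, edgeTerm (θs' i) fun ℓ => x (y i ℓ) a) := by
  unfold lse logPartition
  rw [← Real.log_mul]
  · congr 1
    rw [Fintype.sum_prod_type, Finset.sum_mul_sum, Finset.sum_comm]
    refine Finset.sum_congr rfl fun σ _ => Finset.sum_congr rfl fun a _ => ?_
    simp only [Pi.add_apply, Finset.sum_apply, g0, xS]
    rw [Real.exp_add, Real.exp_add, Real.exp_add, Real.exp_log (hv a), Real.exp_sum (s := Finset.univ)
      (f := fun i => Real.log (edgeTerm (θs' i) fun ℓ => x (y i ℓ) a))]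
    have : ∀ i, Real.exp (Real.log (edgeTerm (θs' i) fun ℓ => x (y i ℓ) a)) =
        edgeTerm (θs' i) fun ℓ => x (y i ℓ) a := fun i => Real.exp_log (Red.edgeTerm_pos _ _)
    simp only [this]
    rw [Real.exp_add]
    ring
  · exact (Finset.sum_pos (fun σ _ => Real.exp_pos _) Finset.univ_nonempty).ne'
  · refine (Finset.sum_pos (fun a _ => mul_pos (hv a) ?_) Finset.univ_nonempty).ne'
    exact Finset.prod_pos fun i _ => Red.edgeTerm_pos _ _

theorem lse_edges (j : ℕ) (θs : Fin j → Inter p) (idx : Fin j → Fin p → Fin N) :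
    lse ((fun s : A × (Fin N → Bool) => ∑ i, hs i * spinVal (s.2 i)) +
      ∑ i, (fun s : A × (Fin N → Bool) => θs i fun ℓ => s.2 (idx i ℓ))) =
    logPartition N θs idx hs + Real.log (Fintype.card A) := by
  unfold lse logPartition
  rw [← Real.log_mul]
  · congr 1
    rw [Fintype.sum_prod_type, Finset.sum_comm, Finset.sum_mul]
    refine Finset.sum_congr rfl fun σ _ => ?_
    simp only [Pi.add_apply, Finset.sum_apply]
    rw [Finset.sum_const, nsmul_eq_mul, Finset.card_univ, mul_comm, add_comm]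
  · exact (Finset.sum_pos (fun σ _ => Real.exp_pos _) Finset.univ_nonempty).ne'
  · exact_mod_cast Fintype.card_ne_zero

/-- The model part with `j` edges. -/
noncomputable def Apart (p : ℕ) (μ : Measure (Inter p)) {N : ℕ} (hs : Fin N → ℝ) (j : ℕ) : ℝ :=
  ∫ θs, ((Fintype.card (Fin j → Fin p → Fin N) : ℝ)⁻¹ *
    ∑ idx : Fin j → Fin p → Fin N, logPartition N θs idx hs) ∂(Measure.pi fun _ : Fin j => μ)

/-- The cavity edge part with `k` edges. -/
noncomputable def Bpart (p : ℕ) (μ : Measure (Inter p)) (Q : Measure Y) (x : Y → A → ℝ)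
    (v : A → ℝ) (k : ℕ) : ℝ :=
  ∫ θs, ∫ y, Real.log (∑ a, v a * ∏ i, edgeTerm (θs i) fun ℓ => x (y (i, ℓ)) a)
    ∂(Measure.pi fun _ : Fin k × Fin p => Q) ∂(Measure.pi fun _ : Fin k => μ)

/-- The cavity site part with `n` events. -/
noncomputable def Cpart (p : ℕ) (μ : Measure (Inter p)) (Q : Measure Y) (x : Y → A → ℝ)
    (v : A → ℝ) {N : ℕ} (hs : Fin N → ℝ) (n : ℕ) : ℝ :=
  ∫ θs, ∫ y, ((Fintype.card (Fin n → Fin N) : ℝ)⁻¹ * ∑ t : Fin n → Fin N,
    Real.log (∑ a, v a * ∏ i, ∑ ε : Bool, Real.exp (hs i * spinVal ε +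
      ∑ j ∈ Finset.univ.filter (fun j => t j = i),
        siteMessage (θs j) (fun ℓ => x (y (j, ℓ)) a) ε)))
    ∂(Measure.pi fun _ : Fin n × Fin (p - 1) => Q) ∂(Measure.pi fun _ : Fin n => μ)

/-- Integrability of `lse` of sums of events. -/
theorem lse_integrable {S : Type} [Fintype S] [Nonempty S] (L : ULaw S) (g : S → ℝ) (k : ℕ) :
    Integrable (fun ys : Fin k → L.Y => lse (g + ∑ i, L.ξ (ys i)))
      (Measure.pi fun _ => L.ρ) := by
  refine Integrable.mono' ((integrable_const (|lse g|)).add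
    (integrable_finsetSum Finset.univ fun (i : Fin k) _ =>
      integrable_comp_eval (μ := fun _ : Fin k => L.ρ) (i := i) (f := fun y => ‖L.ξ y‖) L.int))
    ?_ (Eventually.of_forall fun ys => ?_)
  · refine (lse_lip.continuous.measurable.comp (measurable_const.add ?_)).aestronglyMeasurable
    exact Finset.measurable_sum _ fun i _ => L.meas.comp (measurable_pi_apply i)
  · have h1 := LipS.abs_le (lse_lip (S := S)) g (∑ i, L.ξ (ys i))
    have h2 := norm_sum_le Finset.univ fun i => L.ξ (ys i)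
    simp only [NNReal.coe_one, one_mul] at h1
    rw [Real.norm_eq_abs]
    exact h1.trans (add_le_add le_rfl h2)

include hv in
theorem K3_iter (k : ℕ) (j : ℕ) (θs : Fin j → Inter p) (idx : Fin j → Fin p → Fin N) :
    (((Kop (law3 hμ Q (xS N x) (xS_meas x hx))) ^ k) (lseL (A × (Fin N → Bool))) :
        (A × (Fin N → Bool) → ℝ) → ℝ)
      (g0 v hs + ∑ i, (fun s : A × (Fin N → Bool) => θs i fun ℓ => s.2 (idx i ℓ))) =
    logPartition N θs idx hs + Bpart p μ Q x v k := by
  set S := A × (Fin N → Bool) with hS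
  let L := law3 hμ Q (xS N x) (xS_meas x hx) (S := S)
  set g : S → ℝ := g0 v hs + ∑ i, (fun s : S => θs i fun ℓ => s.2 (idx i ℓ)) with hg
  rw [Kop_pow_apply]
  have hint := lse_integrable L g k
  let F : (Fin k → L.Y) → ℝ := fun ys => Real.log (∑ a, v a * ∏ i, edgeTerm (ys i).1
    fun ℓ => x ((ys i).2 ℓ) a)
  have hF : ∀ ys : Fin k → L.Y, lse (g + ∑ i, L.ξ (ys i)) = logPartition N θs idx hs + F ys :=
    fun ys => lse_split x v hs j k hv θs idx (fun i => (ys i).1) (fun i => (ys i).2)
  have hFi : Integrable F (Measure.pi fun _ : Fin k => L.ρ) := by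
    refine (hint.sub (integrable_const (logPartition N θs idx hs))).congr
      (Eventually.of_forall fun ys => ?_)
    simp only [Pi.sub_apply]
    rw [hF ys]
    ring
  show ∫ ys : Fin k → L.Y, lse (g + ∑ i, L.ξ (ys i)) ∂(Measure.pi fun _ => L.ρ) = _
  simp only [hF]
  rw [integral_add (integrable_const _) hFi]
  congr 1
  · simp
  · have h1 := integral_arrow_prod μ (Measure.pi fun _ : Fin p => Q) F hFi
    refine h1.trans ?_
    unfold Bpart
    refine integral_congr_ae (Eventually.of_forall fun θs' => ?_)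
    exact integral_curry Q (fun y : Fin k → Fin p → Y => F fun i => (θs' i, y i))

include hv in
theorem K13_iter (j k : ℕ) :
    (((Kop (law1 hμ hN (fun s : A × (Fin N → Bool) => s.2))) ^ j *
      (Kop (law3 hμ Q (xS N x) (xS_meas x hx))) ^ k) (lseL (A × (Fin N → Bool))) :
        (A × (Fin N → Bool) → ℝ) → ℝ) (g0 v hs) =
    Apart p μ hs j + Bpart p μ Q x v k := by
  haveI : Nonempty (Fin N) := ⟨⟨0, hN⟩⟩
  set S := A × (Fin N → Bool) with hS
  let L := law1 hμ hN (fun s : A × (Fin N → Bool) => s.2)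
  rw [Module.End.mul_apply, Kop_pow_apply]
  have h1 : ∀ ys : Fin j → L.Y, (((Kop (law3 hμ Q (xS N x) (xS_meas x hx))) ^ k)
      (lseL S) : (S → ℝ) → ℝ) (g0 v hs + ∑ i, L.ξ (ys i)) =
      logPartition N (fun i => (ys i).1) (fun i => (ys i).2) hs + Bpart p μ Q x v k := fun ys =>
    K3_iter hμ Q x hx v hv hs k j (fun i => (ys i).1) (fun i => (ys i).2)
  show ∫ ys : Fin j → L.Y, (((Kop (law3 hμ Q (xS N x) (xS_meas x hx))) ^ k)
      (lseL S) : (S → ℝ) → ℝ) (g0 v hs + ∑ i, L.ξ (ys i)) ∂(Measure.pi fun _ => L.ρ) = _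
  simp only [h1]
  have hint : Integrable (fun ys : Fin j → L.Y =>
      logPartition N (fun i => (ys i).1) (fun i => (ys i).2) hs)
      (Measure.pi fun _ : Fin j => L.ρ) := by
    have h2 := lse_integrable L (fun s : S => ∑ i, hs i * spinVal (s.2 i)) j
    refine (h2.sub (integrable_const (Real.log (Fintype.card A)))).congr
      (Eventually.of_forall fun ys => ?_)
    simp only [Pi.sub_apply]
    rw [sub_eq_iff_eq_add]
    exact lse_edges hs j (fun i => (ys i).1) (fun i => (ys i).2)
  rw [integral_add hint (integrable_const _)]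
  congr 1
  · refine (integral_arrow_prod μ (unif (Fin p → Fin N)) _ hint).trans ?_
    unfold Apart
    refine integral_congr_ae (Eventually.of_forall fun θs => ?_)
    exact integral_pi_unif (fun idx : Fin j → Fin p → Fin N => logPartition N θs idx hs)
  · simp

/-- `Σ` over type 2 events. -/
theorem lse_split2 (n : ℕ) (hv : ∀ a, 0 < v a) (θs : Fin n → Inter p) (t : Fin n → Fin N)
    (y : Fin n → Fin (p - 1) → Y) :
    lse (g0 v hs + ∑ j, (fun s : A × (Fin N → Bool) =>
      siteMessage (θs j) (fun ℓ => xS N x (y j ℓ) s) (s.2 (t j)))) =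
      Real.log (∑ a, v a * ∏ i, ∑ ε : Bool, Real.exp (hs i * spinVal ε +
      ∑ j ∈ Finset.univ.filter (fun j => t j = i),
        siteMessage (θs j) (fun ℓ => x (y j ℓ) a) ε)) := by
  unfold lse
  congr 1
  rw [Fintype.sum_prod_type]
  refine Finset.sum_congr rfl fun a _ => ?_
  have h1 := Finset.prod_univ_sum (t := fun _ : Fin N => (Finset.univ : Finset Bool))
    (f := fun i ε => Real.exp (hs i * spinVal ε + ∑ j ∈ Finset.univ.filter (fun j => t j = i),
        siteMessage (θs j) (fun ℓ => x (y j ℓ) a) ε))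
  rw [h1, Fintype.piFinset_univ, Finset.mul_sum]
  refine Finset.sum_congr rfl fun σ _ => ?_
  rw [← Real.exp_sum]
  simp only [Pi.add_apply, Finset.sum_apply, g0, xS]
  rw [Real.exp_add, Real.exp_add, Real.exp_log (hv a), Finset.sum_add_distrib, Real.exp_add,
    mul_assoc]
  congr 3
  rw [← Finset.sum_fiberwise Finset.univ t
    (fun j => siteMessage (θs j) (fun ℓ => x (y j ℓ) a) (σ (t j)))]
  refine Finset.sum_congr rfl fun i _ => ?_
  refine Finset.sum_congr rfl fun j hj => ?_
  rw [(Finset.mem_filter.1 hj).2]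

include hv in
theorem K2_iter (n : ℕ) :
    (((Kop (law2 hμ hN (fun s : A × (Fin N → Bool) => s.2) Q (xS N x) (xS_meas x hx))) ^ n)
      (lseL (A × (Fin N → Bool))) : (A × (Fin N → Bool) → ℝ) → ℝ) (g0 v hs) =
    Cpart p μ Q x v hs n := by
  haveI : Nonempty (Fin N) := ⟨⟨0, hN⟩⟩
  set S := A × (Fin N → Bool) with hS
  let L := law2 hμ hN (fun s : A × (Fin N → Bool) => s.2) Q (xS N x) (xS_meas x hx)
  rw [Kop_pow_apply]
  let F : (Fin n → L.Y) → ℝ := fun ys => Real.log (∑ a, v a * ∏ i, ∑ ε : Bool,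
    Real.exp (hs i * spinVal ε + ∑ j ∈ Finset.univ.filter (fun j => (ys j).2.2 = i),
        siteMessage (ys j).1 (fun ℓ => x ((ys j).2.1 ℓ) a) ε))
  have hF : ∀ ys : Fin n → L.Y, lse (g0 v hs + ∑ i, L.ξ (ys i)) = F ys := fun ys =>
    lse_split2 x v hs n hv (fun i => (ys i).1) (fun i => (ys i).2.2) (fun i => (ys i).2.1)
  have hint := lse_integrable L (g0 v hs) n
  show ∫ ys : Fin n → L.Y, lse (g0 v hs + ∑ i, L.ξ (ys i)) ∂(Measure.pi fun _ => L.ρ) = _
  simp only [hF] at hint ⊢
  refine (integral_arrow_prod μ ((Measure.pi fun _ : Fin (p - 1) => Q).prod (unif (Fin N)))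
    F hint).trans ?_
  have hint2 := (integrable_arrow_prod μ ((Measure.pi fun _ : Fin (p - 1) => Q).prod
    (unif (Fin N))) F hint).prod_right_ae
  unfold Cpart
  refine integral_congr_ae ?_
  filter_upwards [hint2] with θs hθ
  refine (integral_arrow_prod (Measure.pi fun _ : Fin (p - 1) => Q) (unif (Fin N)) _ hθ).trans ?_
  have h3 := integral_curry Q (fun y : Fin n → Fin (p - 1) → Y =>
    ∫ t : Fin n → Fin N, F (fun i => (θs i, y i, t i)) ∂(Measure.pi fun _ => unif (Fin N)))
  refine h3.trans ?_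
  refine integral_congr_ae (Eventually.of_forall fun y => ?_)
  exact integral_pi_unif (fun t : Fin n → Fin N => F (fun i => (θs i, fun ℓ => y (i, ℓ), t i)))


end

end Crest.Agent.R141.U
end

-- ▼ part R141/UStmt
section

/-!
R141, Part U: frozen statements of the two product identities used in the final assembly.
-/

set_option autoImplicit false

namespace Crest.Agent.R141

open MeasureTheory Crest.ProbabilityR.Diluted

/-- The product of `K` edges of the cavity fields as a function of the labels. -/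
noncomputable def Wedge {p K r : ℕ} (X : (Fin (r + 1) → unitInterval) → ℝ)
    (θs : Fin K → Inter p) (u : Fin K × Fin p → Fin (r + 1) → unitInterval) : ℝ :=
  ∏ j, edgeTerm (θs j) (fun ℓ => X (u (j, ℓ)))

/-- The product over the `N` sites, `t j` is the site of the event `j`. -/
noncomputable def Wsite {p N M r : ℕ} (X : (Fin (r + 1) → unitInterval) → ℝ)
    (hs : Fin N → ℝ) (θs : Fin M → Inter p) (t : Fin M → Fin N)
    (u : Fin M × Fin (p - 1) → Fin (r + 1) → unitInterval) : ℝ :=
  ∏ i, ∑ ε : Bool, Real.exp (hs i * spinVal ε +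
    ∑ j ∈ Finset.univ.filter (fun j => t j = i),
      siteMessage (θs j) (fun ℓ => X (u (j, ℓ))) ε)

/-- The `k`-th coefficient of the site part of the trial functional (with `log 2`). -/
noncomputable def sitePhi (p : ℕ) (μ : Measure (Inter p)) (ν : Measure ℝ)
    (r : ℕ) (m : Fin r → ℝ) (X : (Fin (r + 1) → unitInterval) → ℝ) (k : ℕ) : ℝ :=
  Real.log 2 + ∫ θs, ∫ h, ∫ u, Real.log (powerMeans m
          (fun u' : (Fin k × Fin (p - 1)) → Fin (r + 1) → unitInterval =>
            siteTerm h θs (fun j ℓ => X (u' (j, ℓ)))) u)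
        ∂(uniformArrays (Fin k × Fin (p - 1)) r) ∂ν ∂(Measure.pi fun _ : Fin k => μ)

/-- U4-edges. -/
def EdgeId (p : ℕ) (μ : Measure (Inter p)) (r : ℕ) (m : Fin r → ℝ)
    (X : (Fin (r + 1) → unitInterval) → ℝ) : Prop :=
  ∀ K : ℕ, ∫ θs, ∫ u, Real.log (powerMeans m (Wedge (K := K) (p := p) X θs) u)
      ∂(uniformArrays (Fin K × Fin p) r) ∂(Measure.pi fun _ : Fin K => μ) =
    K * edgeFun p μ r m X

/-- U4-sites. -/
def SiteId (p : ℕ) (μ : Measure (Inter p)) (ν : Measure ℝ) (r : ℕ) (m : Fin r → ℝ)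
    (X : (Fin (r + 1) → unitInterval) → ℝ) : Prop :=
  ∀ (N M : ℕ) (t : Fin M → Fin N),
    ∫ θs, ∫ hs, ∫ u, Real.log (powerMeans m (Wsite X hs θs t) u)
      ∂(uniformArrays (Fin M × Fin (p - 1)) r) ∂(Measure.pi fun _ : Fin N => ν)
      ∂(Measure.pi fun _ : Fin M => μ) =
    ∑ i : Fin N, sitePhi p μ ν r m X (Fintype.card {j // t j = i})

end Crest.Agent.R141
end

-- ▼ part R141/UBd
section

/-!
R141, Part U: bounds and joint measurability of `powerMeans` (helper585), on helper494's `Red1`.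

* `abs_log_powerMeans_le` : `|log W| ≤ B` everywhere implies `|log (powerMeans m W u)| ≤ B`.
* `measurable_powerMeans_param` : joint measurability in a parameter.
* `abs_integral_log_powerMeans_le` : the same bound for the integral over the arrays.
* `measurable_integral_log_powerMeans`, `aestronglyMeasurable_…` : measurability in the parameter of
  the integral over the arrays.
* joint measurability of `edgeTerm`, `siteMessage`, `siteTerm` along `X`.
-/

set_option autoImplicit false

namespace Crest.Agent.R141.UBd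

open MeasureTheory Crest.ProbabilityR.Diluted Crest.Agent.R141 Crest.Agent.R141.Red

variable {L : Type*} [Fintype L] {r : ℕ}

theorem exp_neg_le_of_abs_log_le {x B : ℝ} (hx : 0 < x) (h : |Real.log x| ≤ B) :
    Real.exp (-B) ≤ x ∧ x ≤ Real.exp B := by
  have h1 := abs_le.1 h
  constructor
  · calc Real.exp (-B) ≤ Real.exp (Real.log x) := Real.exp_le_exp.2 h1.1
      _ = x := Real.exp_log hx
  · calc x = Real.exp (Real.log x) := (Real.exp_log hx).symm
      _ ≤ Real.exp B := Real.exp_le_exp.2 h1.2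

theorem abs_log_le_of_mem {x B : ℝ} (h1 : Real.exp (-B) ≤ x) (h2 : x ≤ Real.exp B) :
    |Real.log x| ≤ B := by
  have hx : 0 < x := (Real.exp_pos _).trans_le h1
  rw [abs_le]
  constructor
  · have := Real.log_le_log (Real.exp_pos _) h1
    rwa [Real.log_exp] at this
  · have := Real.log_le_log hx h2
    rwa [Real.log_exp] at this

/-- bounds on `powerMeans` from a bound on `|log W|`. -/
theorem powerMeans_mem {m : Fin r → ℝ} (hm : ∀ d, 0 < m d) {B : ℝ}
    {W : (L → Fin (r + 1) → unitInterval) → ℝ} (hW : Measurable W) (hpos : ∀ u, 0 < W u)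
    (hB : ∀ u, |Real.log (W u)| ≤ B) (u : L → Fin (r + 1) → unitInterval) :
    Real.exp (-B) ≤ powerMeans m W u ∧ powerMeans m W u ≤ Real.exp B := by
  have h1 : ∀ u, Real.exp (-B) ≤ W u := fun u => (exp_neg_le_of_abs_log_le (hpos u) (hB u)).1
  have h2 : ∀ u, W u ≤ Real.exp B := fun u => (exp_neg_le_of_abs_log_le (hpos u) (hB u)).2
  exact ⟨le_powerMeans hm (Real.exp_pos _) hW h1 h2 u, powerMeans_le hm (Real.exp_pos _) hW h1 h2 u⟩


/-- `|log W| ≤ B` everywhere implies `|log (powerMeans m W u)| ≤ B`. -/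
theorem abs_log_powerMeans_le {m : Fin r → ℝ} (hm : ∀ d, 0 < m d) {B : ℝ}
    {W : (L → Fin (r + 1) → unitInterval) → ℝ} (hW : Measurable W) (hpos : ∀ u, 0 < W u)
    (hB : ∀ u, |Real.log (W u)| ≤ B) (u : L → Fin (r + 1) → unitInterval) :
    |Real.log (powerMeans m W u)| ≤ B :=
  abs_log_le_of_mem (powerMeans_mem hm hW hpos hB u).1 (powerMeans_mem hm hW hpos hB u).2

instance : IsProbabilityMeasure (uniformArrays L r) := by
  unfold uniformArrays; infer_instance


theorem abs_integral_log_powerMeans_le {m : Fin r → ℝ} (hm : ∀ d, 0 < m d) {B : ℝ}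
    {W : (L → Fin (r + 1) → unitInterval) → ℝ} (hW : Measurable W) (hpos : ∀ u, 0 < W u)
    (hB : ∀ u, |Real.log (W u)| ≤ B) :
    |∫ u, Real.log (powerMeans m W u) ∂(uniformArrays L r)| ≤ B := by
  have h := norm_integral_le_of_norm_le_const (μ := uniformArrays L r) (C := B)
    (f := fun u => Real.log (powerMeans m W u))
    (Filter.Eventually.of_forall fun u => by
      rw [Real.norm_eq_abs]; exact abs_log_powerMeans_le hm hW hpos hB u)
  simpa [Real.norm_eq_abs] using h

/-! ### joint measurability in a parameter -/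

theorem measurable_pmStep_param {Z : Type*} [MeasurableSpace Z] {m : ℝ} {lvl : Fin (r + 1)}
    {W : Z → (L → Fin (r + 1) → unitInterval) → ℝ}
    (hW : Measurable (fun q : Z × (L → Fin (r + 1) → unitInterval) => W q.1 q.2)) :
    Measurable (fun q : Z × (L → Fin (r + 1) → unitInterval) => pmStep m lvl (W q.1) q.2) := by
  have hmap : Measurable (fun q : (Z × (L → Fin (r + 1) → unitInterval)) × (L → unitInterval) =>
      (q.1.1, upd lvl q.1.2 q.2)) :=
    (measurable_fst.comp measurable_fst).prodMk ((measurable_upd lvl).comp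
      ((measurable_snd.comp measurable_fst).prodMk measurable_snd))
  have h1 : StronglyMeasurable
      (fun q : (Z × (L → Fin (r + 1) → unitInterval)) × (L → unitInterval) =>
        (W q.1.1 (upd lvl q.1.2 q.2)) ^ m) :=
    ((hW.comp hmap).pow_const m).stronglyMeasurable
  have h2 := h1.integral_prod_right'
    (ν := (Measure.pi fun _ : L => (volume : Measure unitInterval)))
  have h3 : (fun q : Z × (L → Fin (r + 1) → unitInterval) => pmStep m lvl (W q.1) q.2) =
      fun q => (∫ v : L → unitInterval, (W q.1 (upd lvl q.2 v)) ^ m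
      ∂(Measure.pi fun _ : L => (volume : Measure unitInterval))) ^ (1 / m) := by
    funext q
    rw [pmStep_def]
  rw [h3]
  exact h2.measurable.pow_const _

/-- joint measurability of `powerMeans` in a parameter and the array. -/
theorem measurable_powerMeans_param {Z : Type*} [MeasurableSpace Z] {m : Fin r → ℝ}
    {W : Z → (L → Fin (r + 1) → unitInterval) → ℝ}
    (hW : Measurable (fun q : Z × (L → Fin (r + 1) → unitInterval) => W q.1 q.2)) :
    Measurable (fun q : Z × (L → Fin (r + 1) → unitInterval) => powerMeans m (W q.1) q.2) := by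
  simp only [powerMeans_eq_pmList]
  induction (List.finRange r) with
  | nil => exact hW
  | cons d l ih => exact measurable_pmStep_param (W := fun z => pmList m l (W z)) ih

theorem measurable_log_powerMeans_param {Z : Type*} [MeasurableSpace Z] {m : Fin r → ℝ}
    {W : Z → (L → Fin (r + 1) → unitInterval) → ℝ}
    (hW : Measurable (fun q : Z × (L → Fin (r + 1) → unitInterval) => W q.1 q.2)) :
    Measurable (fun q : Z × (L → Fin (r + 1) → unitInterval) =>
      Real.log (powerMeans m (W q.1) q.2)) :=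
  Real.measurable_log.comp (measurable_powerMeans_param hW)

/-- measurability in the parameter of the integral over the arrays. -/
theorem measurable_integral_log_powerMeans {Z : Type*} [MeasurableSpace Z] {m : Fin r → ℝ}
    {W : Z → (L → Fin (r + 1) → unitInterval) → ℝ}
    (hW : Measurable (fun q : Z × (L → Fin (r + 1) → unitInterval) => W q.1 q.2)) :
    Measurable (fun z => ∫ u, Real.log (powerMeans m (W z) u) ∂(uniformArrays L r)) :=
  ((measurable_log_powerMeans_param hW).stronglyMeasurable.integral_prod_right'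
    (ν := uniformArrays L r)).measurable

/-! ### joint measurability of the terms -/

theorem continuous_edgeTerm_joint {p : ℕ} :
    Continuous (fun q : Inter p × (Fin p → ℝ) => edgeTerm q.1 q.2) := by
  unfold edgeTerm
  refine continuous_finsetSum _ fun s _ => ?_
  refine Continuous.mul ?_ ?_
  · exact Real.continuous_exp.comp ((continuous_apply s).comp continuous_fst)
  · exact continuous_finsetProd _ fun ℓ _ =>
      (continuous_tilt (s ℓ)).comp ((continuous_apply ℓ).comp continuous_snd)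

theorem continuous_siteMessage_joint {p : ℕ} (ε : Bool) :
    Continuous (fun q : Inter p × (Fin (p - 1) → ℝ) => siteMessage q.1 q.2 ε) := by
  unfold siteMessage
  refine Continuous.log ?_ fun q => ?_
  · refine continuous_finsetSum _ fun s _ => ?_
    refine Continuous.mul ?_ ?_
    · exact Real.continuous_exp.comp ((continuous_apply _).comp continuous_fst)
    · exact continuous_finsetProd _ fun ℓ _ =>
        (continuous_tilt (s ℓ)).comp ((continuous_apply ℓ).comp continuous_snd)
  · exact (Finset.sum_pos (fun s _ => mul_pos (Real.exp_pos _) (tilt_prod_pos q.2 s))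
      Finset.univ_nonempty).ne'

theorem Wedge_pos {p K : ℕ} (X : (Fin (r + 1) → unitInterval) → ℝ) (θs : Fin K → Inter p)
    (u : Fin K × Fin p → Fin (r + 1) → unitInterval) : 0 < Wedge X θs u :=
  Finset.prod_pos fun _ _ => edgeTerm_pos _ _

theorem abs_log_Wedge_le {p K : ℕ} (X : (Fin (r + 1) → unitInterval) → ℝ) (θs : Fin K → Inter p)
    (u : Fin K × Fin p → Fin (r + 1) → unitInterval) :
    |Real.log (Wedge X θs u)| ≤ ∑ j, supNorm (θs j) := by
  unfold Wedge
  rw [Real.log_prod fun j _ => (edgeTerm_pos _ _).ne']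
  refine (Finset.abs_sum_le_sum_abs _ _).trans (Finset.sum_le_sum fun j _ => ?_)
  exact abs_log_edgeTerm_le _ _

theorem measurable_Wedge {p K : ℕ} {X : (Fin (r + 1) → unitInterval) → ℝ} (hX : Measurable X) :
    Measurable (fun q : (Fin K → Inter p) × (Fin K × Fin p → Fin (r + 1) → unitInterval) =>
      Wedge X q.1 q.2) := by
  unfold Wedge
  refine Finset.measurable_prod _ fun j _ => ?_
  refine continuous_edgeTerm_joint.measurable.comp (Measurable.prodMk ?_ ?_)
  · exact (measurable_pi_apply j).comp measurable_fst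
  · exact measurable_pi_lambda _ fun ℓ =>
      hX.comp ((measurable_pi_apply (j, ℓ)).comp measurable_snd)

/-- one site factor is positive. -/
theorem siteSum_pos {M : ℕ} (h : ℝ) (s : Finset (Fin M)) (g : Fin M → Bool → ℝ) :
    0 < ∑ ε : Bool, Real.exp (h * spinVal ε + ∑ j ∈ s, g j ε) :=
  Finset.sum_pos (fun _ _ => Real.exp_pos _) Finset.univ_nonempty

/-- one site factor: bound of the logarithm. -/
theorem abs_log_siteSum_le {M : ℕ} (h : ℝ) (s : Finset (Fin M)) (g : Fin M → Bool → ℝ)
    (c : Fin M → ℝ) (hg : ∀ j ε, |g j ε| ≤ c j) :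
    |Real.log (∑ ε : Bool, Real.exp (h * spinVal ε + ∑ j ∈ s, g j ε))| ≤
      Real.log 2 + (|h| + ∑ j ∈ s, c j) := by
  set B := |h| + ∑ j ∈ s, c j with hB
  have hbound : ∀ ε : Bool, |h * spinVal ε + ∑ j ∈ s, g j ε| ≤ B := by
    intro ε
    refine (abs_add_le _ _).trans (add_le_add ?_ ?_)
    · rw [abs_mul, abs_spinVal, mul_one]
    · exact (Finset.abs_sum_le_sum_abs _ _).trans (Finset.sum_le_sum fun j _ => hg j ε)
  have hpos := siteSum_pos h s g
  have hup : ∑ ε : Bool, Real.exp (h * spinVal ε + ∑ j ∈ s, g j ε) ≤ 2 * Real.exp B := by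
    calc ∑ ε : Bool, Real.exp (h * spinVal ε + ∑ j ∈ s, g j ε)
        ≤ ∑ _ε : Bool, Real.exp B :=
          Finset.sum_le_sum fun ε _ => Real.exp_le_exp.2 (abs_le.1 (hbound ε)).2
      _ = 2 * Real.exp B := by simp
  have hlo : 2 * Real.exp (-B) ≤ ∑ ε : Bool, Real.exp (h * spinVal ε + ∑ j ∈ s, g j ε) := by
    calc 2 * Real.exp (-B) = ∑ _ε : Bool, Real.exp (-B) := by simp
      _ ≤ _ := Finset.sum_le_sum fun ε _ => Real.exp_le_exp.2 (abs_le.1 (hbound ε)).1
  have l2 : 0 ≤ Real.log 2 := Real.log_nonneg one_le_two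
  rw [abs_le]
  constructor
  · have h1 := Real.log_le_log (by positivity) hlo
    rw [Real.log_mul two_ne_zero (Real.exp_pos _).ne', Real.log_exp] at h1
    linarith
  · have h1 := Real.log_le_log hpos hup
    rw [Real.log_mul two_ne_zero (Real.exp_pos _).ne', Real.log_exp] at h1
    linarith

theorem Wsite_pos {p N M : ℕ} (X : (Fin (r + 1) → unitInterval) → ℝ) (hs : Fin N → ℝ)
    (θs : Fin M → Inter p) (t : Fin M → Fin N)
    (u : Fin M × Fin (p - 1) → Fin (r + 1) → unitInterval) : 0 < Wsite X hs θs t u :=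
  Finset.prod_pos fun i _ => siteSum_pos (hs i) _
    (fun j ε => siteMessage (θs j) (fun ℓ => X (u (j, ℓ))) ε)

theorem abs_log_Wsite_le {p N M : ℕ} (X : (Fin (r + 1) → unitInterval) → ℝ) (hs : Fin N → ℝ)
    (θs : Fin M → Inter p) (t : Fin M → Fin N)
    (u : Fin M × Fin (p - 1) → Fin (r + 1) → unitInterval) :
    |Real.log (Wsite X hs θs t u)| ≤
      N * Real.log 2 + (∑ i, |hs i| + ∑ j, supNorm (θs j)) := by
  unfold Wsite
  rw [Real.log_prod fun i _ => (siteSum_pos (hs i) _
    (fun j ε => siteMessage (θs j) (fun ℓ => X (u (j, ℓ))) ε)).ne']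
  refine (Finset.abs_sum_le_sum_abs _ _).trans ?_
  refine (Finset.sum_le_sum fun i _ => abs_log_siteSum_le (hs i) _
    (fun j ε => siteMessage (θs j) (fun ℓ => X (u (j, ℓ))) ε) (fun j => supNorm (θs j))
    fun j ε => abs_siteMessage_le _ _ _).trans (le_of_eq ?_)
  rw [Finset.sum_add_distrib, Finset.sum_add_distrib, Finset.sum_const, Finset.card_univ,
    Fintype.card_fin, nsmul_eq_mul]
  congr 2
  exact Finset.sum_fiberwise Finset.univ t (fun j => supNorm (θs j))

theorem measurable_Wsite {p N M : ℕ} {X : (Fin (r + 1) → unitInterval) → ℝ} (hX : Measurable X)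
    (t : Fin M → Fin N) :
    Measurable (fun q : ((Fin M → Inter p) × (Fin N → ℝ)) ×
      (Fin M × Fin (p - 1) → Fin (r + 1) → unitInterval) => Wsite X q.1.2 q.1.1 t q.2) := by
  unfold Wsite
  refine Finset.measurable_prod _ fun i _ => Finset.measurable_sum _ fun ε _ => ?_
  refine Real.measurable_exp.comp (Measurable.add ?_ ?_)
  · exact (((measurable_pi_apply i).comp (measurable_snd.comp measurable_fst)).mul_const _)
  · refine Finset.measurable_sum _ fun j _ => ?_
    refine (continuous_siteMessage_joint ε).measurable.comp (Measurable.prodMk ?_ ?_)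
    · exact (measurable_pi_apply j).comp (measurable_fst.comp measurable_fst)
    · exact measurable_pi_lambda _ fun ℓ =>
        hX.comp ((measurable_pi_apply (j, ℓ)).comp measurable_snd)

end Crest.Agent.R141.UBd
end

-- ▼ part R141/USeq
section

/-!
R141, Part U: the hybrid sequence `aSeq` and its integrated version (over weights and fields).
-/

set_option autoImplicit false

namespace Crest.Agent.R141.U

open MeasureTheory Filter Topology Crest.ProbabilityR.Diluted
open scoped NNReal ENNReal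

section

variable {p : ℕ} {μ : Measure (Inter p)} [IsProbabilityMeasure μ]
  (hμ : Integrable (fun θ => supNorm θ) μ)
  {A : Type} [Fintype A] [Nonempty A] {N : ℕ} (hN : 0 < N)
  {Y : Type} [MeasurableSpace Y] (Q : Measure Y) [IsProbabilityMeasure Q]
  (x : Y → A → ℝ) (hx : ∀ a, Measurable fun y => x y a)

/-- The mixed sequence. -/
noncomputable def aSeq (v : A → ℝ) (hs : Fin N → ℝ) (j k l : ℕ) : ℝ :=
  (((Kop (law1 hμ hN (fun s : A × (Fin N → Bool) => s.2))) ^ j *
    (Kop (law3 hμ Q (xS N x) (xS_meas x hx) (S := A × (Fin N → Bool)))) ^ k *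
    (Kop (law2 hμ hN (fun s : A × (Fin N → Bool) => s.2) Q (xS N x) (xS_meas x hx))) ^ l)
      (lseL (A × (Fin N → Bool))) : (A × (Fin N → Bool) → ℝ) → ℝ) (g0 v hs)

theorem aSeq_step (hp : 1 ≤ p) (hKI : KIProp p μ) (v : A → ℝ) (hs : Fin N → ℝ) (j k l : ℕ) :
    (1 / (p : ℝ)) * aSeq hμ hN Q x hx v hs (j + 1) k l +
      (1 - 1 / (p : ℝ)) * aSeq hμ hN Q x hx v hs j (k + 1) l ≤
      aSeq hμ hN Q x hx v hs j k (l + 1) := by
  set S := A × (Fin N → Bool) with hS
  set L1 := law1 hμ hN (fun s : S => s.2) with hL1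
  set L2 := law2 hμ hN (fun s : S => s.2) Q (xS N x) (xS_meas x hx) with hL2
  set L3 := law3 hμ Q (xS N x) (xS_meas x hx) (S := S) with hL3
  have hp0 : (1 : ℝ) ≤ p := by exact_mod_cast hp
  have hpp : (0 : ℝ) < p := by linarith
  have hc13 : Commute (Kop L1) (Kop L3) := Kop_commute _ _
  have hc12 : Commute (Kop L1) (Kop L2) := Kop_commute _ _
  have hc32 : Commute (Kop L3) (Kop L2) := Kop_commute _ _
  have hmono : OpMono ((Kop L1) ^ j * (Kop L3) ^ k * (Kop L2) ^ l) := by
    intro G G' hG g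
    simp only [Module.End.mul_apply]
    exact (Kop_mono L1).pow j _ _ ((Kop_mono L3).pow k _ _ ((Kop_mono L2).pow l _ _ hG)) g
  have h1 : (Kop L1) ^ (j + 1) * (Kop L3) ^ k * (Kop L2) ^ l =
      ((Kop L1) ^ j * (Kop L3) ^ k * (Kop L2) ^ l) * Kop L1 := by
    rw [pow_succ, mul_assoc, mul_assoc, mul_assoc, mul_assoc]
    congr 1
    rw [← mul_assoc, (hc13.pow_right k).eq, mul_assoc, (hc12.pow_right l).eq]
  have h2 : (Kop L1) ^ j * (Kop L3) ^ (k + 1) * (Kop L2) ^ l =
      ((Kop L1) ^ j * (Kop L3) ^ k * (Kop L2) ^ l) * Kop L3 := by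
    rw [pow_succ, mul_assoc, mul_assoc, mul_assoc, mul_assoc]
    congr 2
    rw [(hc32.pow_right l).eq]
  have h3 : (Kop L1) ^ j * (Kop L3) ^ k * (Kop L2) ^ (l + 1) =
      ((Kop L1) ^ j * (Kop L3) ^ k * (Kop L2) ^ l) * Kop L2 := by
    rw [pow_succ, ← mul_assoc]
  have h4 := hmono _ _ (KI_op hμ hN (fun s : S => s.2) Q (xS N x) (xS_meas x hx)
    hp hKI) (g0 v hs)
  have h5 : (((Kop L1) ^ j * (Kop L3) ^ k * (Kop L2) ^ l)
      ((Kmix hμ hN (fun s : S => s.2) Q (xS N x) (xS_meas x hx)) (lseL S)) :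
        (S → ℝ) → ℝ) (g0 v hs) =
      (1 / (p : ℝ)) * aSeq hμ hN Q x hx v hs (j + 1) k l +
        (1 - 1 / (p : ℝ)) * aSeq hμ hN Q x hx v hs j (k + 1) l := by
    show _ = (1 / (p : ℝ)) * (((Kop L1) ^ (j + 1) * (Kop L3) ^ k * (Kop L2) ^ l) (lseL S) :
      (S → ℝ) → ℝ) (g0 v hs) + (1 - 1 / (p : ℝ)) *
        (((Kop L1) ^ j * (Kop L3) ^ (k + 1) * (Kop L2) ^ l) (lseL S) :
      (S → ℝ) → ℝ) (g0 v hs)
    rw [h1, h2, Module.End.mul_apply _ (Kop L1), Module.End.mul_apply _ (Kop L3)]
    unfold Kmix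
    rw [LinearMap.add_apply, LinearMap.smul_apply, LinearMap.smul_apply, map_add, map_smul,
      map_smul]
    have : (1 : ℝ) - 1 / p = (p - 1) / p := by field_simp
    rw [this]
    rfl
  rw [h5] at h4
  show _ ≤ (((Kop L1) ^ j * (Kop L3) ^ k * (Kop L2) ^ (l + 1)) (lseL S) :
      (S → ℝ) → ℝ) (g0 v hs)
  rw [h3, Module.End.mul_apply _ (Kop L2)]
  exact h4

theorem aSeq_zero (v : A → ℝ) (hv : ∀ a, 0 < v a) (hs : Fin N → ℝ) (j k : ℕ) :
    aSeq hμ hN Q x hx v hs j k 0 = Apart p μ hs j + Bpart p μ Q x v k := by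
  have := K13_iter hμ hN Q x hx v hv hs j k
  unfold aSeq
  rw [pow_zero, mul_one]
  exact this

theorem aSeq_two (v : A → ℝ) (hv : ∀ a, 0 < v a) (hs : Fin N → ℝ) (n : ℕ) :
    aSeq hμ hN Q x hx v hs 0 0 n = Cpart p μ Q x v hs n := by
  have := K2_iter hμ hN Q x hx v hv hs n
  unfold aSeq
  rw [pow_zero, pow_zero, one_mul, one_mul]
  exact this

/-- all mixed iterates are 1-Lipschitz. -/
theorem op_lip (j k l : ℕ) :
    LipschitzWith 1 (((Kop (law1 hμ hN (fun s : A × (Fin N → Bool) => s.2))) ^ j *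
    (Kop (law3 hμ Q (xS N x) (xS_meas x hx) (S := A × (Fin N → Bool)))) ^ k *
    (Kop (law2 hμ hN (fun s : A × (Fin N → Bool) => s.2) Q (xS N x) (xS_meas x hx))) ^ l)
      (lseL (A × (Fin N → Bool))) : (A × (Fin N → Bool) → ℝ) → ℝ) := by
  simp only [Module.End.mul_apply]
  exact Kop_pow_lip _ _ _ (Kop_pow_lip _ _ _ (Kop_pow_lip _ _ _ lse_lip))

include hμ in
/-- `E ‖ξ‖ ≤ E supNorm`. -/
theorem law_norm_le {S : Type} [Fintype S] {Z : Type} [MeasurableSpace Z] (ρ : Measure Z)
    [IsProbabilityMeasure ρ] {ξ : Inter p × Z → S → ℝ}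
    (hint : Integrable (fun z => ‖ξ z‖) (μ.prod ρ))
    (hb : ∀ z s, |ξ z s| ≤ supNorm z.1) : ∫ z, ‖ξ z‖ ∂(μ.prod ρ) ≤ ∫ θ, supNorm θ ∂μ := by
  have h1 : ∫ z : Inter p × Z, supNorm z.1 ∂(μ.prod ρ) = ∫ θ, supNorm θ ∂μ := by
    rw [integral_fun_fst]
    simp
  rw [← h1]
  refine integral_mono hint (hμ.comp_fst ρ) fun z => ?_
  refine (pi_norm_le_iff_of_nonneg (Red.supNorm_nonneg _)).2 fun s => ?_
  rw [Real.norm_eq_abs]
  exact hb z s

omit [Nonempty A] in
theorem lse_g0 [Nonempty A] (v : A → ℝ) (hv : ∀ a, 0 < v a) (hs : Fin N → ℝ) :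
    lse (g0 v hs) = Real.log (∑ a, v a) +
      logPartition N (p := p) (M := 0) Fin.elim0 Fin.elim0 hs := by
  unfold lse logPartition
  rw [← Real.log_mul]
  · congr 1
    rw [Fintype.sum_prod_type, Finset.sum_mul]
    refine Finset.sum_congr rfl fun a _ => ?_
    rw [Finset.mul_sum]
    refine Finset.sum_congr rfl fun σ _ => ?_
    simp only [g0, Finset.univ_eq_empty, Finset.sum_empty, zero_add]
    rw [Real.exp_add, Real.exp_log (hv a)]
  · exact (Finset.sum_pos (fun a _ => hv a) Finset.univ_nonempty).ne'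
  · exact (Finset.sum_pos (fun σ _ => Real.exp_pos _) Finset.univ_nonempty).ne'

theorem norm_law1_le (hμ : Integrable (fun θ => supNorm θ) μ) (hN : 0 < N) :
    ∫ y, ‖(law1 hμ hN (fun s : A × (Fin N → Bool) => s.2)).ξ y‖
      ∂(law1 hμ hN (fun s : A × (Fin N → Bool) => s.2)).ρ ≤ ∫ θ, supNorm θ ∂μ := by
  haveI : Nonempty (Fin N) := ⟨⟨0, hN⟩⟩
  exact law_norm_le hμ (unif (Fin p → Fin N))
    (law1 hμ hN (fun s : A × (Fin N → Bool) => s.2)).int
    (fun z s => Red.abs_le_supNorm _ _)

theorem norm_law3_le : ∫ y, ‖(law3 hμ Q (xS N x) (xS_meas x hx)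
      (S := A × (Fin N → Bool))).ξ y‖ ∂(law3 hμ Q (xS N x) (xS_meas x hx)
      (S := A × (Fin N → Bool))).ρ ≤ ∫ θ, supNorm θ ∂μ :=
  law_norm_le hμ (Measure.pi fun _ : Fin p => Q)
    (law3 hμ Q (xS N x) (xS_meas x hx) (S := A × (Fin N → Bool))).int
    (fun z s => Red.abs_log_edgeTerm_le _ _)

theorem norm_law2_le : ∫ y, ‖(law2 hμ hN (fun s : A × (Fin N → Bool) => s.2) Q (xS N x)
      (xS_meas x hx)).ξ y‖ ∂(law2 hμ hN (fun s : A × (Fin N → Bool) => s.2) Q (xS N x)
      (xS_meas x hx)).ρ ≤ ∫ θ, supNorm θ ∂μ := by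
  haveI : Nonempty (Fin N) := ⟨⟨0, hN⟩⟩
  exact law_norm_le hμ ((Measure.pi fun _ : Fin (p - 1) => Q).prod (unif (Fin N)))
    (law2 hμ hN (fun s : A × (Fin N → Bool) => s.2) Q (xS N x) (xS_meas x hx)).int
    (fun z s => Red.abs_siteMessage_le _ _ _)

theorem aSeq_bound (v : A → ℝ) (hv : ∀ a, 0 < v a) (hs : Fin N → ℝ) (j k l : ℕ) :
    |aSeq hμ hN Q x hx v hs j k l - Real.log (∑ a, v a)| ≤
      N * Real.log 2 + (∑ i, |hs i|) + ((j : ℝ) + k + l) * ∫ θ, supNorm θ ∂μ := by
  set S := A × (Fin N → Bool) with hS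
  set L1 := law1 hμ hN (fun s : S => s.2) with hL1
  set L2 := law2 hμ hN (fun s : S => s.2) Q (xS N x) (xS_meas x hx) with hL2
  set L3 := law3 hμ Q (xS N x) (xS_meas x hx) (S := S) with hL3
  set c := ∫ θ, supNorm θ ∂μ with hc
  have h2 : LipschitzWith 1 (((Kop L2) ^ l) (lseL S) : (S → ℝ) → ℝ) := Kop_pow_lip _ _ _ lse_lip
  have h3 : LipschitzWith 1 (((Kop L3) ^ k) (((Kop L2) ^ l) (lseL S)) : (S → ℝ) → ℝ) :=
    Kop_pow_lip _ _ _ h2
  have e1 := Kop_pow_sub_le L1 j (((Kop L3) ^ k) (((Kop L2) ^ l) (lseL S))) h3 (g0 v hs)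
  have e2 := Kop_pow_sub_le L3 k (((Kop L2) ^ l) (lseL S)) h2 (g0 v hs)
  have e3 := Kop_pow_sub_le L2 l (lseL S) (C := 1) lse_lip (g0 v hs)
  have n1 : ∫ y, ‖L1.ξ y‖ ∂L1.ρ ≤ c := norm_law1_le (A := A) (p := p) hμ hN
  have n2 : ∫ y, ‖L2.ξ y‖ ∂L2.ρ ≤ c := norm_law2_le hμ hN Q x hx
  have n3 : ∫ y, ‖L3.ξ y‖ ∂L3.ρ ≤ c := norm_law3_le (N := N) hμ Q x hx
  rw [NNReal.coe_one, one_mul] at e1 e2 e3
  have hj : (0 : ℝ) ≤ j := Nat.cast_nonneg j
  have hk : (0 : ℝ) ≤ k := Nat.cast_nonneg k
  have hl : (0 : ℝ) ≤ l := Nat.cast_nonneg l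
  have e1' := e1.trans (mul_le_mul_of_nonneg_left n1 hj)
  have e2' := e2.trans (mul_le_mul_of_nonneg_left n3 hk)
  have e3' := e3.trans (mul_le_mul_of_nonneg_left n2 hl)
  rw [coe_lseL] at e3'
  have h0 : aSeq hμ hN Q x hx v hs j k l = (((Kop L1) ^ j) (((Kop L3) ^ k)
      (((Kop L2) ^ l) (lseL S))) : (S → ℝ) → ℝ) (g0 v hs) := rfl
  have h4 := lse_g0 (p := p) v hv hs
  have h5 := Red.abs_logPartition_le N (p := p) (M := 0) Fin.elim0 Fin.elim0 hs
  rw [Finset.univ_eq_empty, Finset.sum_empty, zero_add] at h5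
  rw [h0]
  rw [abs_le] at e1' e2' e3' h5 ⊢
  rw [h4] at e3'
  constructor <;> nlinarith [e1'.1, e1'.2, e2'.1, e2'.2, e3'.1, e3'.2, h5.1, h5.2]

omit [Nonempty A] in
theorem measurable_g0 : Measurable fun z : (A → ℝ) × (Fin N → ℝ) => g0 z.1 z.2 := by
  refine measurable_pi_lambda _ fun s => ?_
  unfold g0
  refine Measurable.add ?_ ?_
  · exact Real.measurable_log.comp ((measurable_pi_apply s.1).comp measurable_fst)
  · exact Finset.measurable_sum _ fun i _ =>
      ((measurable_pi_apply i).comp measurable_snd).mul_const _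

theorem measurable_aSeq (j k l : ℕ) :
    Measurable fun z : (A → ℝ) × (Fin N → ℝ) => aSeq hμ hN Q x hx z.1 z.2 j k l :=
  (op_lip hμ hN Q x hx j k l).continuous.measurable.comp measurable_g0

variable (V : Measure (A → ℝ)) [IsProbabilityMeasure V] (hV : ∀ᵐ v ∂V, ∀ a, 0 < v a)
  (ν : Measure ℝ) [IsProbabilityMeasure ν] (hν : Integrable (fun x : ℝ => x) ν)

include hV hν in
theorem integrable_aSeq (j k l : ℕ) :
    Integrable (fun z : (A → ℝ) × (Fin N → ℝ) =>
      aSeq hμ hN Q x hx z.1 z.2 j k l - Real.log (∑ a, z.1 a))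
      (V.prod (Measure.pi fun _ : Fin N => ν)) := by
  have hm : Measurable (fun z : (A → ℝ) × (Fin N → ℝ) =>
      aSeq hμ hN Q x hx z.1 z.2 j k l - Real.log (∑ a, z.1 a)) :=
    (measurable_aSeq hμ hN Q x hx j k l).sub (Real.measurable_log.comp
      (Finset.measurable_sum _ fun a _ => (measurable_pi_apply a).comp measurable_fst))
  have hb : Integrable (fun z : (A → ℝ) × (Fin N → ℝ) => N * Real.log 2 + (∑ i, |z.2 i|) +
      ((j : ℝ) + k + l) * ∫ θ, supNorm θ ∂μ) (V.prod (Measure.pi fun _ : Fin N => ν)) := by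
    refine ((integrable_const _).add ?_).add (integrable_const _)
    exact (Red.integrable_sum_eval ν hν.abs).comp_snd V
  refine Integrable.mono' hb hm.aestronglyMeasurable ?_
  have hV' : ∀ᵐ z ∂(V.prod (Measure.pi fun _ : Fin N => ν)), ∀ a, 0 < z.1 a :=
    Measure.quasiMeasurePreserving_fst.ae hV
  filter_upwards [hV'] with z hz
  exact aSeq_bound hμ hN Q x hx z.1 hz z.2 j k l

/-- integrated sequence. -/
noncomputable def aInt (j k l : ℕ) : ℝ :=
  ∫ z : (A → ℝ) × (Fin N → ℝ), (aSeq hμ hN Q x hx z.1 z.2 j k l - Real.log (∑ a, z.1 a))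
    ∂(V.prod (Measure.pi fun _ : Fin N => ν))

include hV hν in
theorem aInt_step (hp : 1 ≤ p) (hKI : KIProp p μ) (j k l : ℕ) :
    (1 / (p : ℝ)) * aInt hμ hN Q x hx V ν (j + 1) k l +
      (1 - 1 / (p : ℝ)) * aInt hμ hN Q x hx V ν j (k + 1) l ≤
      aInt hμ hN Q x hx V ν j k (l + 1) := by
  unfold aInt
  rw [← integral_const_mul, ← integral_const_mul, ← integral_add]
  · refine integral_mono ?_ (integrable_aSeq hμ hN Q x hx V hV ν hν j k (l + 1)) fun z => ?_
    · exact ((integrable_aSeq hμ hN Q x hx V hV ν hν (j + 1) k l).const_mul _).add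
        ((integrable_aSeq hμ hN Q x hx V hV ν hν j (k + 1) l).const_mul _)
    · have := aSeq_step hμ hN Q x hx hp hKI z.1 z.2 j k l
      simp only
      linarith
  · exact (integrable_aSeq hμ hN Q x hx V hV ν hν (j + 1) k l).const_mul _
  · exact (integrable_aSeq hμ hN Q x hx V hV ν hν j (k + 1) l).const_mul _

include hV hν in
theorem aInt_bound (j k l : ℕ) :
    |aInt hμ hN Q x hx V ν j k l| ≤ N * Real.log 2 + N * (∫ x, |x| ∂ν) +
      ((j : ℝ) + k + l) * ∫ θ, supNorm θ ∂μ := by
  unfold aInt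
  have hb : Integrable (fun z : (A → ℝ) × (Fin N → ℝ) => N * Real.log 2 + (∑ i, |z.2 i|) +
      ((j : ℝ) + k + l) * ∫ θ, supNorm θ ∂μ) (V.prod (Measure.pi fun _ : Fin N => ν)) := by
    refine ((integrable_const _).add ?_).add (integrable_const _)
    exact (Red.integrable_sum_eval ν hν.abs).comp_snd V
  have hV' : ∀ᵐ z ∂(V.prod (Measure.pi fun _ : Fin N => ν)), ∀ a, 0 < z.1 a :=
    Measure.quasiMeasurePreserving_fst.ae hV
  rw [← Real.norm_eq_abs]
  refine (norm_integral_le_of_norm_le hb ?_).trans (le_of_eq ?_)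
  · filter_upwards [hV'] with z hz
    exact aSeq_bound hμ hN Q x hx z.1 hz z.2 j k l
  · have h1 : Integrable (fun z : (A → ℝ) × (Fin N → ℝ) => ∑ i, |z.2 i|)
        (V.prod (Measure.pi fun _ : Fin N => ν)) := (Red.integrable_sum_eval ν hν.abs).comp_snd V
    have h2 : ∫ z : (A → ℝ) × (Fin N → ℝ), ∑ i, |z.2 i| ∂(V.prod (Measure.pi fun _ : Fin N => ν)) =
        N * ∫ x, |x| ∂ν := by
      rw [integral_fun_snd (μ := V) (ν := Measure.pi fun _ : Fin N => ν)
        (fun h : Fin N → ℝ => ∑ i, |h i|)]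
      rw [Red.integral_sum_eval ν hν.abs]
      simp
    have h3 : Integrable (fun z : (A → ℝ) × (Fin N → ℝ) => N * Real.log 2 + ∑ i, |z.2 i|)
        (V.prod (Measure.pi fun _ : Fin N => ν)) := (integrable_const _).add h1
    rw [integral_add h3 (integrable_const _), integral_add (integrable_const _) h1, h2]
    simp

end

end Crest.Agent.R141.U
end

-- ▼ part R141/UTree
section

/-!
R141, Part U: the tree functional with parameters: bounds, measurability, Fubini.
-/

set_option autoImplicit false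

namespace Crest.Agent.R141.U

open MeasureTheory Filter Topology Crest.ProbabilityR.Diluted

section

variable {A Y L Z : Type} [Fintype A] [Nonempty A] [Fintype L] [MeasurableSpace Y]
  [MeasurableSpace Z] (Q : Measure (A → Y)) [IsProbabilityMeasure Q]
  (W : Z → (L → Y) → ℝ)

/-- The integrand of `treeF` with a parameter. -/
noncomputable def DD (v : A → ℝ) (z : Z) : ℝ :=
  (∫ y, Real.log (∑ a, v a * W z (fun ω => y ω a)) ∂(Measure.pi fun _ : L => Q)) -
    Real.log (∑ a, v a)

theorem treeF_eq_DD (V : Measure (A → ℝ)) (z : Z) :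
    treeF V Q (W z) = ∫ v, DD Q W v z ∂V := rfl

/-- elementary bound. -/
theorem abs_log_sum_mul_sub_le {w : A → ℝ} {v : A → ℝ} (hv : ∀ a, 0 < v a) (hw : ∀ a, 0 < w a)
    {B : ℝ} (hB : ∀ a, |Real.log (w a)| ≤ B) :
    |Real.log (∑ a, v a * w a) - Real.log (∑ a, v a)| ≤ B := by
  have h1 := Red.abs_log_sum_exp_le v hv (fun a => Real.log (w a)) (fun _ => 0) B
    (fun a => by simpa using hB a)
  simp only [Real.exp_zero, mul_one] at h1
  have h2 : ∀ a, Real.exp (Real.log (w a)) = w a := fun a => Real.exp_log (hw a)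
  simpa only [h2] using h1

variable (hW : Measurable (fun q : Z × (L → Y) => W q.1 q.2)) (hpos : ∀ z u, 0 < W z u)
  {B : Z → ℝ} (hB : ∀ z u, |Real.log (W z u)| ≤ B z)

include hW in
theorem measurable_log_sum : Measurable (fun q : ((A → ℝ) × Z) × (L → A → Y) =>
    Real.log (∑ a, q.1.1 a * W q.1.2 (fun ω => q.2 ω a))) := by
  refine Real.measurable_log.comp (Finset.measurable_sum _ fun a _ => ?_)
  refine Measurable.mul ((measurable_pi_apply a).comp (measurable_fst.comp measurable_fst)) ?_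
  refine hW.comp (Measurable.prodMk (measurable_snd.comp measurable_fst) ?_)
  exact measurable_pi_lambda _ fun ω =>
    (measurable_pi_apply a).comp ((measurable_pi_apply ω).comp measurable_snd)

include hW in
theorem measurable_DD : Measurable (fun q : (A → ℝ) × Z => DD Q W q.1 q.2) := by
  unfold DD
  refine Measurable.sub ?_ ?_
  · exact ((measurable_log_sum (A := A) W hW).stronglyMeasurable.integral_prod_right'
      (ν := Measure.pi fun _ : L => Q)).measurable
  · exact Real.measurable_log.comp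
      (Finset.measurable_sum _ fun a _ => (measurable_pi_apply a).comp measurable_fst)

include hW hpos hB in
theorem integrable_log_sum (v : A → ℝ) (hv : ∀ a, 0 < v a) (z : Z) :
    Integrable (fun y : L → A → Y => Real.log (∑ a, v a * W z (fun ω => y ω a)))
      (Measure.pi fun _ : L => Q) := by
  have hm : Measurable (fun y : L → A → Y => Real.log (∑ a, v a * W z (fun ω => y ω a))) :=
    (measurable_log_sum (A := A) W hW).comp
      ((measurable_const (a := ((v, z) : (A → ℝ) × Z))).prodMk measurable_id)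
  refine Integrable.of_bound hm.aestronglyMeasurable (B z + |Real.log (∑ a, v a)|)
    (Eventually.of_forall fun y => ?_)
  have h1 := abs_log_sum_mul_sub_le (w := fun a => W z (fun ω => y ω a)) hv
    (fun a => hpos z _) (fun a => hB z _)
  have h2 := abs_add_le (Real.log (∑ a, v a * W z (fun ω => y ω a)) - Real.log (∑ a, v a))
    (Real.log (∑ a, v a))
  rw [sub_add_cancel] at h2
  rw [Real.norm_eq_abs]
  linarith

include hW hpos hB in
theorem abs_DD_le (v : A → ℝ) (hv : ∀ a, 0 < v a) (z : Z) : |DD Q W v z| ≤ B z := by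
  unfold DD
  have h1 : (∫ y, Real.log (∑ a, v a * W z (fun ω => y ω a)) ∂(Measure.pi fun _ : L => Q)) -
      Real.log (∑ a, v a) = ∫ y : L → A → Y, (Real.log (∑ a, v a * W z (fun ω => y ω a)) -
        Real.log (∑ a, v a)) ∂(Measure.pi fun _ : L => Q) := by
    rw [integral_sub (integrable_log_sum Q W hW hpos hB v hv z) (integrable_const _)]
    simp
  rw [h1]
  have h2 := norm_integral_le_of_norm_le_const (μ := Measure.pi fun _ : L => Q) (C := B z)
    (f := fun y : L → A → Y => (Real.log (∑ a, v a * W z (fun ω => y ω a)) -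
        Real.log (∑ a, v a)))
    (Eventually.of_forall fun y => by
      rw [Real.norm_eq_abs]
      exact abs_log_sum_mul_sub_le (w := fun a => W z (fun ω => y ω a)) hv
        (fun a => hpos z _) (fun a => hB z _))
  simpa using h2

variable (V : Measure (A → ℝ)) [IsProbabilityMeasure V] (hV : ∀ᵐ v ∂V, ∀ a, 0 < v a)
  (ρ : Measure Z) [IsProbabilityMeasure ρ] (hBi : Integrable B ρ)

include hW hpos hB hV in
theorem abs_treeF_le (z : Z) : |treeF V Q (W z)| ≤ B z := by
  rw [treeF_eq_DD, ← Real.norm_eq_abs]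
  have h := norm_integral_le_of_norm_le_const (μ := V) (C := B z) (f := fun v => DD Q W v z) (by
    filter_upwards [hV] with v hv
    rw [Real.norm_eq_abs]
    exact abs_DD_le Q W hW hpos hB v hv z)
  simpa using h

include hW in
theorem measurable_treeF : Measurable (fun z => treeF V Q (W z)) := by
  simp only [treeF_eq_DD]
  have h1 : Measurable (fun q : Z × (A → ℝ) => DD Q W q.2 q.1) :=
    (measurable_DD Q W hW).comp measurable_swap
  exact (h1.stronglyMeasurable.integral_prod_right' (ν := V)).measurable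

include hW hpos hB hV hBi in
theorem integrable_DD : Integrable (fun q : (A → ℝ) × Z => DD Q W q.1 q.2) (V.prod ρ) := by
  refine Integrable.mono' (hBi.comp_snd V) (measurable_DD Q W hW).aestronglyMeasurable ?_
  have hV' : ∀ᵐ z ∂(V.prod ρ), ∀ a, 0 < z.1 a := Measure.quasiMeasurePreserving_fst.ae hV
  filter_upwards [hV'] with q hq
  rw [Real.norm_eq_abs]
  exact abs_DD_le Q W hW hpos hB q.1 hq q.2

include hW hpos hB hV hBi in
theorem integral_DD_swap : ∫ v, ∫ z, DD Q W v z ∂ρ ∂V = ∫ z, treeF V Q (W z) ∂ρ :=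
  integral_integral_swap (integrable_DD Q W hW hpos hB V hV ρ hBi)

end

end Crest.Agent.R141.U
end

-- ▼ part R141/UAsm
section

/-!
R141, Part U: assembly of the upper bound, given the tree limit and the two product identities.
-/

set_option autoImplicit false

namespace Crest.Agent.R141.U

open MeasureTheory Filter Topology Crest.ProbabilityR.Diluted
open scoped NNReal ENNReal

/-- The tree limit (U3), as a proposition. -/
def TreeLimit {r : ℕ} (m : Fin r → ℝ) : Prop :=
  ∃ (Leaf : (Fin r → ℕ) → Type) (_ : ∀ K, Fintype (Leaf K))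
    (V : ∀ K, Measure (Leaf K → ℝ))
    (Q : ∀ K, Measure (Leaf K → Fin (r + 1) → unitInterval)),
    (∀ K : Fin r → ℕ, (∀ i, 0 < K i) → Nonempty (Leaf K) ∧ IsProbabilityMeasure (V K) ∧
      IsProbabilityMeasure (Q K) ∧ ∀ᵐ v ∂(V K), ∀ a, 0 < v a) ∧
    ∀ (L : Type) [Fintype L] (W : (L → Fin (r + 1) → unitInterval) → ℝ), Measurable W →
      ∀ c C : ℝ, 0 < c → (∀ u, c ≤ W u) → (∀ u, W u ≤ C) →
        IterTendsto r (fun K => treeF (V K) (Q K) W)
          (∫ u, Real.log (powerMeans m W u) ∂(uniformArrays L r))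

section

variable {p : ℕ} {μ : Measure (Inter p)} [IsProbabilityMeasure μ]
  (hμ : Integrable (fun θ => supNorm θ) μ)
  (ν : Measure ℝ) [IsProbabilityMeasure ν] (hν : Integrable (fun x : ℝ => x) ν)
  {N : ℕ}


include hμ hν in
theorem integrable_avgLP (j : ℕ) : Integrable
    (fun z : (Fin j → Inter p) × (Fin N → ℝ) => Red.avgLP N z)
    ((Measure.pi fun _ : Fin j => μ).prod (Measure.pi fun _ : Fin N => ν)) :=
  Red.integrable_of_bound μ ν (Red.continuous_avgLP N).measurable (N * Real.log 2) hμ hν.abs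
    (Red.abs_avgLP_le N)

include hμ hν in
theorem integral_Apart (j : ℕ) :
    ∫ hs : Fin N → ℝ, Apart p μ hs j ∂(Measure.pi fun _ => ν) = Red.lpInt p μ ν N j := by
  have h := integrable_avgLP hμ ν hν (N := N) j
  exact (integral_integral_swap (f := fun (θs : Fin j → Inter p) (hs : Fin N → ℝ) =>
    Red.avgLP N (θs, hs)) h).symm

include hμ hν in
theorem integrable_Apart (j : ℕ) :
    Integrable (fun hs : Fin N → ℝ => Apart p μ hs j) (Measure.pi fun _ => ν) := by
  have h := integrable_avgLP hμ ν hν (N := N) j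
  exact h.integral_prod_right

variable {r : ℕ} {X : (Fin (r + 1) → unitInterval) → ℝ} (hX : Measurable X)
  {A : Type} [Fintype A] [Nonempty A]
  (Q : Measure (A → Fin (r + 1) → unitInterval)) [IsProbabilityMeasure Q]
  (V : Measure (A → ℝ)) [IsProbabilityMeasure V] (hV : ∀ᵐ v ∂V, ∀ a, 0 < v a)

/-- The message of a leaf. -/
def xX (X : (Fin (r + 1) → unitInterval) → ℝ) (y : A → Fin (r + 1) → unitInterval) (a : A) : ℝ :=
  X (y a)

omit [Fintype A] [Nonempty A] in
include hX in
theorem xX_meas (a : A) : Measurable fun y : A → Fin (r + 1) → unitInterval => xX X y a :=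
  hX.comp (measurable_pi_apply a)

/-- supNorm bound for the edges. -/
noncomputable def Bk (k : ℕ) (θs : Fin k → Inter p) : ℝ := ∑ j, supNorm (θs j)

include hμ in
theorem integrable_Bk (k : ℕ) : Integrable (fun θs : Fin k → Inter p => Bk k θs)
    (Measure.pi fun _ => μ) := Red.integrable_sum_eval μ hμ

include hμ hX in
theorem Bpart_sub (v : A → ℝ) (hv : ∀ a, 0 < v a) (k : ℕ) :
    Bpart p μ Q (xX X) v k - Real.log (∑ a, v a) =
      ∫ θs : Fin k → Inter p, DD Q (fun θs => Wedge (p := p) (K := k) X θs) v θs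
        ∂(Measure.pi fun _ => μ) := by
  unfold DD
  rw [integral_sub, integral_const]
  · simp only [probReal_univ, one_smul]
    rfl
  · have h1 : Measurable (fun q : ((A → ℝ) × (Fin k → Inter p)) ×
        (Fin k × Fin p → A → Fin (r + 1) → unitInterval) =>
        Real.log (∑ a, q.1.1 a * Wedge (p := p) X q.1.2 (fun ω => q.2 ω a))) :=
      measurable_log_sum (A := A) (fun θs => Wedge (p := p) (K := k) X θs) (UBd.measurable_Wedge hX)
    have h2 := (h1.stronglyMeasurable.integral_prod_right'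
      (ν := Measure.pi fun _ : Fin k × Fin p => Q)).measurable
    have h3 := h2.comp (measurable_prodMk_left (x := v))
    refine Integrable.mono' ((integrable_Bk hμ k).add (integrable_const (|Real.log (∑ a, v a)|)))
      h3.aestronglyMeasurable (Eventually.of_forall fun θs => ?_)
    have h4 := abs_DD_le Q (fun θs => Wedge (p := p) (K := k) X θs) (UBd.measurable_Wedge hX)
      (UBd.Wedge_pos X) (UBd.abs_log_Wedge_le X) v hv θs
    unfold DD at h4
    have h5 := abs_add_le ((∫ y, Real.log (∑ a, v a * Wedge (p := p) X θs (fun ω => y ω a))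
      ∂(Measure.pi fun _ : Fin k × Fin p => Q)) - Real.log (∑ a, v a)) (Real.log (∑ a, v a))
    rw [sub_add_cancel] at h5
    rw [Real.norm_eq_abs]
    exact h5.trans (add_le_add h4 le_rfl)
  · exact integrable_const _

include hμ hX hV in
theorem integral_Bpart (k : ℕ) :
    ∫ v, (Bpart p μ Q (xX X) v k - Real.log (∑ a, v a)) ∂V =
      ∫ θs : Fin k → Inter p, treeF V Q (Wedge (p := p) X θs) ∂(Measure.pi fun _ => μ) := by
  rw [← integral_DD_swap Q (fun θs => Wedge (p := p) (K := k) X θs) (UBd.measurable_Wedge hX)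
    (UBd.Wedge_pos X) (UBd.abs_log_Wedge_le X) V hV (Measure.pi fun _ => μ) (integrable_Bk hμ k)]
  refine integral_congr_ae ?_
  filter_upwards [hV] with v hv
  exact Bpart_sub hμ hX Q v hv k

include hμ hX hV in
theorem integrable_Bpart (k : ℕ) :
    Integrable (fun v => Bpart p μ Q (xX X) v k - Real.log (∑ a, v a)) V := by
  have h := (integrable_DD Q (fun θs => Wedge (p := p) (K := k) X θs) (UBd.measurable_Wedge hX)
    (UBd.Wedge_pos X) (UBd.abs_log_Wedge_le X) V hV (Measure.pi fun _ => μ)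
    (integrable_Bk hμ k)).integral_prod_left
  refine h.congr ?_
  filter_upwards [hV] with v hv
  exact (Bpart_sub hμ hX Q v hv k).symm

/-! ### the site side -/

/-- bound for the sites. -/
noncomputable def Bn (N n : ℕ) (z : (Fin n → Inter p) × (Fin N → ℝ)) : ℝ :=
  N * Real.log 2 + (∑ i, |z.2 i| + ∑ j, supNorm (z.1 j))

include hμ hν in
theorem integrable_Bn (n : ℕ) : Integrable (Bn (p := p) N n)
    ((Measure.pi fun _ : Fin n => μ).prod (Measure.pi fun _ : Fin N => ν)) := by
  refine (integrable_const _).add (Integrable.add ?_ ?_)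
  · exact (Red.integrable_sum_eval ν hν.abs).comp_snd _
  · exact (Red.integrable_sum_eval μ hμ).comp_fst _

/-- the site functions. -/
noncomputable def Wt (X : (Fin (r + 1) → unitInterval) → ℝ) (n : ℕ) (t : Fin n → Fin N)
    (z : (Fin n → Inter p) × (Fin N → ℝ)) :
    (Fin n × Fin (p - 1) → Fin (r + 1) → unitInterval) → ℝ := Wsite X z.2 z.1 t

include hX in
theorem Wt_meas (n : ℕ) (t : Fin n → Fin N) : Measurable
    (fun q : ((Fin n → Inter p) × (Fin N → ℝ)) ×
      (Fin n × Fin (p - 1) → Fin (r + 1) → unitInterval) => Wt X n t q.1 q.2) :=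
  UBd.measurable_Wsite hX t

theorem Wt_pos (X : (Fin (r + 1) → unitInterval) → ℝ) (n : ℕ) (t : Fin n → Fin N)
    (z : (Fin n → Inter p) × (Fin N → ℝ))
    (u : Fin n × Fin (p - 1) → Fin (r + 1) → unitInterval) : 0 < Wt X n t z u :=
  UBd.Wsite_pos X z.2 z.1 t u

theorem Wt_bd (X : (Fin (r + 1) → unitInterval) → ℝ) (n : ℕ) (t : Fin n → Fin N)
    (z : (Fin n → Inter p) × (Fin N → ℝ))
    (u : Fin n × Fin (p - 1) → Fin (r + 1) → unitInterval) :
    |Real.log (Wt X n t z u)| ≤ Bn N n z := UBd.abs_log_Wsite_le X z.2 z.1 t u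

include hμ hX hν in
theorem integrable_DDz (v : A → ℝ) (hv : ∀ a, 0 < v a) (n : ℕ) (t : Fin n → Fin N) :
    Integrable (fun z => DD Q (Wt (p := p) X n t) v z)
      ((Measure.pi fun _ : Fin n => μ).prod (Measure.pi fun _ : Fin N => ν)) := by
  refine Integrable.mono' (integrable_Bn hμ ν hν n)
    ((measurable_DD Q (Wt (p := p) X n t) (Wt_meas hX n t)).comp
      (measurable_prodMk_left (x := v))).aestronglyMeasurable (Eventually.of_forall fun z => ?_)
  rw [Real.norm_eq_abs]
  exact abs_DD_le Q _ (Wt_meas hX n t) (Wt_pos X n t) (Wt_bd X n t) v hv z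

include hμ hX in
theorem integrable_DDθ (v : A → ℝ) (hv : ∀ a, 0 < v a) (n : ℕ) (t : Fin n → Fin N)
    (hs : Fin N → ℝ) :
    Integrable (fun θs : Fin n → Inter p => DD Q (Wt (p := p) X n t) v (θs, hs))
      (Measure.pi fun _ : Fin n => μ) := by
  refine Integrable.mono' (g := fun θs : Fin n → Inter p => Bn N n (θs, hs)) ?_
    ((measurable_DD Q (Wt (p := p) X n t) (Wt_meas hX n t)).comp
      ((measurable_const (a := v)).prodMk (measurable_prodMk_right (y := hs)))).aestronglyMeasurable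
      (Eventually.of_forall fun θs => ?_)
  · have h1 : Integrable (fun θs : Fin n → Inter p => ∑ j, supNorm (θs j))
        (Measure.pi fun _ => μ) := Red.integrable_sum_eval μ hμ
    unfold Bn
    exact (integrable_const (N * Real.log 2)).add ((integrable_const (∑ i, |hs i|)).add h1)
  · rw [Real.norm_eq_abs]
    exact abs_DD_le Q _ (Wt_meas hX n t) (Wt_pos X n t) (Wt_bd X n t) v hv _

include hμ hX in
theorem Cpart_sub (v : A → ℝ) (hv : ∀ a, 0 < v a) (hs : Fin N → ℝ) (hN : 0 < N) (n : ℕ) :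
    Cpart p μ Q (xX X) v hs n - Real.log (∑ a, v a) =
      (Fintype.card (Fin n → Fin N) : ℝ)⁻¹ * ∑ t : Fin n → Fin N,
        ∫ θs : Fin n → Inter p, DD Q (Wt (p := p) X n t) v (θs, hs)
          ∂(Measure.pi fun _ => μ) := by
  haveI : Nonempty (Fin N) := ⟨⟨0, hN⟩⟩
  have hcard : (Fintype.card (Fin n → Fin N) : ℝ) ≠ 0 := by
    exact_mod_cast Fintype.card_ne_zero
  have h1 : ∀ θs : Fin n → Inter p, (∫ y, ((Fintype.card (Fin n → Fin N) : ℝ)⁻¹ *
      ∑ t : Fin n → Fin N, Real.log (∑ a, v a * ∏ i, ∑ ε : Bool, Real.exp (hs i * spinVal ε +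
      ∑ j ∈ Finset.univ.filter (fun j => t j = i),
        siteMessage (θs j) (fun ℓ => xX X (y (j, ℓ)) a) ε)))
      ∂(Measure.pi fun _ : Fin n × Fin (p - 1) => Q)) =
      ((Fintype.card (Fin n → Fin N) : ℝ)⁻¹ *
      ∑ t : Fin n → Fin N, (DD Q (Wt (p := p) X n t) v (θs, hs) + Real.log (∑ a, v a))) := by
    intro θs
    rw [integral_const_mul]
    congr 1
    have h2 := integral_finsetSum (μ := Measure.pi fun _ : Fin n × Fin (p - 1) => Q)
      (Finset.univ : Finset (Fin n → Fin N))
      (f := fun t y => Real.log (∑ a, v a * Wt X n t (θs, hs) (fun ω => y ω a)))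
      (fun t _ => integrable_log_sum Q _ (Wt_meas hX n t) (Wt_pos X n t) (Wt_bd X n t) v hv _)
    refine h2.trans (Finset.sum_congr rfl fun t _ => ?_)
    unfold DD
    rw [sub_add_cancel]
  unfold Cpart
  simp only [h1]
  rw [integral_const_mul, integral_finsetSum (Finset.univ : Finset (Fin n → Fin N))
    (f := fun t (θs : Fin n → Inter p) => DD Q (Wt (p := p) X n t) v (θs, hs) +
      Real.log (∑ a, v a)) (fun t _ =>
    (integrable_DDθ hμ hX Q v hv n t hs).add (integrable_const (Real.log (∑ a, v a))))]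
  have h3 : ∀ t : Fin n → Fin N, ∫ θs : Fin n → Inter p,
      (DD Q (Wt (p := p) X n t) v (θs, hs) + Real.log (∑ a, v a)) ∂(Measure.pi fun _ => μ) =
      (∫ θs : Fin n → Inter p, DD Q (Wt (p := p) X n t) v (θs, hs) ∂(Measure.pi fun _ => μ)) +
        Real.log (∑ a, v a) := by
    intro t
    rw [integral_add (integrable_DDθ hμ hX Q v hv n t hs) (integrable_const _)]
    simp
  simp only [h3]
  rw [Finset.sum_add_distrib, Finset.sum_const, Finset.card_univ, nsmul_eq_mul, mul_add,
    ← mul_assoc, inv_mul_cancel₀ hcard, one_mul, add_sub_cancel_right]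

/-- the integrated site part. -/
noncomputable def Cint (X : (Fin (r + 1) → unitInterval) → ℝ)
    (μ : Measure (Inter p)) (N n : ℕ) : ℝ :=
  (Fintype.card (Fin n → Fin N) : ℝ)⁻¹ * ∑ t : Fin n → Fin N,
    ∫ z, treeF V Q (Wt (p := p) X n t z)
      ∂((Measure.pi fun _ : Fin n => μ).prod (Measure.pi fun _ : Fin N => ν))

include hμ hX hV hν in
theorem aInt_two (hN : 0 < N) (n : ℕ) :
    aInt hμ hN Q (xX X) (xX_meas hX) V ν 0 0 n = Cint ν Q V X μ N n := by
  unfold aInt Cint
  rw [integral_prod _ (integrable_aSeq hμ hN Q (xX X) (xX_meas hX) V hV ν hν 0 0 n)]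
  have h1 : ∀ᵐ v ∂V, (∫ hs : Fin N → ℝ, (aSeq hμ hN Q (xX X) (xX_meas hX) v hs 0 0 n -
      Real.log (∑ a, v a)) ∂(Measure.pi fun _ => ν)) =
      (Fintype.card (Fin n → Fin N) : ℝ)⁻¹ * ∑ t : Fin n → Fin N,
        ∫ z, DD Q (Wt (p := p) X n t) v z
          ∂((Measure.pi fun _ : Fin n => μ).prod (Measure.pi fun _ : Fin N => ν)) := by
    filter_upwards [hV] with v hv
    have h2 : ∀ hs : Fin N → ℝ, aSeq hμ hN Q (xX X) (xX_meas hX) v hs 0 0 n -
      Real.log (∑ a, v a) = (Fintype.card (Fin n → Fin N) : ℝ)⁻¹ * ∑ t : Fin n → Fin N,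
        ∫ θs : Fin n → Inter p, DD Q (Wt (p := p) X n t) v (θs, hs)
          ∂(Measure.pi fun _ => μ) := by
      intro hs
      rw [aSeq_two hμ hN Q (xX X) (xX_meas hX) v hv hs n]
      exact Cpart_sub hμ hX Q v hv hs hN n
    simp only [h2]
    rw [integral_const_mul, integral_finsetSum]
    · congr 1
      refine Finset.sum_congr rfl fun t _ => ?_
      exact (integral_prod_symm _ (integrable_DDz hμ ν hν hX Q v hv n t)).symm
    · intro t _
      exact (integrable_DDz hμ ν hν hX Q v hv n t).integral_prod_right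
  rw [integral_congr_ae h1, integral_const_mul, integral_finsetSum]
  · congr 1
    refine Finset.sum_congr rfl fun t _ => ?_
    exact integral_DD_swap Q _ (Wt_meas hX n t) (Wt_pos X n t) (Wt_bd X n t) V hV _
      (integrable_Bn hμ ν hν n)
  · intro t _
    exact (integrable_DD Q _ (Wt_meas hX n t) (Wt_pos X n t) (Wt_bd X n t) V hV _
      (integrable_Bn hμ ν hν n)).integral_prod_left

include hμ hX hV hν in
theorem aInt_zero (hN : 0 < N) (j k : ℕ) :
    aInt hμ hN Q (xX X) (xX_meas hX) V ν j k 0 = Red.lpInt p μ ν N j +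
      ∫ θs : Fin k → Inter p, treeF V Q (Wedge (p := p) X θs) ∂(Measure.pi fun _ => μ) := by
  have hV' : ∀ᵐ z ∂(V.prod (Measure.pi fun _ : Fin N => ν)), ∀ a, 0 < z.1 a :=
    Measure.quasiMeasurePreserving_fst.ae hV
  have hA := integrable_Apart hμ ν hν (N := N) j
  have hB := integrable_Bpart hμ hX Q V hV k
  have h1 : aInt hμ hN Q (xX X) (xX_meas hX) V ν j k 0 =
      ∫ z : (A → ℝ) × (Fin N → ℝ), (Apart p μ z.2 j +
        (Bpart p μ Q (xX X) z.1 k - Real.log (∑ a, z.1 a)))
        ∂(V.prod (Measure.pi fun _ : Fin N => ν)) := by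
    unfold aInt
    refine integral_congr_ae ?_
    filter_upwards [hV'] with z hz
    rw [aSeq_zero hμ hN Q (xX X) (xX_meas hX) z.1 hz z.2 j k]
    ring
  rw [h1, integral_add (hA.comp_snd V) (hB.comp_fst _), integral_fun_snd
    (μ := V) (ν := Measure.pi fun _ : Fin N => ν) (fun hs : Fin N → ℝ => Apart p μ hs j),
    integral_fun_fst (μ := V) (ν := Measure.pi fun _ : Fin N => ν)
      (fun v : A → ℝ => Bpart p μ Q (xX X) v k - Real.log (∑ a, v a)),
    integral_Apart hμ ν hν, integral_Bpart hμ hX Q V hV]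
  simp

include hμ hX hV hν in
/-- The tree inequality, for a finite tree. -/
theorem tree_ineq (hN : 0 < N) (hp : 1 ≤ p) (hKI : KIProp p μ) {α : ℝ} (hα : 0 ≤ α) :
    (∑' j, poissonWeight (α * N) j * Red.lpInt p μ ν N j) +
      (∑' k, poissonWeight (α * (p - 1) * N) k *
        ∫ θs : Fin k → Inter p, treeF V Q (Wedge (p := p) X θs) ∂(Measure.pi fun _ => μ)) ≤
    ∑' n, poissonWeight (α * p * N) n * Cint ν Q V X μ N n := by
  have hp0 : (1 : ℝ) ≤ p := by exact_mod_cast hp
  have hpp : (0 : ℝ) < p := by linarith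
  set c := ∫ θ, supNorm θ ∂μ with hc
  have hc0 : 0 ≤ c := integral_nonneg fun θ => Red.supNorm_nonneg θ
  have hx0 : 0 ≤ ∫ x, |x| ∂ν := integral_nonneg fun x => abs_nonneg x
  have hl2 : 0 ≤ Real.log 2 := Real.log_nonneg one_le_two
  have hNr : (0 : ℝ) ≤ N := Nat.cast_nonneg N
  set C := N * Real.log 2 + N * (∫ x, |x| ∂ν) + c with hC
  have hA : ∀ j : ℕ, |Red.lpInt p μ ν N j| ≤ C * (1 + j) := by
    intro j
    refine (Red.abs_lpInt_le μ ν hμ hν N j).trans ?_
    have hj : (0 : ℝ) ≤ j := Nat.cast_nonneg j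
    nlinarith [mul_nonneg hNr hl2, mul_nonneg hNr hx0, mul_nonneg (mul_nonneg hNr hl2) hj,
      mul_nonneg (mul_nonneg hNr hx0) hj]
  have hB : ∀ k : ℕ, |∫ θs : Fin k → Inter p, treeF V Q (Wedge (p := p) X θs)
      ∂(Measure.pi fun _ => μ)| ≤ C * (1 + k) := by
    intro k
    have h1 : |∫ θs : Fin k → Inter p, treeF V Q (Wedge (p := p) X θs)
        ∂(Measure.pi fun _ => μ)| ≤ ∫ θs : Fin k → Inter p, Bk k θs ∂(Measure.pi fun _ => μ) := by
      rw [← Real.norm_eq_abs]
      refine norm_integral_le_of_norm_le (integrable_Bk hμ k) (Eventually.of_forall fun θs => ?_)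
      exact abs_treeF_le Q _ (UBd.measurable_Wedge hX) (UBd.Wedge_pos X) (UBd.abs_log_Wedge_le X)
        V hV θs
    refine h1.trans ?_
    unfold Bk
    rw [Red.integral_sum_eval μ hμ, Fintype.card_fin]
    have hj : (0 : ℝ) ≤ k := Nat.cast_nonneg k
    nlinarith [mul_nonneg hNr hl2, mul_nonneg hNr hx0, mul_nonneg (mul_nonneg hNr hl2) hj,
      mul_nonneg (mul_nonneg hNr hx0) hj]
  have hD : ∀ n : ℕ, |aInt hμ hN Q (xX X) (xX_meas hX) V ν 0 0 n| ≤ C * (1 + n) := by
    intro n
    refine (aInt_bound hμ hN Q (xX X) (xX_meas hX) V hV ν hν 0 0 n).trans ?_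
    have hj : (0 : ℝ) ≤ n := Nat.cast_nonneg n
    push_cast
    nlinarith [mul_nonneg hNr hl2, mul_nonneg hNr hx0, mul_nonneg (mul_nonneg hNr hl2) hj,
      mul_nonneg (mul_nonneg hNr hx0) hj]
  have hfin := UPois.hybrid_poisson_add (lam := α * p * N) (q := 1 / (p : ℝ)) (C := C)
    (by positivity) (by positivity) (by rw [div_le_one hpp]; exact hp0)
    (fun j k l => aInt hμ hN Q (xX X) (xX_meas hX) V ν j k l)
    (aInt_step hμ hN Q (xX X) (xX_meas hX) V hV ν hν hp hKI)
    (aInt_zero hμ ν hν hX Q V hV hN) hA hB hD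
  have e1 : α * p * N * (1 / (p : ℝ)) = α * N := by field_simp
  have e2 : α * p * N * (1 - 1 / (p : ℝ)) = α * (p - 1) * N := by field_simp
  rw [e1, e2] at hfin
  refine hfin.trans (le_of_eq (tsum_congr fun n => ?_))
  rw [aInt_two hμ ν hν hX Q V hV hN]

end

end Crest.Agent.R141.U
end

-- ▼ part R141/USite

/-!
# Row 141, Part U: the two product identities `EdgeId` and `SiteId` (helper318)
-/

set_option autoImplicit false

namespace Crest.Agent.R141.USite

open MeasureTheory Crest.ProbabilityR.Diluted Crest.Agent.R141.RedT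

/-- Precomposition with an injective map preserves product probability measures. -/
theorem measurePreserving_comp_inj {ι κ E : Type*} [Fintype ι] [Fintype κ] [MeasurableSpace E]
    (μ : Measure E) [IsProbabilityMeasure μ] (g : κ → ι) (hg : Function.Injective g) :
    MeasurePreserving (fun (x : ι → E) (k : κ) => x (g k)) (Measure.pi fun _ : ι => μ)
      (Measure.pi fun _ : κ => μ) := by
  have hf : Measurable (fun (x : ι → E) (k : κ) => x (g k)) :=
    measurable_pi_lambda _ fun k => measurable_pi_apply (g k)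
  refine ⟨hf, ?_⟩
  symm
  refine Measure.pi_eq fun s hs => ?_
  rw [Measure.map_apply hf (MeasurableSet.univ_pi hs)]
  have hpre : (fun (x : ι → E) (k : κ) => x (g k)) ⁻¹' (Set.univ.pi s) =
      Set.univ.pi (Function.extend g s (fun _ => Set.univ)) := by
    ext x
    simp only [Set.mem_preimage, Set.mem_pi, Set.mem_univ, true_implies]
    constructor
    · intro h i
      by_cases hi : ∃ k, g k = i
      · obtain ⟨k, rfl⟩ := hi
        rw [hg.extend_apply]
        exact h k
      · rw [Function.extend_apply' _ _ _ hi]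
        exact Set.mem_univ _
    · intro h k
      have := h (g k)
      rwa [hg.extend_apply] at this
  rw [hpre, Measure.pi_pi]
  symm
  refine Fintype.prod_of_injective g hg _ _ ?_ ?_
  · intro i hi
    rw [Function.extend_apply' _ _ _ (by simpa using hi), measure_univ]
  · intro k
    rw [hg.extend_apply]

/-- reindexing of the labels in an integral of the nested power means -/
theorem integral_log_powerMeans_reindex {L L' : Type*} [Fintype L] [Fintype L'] (e : L ≃ L')
    {r : ℕ} (m : Fin r → ℝ) (W : (L → Fin (r + 1) → unitInterval) → ℝ) (hW : Measurable W) :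
    ∫ u, Real.log (powerMeans m (fun u' : L' → Fin (r + 1) → unitInterval =>
        W (fun ω => u' (e ω))) u) ∂(uniformArrays L' r) =
      ∫ u, Real.log (powerMeans m W u) ∂(uniformArrays L r) := by
  have hmp : MeasurePreserving
      (fun (x : L' → Fin (r + 1) → unitInterval) (k : L) => x (e k))
      (uniformArrays L' r) (uniformArrays L r) := by
    unfold uniformArrays
    exact measurePreserving_comp_inj _ e e.injective
  simp only [powerMeans_reindex e m W]
  have haes : AEStronglyMeasurable (fun u => Real.log (powerMeans m W u))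
      (Measure.map (fun (x : L' → Fin (r + 1) → unitInterval) (k : L) => x (e k))
        (uniformArrays L' r)) :=
    (measurable_powerMeans' hW).log.aestronglyMeasurable
  rw [← hmp.map_eq, integral_map hmp.measurable.aemeasurable haes]

section Edge

variable {p r : ℕ} {m : Fin r → ℝ} {X : (Fin (r + 1) → unitInterval) → ℝ}

theorem edge_pointwise (hm : ∀ d, 0 < m d) (hX : Measurable X) {K : ℕ} (θs : Fin K → Inter p) :
    ∫ u, Real.log (powerMeans m (Wedge (K := K) (p := p) X θs) u)
      ∂(uniformArrays (Fin K × Fin p) r) = ∑ j, edgeInner p r m X (θs j) := by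
  have hmeas : ∀ j, Measurable (fun u : Fin p → Fin (r + 1) → unitInterval =>
      edgeTerm (θs j) (fun ℓ => X (u ℓ))) := fun j => measurable_edgeTerm_X hX (θs j)
  have hb := fun (j : Fin K) (u : Fin p → Fin (r + 1) → unitInterval) =>
    edgeTerm_bounds (θs j) (fun ℓ => X (u ℓ))
  have h1 := integral_log_powerMeans_sigma_prod (κ := fun _ : Fin K => Fin p) m
    (fun j u => edgeTerm (θs j) (fun ℓ => X (u ℓ)))
    (fun j u => (Real.exp_pos _).le.trans (hb j u).1)
    (fun j u => (Real.exp_pos _).trans_le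
      (le_powerMeans hm (Real.exp_pos _) (hmeas j) (fun u => (hb j u).1) (fun u => (hb j u).2) u))
    (fun j => integrable_log_powerMeans hm (Real.exp_pos _) (hmeas j)
      (fun u => (hb j u).1) (fun u => (hb j u).2))
  have hW : Measurable (fun u : ((j : Fin K) × Fin p) → Fin (r + 1) → unitInterval =>
      ∏ j, edgeTerm (θs j) (fun ℓ => X (u ⟨j, ℓ⟩))) := by
    refine Finset.measurable_prod _ fun j _ => ?_
    exact (hmeas j).comp (measurable_pi_lambda _ fun ℓ => measurable_pi_apply (⟨j, ℓ⟩ :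
      (j : Fin K) × Fin p))
  have h2 := integral_log_powerMeans_reindex (Equiv.sigmaEquivProd (Fin K) (Fin p)) m
    (fun u : ((j : Fin K) × Fin p) → Fin (r + 1) → unitInterval =>
      ∏ j, edgeTerm (θs j) (fun ℓ => X (u ⟨j, ℓ⟩))) hW
  rw [h1] at h2
  exact h2

/-- **EdgeId.** -/
theorem edgeId {μ : Measure (Inter p)} [IsProbabilityMeasure μ]
    (hμ : Integrable (fun θ => supNorm θ) μ) (hm : ∀ d, 0 < m d) (hX : Measurable X) :
    EdgeId p μ r m X := by
  intro K
  simp only [edge_pointwise hm hX]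
  rw [integral_sum_comp_eval (integrable_edgeInner hm hX hμ)]
  rfl

end Edge

section Site

variable {p r : ℕ} {m : Fin r → ℝ} {X : (Fin (r + 1) → unitInterval) → ℝ}

/-- enumeration of the events at the site `i` -/
noncomputable def ev {M N : ℕ} (t : Fin M → Fin N) (i : Fin N) :
    Fin (Fintype.card {j // t j = i}) ≃ {j // t j = i} :=
  (Fintype.equivFin {j // t j = i}).symm

/-- the labels grouped by sites -/
noncomputable def groupEquiv (q : ℕ) {M N : ℕ} (t : Fin M → Fin N) :
    ((i : Fin N) × (Fin (Fintype.card {j // t j = i}) × Fin q)) ≃ Fin M × Fin q :=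
  (Equiv.sigmaCongrRight fun i => (ev t i).prodCongr (Equiv.refl (Fin q))).trans
    ((Equiv.sigmaProdDistrib (fun i => {j // t j = i}) (Fin q)).symm.trans
      ((Equiv.sigmaFiberEquiv t).prodCongr (Equiv.refl (Fin q))))

theorem groupEquiv_apply (q : ℕ) {M N : ℕ} (t : Fin M → Fin N) (i : Fin N)
    (k : Fin (Fintype.card {j // t j = i})) (ℓ : Fin q) :
    groupEquiv q t ⟨i, (k, ℓ)⟩ = ((ev t i k).1, ℓ) := rfl

theorem sum_filter_eq {M N : ℕ} (t : Fin M → Fin N) (i : Fin N) (f : Fin M → ℝ) :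
    ∑ j ∈ Finset.univ.filter (fun j => t j = i), f j =
      ∑ k : Fin (Fintype.card {j // t j = i}), f (ev t i k).1 := by
  rw [(ev t i).sum_comp (fun j : {j // t j = i} => f j.1)]
  exact Finset.sum_subtype _ (fun x => by simp) f

theorem Wsite_eq {M N : ℕ} (hs : Fin N → ℝ) (θs : Fin M → Inter p) (t : Fin M → Fin N)
    (u : Fin M × Fin (p - 1) → Fin (r + 1) → unitInterval) :
    Wsite X hs θs t u = ∏ i, (2 * siteTerm (hs i) (fun k => θs (ev t i k).1)
      (fun k ℓ => X (u (groupEquiv (p - 1) t ⟨i, (k, ℓ)⟩)))) := by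
  unfold Wsite
  refine Finset.prod_congr rfl fun i _ => ?_
  unfold siteTerm
  rw [← mul_assoc]
  norm_num
  simp only [groupEquiv_apply, sum_filter_eq]

theorem sigma_two_mul (hm : ∀ d, 0 < m d) {ι : Type*} [Fintype ι] {κ : ι → Type*}
    [∀ i, Fintype (κ i)] (V : (i : ι) → (κ i → Fin (r + 1) → unitInterval) → ℝ)
    (hV : ∀ i, Measurable (V i)) (a b : ι → ℝ) (ha : ∀ i, 0 < a i) (hVa : ∀ i u, a i ≤ V i u)
    (hVb : ∀ i u, V i u ≤ b i) :
    ∫ u, Real.log (powerMeans m (fun u => ∏ i, (2 * V i (fun j => u ⟨i, j⟩))) u)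
      ∂(uniformArrays ((i : ι) × κ i) r) =
      ∑ i, (Real.log 2 + ∫ u, Real.log (powerMeans m (V i) u) ∂(uniformArrays (κ i) r)) := by
  have hc : ∀ i u, powerMeans m (fun u => 2 * V i u) u = 2 * powerMeans m (V i) u :=
    fun i u => powerMeans_const_mul hm (ha i) two_pos (hV i) (hVa i) (hVb i) u
  have hpos : ∀ i u, 0 < powerMeans m (V i) u :=
    fun i u => (ha i).trans_le (le_powerMeans hm (ha i) (hV i) (hVa i) (hVb i) u)
  have hint : ∀ i, Integrable (fun u => Real.log (powerMeans m (V i) u))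
      (uniformArrays (κ i) r) :=
    fun i => integrable_log_powerMeans hm (ha i) (hV i) (hVa i) (hVb i)
  have hlog : ∀ i u, Real.log (powerMeans m (fun u => 2 * V i u) u) =
      Real.log 2 + Real.log (powerMeans m (V i) u) := by
    intro i u
    rw [hc, Real.log_mul two_ne_zero (hpos i u).ne']
  have h1 := integral_log_powerMeans_sigma_prod m (fun i u => 2 * V i u)
    (fun i u => mul_nonneg two_pos.le ((ha i).le.trans (hVa i u)))
    (fun i u => by rw [hc]; exact mul_pos two_pos (hpos i u))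
    (fun i => by simp only [hlog]; exact (integrable_const _).add (hint i))
  rw [h1]
  refine Finset.sum_congr rfl fun i _ => ?_
  simp only [hlog]
  rw [integral_add (integrable_const _) (hint i)]
  simp only [integral_const, probReal_univ, smul_eq_mul, one_mul]

theorem sigma_two_mul_reindex (hm : ∀ d, 0 < m d) {ι : Type*} [Fintype ι] {κ : ι → Type*}
    [∀ i, Fintype (κ i)] {L' : Type*} [Fintype L'] (e : ((i : ι) × κ i) ≃ L')
    (V : (i : ι) → (κ i → Fin (r + 1) → unitInterval) → ℝ)
    (hV : ∀ i, Measurable (V i)) (a b : ι → ℝ) (ha : ∀ i, 0 < a i) (hVa : ∀ i u, a i ≤ V i u)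
    (hVb : ∀ i u, V i u ≤ b i) :
    ∫ u, Real.log (powerMeans m (fun u : L' → Fin (r + 1) → unitInterval =>
      ∏ i, (2 * V i (fun j => u (e ⟨i, j⟩)))) u) ∂(uniformArrays L' r) =
      ∑ i, (Real.log 2 + ∫ u, Real.log (powerMeans m (V i) u) ∂(uniformArrays (κ i) r)) := by
  rw [← sigma_two_mul hm V hV a b ha hVa hVb]
  have hW : Measurable (fun u : ((i : ι) × κ i) → Fin (r + 1) → unitInterval =>
      ∏ i, (2 * V i (fun j => u ⟨i, j⟩))) := by
    refine Finset.measurable_prod _ fun i _ => ?_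
    refine Measurable.const_mul ?_ 2
    exact (hV i).comp (measurable_pi_lambda _ fun z => measurable_pi_apply _)
  exact integral_log_powerMeans_reindex e m _ hW

theorem site_pointwise (hm : ∀ d, 0 < m d) (hX : Measurable X) {M N : ℕ} (hs : Fin N → ℝ)
    (θs : Fin M → Inter p) (t : Fin M → Fin N) :
    ∫ u, Real.log (powerMeans m (Wsite X hs θs t) u)
      ∂(uniformArrays (Fin M × Fin (p - 1)) r) =
      ∑ i, (Real.log 2 + siteInner p (Fintype.card {j // t j = i}) r m X
        (fun k => θs (ev t i k).1) (hs i)) := by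
  have h1 := sigma_two_mul_reindex hm (κ := fun i : Fin N => Fin (Fintype.card {j // t j = i}) ×
      Fin (p - 1)) (groupEquiv (p - 1) t)
    (fun i u => siteTerm (hs i) (fun k => θs (ev t i k).1) (fun k ℓ => X (u (k, ℓ))))
    (fun i => measurable_siteTerm_X hX (hs i) _)
    _ _ (fun i => Real.exp_pos _)
    (fun i u => (siteTerm_bounds (hs i) (fun k => θs (ev t i k).1)
      (fun k ℓ => X (u (k, ℓ)))).1)
    (fun i u => (siteTerm_bounds (hs i) (fun k => θs (ev t i k).1)
      (fun k ℓ => X (u (k, ℓ)))).2)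
  have h3 : (fun u' : Fin M × Fin (p - 1) → Fin (r + 1) → unitInterval =>
      ∏ i, (2 * siteTerm (hs i) (fun k => θs (ev t i k).1)
        (fun k ℓ => X (u' (groupEquiv (p - 1) t ⟨i, (k, ℓ)⟩))))) = Wsite X hs θs t := by
    funext u'
    rw [Wsite_eq]
  rw [← h3]
  exact h1

/-- **SiteId.** -/
theorem siteId {μ : Measure (Inter p)} {ν : Measure ℝ} [IsProbabilityMeasure μ]
    [IsProbabilityMeasure ν] (hμ : Integrable (fun θ => supNorm θ) μ)
    (hν : Integrable (fun x : ℝ => x) ν) (hm : ∀ d, 0 < m d) (hX : Measurable X) :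
    SiteId p μ ν r m X := by
  intro N M t
  simp only [site_pointwise hm hX]
  have hG : ∀ i : Fin N, LipG (siteInner p (Fintype.card {j // t j = i}) r m X) :=
    fun i => lipG_siteInner hm hX
  have hinj : ∀ i : Fin N, Function.Injective
      (fun k : Fin (Fintype.card {j // t j = i}) => (ev t i k).1) := fun i =>
    Subtype.val_injective.comp (ev t i).injective
  have hmp := fun i : Fin N => measurePreserving_comp_inj (E := Inter p) μ _ (hinj i)
  have hint1 : ∀ (θs : Fin M → Inter p) (i : Fin N), Integrable (fun hs : Fin N → ℝ =>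
      siteInner p (Fintype.card {j // t j = i}) r m X (fun k => θs (ev t i k).1) (hs i))
      (Measure.pi fun _ : Fin N => ν) := fun θs i =>
    integrable_comp_eval (i := i) ((hG i).integrable_right hν (fun k => θs (ev t i k).1))
  have hstep1 : ∀ θs : Fin M → Inter p, ∫ hs : Fin N → ℝ, ∑ i, (Real.log 2 +
      siteInner p (Fintype.card {j // t j = i}) r m X (fun k => θs (ev t i k).1) (hs i))
      ∂(Measure.pi fun _ : Fin N => ν) = ∑ i : Fin N, (Real.log 2 +
      ∫ h, siteInner p (Fintype.card {j // t j = i}) r m X (fun k => θs (ev t i k).1) h ∂ν) := by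
    intro θs
    rw [integral_finsetSum]
    swap
    · intro i _
      exact (integrable_const _).add (hint1 θs i)
    refine Finset.sum_congr rfl fun i _ => ?_
    rw [integral_add (integrable_const _) (hint1 θs i)]
    simp only [integral_const, probReal_univ, smul_eq_mul, one_mul]
    rw [integral_comp_eval (μ := fun _ : Fin N => ν) (i := i)
      ((hG i).integrable_right hν (fun k => θs (ev t i k).1)).aestronglyMeasurable]
  simp only [hstep1]
  have hint2 : ∀ i : Fin N, Integrable (fun θs : Fin M → Inter p =>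
      ∫ h, siteInner p (Fintype.card {j // t j = i}) r m X (fun k => θs (ev t i k).1) h ∂ν)
      (Measure.pi fun _ : Fin M => μ) := fun i =>
    (hmp i).integrable_comp_of_integrable ((hG i).integrable_integral hμ hν)
  rw [integral_finsetSum]
  swap
  · intro i _
    exact (integrable_const _).add (hint2 i)
  refine Finset.sum_congr rfl fun i _ => ?_
  rw [integral_add (integrable_const _) (hint2 i)]
  simp only [integral_const, probReal_univ, smul_eq_mul, one_mul]
  unfold sitePhi
  congr 1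
  have haes : AEStronglyMeasurable (fun θs : Fin (Fintype.card {j // t j = i}) → Inter p =>
      ∫ h, siteInner p (Fintype.card {j // t j = i}) r m X θs h ∂ν)
      (Measure.map (fun (x : Fin M → Inter p) (k : Fin (Fintype.card {j // t j = i})) =>
        x (ev t i k).1) (Measure.pi fun _ : Fin M => μ)) := by
    rw [(hmp i).map_eq]
    exact ((hG i).integrable_integral hμ hν).aestronglyMeasurable
  have := integral_map (hmp i).measurable.aemeasurable haes
  rw [(hmp i).map_eq] at this
  rw [← this]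
  rfl

end Site

end Crest.Agent.R141.USite
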