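import Crest.Agent.R141.USite_Mg
import Crest.Agent.R141.KI
import Mathlib
import Crest.Agent.R141.UDefs

-- ▼ part R141/ULim
section

/-!
R141, Part U: the limit of large trees and the upper bound.
-/

set_option autoImplicit false

namespace Crest.Agent.R141.U

open MeasureTheory Filter Topology Crest.ProbabilityR.Diluted
open scoped NNReal ENNReal

theorem Wedge_meas {p k r : ℕ} {X : (Fin (r + 1) → unitInterval) → ℝ} (hX : Measurable X)
    (θs : Fin k → Inter p) : Measurable (fun u : Fin k × Fin p → Fin (r + 1) → unitInterval =>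
      Wedge (p := p) X θs u) := by
  have h1 := UBd.measurable_Wedge (p := p) (K := k) hX
  have h2 : Measurable (fun u : Fin k × Fin p → Fin (r + 1) → unitInterval => (θs, u)) :=
    measurable_prodMk_left
  have h3 := h1.comp h2
  exact h3

theorem Wt_meas_u {p n N r : ℕ} {X : (Fin (r + 1) → unitInterval) → ℝ} (hX : Measurable X)
    (t : Fin n → Fin N) (z : (Fin n → Inter p) × (Fin N → ℝ)) :
    Measurable (fun u : Fin n × Fin (p - 1) → Fin (r + 1) → unitInterval =>
      Wt (p := p) X n t z u) := by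
  have h1 := Wt_meas (p := p) hX n t
  have h2 : Measurable (fun u : Fin n × Fin (p - 1) → Fin (r + 1) → unitInterval => (z, u)) :=
    measurable_prodMk_left
  have h3 := h1.comp h2
  exact h3

theorem Wedge_mem {p k r : ℕ} (X : (Fin (r + 1) → unitInterval) → ℝ) (θs : Fin k → Inter p)
    (u : Fin k × Fin p → Fin (r + 1) → unitInterval) :
    Real.exp (-Bk k θs) ≤ Wedge (p := p) X θs u ∧ Wedge (p := p) X θs u ≤ Real.exp (Bk k θs) := by
  have h1 : |Real.log (Wedge (p := p) X θs u)| ≤ Bk k θs := UBd.abs_log_Wedge_le X θs u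
  have h2 : 0 < Wedge (p := p) X θs u := UBd.Wedge_pos X θs u
  exact UBd.exp_neg_le_of_abs_log_le h2 h1

theorem Wt_mem {p n N r : ℕ} (X : (Fin (r + 1) → unitInterval) → ℝ) (t : Fin n → Fin N)
    (z : (Fin n → Inter p) × (Fin N → ℝ))
    (u : Fin n × Fin (p - 1) → Fin (r + 1) → unitInterval) :
    Real.exp (-Bn N n z) ≤ Wt (p := p) X n t z u ∧
      Wt (p := p) X n t z u ≤ Real.exp (Bn N n z) := by
  have h1 : |Real.log (Wt (p := p) X n t z u)| ≤ Bn N n z := Wt_bd X n t z u
  have h2 : 0 < Wt (p := p) X n t z u := Wt_pos X n t z u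
  exact UBd.exp_neg_le_of_abs_log_le h2 h1

section

variable {p : ℕ} {μ : Measure (Inter p)} [IsProbabilityMeasure μ]
  (hμ : Integrable (fun θ => supNorm θ) μ)
  (ν : Measure ℝ) [IsProbabilityMeasure ν] (hν : Integrable (fun x : ℝ => x) ν)
  {N r : ℕ} {m : Fin r → ℝ} {X : (Fin (r + 1) → unitInterval) → ℝ} (hX : Measurable X)

include hμ hX in
theorem iter_edge (hm : ∀ d, 0 < m d)
    {Leaf : (Fin r → ℕ) → Type} [∀ K, Fintype (Leaf K)]
    (V : ∀ K, Measure (Leaf K → ℝ))
    (Q : ∀ K, Measure (Leaf K → Fin (r + 1) → unitInterval))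
    (hVQ : ∀ K : Fin r → ℕ, (∀ i, 0 < K i) → Nonempty (Leaf K) ∧ IsProbabilityMeasure (V K) ∧
      IsProbabilityMeasure (Q K) ∧ ∀ᵐ v ∂(V K), ∀ a, 0 < v a)
    (hlim : ∀ (L : Type) [Fintype L] (W : (L → Fin (r + 1) → unitInterval) → ℝ), Measurable W →
      ∀ c C : ℝ, 0 < c → (∀ u, c ≤ W u) → (∀ u, W u ≤ C) →
        IterTendsto r (fun K => treeF (V K) (Q K) W)
          (∫ u, Real.log (powerMeans m W u) ∂(uniformArrays L r))) (k : ℕ) :
    IterTendsto r (fun K => ∫ θs : Fin k → Inter p, treeF (V K) (Q K) (Wedge (p := p) X θs)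
      ∂(Measure.pi fun _ => μ)) (k * edgeFun p μ r m X) := by
  rw [← USite.edgeId hμ hm hX k]
  refine IterTendsto.integral (B := fun θs => Bk k θs) ?_ (integrable_Bk hμ k) ?_ ?_
  · intro K hK
    obtain ⟨h1, h2, h3, h4⟩ := hVQ K hK
    exact (measurable_treeF (Q K) _ (UBd.measurable_Wedge hX) (V K)).aestronglyMeasurable
  · intro K hK
    obtain ⟨h1, h2, h3, h4⟩ := hVQ K hK
    exact Eventually.of_forall fun θs => abs_treeF_le (Q K) _ (UBd.measurable_Wedge hX)
      (UBd.Wedge_pos X) (UBd.abs_log_Wedge_le X) (V K) h4 θs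
  · refine Eventually.of_forall fun θs => ?_
    have hm1 := Wedge_meas (p := p) hX θs
    have hm2 := Wedge_mem (p := p) X θs
    exact hlim (Fin k × Fin p) (fun u => Wedge (p := p) X θs u) hm1 (Real.exp (-Bk k θs))
      (Real.exp (Bk k θs)) (Real.exp_pos _) (fun u => (hm2 u).1) (fun u => (hm2 u).2)

include hμ hν hX in
theorem iter_site (hm : ∀ d, 0 < m d)
    {Leaf : (Fin r → ℕ) → Type} [∀ K, Fintype (Leaf K)]
    (V : ∀ K, Measure (Leaf K → ℝ))
    (Q : ∀ K, Measure (Leaf K → Fin (r + 1) → unitInterval))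
    (hVQ : ∀ K : Fin r → ℕ, (∀ i, 0 < K i) → Nonempty (Leaf K) ∧ IsProbabilityMeasure (V K) ∧
      IsProbabilityMeasure (Q K) ∧ ∀ᵐ v ∂(V K), ∀ a, 0 < v a)
    (hlim : ∀ (L : Type) [Fintype L] (W : (L → Fin (r + 1) → unitInterval) → ℝ), Measurable W →
      ∀ c C : ℝ, 0 < c → (∀ u, c ≤ W u) → (∀ u, W u ≤ C) →
        IterTendsto r (fun K => treeF (V K) (Q K) W)
          (∫ u, Real.log (powerMeans m W u) ∂(uniformArrays L r))) (n : ℕ) :
    IterTendsto r (fun K => Cint ν (Q K) (V K) X μ N n)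
      ((Fintype.card (Fin n → Fin N) : ℝ)⁻¹ * ∑ t : Fin n → Fin N,
        ∑ i : Fin N, sitePhi p μ ν r m X (Fintype.card {j // t j = i})) := by
  unfold Cint
  refine IterTendsto.const_mul _ (IterTendsto.finset_sum _ fun t _ => ?_)
  have hmeas : Measurable (fun z : (Fin n → Inter p) × (Fin N → ℝ) =>
      ∫ u, Real.log (powerMeans m (Wt (p := p) X n t z) u)
        ∂(uniformArrays (Fin n × Fin (p - 1)) r)) :=
    UBd.measurable_integral_log_powerMeans (Wt_meas hX n t)
  have hbd : ∀ z : (Fin n → Inter p) × (Fin N → ℝ),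
      |∫ u, Real.log (powerMeans m (Wt (p := p) X n t z) u)
        ∂(uniformArrays (Fin n × Fin (p - 1)) r)| ≤ Bn N n z := fun z =>
    UBd.abs_integral_log_powerMeans_le hm (Wt_meas_u hX t z) (Wt_pos X n t z) (Wt_bd X n t z)
  have h1 : ∑ i : Fin N, sitePhi p μ ν r m X (Fintype.card {j // t j = i}) =
      ∫ z, ∫ u, Real.log (powerMeans m (Wt (p := p) X n t z) u)
        ∂(uniformArrays (Fin n × Fin (p - 1)) r)
        ∂((Measure.pi fun _ : Fin n => μ).prod (Measure.pi fun _ : Fin N => ν)) := by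
    rw [← USite.siteId hμ hν hm hX N n t, integral_prod]
    · rfl
    · exact Integrable.mono' (integrable_Bn hμ ν hν n) hmeas.aestronglyMeasurable
        (Eventually.of_forall fun z => by rw [Real.norm_eq_abs]; exact hbd z)
  rw [h1]
  refine IterTendsto.integral (B := fun z => Bn N n z) ?_ (integrable_Bn hμ ν hν n) ?_ ?_
  · intro K hK
    obtain ⟨h1, h2, h3, h4⟩ := hVQ K hK
    exact (measurable_treeF (Q K) _ (Wt_meas hX n t) (V K)).aestronglyMeasurable
  · intro K hK
    obtain ⟨h1, h2, h3, h4⟩ := hVQ K hK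
    exact Eventually.of_forall fun z => abs_treeF_le (Q K) _ (Wt_meas hX n t)
      (Wt_pos X n t) (Wt_bd X n t) (V K) h4 z
  · refine Eventually.of_forall fun z => ?_
    have hm1 := Wt_meas_u (p := p) hX t z
    have hm2 := Wt_mem (p := p) X t z
    exact hlim (Fin n × Fin (p - 1)) (fun u => Wt (p := p) X n t z u) hm1
      (Real.exp (-Bn N n z)) (Real.exp (Bn N n z)) (Real.exp_pos _)
      (fun u => (hm2 u).1) (fun u => (hm2 u).2)

include hμ hν in
theorem integral_Bn (n : ℕ) : ∫ z, Bn (p := p) N n z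
    ∂((Measure.pi fun _ : Fin n => μ).prod (Measure.pi fun _ : Fin N => ν)) =
    N * Real.log 2 + (N * (∫ x, |x| ∂ν) + n * ∫ θ, supNorm θ ∂μ) := by
  have h1 : Integrable (fun z : (Fin n → Inter p) × (Fin N → ℝ) => ∑ i, |z.2 i|)
      ((Measure.pi fun _ : Fin n => μ).prod (Measure.pi fun _ : Fin N => ν)) :=
    (Red.integrable_sum_eval ν hν.abs).comp_snd _
  have h2 : Integrable (fun z : (Fin n → Inter p) × (Fin N → ℝ) => ∑ j, supNorm (z.1 j))
      ((Measure.pi fun _ : Fin n => μ).prod (Measure.pi fun _ : Fin N => ν)) :=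
    (Red.integrable_sum_eval μ hμ).comp_fst _
  unfold Bn
  have h3 : Integrable (fun z : (Fin n → Inter p) × (Fin N → ℝ) =>
      (∑ i, |z.2 i|) + ∑ j, supNorm (z.1 j))
      ((Measure.pi fun _ : Fin n => μ).prod (Measure.pi fun _ : Fin N => ν)) := h1.add h2
  rw [integral_add (integrable_const _) h3, integral_add h1 h2,
    integral_fun_snd (μ := Measure.pi fun _ : Fin n => μ) (ν := Measure.pi fun _ : Fin N => ν)
      (fun h : Fin N → ℝ => ∑ i, |h i|),
    integral_fun_fst (μ := Measure.pi fun _ : Fin n => μ) (ν := Measure.pi fun _ : Fin N => ν)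
      (fun θs : Fin n → Inter p => ∑ j, supNorm (θs j)),
    Red.integral_sum_eval ν hν.abs, Red.integral_sum_eval μ hμ]
  simp

include hμ hν hX in
theorem abs_Cint_le {A : Type} [Fintype A] [Nonempty A]
    (Q : Measure (A → Fin (r + 1) → unitInterval)) [IsProbabilityMeasure Q]
    (V : Measure (A → ℝ)) [IsProbabilityMeasure V] (hV : ∀ᵐ v ∂V, ∀ a, 0 < v a) (n : ℕ) :
    |Cint ν Q V X μ N n| ≤ N * Real.log 2 + (N * (∫ x, |x| ∂ν) + n * ∫ θ, supNorm θ ∂μ) := by
  unfold Cint
  refine Red.abs_avg_le _ ?_ fun t => ?_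
  · have h1 : 0 ≤ ∫ θ, supNorm θ ∂μ := integral_nonneg fun θ => Red.supNorm_nonneg θ
    have h2 : 0 ≤ ∫ x, |x| ∂ν := integral_nonneg fun x => abs_nonneg x
    have h3 : 0 ≤ Real.log 2 := Real.log_nonneg one_le_two
    positivity
  · rw [← integral_Bn hμ ν hν n, ← Real.norm_eq_abs]
    refine norm_integral_le_of_norm_le (integrable_Bn hμ ν hν n) (Eventually.of_forall fun z => ?_)
    exact abs_treeF_le Q _ (Wt_meas hX n t) (Wt_pos X n t) (Wt_bd X n t) V hV z

include hμ hν hX in
/-- **Upper bound** from the tree limit. -/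
theorem pressure_le_of_tree (hp : 1 ≤ p) (hN : 1 ≤ N) (hKI : KIProp p μ) {α : ℝ} (hα : 0 ≤ α)
    (hm : ∀ d, 0 < m d) (hT : TreeLimit m) :
    pressure p α μ ν N ≤ trialFunctional p α μ ν r m X := by
  obtain ⟨Leaf, instF, V, Q, hVQ, hlim⟩ := hT
  have hN0 : 0 < N := hN
  have hNr : (0 : ℝ) < N := by exact_mod_cast hN0
  have hp0 : (1 : ℝ) ≤ p := by exact_mod_cast hp
  set c := ∫ θ, supNorm θ ∂μ with hc
  have hc0 : 0 ≤ c := integral_nonneg fun θ => Red.supNorm_nonneg θ
  have hx0 : 0 ≤ ∫ x, |x| ∂ν := integral_nonneg fun x => abs_nonneg x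
  have hl2 : 0 ≤ Real.log 2 := Real.log_nonneg one_le_two
  have hlam3 : 0 ≤ α * (p - 1) * N := mul_nonneg (mul_nonneg hα (by linarith)) hNr.le
  have hlam2 : 0 ≤ α * p * N := by positivity
  -- left side
  have hL : IterTendsto r (fun K => (∑' j, poissonWeight (α * N) j * Red.lpInt p μ ν N j) +
      (∑' k, poissonWeight (α * (p - 1) * N) k *
        ∫ θs : Fin k → Inter p, treeF (V K) (Q K) (Wedge (p := p) X θs)
          ∂(Measure.pi fun _ => μ)))
      ((∑' j, poissonWeight (α * N) j * Red.lpInt p μ ν N j) +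
        ∑' k, poissonWeight (α * (p - 1) * N) k * (k * edgeFun p μ r m X)) := by
    refine (IterTendsto.const r _).add ?_
    refine IterTendsto.tsum (B := fun k => poissonWeight (α * (p - 1) * N) k * (k * c)) ?_ ?_ ?_
    · refine UPois.summable_poissonWeight_mul (C := c) hlam3 fun k => ?_
      have hk : (0 : ℝ) ≤ k := Nat.cast_nonneg k
      rw [abs_of_nonneg (mul_nonneg hk hc0)]
      nlinarith
    · intro K hK k
      obtain ⟨h1, h2, h3, h4⟩ := hVQ K hK
      rw [abs_mul, abs_of_nonneg (UPois.poissonWeight_nonneg hlam3 k)]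
      refine mul_le_mul_of_nonneg_left ?_ (UPois.poissonWeight_nonneg hlam3 k)
      have h5 : |∫ θs : Fin k → Inter p, treeF (V K) (Q K) (Wedge (p := p) X θs)
          ∂(Measure.pi fun _ => μ)| ≤ ∫ θs : Fin k → Inter p, Bk k θs
            ∂(Measure.pi fun _ => μ) := by
        rw [← Real.norm_eq_abs]
        refine norm_integral_le_of_norm_le (integrable_Bk hμ k) (Eventually.of_forall fun θs => ?_)
        exact abs_treeF_le (Q K) _ (UBd.measurable_Wedge hX) (UBd.Wedge_pos X)
          (UBd.abs_log_Wedge_le X) (V K) h4 θs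
      refine h5.trans (le_of_eq ?_)
      unfold Bk
      rw [Red.integral_sum_eval μ hμ, Fintype.card_fin]
    · intro k
      exact (iter_edge hμ hX hm V Q hVQ hlim k).const_mul _
  -- right side
  have hR : IterTendsto r (fun K => ∑' n, poissonWeight (α * p * N) n *
      Cint ν (Q K) (V K) X μ N n)
      (∑' n, poissonWeight (α * p * N) n * ((Fintype.card (Fin n → Fin N) : ℝ)⁻¹ *
        ∑ t : Fin n → Fin N, ∑ i : Fin N,
          sitePhi p μ ν r m X (Fintype.card {j // t j = i}))) := by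
    refine IterTendsto.tsum (B := fun n => poissonWeight (α * p * N) n *
      (N * Real.log 2 + (N * (∫ x, |x| ∂ν) + n * c))) ?_ ?_ ?_
    · refine UPois.summable_poissonWeight_mul
        (C := N * Real.log 2 + N * (∫ x, |x| ∂ν) + c) hlam2 fun n => ?_
      have hk : (0 : ℝ) ≤ n := Nat.cast_nonneg n
      have e1 := mul_nonneg hNr.le hl2
      have e2 := mul_nonneg hNr.le hx0
      rw [abs_of_nonneg (by positivity)]
      nlinarith [mul_nonneg e1 hk, mul_nonneg e2 hk]
    · intro K hK n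
      obtain ⟨h1, h2, h3, h4⟩ := hVQ K hK
      rw [abs_mul, abs_of_nonneg (UPois.poissonWeight_nonneg hlam2 n)]
      exact mul_le_mul_of_nonneg_left (abs_Cint_le hμ ν hν hX (Q K) (V K) h4 n)
        (UPois.poissonWeight_nonneg hlam2 n)
    · intro n
      exact (iter_site hμ ν hν hX hm V Q hVQ hlim n).const_mul _
  have hle := hL.le hR (fun K hK => by
    obtain ⟨h1, h2, h3, h4⟩ := hVQ K hK
    exact tree_ineq hμ ν hν hX (Q K) (V K) h4 hN0 hp hKI hα)
  -- evaluate
  have e1 : ∑' k : ℕ, poissonWeight (α * (p - 1) * N) k * (k * edgeFun p μ r m X) =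
      α * (p - 1) * N * edgeFun p μ r m X := by
    have : ∀ k : ℕ, poissonWeight (α * (p - 1) * N) k * (k * edgeFun p μ r m X) =
        (poissonWeight (α * (p - 1) * N) k * k) * edgeFun p μ r m X := fun k => by ring
    simp only [this]
    rw [tsum_mul_right, UPois.tsum_poissonWeight_mul_id]
  have hphi : ∀ k : ℕ, |sitePhi p μ ν r m X k| ≤
      (Real.log 2 + (∫ x, |x| ∂ν) + c) * (1 + k) := by
    intro k
    have h1 := RedT.abs_siteTermFun_le (p := p) hm hX hμ hν k
    have h2 : |sitePhi p μ ν r m X k| ≤ Real.log 2 + ((∫ h, |h| ∂ν) + k * ∫ θ, supNorm θ ∂μ) := by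
      unfold sitePhi
      refine (abs_add_le _ _).trans (add_le_add (le_of_eq (abs_of_nonneg hl2)) h1)
    have hk : (0 : ℝ) ≤ k := Nat.cast_nonneg k
    nlinarith [mul_nonneg hl2 hk, mul_nonneg hx0 hk]
  have e2 : ∑' n, poissonWeight (α * p * N) n * ((Fintype.card (Fin n → Fin N) : ℝ)⁻¹ *
        ∑ t : Fin n → Fin N, ∑ i : Fin N,
          sitePhi p μ ν r m X (Fintype.card {j // t j = i})) =
      N * ∑' k, poissonWeight (α * p) k * sitePhi p μ ν r m X k := by
    rw [← UPois.poisson_split (lam := α * p) (by positivity) hN hphi]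
    refine tsum_congr fun n => ?_
    rw [Fintype.card_fun, Fintype.card_fin, Fintype.card_fin]
    push_cast
    rfl
  have e3 : ∑' k, poissonWeight (α * p) k * sitePhi p μ ν r m X k =
      Real.log 2 + siteFun p (α * p) μ ν r m X := by
    have h1 : ∀ k : ℕ, poissonWeight (α * p) k * sitePhi p μ ν r m X k =
        poissonWeight (α * p) k * Real.log 2 + poissonWeight (α * p) k *
          (sitePhi p μ ν r m X k - Real.log 2) := fun k => by ring
    simp only [h1]
    have h2 : Summable fun k : ℕ => poissonWeight (α * p) k *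
        (sitePhi p μ ν r m X k - Real.log 2) := by
      refine UPois.summable_poissonWeight_mul
        (C := 2 * Real.log 2 + (∫ x, |x| ∂ν) + c) (by positivity) fun k => ?_
      have h3 := hphi k
      have h4 := abs_sub (sitePhi p μ ν r m X k) (Real.log 2)
      rw [abs_of_nonneg hl2] at h4
      have hk : (0 : ℝ) ≤ k := Nat.cast_nonneg k
      nlinarith [mul_nonneg hl2 hk]
    rw [Summable.tsum_add ((UPois.hasSum_poissonWeight _).summable.mul_right _) h2,
      tsum_mul_right, (UPois.hasSum_poissonWeight _).tsum_eq, one_mul]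
    congr 1
    unfold siteFun sitePhi
    refine tsum_congr fun k => ?_
    rw [add_sub_cancel_left]
  rw [e1, e2, e3] at hle
  rw [Red.pressure_eq, trialFunctional_eq]
  have h5 : (1 / (N : ℝ)) * ∑' M : ℕ, poissonWeight (α * N) M * Red.lpInt p μ ν N M ≤
      (1 / (N : ℝ)) * (N * (Real.log 2 + siteFun p (α * p) μ ν r m X) -
        α * (p - 1) * N * edgeFun p μ r m X) :=
    mul_le_mul_of_nonneg_left (by linarith) (by positivity)
  refine h5.trans (le_of_eq ?_)
  field_simp

end

end Crest.Agent.R141.U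
end

-- ▼ part R141/TreeOne
section

set_option autoImplicit false
open MeasureTheory Filter Topology Set

namespace Crest.Agent.R141.Tree

/-- the heavy tailed weight `(k s)^{-1/m}` (made bounded below everywhere) -/
noncomputable def wgt (m : ℝ) (k : ℕ) (s : ℝ) : ℝ :=
  max ((k : ℝ) ^ (-1 / m)) (((k : ℝ) * s) ^ (-1 / m))

lemma wgt_pos (m : ℝ) {k : ℕ} (hk : 0 < k) (s : ℝ) : 0 < wgt m k s :=
  lt_of_lt_of_le (Real.rpow_pos_of_pos (by exact_mod_cast hk) _) (le_max_left _ _)

lemma wgt_ge (m : ℝ) (k : ℕ) (s : ℝ) : (k : ℝ) ^ (-1 / m) ≤ wgt m k s := le_max_left _ _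

lemma wgt_eq {m : ℝ} (hm : 0 < m) {k : ℕ} (hk : 0 < k) {s : ℝ} (hs : 0 < s) (hs1 : s ≤ 1) :
    wgt m k s = ((k : ℝ) * s) ^ (-1 / m) := by
  have hk' : (0 : ℝ) < k := by exact_mod_cast hk
  refine max_eq_right ?_
  apply Real.rpow_le_rpow_of_nonpos (by positivity) (by nlinarith)
  exact (div_neg_of_neg_of_pos (by norm_num) hm).le

lemma measurable_wgt (m : ℝ) (k : ℕ) : Measurable (wgt m k) := by
  unfold wgt
  fun_prop

/-- `1 - exp (-τ w^{-1/m})` -/
noncomputable def e1 (m τ w : ℝ) : ℝ := 1 - Real.exp (-(τ * w ^ (-1 / m)))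

lemma measurable_e1 (m τ : ℝ) : Measurable (e1 m τ) := by
  unfold e1; fun_prop

lemma e1_nonneg {m τ w : ℝ} (hτ : 0 ≤ τ) (hw : 0 ≤ w) : 0 ≤ e1 m τ w := by
  unfold e1
  have : 0 ≤ τ * w ^ (-1 / m) := mul_nonneg hτ (Real.rpow_nonneg hw _)
  have := Real.exp_le_one_iff.mpr (neg_nonpos.mpr this)
  linarith

lemma e1_le_one (m τ w : ℝ) : e1 m τ w ≤ 1 := by
  unfold e1
  have := Real.exp_pos (-(τ * w ^ (-1 / m)))
  linarith

lemma e1_le {m τ w : ℝ} : e1 m τ w ≤ τ * w ^ (-1 / m) := by
  unfold e1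
  have := Real.add_one_le_exp (-(τ * w ^ (-1 / m)))
  linarith

lemma integrableOn_e1 {m τ : ℝ} (hm : 0 < m) (hm1 : m < 1) (hτ : 0 ≤ τ) :
    IntegrableOn (e1 m τ) (Ioi 0) := by
  have h1 : IntegrableOn (e1 m τ) (Ioc 0 1) := by
    have : IntegrableOn (fun _ : ℝ => (1 : ℝ)) (Ioc (0 : ℝ) 1) := by
      simp [integrableOn_const_iff]
    refine Integrable.mono' this (measurable_e1 m τ).aestronglyMeasurable ?_
    filter_upwards [ae_restrict_mem measurableSet_Ioc] with w hw
    rw [Real.norm_of_nonneg (e1_nonneg hτ hw.1.le)]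
    exact e1_le_one _ _ _
  have h2 : IntegrableOn (e1 m τ) (Ioi 1) := by
    have hlt : -1 / m < -1 := by
      rw [div_lt_iff₀ hm]; linarith
    have := (integrableOn_Ioi_rpow_of_lt hlt (zero_lt_one)).const_mul τ
    refine Integrable.mono' this (measurable_e1 m τ).aestronglyMeasurable ?_
    filter_upwards [ae_restrict_mem measurableSet_Ioi] with w hw
    have hw0 : (0 : ℝ) ≤ w := le_trans zero_le_one (le_of_lt hw)
    rw [Real.norm_of_nonneg (e1_nonneg hτ hw0)]
    exact e1_le
  have : Ioi (0 : ℝ) = Ioc 0 1 ∪ Ioi 1 := by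
    rw [Ioc_union_Ioi_eq_Ioi zero_le_one]
  rw [this]
  exact h1.union h2

noncomputable def cst (m : ℝ) : ℝ := ∫ w in Ioi (0 : ℝ), e1 m 1 w


lemma integral_e1 {m τ : ℝ} (hm : 0 < m) (hτ : 0 < τ) :
    ∫ w in Ioi (0 : ℝ), e1 m τ w = τ ^ m * cst m := by
  have hb : 0 < τ ^ m := Real.rpow_pos_of_pos hτ m
  have h := integral_comp_mul_left_Ioi (e1 m τ) 0 hb
  rw [mul_zero] at h
  have h2 : ∫ x in Ioi (0 : ℝ), e1 m τ (τ ^ m * x) = cst m := by
    unfold cst
    refine setIntegral_congr_fun measurableSet_Ioi (fun x hx => ?_)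
    have hx' : 0 < x := hx
    have : (τ ^ m * x) ^ (-1 / m) = τ⁻¹ * x ^ (-1 / m) := by
      rw [Real.mul_rpow hb.le hx'.le, ← Real.rpow_mul hτ.le]
      congr 1
      rw [show m * (-1 / m) = -1 by field_simp, Real.rpow_neg_one]
    simp only [e1, this]
    congr 3
    field_simp
  rw [h2] at h
  rw [h, smul_eq_mul]
  field_simp

/-- truncated integral -/
noncomputable def A (m : ℝ) (k : ℕ) (τ : ℝ) : ℝ := ∫ w in Ioc (0 : ℝ) k, e1 m τ w

lemma A_nonneg (m : ℝ) (k : ℕ) {τ : ℝ} (hτ : 0 ≤ τ) : 0 ≤ A m k τ :=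
  setIntegral_nonneg measurableSet_Ioc (fun _ hw => e1_nonneg hτ hw.1.le)

lemma A_le {m τ : ℝ} (hm : 0 < m) (hm1 : m < 1) (k : ℕ) (hτ : 0 < τ) :
    A m k τ ≤ τ ^ m * cst m := by
  rw [← integral_e1 hm hτ]
  refine setIntegral_mono_set (integrableOn_e1 hm hm1 hτ.le) ?_ ?_
  · filter_upwards [ae_restrict_mem measurableSet_Ioi] with w hw
    exact e1_nonneg hτ.le (le_of_lt hw)
  · exact Filter.Eventually.of_forall (fun w hw => hw.1)

lemma A_tendsto {m τ : ℝ} (hm : 0 < m) (hm1 : m < 1) (hτ : 0 < τ) :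
    Tendsto (fun k : ℕ => A m k τ) atTop (𝓝 (τ ^ m * cst m)) := by
  rw [← integral_e1 hm hτ]
  have := intervalIntegral_tendsto_integral_Ioi 0 (integrableOn_e1 hm hm1 hτ.le)
    tendsto_natCast_atTop_atTop
  refine this.congr (fun k => ?_)
  rw [intervalIntegral.integral_of_le (Nat.cast_nonneg k)]
  rfl

lemma integral_unit (f : ℝ → ℝ) :
    ∫ s : unitInterval, f (s : ℝ) = ∫ s in (0 : ℝ)..1, f s := by
  rw [intervalIntegral.integral_of_le zero_le_one, ← integral_Icc_eq_integral_Ioc]
  exact integral_subtype_comap measurableSet_Icc f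

lemma integral_wgt {m τ : ℝ} (hm : 0 < m) {k : ℕ} (hk : 0 < k) :
    (k : ℝ) * ∫ s : unitInterval, (1 - Real.exp (-(τ * wgt m k (s : ℝ)))) = A m k τ := by
  have hk' : (0 : ℝ) < k := by exact_mod_cast hk
  rw [integral_unit (fun s => 1 - Real.exp (-(τ * wgt m k s)))]
  have h1 : ∫ s in (0 : ℝ)..1, (1 - Real.exp (-(τ * wgt m k s)))
      = ∫ s in (0 : ℝ)..1, e1 m τ ((k : ℝ) * s) := by
    refine intervalIntegral.integral_congr_ae ?_
    refine Filter.Eventually.of_forall (fun s hs => ?_)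
    rw [uIoc_of_le zero_le_one] at hs
    rw [wgt_eq hm hk hs.1 hs.2]
    rfl
  rw [h1, intervalIntegral.integral_comp_mul_left (fun w => e1 m τ w) hk'.ne', mul_zero, mul_one,
    smul_eq_mul, mul_inv_cancel_left₀ hk'.ne', intervalIntegral.integral_of_le hk'.le]
  rfl

section oneLevel

variable {Ω : Type*} [MeasurableSpace Ω] (P : Measure Ω) [IsProbabilityMeasure P] (S : Ω → ℝ)

/-- one-child Laplace transform -/
noncomputable def ell (m : ℝ) (k : ℕ) (t : ℝ) : ℝ :=
  ∫ x : unitInterval × Ω, Real.exp (-(t * (wgt m k (x.1 : ℝ) * S x.2)))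
    ∂((volume : Measure unitInterval).prod P)

/-- the one-level sum -/
noncomputable def Zs (m : ℝ) (k : ℕ) (ξ : Fin k → unitInterval × Ω) : ℝ :=
  ∑ a, wgt m k ((ξ a).1 : ℝ) * S (ξ a).2

/-- the law of the noise of one level -/
noncomputable abbrev noise (k : ℕ) : Measure (Fin k → unitInterval × Ω) :=
  Measure.pi (fun _ : Fin k => (volume : Measure unitInterval).prod P)

noncomputable def Lap (m : ℝ) (k : ℕ) (t : ℝ) : ℝ :=
  ∫ ξ, Real.exp (-(t * Zs S m k ξ)) ∂(noise P k)

variable {S}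

lemma measurable_Zs (hS : Measurable S) (m : ℝ) (k : ℕ) : Measurable (Zs S m k) := by
  unfold Zs
  refine Finset.measurable_sum _ (fun a _ => ?_)
  refine Measurable.mul ?_ ?_
  · exact (measurable_wgt m k).comp (measurable_subtype_coe.comp (measurable_fst.comp (measurable_pi_apply a)))
  · exact hS.comp (measurable_snd.comp (measurable_pi_apply a))

lemma Lap_eq (m : ℝ) (k : ℕ) (t : ℝ) : Lap P S m k t = ell P S m k t ^ k := by
  unfold Lap ell noise
  have : ∀ ξ : Fin k → unitInterval × Ω, Real.exp (-(t * Zs S m k ξ))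
      = ∏ a, Real.exp (-(t * (wgt m k ((ξ a).1 : ℝ) * S (ξ a).2))) := by
    intro ξ
    rw [← Real.exp_sum, Zs, Finset.mul_sum, Finset.sum_neg_distrib]
  simp_rw [this]
  rw [integral_fintype_prod_eq_prod (fun (_ : Fin k) (x : unitInterval × Ω) =>
    Real.exp (-(t * (wgt m k (x.1 : ℝ) * S x.2))))]
  simp

variable {c : ℝ}

omit [MeasurableSpace Ω] in
lemma Zs_pos (hc : 0 < c) (hSc : ∀ ω, c ≤ S ω) (m : ℝ) {k : ℕ} (hk : 0 < k)
    (ξ : Fin k → unitInterval × Ω) : 0 < Zs S m k ξ := by
  unfold Zs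
  have : Nonempty (Fin k) := ⟨⟨0, hk⟩⟩
  refine Finset.sum_pos (fun a _ => mul_pos (wgt_pos m hk _) (hc.trans_le (hSc _))) Finset.univ_nonempty

lemma measurable_kern (hS : Measurable S) (m : ℝ) (k : ℕ) (t : ℝ) :
    Measurable (fun x : unitInterval × Ω => Real.exp (-(t * (wgt m k (x.1 : ℝ) * S x.2)))) := by
  have h1 : Measurable (fun x : unitInterval × Ω => wgt m k (x.1 : ℝ)) :=
    (measurable_wgt m k).comp (measurable_subtype_coe.comp measurable_fst)
  have h2 : Measurable (fun x : unitInterval × Ω => S x.2) := hS.comp measurable_snd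
  exact Real.measurable_exp.comp ((measurable_const.mul (h1.mul h2)).neg)

lemma integrable_kern (hS : Measurable S) (hc : 0 < c) (hSc : ∀ ω, c ≤ S ω) {m : ℝ}
    {k : ℕ} (hk : 0 < k) {t : ℝ} (ht : 0 ≤ t) :
    Integrable (fun x : unitInterval × Ω =>
      Real.exp (-(t * (wgt m k (x.1 : ℝ) * S x.2)))) ((volume : Measure unitInterval).prod P) := by
  refine Integrable.mono' (integrable_const (1 : ℝ)) (measurable_kern hS m k t).aestronglyMeasurable ?_
  refine Filter.Eventually.of_forall (fun x => ?_)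
  rw [Real.norm_of_nonneg (Real.exp_pos _).le, Real.exp_le_one_iff, neg_nonpos]
  exact mul_nonneg ht (mul_nonneg (wgt_pos m hk _).le (hc.le.trans (hSc _)))

lemma one_sub_ell (hS : Measurable S) (hc : 0 < c) (hSc : ∀ ω, c ≤ S ω) {m : ℝ} (hm : 0 < m)
    {k : ℕ} (hk : 0 < k) {t : ℝ} (ht : 0 ≤ t) :
    (k : ℝ) * (1 - ell P S m k t) = ∫ ω, A m k (t * S ω) ∂P := by
  unfold ell
  have hint := integrable_kern P hS hc hSc (m := m) hk ht
  have h1 : (1 : ℝ) - ∫ x : unitInterval × Ω, Real.exp (-(t * (wgt m k (x.1 : ℝ) * S x.2)))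
      ∂((volume : Measure unitInterval).prod P)
      = ∫ x : unitInterval × Ω, (1 - Real.exp (-(t * (wgt m k (x.1 : ℝ) * S x.2))))
      ∂((volume : Measure unitInterval).prod P) := by
    rw [integral_sub (integrable_const _) hint]
    simp
  have h2 := integral_prod_symm (μ := (volume : Measure unitInterval)) (ν := P)
    (fun x : unitInterval × Ω => (1 - Real.exp (-(t * (wgt m k (x.1 : ℝ) * S x.2)))))
    ((integrable_const _).sub hint)
  rw [h1, h2, ← integral_const_mul]
  refine integral_congr_ae (Filter.Eventually.of_forall (fun ω => ?_))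
  simp only
  rw [← integral_wgt hm hk]
  congr 1
  refine integral_congr_ae (Filter.Eventually.of_forall (fun s => ?_))
  simp only
  congr 3
  ring

lemma measurable_A (m : ℝ) (k : ℕ) : Measurable (A m k) := by
  unfold A
  have : Measurable (Function.uncurry (fun τ w : ℝ => e1 m τ w)) := by
    unfold e1 Function.uncurry
    fun_prop
  exact (this.stronglyMeasurable.integral_prod_right (ν := volume.restrict (Ioc (0:ℝ) k))).measurable

lemma A_mono {m : ℝ} (k : ℕ) {τ τ' : ℝ} (hτ : 0 ≤ τ) (h : τ ≤ τ') : A m k τ ≤ A m k τ' := by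
  have hint : ∀ x : ℝ, 0 ≤ x → IntegrableOn (e1 m x) (Ioc 0 (k:ℝ)) := by
    intro x hx
    refine Integrable.mono' (g := fun _ => (1:ℝ)) (by simp [integrable_const_iff])
      (measurable_e1 m x).aestronglyMeasurable ?_
    filter_upwards [ae_restrict_mem measurableSet_Ioc] with w hw
    rw [Real.norm_of_nonneg (e1_nonneg hx hw.1.le)]
    exact e1_le_one _ _ _
  refine setIntegral_mono_on (hint τ hτ) (hint τ' (hτ.trans h)) measurableSet_Ioc (fun w hw => ?_)
  unfold e1
  have hw' : (0:ℝ) ≤ w ^ (-1 / m) := Real.rpow_nonneg hw.1.le _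
  have : Real.exp (-(τ' * w ^ (-1 / m))) ≤ Real.exp (-(τ * w ^ (-1 / m))) := by
    apply Real.exp_le_exp.mpr
    have := mul_le_mul_of_nonneg_right h hw'
    linarith
  linarith

/-- the constant `∫ S^m` times everything -/
noncomputable def Bm (m : ℝ) (S : Ω → ℝ) : ℝ := ∫ ω, S ω ^ m ∂P

lemma one_sub_ell_le (hS : Measurable S) (hc : 0 < c) (hSc : ∀ ω, c ≤ S ω) {m : ℝ} (hm : 0 < m)
    (hm1 : m < 1) (hB : Integrable (fun ω => S ω ^ m) P) {k : ℕ} (hk : 0 < k) {t : ℝ} (ht : 0 < t) :
    (k : ℝ) * (1 - ell P S m k t) ≤ cst m * Bm P m S * t ^ m := by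
  rw [one_sub_ell P hS hc hSc hm hk ht.le]
  have hle : ∀ ω, A m k (t * S ω) ≤ (cst m * t ^ m) * S ω ^ m := by
    intro ω
    have hS0 : 0 < S ω := hc.trans_le (hSc ω)
    refine (A_le hm hm1 k (mul_pos ht hS0)).trans (le_of_eq ?_)
    rw [Real.mul_rpow ht.le hS0.le]; ring
  have hi := hB.const_mul (cst m * t ^ m)
  have : ∫ ω, A m k (t * S ω) ∂P ≤ ∫ ω, (cst m * t ^ m) * S ω ^ m ∂P := by
    refine integral_mono_of_nonneg (Filter.Eventually.of_forall (fun ω => ?_)) hi
      (Filter.Eventually.of_forall hle)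
    exact A_nonneg m k (mul_nonneg ht.le (hc.le.trans (hSc ω)))
  refine this.trans (le_of_eq ?_)
  rw [integral_const_mul]
  unfold Bm; ring

lemma tendsto_ell (hS : Measurable S) (hc : 0 < c) (hSc : ∀ ω, c ≤ S ω) {m : ℝ} (hm : 0 < m)
    (hm1 : m < 1) (hB : Integrable (fun ω => S ω ^ m) P) {t : ℝ} (ht : 0 < t) :
    Tendsto (fun k : ℕ => (k : ℝ) * (1 - ell P S m k t)) atTop
      (𝓝 (cst m * Bm P m S * t ^ m)) := by
  have h : Tendsto (fun k : ℕ => ∫ ω, A m k (t * S ω) ∂P) atTop
      (𝓝 (∫ ω, (cst m * t ^ m) * S ω ^ m ∂P)) := by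
    refine tendsto_integral_of_dominated_convergence (fun ω => (cst m * t ^ m) * S ω ^ m)
      (fun k => ((measurable_A m k).comp (measurable_const.mul hS)).aestronglyMeasurable)
      (hB.const_mul _) (fun k => Filter.Eventually.of_forall (fun ω => ?_))
      (Filter.Eventually.of_forall (fun ω => ?_))
    · have hS0 : 0 < S ω := hc.trans_le (hSc ω)
      rw [Real.norm_of_nonneg (A_nonneg m k (mul_nonneg ht.le hS0.le))]
      refine (A_le hm hm1 k (mul_pos ht hS0)).trans (le_of_eq ?_)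
      rw [Real.mul_rpow ht.le hS0.le]; ring
    · have hS0 : 0 < S ω := hc.trans_le (hSc ω)
      have := A_tendsto hm hm1 (mul_pos ht hS0)
      rw [Real.mul_rpow ht.le hS0.le] at this
      rw [show cst m * t ^ m * S ω ^ m = t ^ m * S ω ^ m * cst m by ring]
      exact this
  rw [integral_const_mul] at h
  have e : cst m * Bm P m S * t ^ m = cst m * t ^ m * ∫ ω, S ω ^ m ∂P := by unfold Bm; ring
  rw [e]
  refine h.congr' ?_
  filter_upwards [eventually_gt_atTop 0] with k hk
  rw [one_sub_ell P hS hc hSc hm hk ht.le]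

lemma ell_nonneg (m : ℝ) (k : ℕ) (t : ℝ) : 0 ≤ ell P S m k t :=
  integral_nonneg (fun _ => (Real.exp_pos _).le)

lemma ell_le_one (hS : Measurable S) (hc : 0 < c) (hSc : ∀ ω, c ≤ S ω) {m : ℝ}
    {k : ℕ} (hk : 0 < k) {t : ℝ} (ht : 0 ≤ t) : ell P S m k t ≤ 1 := by
  unfold ell
  calc _ ≤ ∫ _x : unitInterval × Ω, (1:ℝ) ∂((volume : Measure unitInterval).prod P) := by
        refine integral_mono (integrable_kern P hS hc hSc hk ht) (integrable_const _) (fun x => ?_)
        simp only
        rw [Real.exp_le_one_iff, neg_nonpos]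
        exact mul_nonneg ht (mul_nonneg (wgt_pos m hk _).le (hc.le.trans (hSc _)))
    _ = 1 := by simp

lemma Lap_nonneg (m : ℝ) (k : ℕ) (t : ℝ) : 0 ≤ Lap P S m k t := by
  rw [Lap_eq]; exact pow_nonneg (ell_nonneg P m k t) k

lemma Lap_le_one (hS : Measurable S) (hc : 0 < c) (hSc : ∀ ω, c ≤ S ω) {m : ℝ}
    {k : ℕ} (hk : 0 < k) {t : ℝ} (ht : 0 ≤ t) : Lap P S m k t ≤ 1 := by
  rw [Lap_eq]; exact pow_le_one₀ (ell_nonneg P m k t) (ell_le_one P hS hc hSc hk ht)

lemma one_sub_Lap_le (hS : Measurable S) (hc : 0 < c) (hSc : ∀ ω, c ≤ S ω) {m : ℝ} (hm : 0 < m)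
    (hm1 : m < 1) (hB : Integrable (fun ω => S ω ^ m) P) {k : ℕ} (hk : 0 < k) {t : ℝ} (ht : 0 < t) :
    1 - Lap P S m k t ≤ cst m * Bm P m S * t ^ m := by
  refine le_trans ?_ (one_sub_ell_le P hS hc hSc hm hm1 hB hk ht)
  rw [Lap_eq]
  have h0 := ell_nonneg P (S := S) m k t
  have := one_add_mul_le_pow (a := -(1 - ell P S m k t)) (by linarith) k
  rw [show 1 + -(1 - ell P S m k t) = ell P S m k t by ring] at this
  linarith

lemma tendsto_Lap (hS : Measurable S) (hc : 0 < c) (hSc : ∀ ω, c ≤ S ω) {m : ℝ} (hm : 0 < m)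
    (hm1 : m < 1) (hB : Integrable (fun ω => S ω ^ m) P) {t : ℝ} (ht : 0 < t) :
    Tendsto (fun k : ℕ => Lap P S m k t) atTop
      (𝓝 (Real.exp (-(cst m * Bm P m S * t ^ m)))) := by
  have h := (tendsto_ell P hS hc hSc hm hm1 hB ht).neg
  have h2 : Tendsto (fun k : ℕ => (k : ℝ) * (-(1 - ell P S m k t))) atTop
      (𝓝 (-(cst m * Bm P m S * t ^ m))) := by
    refine h.congr (fun k => by ring)
  have h3 := Real.tendsto_one_add_pow_exp_of_tendsto h2
  refine h3.congr (fun k => ?_)
  rw [Lap_eq]; congr 1; ring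

lemma exp_neg_le_inv {x : ℝ} (hx : 0 < x) : Real.exp (-x) ≤ x⁻¹ := by
  rw [Real.exp_neg]
  refine inv_anti₀ hx ?_
  have := Real.add_one_le_exp x
  linarith

/-- decay at infinity, uniform in `k` -/
lemma Lap_decay (hS : Measurable S) (hc : 0 < c) (hSc : ∀ ω, c ≤ S ω) {m : ℝ} (hm : 0 < m)
    (hm1 : m < 1) {k : ℕ} (hk : 0 < k) {t : ℝ} (ht : 1 ≤ t * c) :
    Lap P S m k t ≤ 2 * (t * c) ^ (-(m / 2)) := by
  set τ := t * c with hτdef
  have hτ0 : 0 < τ := lt_of_lt_of_le one_pos ht
  have ht0 : 0 < t := by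
    by_contra hcon
    push Not at hcon
    have : t * c ≤ 0 := mul_nonpos_of_nonpos_of_nonneg hcon hc.le
    linarith
  set y := τ ^ (m / 2) with hy
  have hy0 : 0 < y := Real.rpow_pos_of_pos hτ0 _
  have hyinv : τ ^ (-(m / 2)) = y⁻¹ := by rw [Real.rpow_neg hτ0.le]
  have hk' : (0:ℝ) < k := by exact_mod_cast hk
  have hysqrt : y ^ (-1 / m) = τ ^ (-(1/2) : ℝ) := by
    rw [hy, ← Real.rpow_mul hτ0.le]; congr 1; field_simp
  have hmul : τ * τ ^ (-(1/2) : ℝ) = τ ^ ((1/2) : ℝ) := by
    nth_rewrite 1 [← Real.rpow_one τ]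
    rw [← Real.rpow_add hτ0]; norm_num
  have hs0 : 0 < τ ^ ((1/2) : ℝ) := Real.rpow_pos_of_pos hτ0 _
  have hs1 : 1 ≤ τ ^ ((1/2) : ℝ) := Real.one_le_rpow ht (by norm_num)
  rw [hyinv]
  rcases le_or_gt (k : ℝ) y with hky | hky
  · -- small k
    have hell : ell P S m k t ≤ Real.exp (-(τ ^ ((1/2) : ℝ))) := by
      unfold ell
      calc _ ≤ ∫ _x : unitInterval × Ω, Real.exp (-(τ ^ ((1/2) : ℝ)))
              ∂((volume : Measure unitInterval).prod P) := by
            refine integral_mono (integrable_kern P hS hc hSc hk ht0.le) (integrable_const _)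
              (fun x => ?_)
            simp only
            apply Real.exp_le_exp.mpr
            rw [neg_le_neg_iff, ← hmul, ← hysqrt, hτdef]
            have h1 : y ^ (-1 / m) ≤ wgt m k (x.1 : ℝ) := by
              refine le_trans ?_ (wgt_ge m k _)
              apply Real.rpow_le_rpow_of_nonpos hk' hky
              exact (div_neg_of_neg_of_pos (by norm_num) hm).le
            have h2 : 0 ≤ y ^ (-1 / m) := Real.rpow_nonneg hy0.le _
            have h3 := hSc x.2
            calc t * c * y ^ (-1 / m) = t * (y ^ (-1 / m) * c) := by ring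
              _ ≤ t * (wgt m k (x.1 : ℝ) * S x.2) := by
                refine mul_le_mul_of_nonneg_left ?_ ht0.le
                exact mul_le_mul h1 h3 hc.le (h2.trans h1)
        _ = _ := by simp
    rw [Lap_eq]
    have h1 : ell P S m k t ^ k ≤ ell P S m k t :=
      pow_le_of_le_one (ell_nonneg P m k t) (ell_le_one P hS hc hSc hk ht0.le) hk.ne'
    have h2 := exp_neg_le_inv hs0
    have h3 : (τ ^ ((1/2) : ℝ))⁻¹ ≤ y⁻¹ := by
      refine inv_anti₀ hy0 ?_
      exact Real.rpow_le_rpow_of_exponent_le ht (by linarith)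
    have h4 : 0 < y⁻¹ := inv_pos.mpr hy0
    linarith
  · -- large k
    have hA : y / 2 ≤ (k : ℝ) * (1 - ell P S m k t) := by
      rw [one_sub_ell P hS hc hSc hm hk ht0.le]
      have h1 : A m k τ ≤ ∫ ω, A m k (t * S ω) ∂P := by
        have : ∫ _ω, A m k τ ∂P = A m k τ := by simp
        rw [← this]
        refine integral_mono_of_nonneg (Filter.Eventually.of_forall (fun _ => A_nonneg m k hτ0.le)) ?_
          (Filter.Eventually.of_forall (fun ω => A_mono k hτ0.le (mul_le_mul_of_nonneg_left (hSc ω) ht0.le)))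
        refine Integrable.mono' (integrable_const (k : ℝ))
          ((measurable_A m k).comp (measurable_const.mul hS)).aestronglyMeasurable
          (Filter.Eventually.of_forall (fun ω => ?_))
        have h0 : 0 ≤ t * S ω := mul_nonneg ht0.le (hc.le.trans (hSc ω))
        rw [Real.norm_of_nonneg (A_nonneg m k h0)]
        unfold A
        calc _ ≤ ∫ _w in Ioc (0:ℝ) k, (1:ℝ) := by
              refine setIntegral_mono_on ?_ (by simp [integrable_const_iff]) measurableSet_Ioc
                (fun w _ => e1_le_one _ _ _)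
              refine Integrable.mono' (g := fun _ => (1:ℝ)) (by simp [integrable_const_iff])
                (measurable_e1 m _).aestronglyMeasurable ?_
              filter_upwards [ae_restrict_mem measurableSet_Ioc] with w hw
              rw [Real.norm_of_nonneg (e1_nonneg h0 hw.1.le)]
              exact e1_le_one _ _ _
          _ = k := by simp
      refine le_trans ?_ h1
      have hint : ∀ b : ℝ, IntegrableOn (e1 m τ) (Ioc 0 b) := by
        intro b
        refine Integrable.mono' (g := fun _ => (1:ℝ)) (by simp [integrable_const_iff])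
          (measurable_e1 m _).aestronglyMeasurable ?_
        filter_upwards [ae_restrict_mem measurableSet_Ioc] with w hw
        rw [Real.norm_of_nonneg (e1_nonneg hτ0.le hw.1.le)]
        exact e1_le_one _ _ _
      have h2 : ∫ w in Ioc (0:ℝ) y, e1 m τ w ≤ A m k τ := by
        refine setIntegral_mono_set (hint k) ?_ ?_
        · filter_upwards [ae_restrict_mem measurableSet_Ioc] with w hw
          exact e1_nonneg hτ0.le hw.1.le
        · exact Filter.Eventually.of_forall (fun w hw => ⟨hw.1, hw.2.trans hky.le⟩)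
      refine le_trans ?_ h2
      have h3 : ∫ _w in Ioc (0:ℝ) y, (1/2 : ℝ) = y / 2 := by
        simp [hy0.le]; ring
      rw [← h3]
      refine setIntegral_mono_on (by simp [integrable_const_iff]) (hint y) measurableSet_Ioc
        (fun w hw => ?_)
      unfold e1
      have h4 : y ^ (-1 / m) ≤ w ^ (-1 / m) := by
        apply Real.rpow_le_rpow_of_nonpos hw.1 hw.2
        exact (div_neg_of_neg_of_pos (by norm_num) hm).le
      have h5 : (1:ℝ) ≤ τ * w ^ (-1 / m) := by
        calc (1:ℝ) ≤ τ ^ ((1/2) : ℝ) := hs1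
          _ = τ * y ^ (-1 / m) := by rw [hysqrt, hmul]
          _ ≤ _ := mul_le_mul_of_nonneg_left h4 hτ0.le
      have h6 : Real.exp (-(τ * w ^ (-1 / m))) ≤ Real.exp (-1) :=
        Real.exp_le_exp.mpr (by linarith)
      have h7 : Real.exp (-1) < 1/2 := by
        have := Real.exp_one_gt_d9
        rw [Real.exp_neg, inv_lt_comm₀ (Real.exp_pos 1) (by norm_num)]
        linarith
      linarith
    rw [Lap_eq]
    have h1 : ell P S m k t ≤ Real.exp (-(1 - ell P S m k t)) := by
      have := Real.one_sub_le_exp_neg (1 - ell P S m k t)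
      linarith
    calc ell P S m k t ^ k ≤ Real.exp (-(1 - ell P S m k t)) ^ k :=
          pow_le_pow_left₀ (ell_nonneg P m k t) h1 k
      _ = Real.exp (-((k:ℝ) * (1 - ell P S m k t))) := by
          rw [← Real.exp_nat_mul]; congr 1; ring
      _ ≤ Real.exp (-(y / 2)) := Real.exp_le_exp.mpr (by linarith)
      _ ≤ (y / 2)⁻¹ := exp_neg_le_inv (by positivity)
      _ = 2 * y⁻¹ := by field_simp

end oneLevel

end Crest.Agent.R141.Tree
end

-- ▼ part R141/TreeTwo
section

set_option autoImplicit false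
open MeasureTheory Filter Topology Set

namespace Crest.Agent.R141.Tree

/-! ## dominating functions -/

noncomputable def domA (K m q t : ℝ) : ℝ := if t ≤ 1 then K * t ^ (m - 1 - q) else t ^ (-1 - q)

lemma integrableOn_domA {K m q : ℝ} (hq : 0 < q) (hqm : q < m) :
    IntegrableOn (domA K m q) (Ioi 0) := by
  have h1 : IntegrableOn (domA K m q) (Ioc 0 1) := by
    have : IntegrableOn (fun t : ℝ => K * t ^ (m - 1 - q)) (Ioc 0 1) := by
      have h := (intervalIntegral.intervalIntegrable_rpow' (a := 0) (b := 1)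
        (r := m - 1 - q) (by linarith)).const_mul K
      rwa [intervalIntegrable_iff_integrableOn_Ioc_of_le zero_le_one] at h
    refine this.congr_fun (fun t ht => ?_) measurableSet_Ioc
    simp [domA, ht.2]
  have h2 : IntegrableOn (domA K m q) (Ioi 1) := by
    have : IntegrableOn (fun t : ℝ => t ^ (-1 - q)) (Ioi 1) :=
      integrableOn_Ioi_rpow_of_lt (by linarith) zero_lt_one
    refine this.congr_fun (fun t ht => ?_) measurableSet_Ioi
    have : ¬ t ≤ 1 := not_le.mpr ht
    simp [domA, this]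
  have : Ioi (0 : ℝ) = Ioc 0 1 ∪ Ioi 1 := by
    rw [Ioc_union_Ioi_eq_Ioi zero_le_one]
  rw [this]
  exact h1.union h2

lemma le_domA {K m q t h : ℝ} (ht : 0 < t) (h0 : h ≤ 1) (h1 : h ≤ K * t ^ m) :
    h * t ^ (-1 - q) ≤ domA K m q t := by
  unfold domA
  have hp : 0 ≤ t ^ (-1 - q) := Real.rpow_nonneg ht.le _
  split_ifs with hle
  · calc h * t ^ (-1 - q) ≤ K * t ^ m * t ^ (-1 - q) := mul_le_mul_of_nonneg_right h1 hp
      _ = K * t ^ (m - 1 - q) := by
        rw [mul_assoc, ← Real.rpow_add ht]; congr 2; ring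
  · calc h * t ^ (-1 - q) ≤ 1 * t ^ (-1 - q) := mul_le_mul_of_nonneg_right h0 hp
      _ = _ := one_mul _

/-- the kernel `(1 - e^{-tz}) t^{-1-q}` -/
noncomputable def kA (q z t : ℝ) : ℝ := (1 - Real.exp (-(t * z))) * t ^ (-1 - q)

noncomputable def Dq (q : ℝ) : ℝ := ∫ t in Ioi (0:ℝ), kA q 1 t

lemma one_sub_exp_nonneg {x : ℝ} (hx : 0 ≤ x) : 0 ≤ 1 - Real.exp (-x) := by
  have := Real.exp_le_one_iff.mpr (neg_nonpos.mpr hx)
  linarith

lemma one_sub_exp_le (x : ℝ) : 1 - Real.exp (-x) ≤ x := by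
  have := Real.add_one_le_exp (-x)
  linarith

lemma one_sub_exp_le_one (x : ℝ) : 1 - Real.exp (-x) ≤ 1 := by
  have := Real.exp_pos (-x)
  linarith

lemma kA_nonneg {q z t : ℝ} (hz : 0 ≤ z) (ht : 0 ≤ t) : 0 ≤ kA q z t :=
  mul_nonneg (one_sub_exp_nonneg (mul_nonneg ht hz)) (Real.rpow_nonneg ht _)

lemma measurable_kA (q z : ℝ) : Measurable (kA q z) := by
  unfold kA; fun_prop

lemma integrableOn_kA {q z : ℝ} (hq : 0 < q) (hq1 : q < 1) (hz : 0 ≤ z) :
    IntegrableOn (kA q z) (Ioi 0) := by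
  refine Integrable.mono' (integrableOn_domA (K := z) hq hq1)
    (measurable_kA q z).aestronglyMeasurable ?_
  filter_upwards [ae_restrict_mem measurableSet_Ioi] with t ht
  have ht' : (0:ℝ) < t := ht
  rw [Real.norm_of_nonneg (kA_nonneg hz ht'.le)]
  refine le_domA ht' (one_sub_exp_le_one _) ?_
  rw [Real.rpow_one, mul_comm z t]
  exact one_sub_exp_le _

lemma Dq_pos {q : ℝ} (hq : 0 < q) (hq1 : q < 1) : 0 < Dq q := by
  unfold Dq
  have hint := integrableOn_kA hq hq1 zero_le_one
  rw [setIntegral_pos_iff_support_of_nonneg_ae ?_ hint]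
  · have : Function.support (kA q 1) ∩ Ioi 0 = Ioi 0 := by
      ext t
      simp only [mem_inter_iff, Function.mem_support, mem_Ioi, and_iff_right_iff_imp]
      intro ht
      have h1 : Real.exp (-(t * 1)) < 1 := by
        rw [Real.exp_lt_one_iff]; linarith
      have h2 : 0 < t ^ (-1 - q) := Real.rpow_pos_of_pos ht _
      exact (mul_pos (by linarith) h2).ne'
    rw [this]
    simp
  · filter_upwards [ae_restrict_mem measurableSet_Ioi] with t ht
    exact kA_nonneg zero_le_one (le_of_lt ht)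

lemma integral_kA {q z : ℝ} (hq : 0 < q) (hz : 0 ≤ z) :
    ∫ t in Ioi (0:ℝ), kA q z t = z ^ q * Dq q := by
  rcases hz.eq_or_lt with rfl | hz
  · simp [kA, Real.zero_rpow hq.ne']
  · have h := integral_comp_mul_left_Ioi (kA q 1) 0 hz
    rw [mul_zero] at h
    have h2 : ∫ x in Ioi (0 : ℝ), kA q 1 (z * x) = z ^ (-1 - q) * ∫ t in Ioi (0:ℝ), kA q z t := by
      rw [← integral_const_mul]
      refine setIntegral_congr_fun measurableSet_Ioi (fun x hx => ?_)
      have hx' : (0:ℝ) < x := hx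
      simp only [kA]
      rw [Real.mul_rpow hz.le hx'.le, mul_one, mul_comm z x]
      ring
    rw [h2, smul_eq_mul] at h
    have h3 : z ^ (-1 - q) = z⁻¹ * (z ^ q)⁻¹ := by
      rw [← Real.rpow_neg hz.le, ← Real.rpow_neg_one z, ← Real.rpow_add hz]
      congr 1
    rw [h3] at h
    have hz1 : z ≠ 0 := hz.ne'
    have hz2 : z ^ q ≠ 0 := (Real.rpow_pos_of_pos hz q).ne'
    have h4 : (z⁻¹ * (z ^ q)⁻¹) * ∫ t in Ioi (0:ℝ), kA q z t
        = (z⁻¹ * (z ^ q)⁻¹) * (z ^ q * Dq q) := by
      rw [h]; unfold Dq; field_simp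
    exact mul_left_cancel₀ (by positivity) h4

/-! ## the logarithmic kernel -/

noncomputable def kB (z t : ℝ) : ℝ := t⁻¹ * (Real.exp (-t) - Real.exp (-(t * z)))

lemma measurable_kB (z : ℝ) : Measurable (kB z) := by
  unfold kB; fun_prop

/-- dominating function for the log case -/
noncomputable def domB (K m c t : ℝ) : ℝ :=
  if t * c ≤ 1 then 1 + K * t ^ (m - 1) else t⁻¹ * (t⁻¹ + 2 * (t * c) ^ (-(m / 2)))

lemma integrableOn_domB {K m c : ℝ} (hm : 0 < m) (hc : 0 < c) :
    IntegrableOn (domB K m c) (Ioi 0) := by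
  have hT : 0 < 1 / c := by positivity
  have h1 : IntegrableOn (domB K m c) (Ioc 0 (1 / c)) := by
    have : IntegrableOn (fun t : ℝ => 1 + K * t ^ (m - 1)) (Ioc 0 (1 / c)) := by
      have h := (intervalIntegral.intervalIntegrable_rpow' (a := 0) (b := 1 / c)
        (r := m - 1) (by linarith)).const_mul K
      have h' := (_root_.intervalIntegrable_const (μ := volume) (a := 0) (b := 1 / c) (c := (1:ℝ))).add h
      rwa [intervalIntegrable_iff_integrableOn_Ioc_of_le hT.le] at h'
    refine this.congr_fun (fun t ht => ?_) measurableSet_Ioc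
    have : t * c ≤ 1 := by
      have := ht.2
      rwa [le_div_iff₀ hc] at this
    simp [domB, this]
  have h2 : IntegrableOn (domB K m c) (Ioi (1 / c)) := by
    have ha : IntegrableOn (fun t : ℝ => t ^ (-2 : ℝ)) (Ioi (1 / c)) :=
      integrableOn_Ioi_rpow_of_lt (by norm_num) hT
    have hb : IntegrableOn (fun t : ℝ => (2 * c ^ (-(m / 2))) * t ^ (-1 - m / 2)) (Ioi (1 / c)) :=
      (integrableOn_Ioi_rpow_of_lt (by linarith) hT).const_mul _
    refine (ha.add hb).congr_fun (fun t ht => ?_) measurableSet_Ioi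
    have ht0 : 0 < t := hT.trans ht
    have : ¬ t * c ≤ 1 := by
      have : 1 / c < t := ht
      rw [div_lt_iff₀ hc] at this
      exact not_le.mpr this
    simp only [domB, this, Pi.add_apply, if_false]
    rw [Real.mul_rpow ht0.le hc.le, show (-1 - m / 2 : ℝ) = -1 + -(m / 2) by ring,
      Real.rpow_add ht0, Real.rpow_neg_one, show (-2 : ℝ) = -1 + -1 by norm_num,
      Real.rpow_add ht0, Real.rpow_neg_one]
    ring
  have : Ioi (0 : ℝ) = Ioc 0 (1 / c) ∪ Ioi (1 / c) := by
    rw [Ioc_union_Ioi_eq_Ioi hT.le]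
  rw [this]
  exact h1.union h2

/-- if `a, b ∈ [0,1]` are the values at `t` of two Laplace transforms -/
lemma le_domB' {K m c t a b x : ℝ} (ht : 0 < t) (ha1 : a ≤ t⁻¹) (ha : 1 - a ≤ t)
    (hb1 : 1 ≤ t * c → b ≤ 2 * (t * c) ^ (-(m / 2))) (hb : 1 - b ≤ K * t ^ m)
    (hx1 : x ≤ (1 - a) + (1 - b)) (hx2 : x ≤ a + b) :
    t⁻¹ * x ≤ domB K m c t := by
  have hti : 0 < t⁻¹ := inv_pos.mpr ht
  unfold domB
  split_ifs with h
  · have h1 : x ≤ t + K * t ^ m := by linarith
    calc t⁻¹ * x ≤ t⁻¹ * (t + K * t ^ m) := mul_le_mul_of_nonneg_left h1 hti.le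
      _ = 1 + K * t ^ (m - 1) := by
        rw [Real.rpow_sub ht, Real.rpow_one]; field_simp
  · push Not at h
    have h1 : x ≤ t⁻¹ + 2 * (t * c) ^ (-(m / 2)) := by
      have := hb1 h.le
      linarith
    exact mul_le_mul_of_nonneg_left h1 hti.le

lemma le_domB {K m c t a b : ℝ} (ht : 0 < t) (ha1 : a ≤ t⁻¹) (ha : 1 - a ≤ t)
    (hb1 : 1 ≤ t * c → b ≤ 2 * (t * c) ^ (-(m / 2))) (hb : 1 - b ≤ K * t ^ m)
    (ha0 : 0 ≤ a) (hb0 : 0 ≤ b) (ha2 : a ≤ 1) (hb2 : b ≤ 1) :
    t⁻¹ * |a - b| ≤ domB K m c t := by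
  refine le_domB' ht ha1 ha hb1 hb ?_ ?_ <;> rw [abs_le] <;> constructor <;> linarith

lemma kB_le {z t : ℝ} (hz : 0 < z) (ht : 0 < t) : |kB z t| ≤ domB z 1 z t := by
  have hti : 0 < t⁻¹ := inv_pos.mpr ht
  unfold kB
  rw [abs_mul, abs_of_pos hti]
  refine le_domB ht (exp_neg_le_inv ht) (one_sub_exp_le t) (fun h => ?_) ?_ (Real.exp_pos _).le
    (Real.exp_pos _).le (Real.exp_le_one_iff.mpr (by linarith))
    (Real.exp_le_one_iff.mpr (by have := mul_pos ht hz; linarith))
  · have h1 := exp_neg_le_inv (mul_pos ht hz)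
    have h2 : (t * z)⁻¹ ≤ (t * z) ^ (-(1 / 2) : ℝ) := by
      rw [← Real.rpow_neg_one]
      exact Real.rpow_le_rpow_of_exponent_le h (by norm_num)
    have h3 : 0 ≤ (t * z) ^ (-(1 / 2) : ℝ) := Real.rpow_nonneg (mul_pos ht hz).le _
    linarith
  · rw [Real.rpow_one, mul_comm z t]
    exact one_sub_exp_le _

lemma integrableOn_kB {z : ℝ} (hz : 0 < z) : IntegrableOn (kB z) (Ioi 0) := by
  refine Integrable.mono' (integrableOn_domB (K := z) (m := 1) zero_lt_one hz)
    (measurable_kB z).aestronglyMeasurable ?_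
  filter_upwards [ae_restrict_mem measurableSet_Ioi] with t ht
  exact kB_le hz ht

lemma integral_kB {z : ℝ} (hz : 0 < z) : ∫ t in Ioi (0:ℝ), kB z t = Real.log z := by
  have hf : Continuous (fun t : ℝ => Real.exp (-t)) := by fun_prop
  have hL : Tendsto (fun t : ℝ => Real.exp (-t)) (𝓝[>] 0) (𝓝 1) := by
    have := hf.tendsto 0
    simp only [neg_zero, Real.exp_zero] at this
    exact this.mono_left nhdsWithin_le_nhds
  have hR : Tendsto (fun t : ℝ => Real.exp (-t)) atTop (𝓝 0) := Real.tendsto_exp_neg_atTop_nhds_zero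
  have heq : ∀ x : ℝ, x⁻¹ • (Real.exp (-(1 * x)) - Real.exp (-(z * x))) = kB z x := by
    intro x
    simp [kB, mul_comm z x]
  have h := Frullani.integral_Ioi_eq (f := fun t : ℝ => Real.exp (-t)) (a := 1) (b := z)
    (hf.locallyIntegrable.locallyIntegrableOn _) zero_lt_one hz hL hR
    (by simp_rw [heq]; exact integrableOn_kB hz)
  simp_rw [heq] at h
  rw [h]; simp

section oneLevel

variable {Ω : Type*} [MeasurableSpace Ω] (P : Measure Ω) [IsProbabilityMeasure P] {S : Ω → ℝ}
variable {c : ℝ}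

/-- limit of the `q`-th moments as a function of `B` -/
noncomputable def GA (m q B : ℝ) : ℝ :=
  (Dq q)⁻¹ * ∫ t in Ioi (0:ℝ), (1 - Real.exp (-(cst m * B * t ^ m))) * t ^ (-1 - q)

noncomputable def GB (m B : ℝ) : ℝ :=
  ∫ t in Ioi (0:ℝ), t⁻¹ * (Real.exp (-t) - Real.exp (-(cst m * B * t ^ m)))


lemma integrable_expZs (hS : Measurable S) (hc : 0 < c) (hSc : ∀ ω, c ≤ S ω) {m : ℝ}
    {k : ℕ} (hk : 0 < k) {t : ℝ} (ht : 0 ≤ t) :
    Integrable (fun ξ => Real.exp (-(t * Zs S m k ξ))) (noise P k) := by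
  refine Integrable.mono' (integrable_const (1 : ℝ)) ?_ ?_
  · have := measurable_Zs hS m k
    exact (by fun_prop : Measurable (fun ξ => Real.exp (-(t * Zs S m k ξ)))).aestronglyMeasurable
  · refine Filter.Eventually.of_forall (fun ξ => ?_)
    rw [Real.norm_of_nonneg (Real.exp_pos _).le, Real.exp_le_one_iff, neg_nonpos]
    exact mul_nonneg ht (Zs_pos hc hSc m hk ξ).le

lemma measurable_Lap (hS : Measurable S) (m : ℝ) (k : ℕ) : Measurable (Lap P S m k) := by
  have hmeas : Measurable (Function.uncurry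
      (fun (ξ : Fin k → unitInterval × Ω) (t : ℝ) => Real.exp (-(t * Zs S m k ξ)))) := by
    have := measurable_Zs hS m k
    unfold Function.uncurry
    fun_prop
  exact hmeas.stronglyMeasurable.integral_prod_left'.measurable

lemma integrable_uncurry_kA (hS : Measurable S) (hc : 0 < c) (hSc : ∀ ω, c ≤ S ω) {m : ℝ}
    (hm : 0 < m) (hm1 : m < 1) (hB : Integrable (fun ω => S ω ^ m) P) {q : ℝ} (hq : 0 < q)
    (hqm : q < m) {k : ℕ} (hk : 0 < k) :
    Integrable (Function.uncurry (fun (ξ : Fin k → unitInterval × Ω) t => kA q (Zs S m k ξ) t))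
      ((noise P k).prod (volume.restrict (Ioi (0:ℝ)))) := by
  have hmeas : Measurable (Function.uncurry
      (fun (ξ : Fin k → unitInterval × Ω) (t : ℝ) => kA q (Zs S m k ξ) t)) := by
    have := measurable_Zs hS m k
    unfold kA Function.uncurry
    fun_prop
  rw [integrable_prod_iff' hmeas.aestronglyMeasurable]
  have key : ∀ t : ℝ, 0 < t → ∫ ξ, ‖kA q (Zs S m k ξ) t‖ ∂(noise P k)
      = (1 - Lap P S m k t) * t ^ (-1 - q) := by
    intro t ht
    have : ∀ ξ, ‖kA q (Zs S m k ξ) t‖ = (1 - Real.exp (-(t * Zs S m k ξ))) * t ^ (-1 - q) := by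
      intro ξ
      rw [Real.norm_of_nonneg (kA_nonneg (Zs_pos hc hSc m hk ξ).le ht.le)]; rfl
    simp_rw [this]
    rw [integral_mul_const, integral_sub (integrable_const _) (integrable_expZs P hS hc hSc hk ht.le)]
    simp [Lap]
  constructor
  · filter_upwards [ae_restrict_mem measurableSet_Ioi] with t ht
    have ht' : (0:ℝ) < t := ht
    simp only [Function.uncurry]
    unfold kA
    exact ((integrable_const _).sub (integrable_expZs P hS hc hSc hk ht'.le)).mul_const _
  · refine Integrable.mono' (integrableOn_domA (K := cst m * Bm P m S) hq hqm) ?_ ?_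
    · exact (hmeas.norm.stronglyMeasurable.integral_prod_left').aestronglyMeasurable
    · filter_upwards [ae_restrict_mem measurableSet_Ioi] with t ht
      have ht' : (0:ℝ) < t := ht
      simp only [Function.uncurry]
      rw [key t ht', Real.norm_of_nonneg (mul_nonneg (by linarith [Lap_le_one P hS hc hSc (m := m) hk ht'.le])
        (Real.rpow_nonneg ht'.le _))]
      refine le_domA ht' (by linarith [Lap_nonneg P (S := S) m k t]) ?_
      exact one_sub_Lap_le P hS hc hSc hm hm1 hB hk ht'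

lemma integrable_Zs_rpow (hS : Measurable S) (hc : 0 < c) (hSc : ∀ ω, c ≤ S ω) {m : ℝ}
    (hm : 0 < m) (hm1 : m < 1) (hB : Integrable (fun ω => S ω ^ m) P) {q : ℝ} (hq : 0 < q)
    (hqm : q < m) {k : ℕ} (hk : 0 < k) :
    Integrable (fun ξ => Zs S m k ξ ^ q) (noise P k) := by
  have h := (integrable_uncurry_kA P hS hc hSc hm hm1 hB hq hqm hk).integral_prod_left
  have hD := Dq_pos hq (hqm.trans hm1)
  have h2 : Integrable (fun ξ => Zs S m k ξ ^ q * Dq q) (noise P k) := by
    refine h.congr (Filter.Eventually.of_forall (fun ξ => ?_))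
    simp only [Function.uncurry]
    exact integral_kA hq (Zs_pos hc hSc m hk ξ).le
  exact (integrable_mul_const_iff (IsUnit.mk0 _ hD.ne') _).mp h2

lemma integral_Zs_rpow (hS : Measurable S) (hc : 0 < c) (hSc : ∀ ω, c ≤ S ω) {m : ℝ}
    (hm : 0 < m) (hm1 : m < 1) (hB : Integrable (fun ω => S ω ^ m) P) {q : ℝ} (hq : 0 < q)
    (hqm : q < m) {k : ℕ} (hk : 0 < k) :
    ∫ ξ, Zs S m k ξ ^ q ∂(noise P k)
      = (Dq q)⁻¹ * ∫ t in Ioi (0:ℝ), (1 - Lap P S m k t) * t ^ (-1 - q) := by
  have hD := Dq_pos hq (hqm.trans hm1)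
  have hsw := integral_integral_swap (integrable_uncurry_kA P hS hc hSc hm hm1 hB hq hqm hk)
  have h1 : ∫ ξ, Zs S m k ξ ^ q * Dq q ∂(noise P k)
      = ∫ t in Ioi (0:ℝ), (1 - Lap P S m k t) * t ^ (-1 - q) := by
    calc _ = ∫ ξ, (∫ t in Ioi (0:ℝ), kA q (Zs S m k ξ) t) ∂(noise P k) := by
          refine integral_congr_ae (Filter.Eventually.of_forall (fun ξ => ?_))
          exact (integral_kA hq (Zs_pos hc hSc m hk ξ).le).symm
      _ = _ := by
          rw [hsw]
          refine setIntegral_congr_fun measurableSet_Ioi (fun t ht => ?_)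
          have ht' : (0:ℝ) < t := ht
          simp only [kA]
          rw [integral_mul_const, integral_sub (integrable_const _)
            (integrable_expZs P hS hc hSc hk ht'.le)]
          simp [Lap]
  rw [← h1, integral_mul_const]
  field_simp

lemma tendsto_Zs_rpow (hS : Measurable S) (hc : 0 < c) (hSc : ∀ ω, c ≤ S ω) {m : ℝ}
    (hm : 0 < m) (hm1 : m < 1) (hB : Integrable (fun ω => S ω ^ m) P) {q : ℝ} (hq : 0 < q)
    (hqm : q < m) :
    Tendsto (fun k : ℕ => ∫ ξ, Zs S m k ξ ^ q ∂(noise P k)) atTop (𝓝 (GA m q (Bm P m S))) := by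
  have h : Tendsto (fun k : ℕ => ∫ t in Ioi (0:ℝ), (1 - Lap P S m (k + 1) t) * t ^ (-1 - q)) atTop
      (𝓝 (∫ t in Ioi (0:ℝ), (1 - Real.exp (-(cst m * Bm P m S * t ^ m))) * t ^ (-1 - q))) := by
    refine tendsto_integral_of_dominated_convergence (domA (cst m * Bm P m S) m q) (fun k => ?_)
      (integrableOn_domA hq hqm) (fun k => ?_) ?_
    · have := measurable_Lap P hS m (k + 1)
      exact (by fun_prop : Measurable (fun t : ℝ =>
        (1 - Lap P S m (k + 1) t) * t ^ (-1 - q))).aestronglyMeasurable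
    · filter_upwards [ae_restrict_mem measurableSet_Ioi] with t ht
      have ht' : (0:ℝ) < t := ht
      rw [Real.norm_of_nonneg (mul_nonneg (by
        linarith [Lap_le_one P hS hc hSc (m := m) (Nat.succ_pos k) ht'.le])
        (Real.rpow_nonneg ht'.le _))]
      refine le_domA ht' (by linarith [Lap_nonneg P (S := S) m (k + 1) t]) ?_
      exact one_sub_Lap_le P hS hc hSc hm hm1 hB (Nat.succ_pos k) ht'
    · filter_upwards [ae_restrict_mem measurableSet_Ioi] with t ht
      have ht' : (0:ℝ) < t := ht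
      exact ((tendsto_const_nhds.sub ((tendsto_Lap P hS hc hSc hm hm1 hB ht').comp
        (tendsto_add_atTop_nat 1))).mul_const _)
  rw [← tendsto_add_atTop_iff_nat 1]
  refine (h.const_mul (Dq q)⁻¹).congr (fun k => ?_)
  rw [integral_Zs_rpow P hS hc hSc hm hm1 hB hq hqm (Nat.succ_pos k)]

lemma integrable_uncurry_kB (hS : Measurable S) (hc : 0 < c) (hSc : ∀ ω, c ≤ S ω) {m : ℝ}
    (hm : 0 < m) (hm1 : m < 1) (hB : Integrable (fun ω => S ω ^ m) P) {k : ℕ} (hk : 0 < k) :
    Integrable (Function.uncurry (fun (ξ : Fin k → unitInterval × Ω) t => kB (Zs S m k ξ) t))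
      ((noise P k).prod (volume.restrict (Ioi (0:ℝ)))) := by
  have hmeas : Measurable (Function.uncurry
      (fun (ξ : Fin k → unitInterval × Ω) (t : ℝ) => kB (Zs S m k ξ) t)) := by
    have := measurable_Zs hS m k
    unfold kB Function.uncurry
    fun_prop
  rw [integrable_prod_iff' hmeas.aestronglyMeasurable]
  have hi : ∀ t : ℝ, 0 < t → Integrable (fun ξ => kB (Zs S m k ξ) t) (noise P k) := by
    intro t ht
    unfold kB
    exact ((integrable_const _).sub (integrable_expZs P hS hc hSc hk ht.le)).const_mul _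
  constructor
  · filter_upwards [ae_restrict_mem measurableSet_Ioi] with t ht
    exact hi t ht
  · refine Integrable.mono' (integrableOn_domB (K := cst m * Bm P m S) hm hc) ?_ ?_
    · exact (hmeas.norm.stronglyMeasurable.integral_prod_left').aestronglyMeasurable
    · filter_upwards [ae_restrict_mem measurableSet_Ioi] with t ht
      have ht' : (0:ℝ) < t := ht
      simp only [Function.uncurry]
      rw [Real.norm_of_nonneg (integral_nonneg (fun _ => norm_nonneg _))]
      have e1 : ∀ ξ, ‖kB (Zs S m k ξ) t‖ = t⁻¹ * |Real.exp (-t) - Real.exp (-(t * Zs S m k ξ))| := by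
        intro ξ
        unfold kB
        rw [Real.norm_eq_abs, abs_mul, abs_of_pos (inv_pos.mpr ht')]
      simp_rw [e1]
      rw [integral_const_mul]
      have hexp := integrable_expZs P hS hc hSc (m := m) hk ht'.le
      have hab : Integrable (fun ξ => |Real.exp (-t) - Real.exp (-(t * Zs S m k ξ))|) (noise P k) :=
        ((integrable_const _).sub hexp).abs
      have hle1 : Real.exp (-t) ≤ 1 := Real.exp_le_one_iff.mpr (by linarith)
      have hle2 : ∀ ξ, Real.exp (-(t * Zs S m k ξ)) ≤ 1 := fun ξ => by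
        rw [Real.exp_le_one_iff, neg_nonpos]
        exact mul_nonneg ht'.le (Zs_pos hc hSc m hk ξ).le
      refine le_domB' (a := Real.exp (-t)) (b := Lap P S m k t) ht' (exp_neg_le_inv ht')
        (one_sub_exp_le t) (fun h => Lap_decay P hS hc hSc hm hm1 hk h)
        (one_sub_Lap_le P hS hc hSc hm hm1 hB hk ht') ?_ ?_
      · calc _ ≤ ∫ ξ, ((1 - Real.exp (-t)) + (1 - Real.exp (-(t * Zs S m k ξ)))) ∂(noise P k) := by
              refine integral_mono hab ((integrable_const _).add ((integrable_const _).sub hexp))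
                (fun ξ => ?_)
              have h2 := hle2 ξ
              simp only
              rw [abs_le]; constructor <;> linarith
          _ = _ := by
              have hexp1 : Integrable (fun ξ => 1 - Real.exp (-(t * Zs S m k ξ))) (noise P k) :=
                (integrable_const _).sub hexp
              rw [integral_add (integrable_const _) hexp1,
                integral_sub (integrable_const _) hexp]
              simp [Lap]
      · calc _ ≤ ∫ ξ, (Real.exp (-t) + Real.exp (-(t * Zs S m k ξ))) ∂(noise P k) := by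
              refine integral_mono hab ((integrable_const _).add hexp) (fun ξ => ?_)
              have h2 := Real.exp_pos (-(t * Zs S m k ξ))
              have h3 := Real.exp_pos (-t)
              simp only
              rw [abs_le]; constructor <;> linarith
          _ = _ := by
              rw [integral_add (integrable_const _) hexp]
              simp [Lap]

lemma integrable_log_Zs (hS : Measurable S) (hc : 0 < c) (hSc : ∀ ω, c ≤ S ω) {m : ℝ}
    (hm : 0 < m) (hm1 : m < 1) (hB : Integrable (fun ω => S ω ^ m) P) {k : ℕ} (hk : 0 < k) :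
    Integrable (fun ξ => Real.log (Zs S m k ξ)) (noise P k) := by
  refine (integrable_uncurry_kB P hS hc hSc hm hm1 hB hk).integral_prod_left.congr
    (Filter.Eventually.of_forall (fun ξ => ?_))
  simp only [Function.uncurry]
  exact integral_kB (Zs_pos hc hSc m hk ξ)

lemma integral_log_Zs (hS : Measurable S) (hc : 0 < c) (hSc : ∀ ω, c ≤ S ω) {m : ℝ}
    (hm : 0 < m) (hm1 : m < 1) (hB : Integrable (fun ω => S ω ^ m) P) {k : ℕ} (hk : 0 < k) :
    ∫ ξ, Real.log (Zs S m k ξ) ∂(noise P k)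
      = ∫ t in Ioi (0:ℝ), t⁻¹ * (Real.exp (-t) - Lap P S m k t) := by
  have hsw := integral_integral_swap (integrable_uncurry_kB P hS hc hSc hm hm1 hB hk)
  calc _ = ∫ ξ, (∫ t in Ioi (0:ℝ), kB (Zs S m k ξ) t) ∂(noise P k) := by
        refine integral_congr_ae (Filter.Eventually.of_forall (fun ξ => ?_))
        exact (integral_kB (Zs_pos hc hSc m hk ξ)).symm
    _ = _ := by
        rw [hsw]
        refine setIntegral_congr_fun measurableSet_Ioi (fun t ht => ?_)
        have ht' : (0:ℝ) < t := ht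
        simp only [kB]
        rw [integral_const_mul, integral_sub (integrable_const _)
          (integrable_expZs P hS hc hSc hk ht'.le)]
        simp [Lap]

lemma tendsto_log_Zs (hS : Measurable S) (hc : 0 < c) (hSc : ∀ ω, c ≤ S ω) {m : ℝ}
    (hm : 0 < m) (hm1 : m < 1) (hB : Integrable (fun ω => S ω ^ m) P) :
    Tendsto (fun k : ℕ => ∫ ξ, Real.log (Zs S m k ξ) ∂(noise P k)) atTop
      (𝓝 (GB m (Bm P m S))) := by
  have h : Tendsto (fun k : ℕ => ∫ t in Ioi (0:ℝ), t⁻¹ * (Real.exp (-t) - Lap P S m (k + 1) t)) atTop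
      (𝓝 (∫ t in Ioi (0:ℝ), t⁻¹ * (Real.exp (-t) - Real.exp (-(cst m * Bm P m S * t ^ m))))) := by
    refine tendsto_integral_of_dominated_convergence (domB (cst m * Bm P m S) m c) (fun k => ?_)
      (integrableOn_domB hm hc) (fun k => ?_) ?_
    · have := measurable_Lap P hS m (k + 1)
      exact (by fun_prop : Measurable (fun t : ℝ =>
        t⁻¹ * (Real.exp (-t) - Lap P S m (k + 1) t))).aestronglyMeasurable
    · filter_upwards [ae_restrict_mem measurableSet_Ioi] with t ht
      have ht' : (0:ℝ) < t := ht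
      rw [norm_mul, Real.norm_of_nonneg (inv_nonneg.mpr ht'.le), Real.norm_eq_abs]
      exact le_domB ht' (exp_neg_le_inv ht') (one_sub_exp_le t)
        (fun h => Lap_decay P hS hc hSc hm hm1 (Nat.succ_pos k) h)
        (one_sub_Lap_le P hS hc hSc hm hm1 hB (Nat.succ_pos k) ht') (Real.exp_pos _).le
        (Lap_nonneg P m (k + 1) t) (Real.exp_le_one_iff.mpr (by linarith))
        (Lap_le_one P hS hc hSc (Nat.succ_pos k) ht'.le)
    · filter_upwards [ae_restrict_mem measurableSet_Ioi] with t ht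
      have ht' : (0:ℝ) < t := ht
      exact ((tendsto_const_nhds.sub ((tendsto_Lap P hS hc hSc hm hm1 hB ht').comp
        (tendsto_add_atTop_nat 1))).const_mul _)
  rw [← tendsto_add_atTop_iff_nat 1]
  refine h.congr (fun k => ?_)
  rw [integral_log_Zs P hS hc hSc hm hm1 hB (Nat.succ_pos k)]

end oneLevel

/-! ## dependence on `B` -/

lemma Zs_const (b m : ℝ) (k : ℕ) (ξ : Fin k → unitInterval × Unit) :
    Zs (fun _ : Unit => b) m k ξ = b * Zs (fun _ : Unit => (1:ℝ)) m k ξ := by
  unfold Zs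
  rw [Finset.mul_sum]
  exact Finset.sum_congr rfl (fun a _ => by ring)

lemma Bm_const (b m : ℝ) : Bm (Measure.dirac ()) m (fun _ : Unit => b) = b ^ m := by
  simp [Bm]

lemma GA_rpow {m : ℝ} (hm : 0 < m) (hm1 : m < 1) {q : ℝ} (hq : 0 < q) (hqm : q < m) {b : ℝ}
    (hb : 0 < b) : GA m q (b ^ m) = b ^ q * GA m q 1 := by
  have h1 := tendsto_Zs_rpow (Measure.dirac ()) (S := fun _ : Unit => b) measurable_const hb
    (fun _ => le_rfl) hm hm1 (integrable_const _) hq hqm
  have h2 := tendsto_Zs_rpow (Measure.dirac ()) (S := fun _ : Unit => (1:ℝ)) measurable_const one_pos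
    (fun _ => le_rfl) hm hm1 (integrable_const _) hq hqm
  rw [Bm_const] at h1 h2
  rw [Real.one_rpow] at h2
  refine tendsto_nhds_unique (h1.congr' ?_) (h2.const_mul (b ^ q))
  filter_upwards [eventually_gt_atTop 0] with k hk
  rw [← integral_const_mul]
  refine integral_congr_ae (Filter.Eventually.of_forall (fun ξ => ?_))
  simp only
  rw [Zs_const, Real.mul_rpow hb.le (Zs_pos one_pos (fun _ => le_rfl) m hk ξ).le]

lemma GB_rpow {m : ℝ} (hm : 0 < m) (hm1 : m < 1) {b : ℝ} (hb : 0 < b) :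
    GB m (b ^ m) = Real.log b + GB m 1 := by
  have h1 := tendsto_log_Zs (Measure.dirac ()) (S := fun _ : Unit => b) measurable_const hb
    (fun _ => le_rfl) hm hm1 (integrable_const _)
  have h2 := tendsto_log_Zs (Measure.dirac ()) (S := fun _ : Unit => (1:ℝ)) measurable_const one_pos
    (fun _ => le_rfl) hm hm1 (integrable_const _)
  rw [Bm_const] at h1 h2
  rw [Real.one_rpow] at h2
  refine tendsto_nhds_unique (h1.congr' ?_) (h2.const_add (Real.log b))
  filter_upwards [eventually_gt_atTop 0] with k hk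
  have hi := integrable_log_Zs (Measure.dirac ()) (S := fun _ : Unit => (1:ℝ)) measurable_const one_pos
    (fun _ => le_rfl) hm hm1 (integrable_const _) hk
  have : Real.log b = ∫ _ξ, Real.log b ∂(noise (Measure.dirac ()) k) := by simp
  rw [this, ← integral_add (integrable_const _) hi]
  refine integral_congr_ae (Filter.Eventually.of_forall (fun ξ => ?_))
  simp only
  rw [Zs_const, Real.log_mul hb.ne' (Zs_pos one_pos (fun _ => le_rfl) m hk ξ).ne']

lemma GA_eq {m : ℝ} (hm : 0 < m) (hm1 : m < 1) {q : ℝ} (hq : 0 < q) (hqm : q < m) {B : ℝ}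
    (hB : 0 < B) : GA m q B = B ^ (q / m) * GA m q 1 := by
  have h := GA_rpow hm hm1 hq hqm (Real.rpow_pos_of_pos hB (1 / m))
  rw [← Real.rpow_mul hB.le, ← Real.rpow_mul hB.le, one_div_mul_cancel hm.ne', Real.rpow_one,
    one_div_mul_eq_div] at h
  exact h

lemma GB_eq {m : ℝ} (hm : 0 < m) (hm1 : m < 1) {B : ℝ}
    (hB : 0 < B) : GB m B = (1 / m) * Real.log B + GB m 1 := by
  have h := GB_rpow hm hm1 (Real.rpow_pos_of_pos hB (1 / m))
  rw [← Real.rpow_mul hB.le, one_div_mul_cancel hm.ne', Real.rpow_one, Real.log_rpow hB] at h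
  exact h

lemma cst_pos {m : ℝ} (hm : 0 < m) (hm1 : m < 1) : 0 < cst m := by
  unfold cst
  have hint := integrableOn_e1 hm hm1 zero_le_one
  rw [setIntegral_pos_iff_support_of_nonneg_ae ?_ hint]
  · have : Function.support (e1 m 1) ∩ Ioi 0 = Ioi 0 := by
      ext t
      simp only [mem_inter_iff, Function.mem_support, mem_Ioi, and_iff_right_iff_imp]
      intro ht
      unfold e1
      have h2 : 0 < t ^ (-1 / m) := Real.rpow_pos_of_pos ht _
      have h1 : Real.exp (-(1 * t ^ (-1 / m))) < 1 := by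
        rw [Real.exp_lt_one_iff]; linarith
      exact (by linarith : (0:ℝ) < 1 - Real.exp (-(1 * t ^ (-1 / m)))).ne'
    rw [this]
    simp
  · filter_upwards [ae_restrict_mem measurableSet_Ioi] with t ht
    exact e1_nonneg zero_le_one (le_of_lt ht)

lemma GA_pos {m : ℝ} (hm : 0 < m) (hm1 : m < 1) {q : ℝ} (hq : 0 < q) (hqm : q < m) :
    0 < GA m q 1 := by
  unfold GA
  refine mul_pos (inv_pos.mpr (Dq_pos hq (hqm.trans hm1))) ?_
  have hK := cst_pos hm hm1
  have hnn : ∀ t : ℝ, 0 < t → 0 ≤ (1 - Real.exp (-(cst m * 1 * t ^ m))) * t ^ (-1 - q) := by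
    intro t ht
    have h1 : 0 ≤ t ^ m := Real.rpow_nonneg ht.le _
    exact mul_nonneg (one_sub_exp_nonneg (by positivity)) (Real.rpow_nonneg ht.le _)
  have hint : IntegrableOn (fun t : ℝ => (1 - Real.exp (-(cst m * 1 * t ^ m))) * t ^ (-1 - q))
      (Ioi 0) := by
    refine Integrable.mono' (integrableOn_domA (K := cst m * 1) hq hqm) ?_ ?_
    · exact (by fun_prop : Measurable (fun t : ℝ =>
        (1 - Real.exp (-(cst m * 1 * t ^ m))) * t ^ (-1 - q))).aestronglyMeasurable
    · filter_upwards [ae_restrict_mem measurableSet_Ioi] with t ht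
      have ht' : (0:ℝ) < t := ht
      rw [Real.norm_of_nonneg (hnn t ht')]
      exact le_domA ht' (one_sub_exp_le_one _) (one_sub_exp_le _)
  rw [setIntegral_pos_iff_support_of_nonneg_ae ?_ hint]
  · have : Function.support (fun t : ℝ => (1 - Real.exp (-(cst m * 1 * t ^ m))) * t ^ (-1 - q))
        ∩ Ioi 0 = Ioi 0 := by
      ext t
      simp only [mem_inter_iff, Function.mem_support, mem_Ioi, and_iff_right_iff_imp]
      intro ht
      have h2 : 0 < t ^ m := Real.rpow_pos_of_pos ht _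
      have h1 : Real.exp (-(cst m * 1 * t ^ m)) < 1 := by
        rw [Real.exp_lt_one_iff, neg_lt_zero]; positivity
      have h3 : 0 < t ^ (-1 - q) := Real.rpow_pos_of_pos ht _
      exact (mul_pos (by linarith) h3).ne'
    rw [this]
    simp
  · filter_upwards [ae_restrict_mem measurableSet_Ioi] with t ht
    exact hnn t ht

end Crest.Agent.R141.Tree
end

-- ▼ part R141/TreeThree
section

set_option autoImplicit false
open MeasureTheory Filter Topology Set

namespace Crest.Agent.R141.Tree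

/-! ## measure preserving shuffles -/

section shuffle

variable {κ L X : Type*} [Fintype κ] [Fintype L] [MeasurableSpace X] (μ : Measure X)
  [IsProbabilityMeasure μ]

lemma mp_uncurry : MeasurePreserving (fun (f : κ → L → X) (p : κ × L) => f p.1 p.2)
    (Measure.pi fun _ : κ => Measure.pi fun _ : L => μ) (Measure.pi fun _ : κ × L => μ) := by
  refine ⟨by fun_prop, ?_⟩
  have h := Measure.infinitePi_map_curry_symm (fun (_ : κ) (_ : L) => μ)
  simp only [Measure.infinitePi_eq_pi] at h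
  rw [← h]
  rfl

lemma mp_curry : MeasurePreserving (fun (g : κ × L → X) (k : κ) (l : L) => g (k, l))
    (Measure.pi fun _ : κ × L => μ) (Measure.pi fun _ : κ => Measure.pi fun _ : L => μ) := by
  refine ⟨by fun_prop, ?_⟩
  have h := Measure.infinitePi_map_curry (fun (_ : κ) (_ : L) => μ)
  simp only [Measure.infinitePi_eq_pi] at h
  rw [← h]
  rfl

lemma mp_swap : MeasurePreserving (fun (g : κ × L → X) (p : L × κ) => g (p.2, p.1))
    (Measure.pi fun _ : κ × L => μ) (Measure.pi fun _ : L × κ => μ) := by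
  refine ⟨by fun_prop, ?_⟩
  refine (Measure.pi_eq (fun s hs => ?_)).symm
  rw [Measure.map_apply (by fun_prop) (MeasurableSet.univ_pi hs)]
  have : (fun (g : κ × L → X) (p : L × κ) => g (p.2, p.1)) ⁻¹' (Set.univ.pi s)
      = Set.univ.pi (fun q : κ × L => s (q.2, q.1)) := by
    ext g
    simp only [Set.mem_preimage, Set.mem_pi, Set.mem_univ, true_implies, Prod.forall]
    exact ⟨fun h a b => h b a, fun h a b => h b a⟩
  rw [this, Measure.pi_pi]
  exact Fintype.prod_equiv (Equiv.prodComm κ L) _ _ (fun q => rfl)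

lemma mp_flip : MeasurePreserving (fun (f : κ → L → X) (l : L) (k : κ) => f k l)
    (Measure.pi fun _ : κ => Measure.pi fun _ : L => μ)
    (Measure.pi fun _ : L => Measure.pi fun _ : κ => μ) :=
  ((mp_curry (κ := L) (L := κ) μ).comp (mp_swap μ)).comp (mp_uncurry μ)

end shuffle

section shuffle2

variable {κ L I A J PL : Type*} [Fintype κ] [Fintype L] [MeasurableSpace I] [MeasurableSpace A]
  [MeasurableSpace J] [MeasurableSpace PL] (μI : Measure I) (μA : Measure A) (μJ : Measure J)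
  (μP : Measure PL)
  [IsProbabilityMeasure μI] [IsProbabilityMeasure μA] [IsProbabilityMeasure μJ]
  [IsProbabilityMeasure μP]

lemma mp_shuffle : MeasurePreserving
    (fun p : (L → I) × (κ → J × (A × (L → PL))) =>
      ((fun a => ((p.2 a).1, (p.2 a).2.1)), (fun ω => (p.1 ω, fun a => (p.2 a).2.2 ω))))
    ((Measure.pi fun _ : L => μI).prod
      (Measure.pi fun _ : κ => μJ.prod (μA.prod (Measure.pi fun _ : L => μP))))
    ((Measure.pi fun _ : κ => μJ.prod μA).prod
      (Measure.pi fun _ : L => μI.prod (Measure.pi fun _ : κ => μP))) := by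
  -- step 1: reassociate inside
  have h1 : MeasurePreserving
      (fun (ξ : κ → J × (A × (L → PL))) a => (((ξ a).1, (ξ a).2.1), (ξ a).2.2))
      (Measure.pi fun _ : κ => μJ.prod (μA.prod (Measure.pi fun _ : L => μP)))
      (Measure.pi fun _ : κ => (μJ.prod μA).prod (Measure.pi fun _ : L => μP)) := by
    refine measurePreserving_pi _ _ (f := fun (_ : κ) (x : J × (A × (L → PL))) =>
      ((x.1, x.2.1), x.2.2)) (fun _ => ?_)
    exact (measurePreserving_prodAssoc μJ μA (Measure.pi fun _ : L => μP)).symm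
  -- step 2: split
  have h2 := measurePreserving_arrowProdEquivProdArrow (J × A) (L → PL) κ
    (fun _ => μJ.prod μA) (fun _ => Measure.pi fun _ : L => μP)
  -- step 3: flip
  have h3 := (MeasurePreserving.id (Measure.pi fun _ : κ => μJ.prod μA)).prod
    (mp_flip (κ := κ) (L := L) μP)
  have h123 := (h3.comp h2).comp h1
  -- step 4: with the roots
  have h4 := (MeasurePreserving.id (Measure.pi fun _ : L => μI)).prod h123
  -- step 5: (a,(b,c)) -> (b,(a,c))
  have h5 : MeasurePreserving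
      (fun p : (L → I) × ((κ → J × A) × (L → κ → PL)) => (p.2.1, (p.1, p.2.2)))
      ((Measure.pi fun _ : L => μI).prod ((Measure.pi fun _ : κ => μJ.prod μA).prod
        (Measure.pi fun _ : L => Measure.pi fun _ : κ => μP)))
      ((Measure.pi fun _ : κ => μJ.prod μA).prod ((Measure.pi fun _ : L => μI).prod
        (Measure.pi fun _ : L => Measure.pi fun _ : κ => μP))) := by
    have ha := (measurePreserving_prodAssoc (Measure.pi fun _ : L => μI)
      (Measure.pi fun _ : κ => μJ.prod μA)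
      (Measure.pi fun _ : L => Measure.pi fun _ : κ => μP)).symm
    have hb := (Measure.measurePreserving_swap (μ := Measure.pi fun _ : L => μI)
      (ν := Measure.pi fun _ : κ => μJ.prod μA)).prod
      (MeasurePreserving.id (Measure.pi fun _ : L => Measure.pi fun _ : κ => μP))
    have hc := (measurePreserving_prodAssoc (Measure.pi fun _ : κ => μJ.prod μA)
      (Measure.pi fun _ : L => μI)
      (Measure.pi fun _ : L => Measure.pi fun _ : κ => μP))
    exact (hc.comp hb).comp ha
  -- step 6: join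
  have h6 := (MeasurePreserving.id (Measure.pi fun _ : κ => μJ.prod μA)).prod
    (measurePreserving_arrowProdEquivProdArrow I (κ → PL) L
    (fun _ => μI) (fun _ => Measure.pi fun _ : κ => μP)).symm
  exact (h6.comp h5).comp h4

end shuffle2

/-! ## the tree -/

/-- leaves of the tree with branching numbers `K` -/
def Leaf : (r : ℕ) → (Fin r → ℕ) → Type
  | 0, _ => Unit
  | r + 1, K => Fin (K 0) × Leaf r (Fin.tail K)

instance Leaf.fintype : (r : ℕ) → (K : Fin r → ℕ) → Fintype (Leaf r K)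
  | 0, _ => inferInstanceAs (Fintype Unit)
  | r + 1, K =>
    letI := Leaf.fintype r (Fin.tail K)
    inferInstanceAs (Fintype (Fin (K 0) × Leaf r (Fin.tail K)))

/-- the randomness behind the weights -/
def NT : (r : ℕ) → (Fin r → ℕ) → Type
  | 0, _ => Unit
  | r + 1, K => Fin (K 0) → unitInterval × NT r (Fin.tail K)

instance NT.ms : (r : ℕ) → (K : Fin r → ℕ) → MeasurableSpace (NT r K)
  | 0, _ => inferInstanceAs (MeasurableSpace Unit)
  | r + 1, K =>
    letI := NT.ms r (Fin.tail K)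
    inferInstanceAs (MeasurableSpace (Fin (K 0) → unitInterval × NT r (Fin.tail K)))

noncomputable def NLaw : (r : ℕ) → (K : Fin r → ℕ) → Measure (NT r K)
  | 0, _ => (Measure.dirac () : Measure Unit)
  | r + 1, K =>
    Measure.pi (fun _ : Fin (K 0) => (volume : Measure unitInterval).prod (NLaw r (Fin.tail K)))

instance NLaw.prob : (r : ℕ) → (K : Fin r → ℕ) → IsProbabilityMeasure (NLaw r K)
  | 0, _ => inferInstanceAs (IsProbabilityMeasure (Measure.dirac () : Measure Unit))
  | r + 1, K =>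
    haveI := NLaw.prob r (Fin.tail K)
    inferInstanceAs (IsProbabilityMeasure (Measure.pi (fun _ : Fin (K 0) =>
      (volume : Measure unitInterval).prod (NLaw r (Fin.tail K)))))

/-- the weights -/
noncomputable def V : (r : ℕ) → (m : Fin r → ℝ) → (K : Fin r → ℕ) → NT r K → Leaf r K → ℝ
  | 0, _, _, _, _ => 1
  | r + 1, m, K, ξ, a =>
    wgt (m 0) (K 0) (ξ a.1).1 * V r (Fin.tail m) (Fin.tail K) (ξ a.1).2 a.2

lemma measurable_V : (r : ℕ) → (m : Fin r → ℝ) → (K : Fin r → ℕ) → (a : Leaf r K) →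
    Measurable (fun ξ => V r m K ξ a)
  | 0, _, _, _ => measurable_const
  | r + 1, m, K, a => by
    have h := measurable_V r (Fin.tail m) (Fin.tail K) a.2
    have h1 : Measurable (fun ξ : Fin (K 0) → unitInterval × NT r (Fin.tail K) =>
        wgt (m 0) (K 0) (ξ a.1).1) :=
      (measurable_wgt _ _).comp (measurable_subtype_coe.comp (measurable_fst.comp (measurable_pi_apply _)))
    have h2 : Measurable (fun ξ : Fin (K 0) → unitInterval × NT r (Fin.tail K) =>
        V r (Fin.tail m) (Fin.tail K) (ξ a.1).2 a.2) :=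
      h.comp (measurable_snd.comp (measurable_pi_apply _))
    exact h1.mul h2

/-- law of the array leaf ↦ path, for one label -/
noncomputable def PLaw : (r : ℕ) → (K : Fin r → ℕ) → Measure (Leaf r K → Fin (r + 1) → unitInterval)
  | 0, _ => (volume : Measure unitInterval).map (fun u _ _ => u)
  | r + 1, K => ((volume : Measure unitInterval).prod
      (Measure.pi (fun _ : Fin (K 0) => PLaw r (Fin.tail K)))).map
        (fun ξ => fun a : Fin (K 0) × Leaf r (Fin.tail K) =>
          (Fin.cons ξ.1 (ξ.2 a.1 a.2) : Fin (r + 1 + 1) → unitInterval))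

lemma measurable_cons {n : ℕ} : Measurable (fun p : unitInterval × (Fin n → unitInterval) =>
    (Fin.cons p.1 p.2 : Fin (n + 1) → unitInterval)) := by
  refine measurable_pi_iff.mpr (fun i => ?_)
  refine Fin.cases ?_ (fun j => ?_) i
  · simpa using measurable_fst
  · simp only [Fin.cons_succ]
    exact (measurable_pi_apply j).comp measurable_snd

/-- the gluing map of `PLaw` -/
def pmap (r : ℕ) (K : Fin (r + 1) → ℕ)
    (ξ : unitInterval × (Fin (K 0) → Leaf r (Fin.tail K) → Fin (r + 1) → unitInterval)) :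
    Leaf (r + 1) K → Fin (r + 1 + 1) → unitInterval :=
  fun a : Fin (K 0) × Leaf r (Fin.tail K) =>
          (Fin.cons ξ.1 (ξ.2 a.1 a.2) : Fin (r + 1 + 1) → unitInterval)

lemma measurable_pmap (r : ℕ) (K : Fin (r + 1) → ℕ) : Measurable (pmap r K) := by
  refine measurable_pi_iff.mpr (fun a => ?_)
  exact measurable_cons.comp (measurable_fst.prodMk
    ((measurable_pi_apply a.2).comp ((measurable_pi_apply a.1).comp measurable_snd)))

lemma PLaw_succ (r : ℕ) (K : Fin (r + 1) → ℕ) : PLaw (r + 1) K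
    = ((volume : Measure unitInterval).prod
      (Measure.pi (fun _ : Fin (K 0) => PLaw r (Fin.tail K)))).map (pmap r K) := rfl

instance PLaw.prob : (r : ℕ) → (K : Fin r → ℕ) → IsProbabilityMeasure (PLaw r K)
  | 0, _ => by
    unfold PLaw
    refine Measure.isProbabilityMeasure_map ?_
    exact (measurable_pi_iff.mpr fun _ => measurable_pi_iff.mpr fun _ => measurable_id).aemeasurable
  | r + 1, K => by
    have := PLaw.prob r (Fin.tail K)
    rw [PLaw_succ]
    exact Measure.isProbabilityMeasure_map (measurable_pmap r K).aemeasurable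

section JL

variable (L : Type*) [Fintype L]

/-- joint law of the weights and of the labels -/
noncomputable def JL (r : ℕ) (K : Fin r → ℕ) :
    Measure (NT r K × (L → Leaf r K → Fin (r + 1) → unitInterval)) :=
  (NLaw r K).prod (Measure.pi fun _ : L => PLaw r K)

instance (r : ℕ) (K : Fin r → ℕ) : IsProbabilityMeasure (JL L r K) := by
  unfold JL; infer_instance

variable {L}

/-- the weighted sum over the leaves -/
noncomputable def Zw (r : ℕ) (m : Fin r → ℝ) (K : Fin r → ℕ)
    (W : (L → Fin (r + 1) → unitInterval) → ℝ)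
    (p : NT r K × (L → Leaf r K → Fin (r + 1) → unitInterval)) : ℝ :=
  ∑ a, V r m K p.1 a * W (fun ω => p.2 ω a)

/-- fix the level-0 uniforms -/
def consW {r : ℕ} (W : (L → Fin (r + 1 + 1) → unitInterval) → ℝ) (u0 : L → unitInterval)
    (u : L → Fin (r + 1) → unitInterval) : ℝ :=
  W (fun ω => Fin.cons (u0 ω) (u ω))

/-- the gluing map -/
def Theta (r : ℕ) (K : Fin (r + 1) → ℕ)
    (p : (L → unitInterval) × (Fin (K 0) → unitInterval ×
      (NT r (Fin.tail K) × (L → Leaf r (Fin.tail K) → Fin (r + 1) → unitInterval)))) :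
    NT (r + 1) K × (L → Leaf (r + 1) K → Fin (r + 1 + 1) → unitInterval) :=
  (fun a => ((p.2 a).1, (p.2 a).2.1), fun ω => pmap r K (p.1 ω, fun a => (p.2 a).2.2 ω))

lemma mp_Theta (r : ℕ) (K : Fin (r + 1) → ℕ) : MeasurePreserving (Theta (L := L) r K)
    ((Measure.pi fun _ : L => (volume : Measure unitInterval)).prod
      (noise (JL L r (Fin.tail K)) (K 0))) (JL L (r + 1) K) := by
  have h1 := mp_shuffle (κ := Fin (K 0)) (L := L) (volume : Measure unitInterval)
    (NLaw r (Fin.tail K)) (volume : Measure unitInterval) (PLaw r (Fin.tail K))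
  have h2 : MeasurePreserving (pmap r K) ((volume : Measure unitInterval).prod
      (Measure.pi (fun _ : Fin (K 0) => PLaw r (Fin.tail K)))) (PLaw (r + 1) K) :=
    (measurable_pmap r K).measurePreserving _
  have h3 := measurePreserving_pi (fun _ : L => (volume : Measure unitInterval).prod
      (Measure.pi (fun _ : Fin (K 0) => PLaw r (Fin.tail K)))) (fun _ => PLaw (r + 1) K)
      (f := fun _ => pmap r K) (fun _ => h2)
  have h4 := (MeasurePreserving.id (NLaw (r + 1) K)).prod h3
  exact h4.comp h1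

omit [Fintype L] in
lemma Zw_Theta (r : ℕ) (m : Fin (r + 1) → ℝ) (K : Fin (r + 1) → ℕ)
    (W : (L → Fin (r + 1 + 1) → unitInterval) → ℝ)
    (p : (L → unitInterval) × (Fin (K 0) → unitInterval ×
      (NT r (Fin.tail K) × (L → Leaf r (Fin.tail K) → Fin (r + 1) → unitInterval)))) :
    Zw (r + 1) m K W (Theta r K p)
      = Zs (Zw r (Fin.tail m) (Fin.tail K) (consW W p.1)) (m 0) (K 0) p.2 := by
  unfold Zw Zs
  have : ∀ f : Leaf (r + 1) K → ℝ, ∑ a, f a
      = ∑ a : Fin (K 0), ∑ b : Leaf r (Fin.tail K), f (a, b) := by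
    intro f
    exact Fintype.sum_prod_type (f := (f : Fin (K 0) × Leaf r (Fin.tail K) → ℝ))
  rw [this]
  refine Finset.sum_congr rfl (fun a _ => ?_)
  rw [Finset.mul_sum]
  refine Finset.sum_congr rfl (fun b _ => ?_)
  rw [← mul_assoc]
  rfl

end JL

end Crest.Agent.R141.Tree
private theorem rz_f483a7d747 : type_of% @_root_.Crest.Agent.R141.Tree.PLaw.eq_def := @_root_.Crest.Agent.R141.Tree.PLaw.eq_def -- L165
private theorem rz_5a8638e4ea : type_of% @_root_.Crest.Agent.R141.Tree.V.eq_def := @_root_.Crest.Agent.R141.Tree.V.eq_def -- L146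
private theorem rz_3338dfc1a6 : type_of% @_root_.Crest.Agent.R141.Tree.V.eq_1 := @_root_.Crest.Agent.R141.Tree.V.eq_1 -- L146
end

-- ▼ part R141/TreeFour
section

set_option autoImplicit false
open MeasureTheory Filter Topology Set

namespace Crest.Agent.R141.Tree

/-! ## lower bounds, measurability, integrability -/

lemma V_pos : (r : ℕ) → (m : Fin r → ℝ) → (K : Fin r → ℕ) → (∀ i, 0 < K i) → (ξ : NT r K) →
    (a : Leaf r K) → 0 < V r m K ξ a
  | 0, _, _, _, _, _ => by simp [V]
  | r + 1, m, K, hK, ξ, a => by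
    have h := V_pos r (Fin.tail m) (Fin.tail K) (fun i => hK i.succ) (ξ a.1).2 a.2
    exact mul_pos (wgt_pos _ (hK 0) _) h

/-- a leaf -/
def leaf0 : (r : ℕ) → (K : Fin r → ℕ) → (∀ i, 0 < K i) → Leaf r K
  | 0, _, _ => ()
  | r + 1, K, hK => (⟨0, hK 0⟩, leaf0 r (Fin.tail K) (fun i => hK i.succ))

/-- lower bound for the weights -/
noncomputable def lowV : (r : ℕ) → (m : Fin r → ℝ) → (K : Fin r → ℕ) → ℝ
  | 0, _, _ => 1
  | r + 1, m, K => ((K 0 : ℕ) : ℝ) ^ (-1 / (m 0)) * lowV r (Fin.tail m) (Fin.tail K)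

lemma lowV_pos : (r : ℕ) → (m : Fin r → ℝ) → (K : Fin r → ℕ) → (∀ i, 0 < K i) → 0 < lowV r m K
  | 0, _, _, _ => by simp [lowV]
  | r + 1, m, K, hK => by
    have h := lowV_pos r (Fin.tail m) (Fin.tail K) (fun i => hK i.succ)
    have : (0:ℝ) < K 0 := by exact_mod_cast hK 0
    unfold lowV
    positivity

lemma lowV_le : (r : ℕ) → (m : Fin r → ℝ) → (K : Fin r → ℕ) → (∀ i, 0 < K i) → (ξ : NT r K) →
    (a : Leaf r K) → lowV r m K ≤ V r m K ξ a
  | 0, _, _, _, _, _ => by simp [V, lowV]
  | r + 1, m, K, hK, ξ, a => by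
    have h := lowV_le r (Fin.tail m) (Fin.tail K) (fun i => hK i.succ) (ξ a.1).2 a.2
    have h0 := lowV_pos r (Fin.tail m) (Fin.tail K) (fun i => hK i.succ)
    exact mul_le_mul (wgt_ge _ _ _) h h0.le (wgt_pos _ (hK 0) _).le

variable {L : Type*} {r : ℕ}

/-- the sum of the weights as a `Zw` -/
lemma Zw_one (m : Fin r → ℝ) (K : Fin r → ℕ)
    (p : NT r K × (L → Leaf r K → Fin (r + 1) → unitInterval)) :
    Zw r m K (fun _ => 1) p = ∑ a, V r m K p.1 a := by
  simp [Zw]

lemma Zw_one_ge (m : Fin r → ℝ) (K : Fin r → ℕ) (hK : ∀ i, 0 < K i)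
    (p : NT r K × (L → Leaf r K → Fin (r + 1) → unitInterval)) :
    lowV r m K ≤ Zw r m K (fun _ => 1) p := by
  rw [Zw_one]
  refine le_trans (lowV_le r m K hK p.1 (leaf0 r K hK)) ?_
  exact Finset.single_le_sum (fun a _ => (V_pos r m K hK p.1 a).le) (Finset.mem_univ _)

lemma Zw_ge {c : ℝ} {W : (L → Fin (r + 1) → unitInterval) → ℝ} (hcW : ∀ u, c ≤ W u)
    (m : Fin r → ℝ) (K : Fin r → ℕ) (hK : ∀ i, 0 < K i)
    (p : NT r K × (L → Leaf r K → Fin (r + 1) → unitInterval)) :
    c * Zw r m K (fun _ => 1) p ≤ Zw r m K W p := by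
  unfold Zw
  rw [Finset.mul_sum]
  refine Finset.sum_le_sum (fun a _ => ?_)
  have := V_pos r m K hK p.1 a
  have h2 := hcW (fun ω => p.2 ω a)
  nlinarith

lemma Zw_le {C : ℝ} {W : (L → Fin (r + 1) → unitInterval) → ℝ} (hWC : ∀ u, W u ≤ C)
    (m : Fin r → ℝ) (K : Fin r → ℕ) (hK : ∀ i, 0 < K i)
    (p : NT r K × (L → Leaf r K → Fin (r + 1) → unitInterval)) :
    Zw r m K W p ≤ C * Zw r m K (fun _ => 1) p := by
  unfold Zw
  rw [Finset.mul_sum]
  refine Finset.sum_le_sum (fun a _ => ?_)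
  have := V_pos r m K hK p.1 a
  have h2 := hWC (fun ω => p.2 ω a)
  nlinarith

lemma Zw_lower {c : ℝ} (hc : 0 < c) {W : (L → Fin (r + 1) → unitInterval) → ℝ}
    (hcW : ∀ u, c ≤ W u) (m : Fin r → ℝ) (K : Fin r → ℕ) (hK : ∀ i, 0 < K i)
    (p : NT r K × (L → Leaf r K → Fin (r + 1) → unitInterval)) :
    c * lowV r m K ≤ Zw r m K W p :=
  (mul_le_mul_of_nonneg_left (Zw_one_ge m K hK p) hc.le).trans (Zw_ge hcW m K hK p)

lemma measurable_Zw {Ξ : Type*} [MeasurableSpace Ξ] (m : Fin r → ℝ) (K : Fin r → ℕ)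
    {W : Ξ → (L → Fin (r + 1) → unitInterval) → ℝ}
    (hW : Measurable (Function.uncurry W)) :
    Measurable (fun x : Ξ × (NT r K × (L → Leaf r K → Fin (r + 1) → unitInterval)) =>
      Zw r m K (W x.1) x.2) := by
  unfold Zw
  refine Finset.measurable_sum _ (fun a _ => ?_)
  refine Measurable.mul ?_ ?_
  · exact (measurable_V r m K a).comp (measurable_fst.comp measurable_snd)
  · refine hW.comp (measurable_fst.prodMk ?_)
    refine measurable_pi_iff.mpr (fun ω => ?_)
    exact (measurable_pi_apply a).comp ((measurable_pi_apply ω).comp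
      (measurable_snd.comp measurable_snd))

lemma measurable_Zw' (m : Fin r → ℝ) (K : Fin r → ℕ)
    {W : (L → Fin (r + 1) → unitInterval) → ℝ} (hW : Measurable W) :
    Measurable (Zw r m K W) := by
  have h := measurable_Zw (Ξ := Unit) m K (W := fun _ => W) (hW.comp measurable_snd)
  exact h.comp ((measurable_const (a := ())).prodMk measurable_id)

lemma measurable_consW {W : (L → Fin (r + 1 + 1) → unitInterval) → ℝ} (hW : Measurable W) :
    Measurable (Function.uncurry (consW W)) := by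
  have h : Measurable (fun (p : (L → unitInterval) × (L → Fin (r + 1) → unitInterval)) (ω : L) =>
      (Fin.cons (p.1 ω) (p.2 ω) : Fin (r + 1 + 1) → unitInterval)) := by
    refine measurable_pi_iff.mpr (fun ω => ?_)
    have h1 : Measurable (fun p : (L → unitInterval) × (L → Fin (r + 1) → unitInterval) =>
        (p.1 ω, p.2 ω)) :=
      ((measurable_pi_apply ω).comp measurable_fst).prodMk
        ((measurable_pi_apply ω).comp measurable_snd)
    exact measurable_cons.comp h1
  exact hW.comp h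

lemma measurable_consW' {W : (L → Fin (r + 1 + 1) → unitInterval) → ℝ} (hW : Measurable W)
    (u0 : L → unitInterval) : Measurable (consW W u0) :=
  (measurable_consW hW).comp (measurable_const.prodMk measurable_id)

variable [Fintype L]

/-- law of the level-0 uniforms -/
noncomputable abbrev rootLaw (L : Type*) [Fintype L] : Measure (L → unitInterval) :=
  Measure.pi fun _ : L => (volume : Measure unitInterval)

/-- structure of the integrals -/
lemma integral_JL_succ (m : Fin (r + 1) → ℝ) (K : Fin (r + 1) → ℕ)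
    {W : (L → Fin (r + 1 + 1) → unitInterval) → ℝ} (hW : Measurable W) {φ : ℝ → ℝ}
    (hφ : Measurable φ) (hint : Integrable (fun p => φ (Zw (r + 1) m K W p)) (JL L (r + 1) K)) :
    ∫ p, φ (Zw (r + 1) m K W p) ∂(JL L (r + 1) K)
      = ∫ u0, ∫ ξ, φ (Zs (Zw r (Fin.tail m) (Fin.tail K) (consW W u0)) (m 0) (K 0) ξ)
          ∂(noise (JL L r (Fin.tail K)) (K 0)) ∂(rootLaw L) := by
  have hmp := mp_Theta (L := L) r K
  have hm : Measurable (fun p => φ (Zw (r + 1) m K W p)) := hφ.comp (measurable_Zw' m K hW)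
  have h1 : ∫ p, φ (Zw (r + 1) m K W p) ∂(JL L (r + 1) K)
      = ∫ q, φ (Zw (r + 1) m K W (Theta r K q)) ∂((rootLaw L).prod
        (noise (JL L r (Fin.tail K)) (K 0))) := by
    rw [← hmp.map_eq, integral_map hmp.measurable.aemeasurable hm.aestronglyMeasurable]
  have h2 : Integrable (fun q => φ (Zw (r + 1) m K W (Theta r K q))) ((rootLaw L).prod
        (noise (JL L r (Fin.tail K)) (K 0))) :=
    hmp.integrable_comp_of_integrable hint
  rw [h1, integral_prod _ h2]
  simp_rw [Zw_Theta]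

lemma integrable_JL_succ (m : Fin (r + 1) → ℝ) (K : Fin (r + 1) → ℕ)
    {φ : ℝ → ℝ} (hφ : Measurable φ)
    (hint : Integrable (fun ξ => φ (Zs (Zw r (Fin.tail m) (Fin.tail K) (fun _ => 1)) (m 0) (K 0) ξ))
      (noise (JL L r (Fin.tail K)) (K 0))) :
    Integrable (fun p => φ (Zw (r + 1) m K (fun _ => 1) p)) (JL L (r + 1) K) := by
  have hmp := mp_Theta (L := L) r K
  have hm : Measurable (fun p => φ (Zw (L := L) (r + 1) m K (fun _ => 1) p)) :=
    hφ.comp (measurable_Zw' m K measurable_const)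
  rw [← hmp.integrable_comp hm.aestronglyMeasurable]
  have : (fun p => φ (Zw (L := L) (r + 1) m K (fun _ => 1) p)) ∘ Theta (L := L) r K
      = fun q => φ (Zs (Zw r (Fin.tail m) (Fin.tail K) (fun _ => 1)) (m 0) (K 0) q.2) := by
    funext q
    simp only [Function.comp]
    rw [Zw_Theta]
    rfl
  rw [this]
  exact hint.comp_snd _

omit [Fintype L] in
lemma Zw_zero_one (m : Fin 0 → ℝ) (K : Fin 0 → ℕ)
    (p : NT 0 K × (L → Leaf 0 K → Fin (0 + 1) → unitInterval)) :
    Zw 0 m K (fun _ => 1) p = 1 := by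
  rw [Zw_one]
  exact Finset.sum_const (1:ℝ) |>.trans (by simp [Finset.card_univ]; rfl)

lemma integrable_Zw_one_rpow : (r : ℕ) → (m : Fin r → ℝ) → StrictMono m →
    (∀ i, 0 < m i ∧ m i < 1) → (K : Fin r → ℕ) → (∀ i, 0 < K i) → (q : ℝ) → 0 < q →
    (∀ i, q < m i) →
    Integrable (fun p => Zw r m K (fun _ => 1) p ^ q) (JL L r K)
  | 0, m, _, _, K, _, q, _, _ => by
    simp_rw [Zw_zero_one]
    exact integrable_const _
  | r + 1, m, hmono, hm, K, hK, q, hq, hqm => by
    have ih := integrable_Zw_one_rpow r (Fin.tail m) (hmono.comp (Fin.strictMono_succ))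
      (fun i => hm i.succ) (Fin.tail K) (fun i => hK i.succ) (m 0) (hm 0).1
      (fun i => hmono (Fin.succ_pos i))
    refine integrable_JL_succ m K (φ := fun x => x ^ q) (by fun_prop) ?_
    exact integrable_Zs_rpow (JL L r (Fin.tail K)) (measurable_Zw' _ _ measurable_const)
      (lowV_pos r (Fin.tail m) (Fin.tail K) (fun i => hK i.succ))
      (Zw_one_ge _ _ (fun i => hK i.succ)) (hm 0).1 (hm 0).2 ih hq (hqm 0) (hK 0)

lemma integrable_Zw_one_log : (r : ℕ) → (m : Fin r → ℝ) → StrictMono m →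
    (∀ i, 0 < m i ∧ m i < 1) → (K : Fin r → ℕ) → (∀ i, 0 < K i) →
    Integrable (fun p => Real.log (Zw r m K (fun _ => 1) p)) (JL L r K)
  | 0, m, _, _, K, _ => by
    simp_rw [Zw_zero_one]
    exact integrable_const _
  | r + 1, m, hmono, hm, K, hK => by
    have ih := integrable_Zw_one_rpow (L := L) r (Fin.tail m) (hmono.comp (Fin.strictMono_succ))
      (fun i => hm i.succ) (Fin.tail K) (fun i => hK i.succ) (m 0) (hm 0).1
      (fun i => hmono (Fin.succ_pos i))
    refine integrable_JL_succ m K (φ := Real.log) Real.measurable_log ?_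
    exact integrable_log_Zs (JL L r (Fin.tail K)) (measurable_Zw' _ _ measurable_const)
      (lowV_pos r (Fin.tail m) (Fin.tail K) (fun i => hK i.succ))
      (Zw_one_ge _ _ (fun i => hK i.succ)) (hm 0).1 (hm 0).2 ih (hK 0)

section bounds

variable {c C : ℝ} {W : (L → Fin (r + 1) → unitInterval) → ℝ} {m : Fin r → ℝ} {K : Fin r → ℕ}

omit [Fintype L] in
lemma Zw_pos (hc : 0 < c) (hcW : ∀ u, c ≤ W u) (hK : ∀ i, 0 < K i)
    (p : NT r K × (L → Leaf r K → Fin (r + 1) → unitInterval)) : 0 < Zw r m K W p :=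
  lt_of_lt_of_le (mul_pos hc (lowV_pos r m K hK)) (Zw_lower hc hcW m K hK p)

omit [Fintype L] in
lemma Zw_one_pos (hK : ∀ i, 0 < K i)
    (p : NT r K × (L → Leaf r K → Fin (r + 1) → unitInterval)) : 0 < Zw r m K (fun _ => 1) p :=
  lt_of_lt_of_le (lowV_pos r m K hK) (Zw_one_ge m K hK p)

omit [Fintype L] in
lemma Zw_rpow_le (hc : 0 < c) (hcW : ∀ u, c ≤ W u) (hWC : ∀ u, W u ≤ C) (hC : 0 ≤ C)
    (hK : ∀ i, 0 < K i) {q : ℝ} (hq : 0 < q)
    (p : NT r K × (L → Leaf r K → Fin (r + 1) → unitInterval)) :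
    Zw r m K W p ^ q ≤ C ^ q * Zw r m K (fun _ => 1) p ^ q := by
  rw [← Real.mul_rpow hC (Zw_one_pos hK p).le]
  exact Real.rpow_le_rpow (Zw_pos hc hcW hK p).le (Zw_le hWC m K hK p) hq.le

omit [Fintype L] in
lemma le_Zw_rpow (hc : 0 < c) (hcW : ∀ u, c ≤ W u)
    (hK : ∀ i, 0 < K i) {q : ℝ} (hq : 0 < q)
    (p : NT r K × (L → Leaf r K → Fin (r + 1) → unitInterval)) :
    c ^ q * Zw r m K (fun _ => 1) p ^ q ≤ Zw r m K W p ^ q := by
  rw [← Real.mul_rpow hc.le (Zw_one_pos hK p).le]
  exact Real.rpow_le_rpow (mul_nonneg hc.le (Zw_one_pos hK p).le) (Zw_ge hcW m K hK p) hq.le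

omit [Fintype L] in
lemma Zw_log_le (hc : 0 < c) (hcW : ∀ u, c ≤ W u) (hWC : ∀ u, W u ≤ C) (hC : 0 < C)
    (hK : ∀ i, 0 < K i)
    (p : NT r K × (L → Leaf r K → Fin (r + 1) → unitInterval)) :
    Real.log (Zw r m K W p) ≤ Real.log C + Real.log (Zw r m K (fun _ => 1) p) := by
  rw [← Real.log_mul hC.ne' (Zw_one_pos hK p).ne']
  exact Real.log_le_log (Zw_pos hc hcW hK p) (Zw_le hWC m K hK p)

omit [Fintype L] in
lemma le_Zw_log (hc : 0 < c) (hcW : ∀ u, c ≤ W u)
    (hK : ∀ i, 0 < K i)
    (p : NT r K × (L → Leaf r K → Fin (r + 1) → unitInterval)) :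
    Real.log c + Real.log (Zw r m K (fun _ => 1) p) ≤ Real.log (Zw r m K W p) := by
  rw [← Real.log_mul hc.ne' (Zw_one_pos hK p).ne']
  exact Real.log_le_log (mul_pos hc (Zw_one_pos hK p)) (Zw_ge hcW m K hK p)

lemma integrable_Zw_rpow (hW : Measurable W) (hc : 0 < c) (hcW : ∀ u, c ≤ W u)
    (hWC : ∀ u, W u ≤ C) (hmono : StrictMono m) (hm : ∀ i, 0 < m i ∧ m i < 1)
    (hK : ∀ i, 0 < K i) {q : ℝ} (hq : 0 < q) (hqm : ∀ i, q < m i) :
    Integrable (fun p => Zw r m K W p ^ q) (JL L r K) := by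
  have hC : 0 ≤ C := hc.le.trans ((hcW (fun _ _ => 0)).trans (hWC _))
  have hmeas := measurable_Zw' m K hW
  refine Integrable.mono' ((integrable_Zw_one_rpow r m hmono hm K hK q hq hqm).const_mul (C ^ q))
    (by fun_prop : Measurable (fun p => Zw r m K W p ^ q)).aestronglyMeasurable
    (Filter.Eventually.of_forall (fun p => ?_))
  rw [Real.norm_of_nonneg (Real.rpow_nonneg (Zw_pos hc hcW hK p).le _)]
  exact Zw_rpow_le hc hcW hWC hC hK hq p

lemma integrable_Zw_log (hW : Measurable W) (hc : 0 < c) (hcW : ∀ u, c ≤ W u)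
    (hWC : ∀ u, W u ≤ C) (hmono : StrictMono m) (hm : ∀ i, 0 < m i ∧ m i < 1)
    (hK : ∀ i, 0 < K i) :
    Integrable (fun p => Real.log (Zw r m K W p)) (JL L r K) := by
  have hC : 0 < C := hc.trans_le ((hcW (fun _ _ => 0)).trans (hWC _))
  have hmeas := measurable_Zw' m K hW
  refine Integrable.mono' ((((integrable_Zw_one_log r m hmono hm K hK).abs).add
    (integrable_const |Real.log c|)).add (integrable_const |Real.log C|))
    (by fun_prop : Measurable (fun p => Real.log (Zw r m K W p))).aestronglyMeasurable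
    (Filter.Eventually.of_forall (fun p => ?_))
  have h1 := Zw_log_le (m := m) hc hcW hWC hC hK p
  have h2 := le_Zw_log (m := m) hc hcW hK p
  simp only [Pi.add_apply]
  rw [Real.norm_eq_abs, abs_le]
  have h3 := neg_abs_le (Real.log c)
  have h4 := le_abs_self (Real.log C)
  have h5 := neg_abs_le (Real.log (Zw r m K (fun _ => 1) p))
  have h6 := le_abs_self (Real.log (Zw r m K (fun _ => 1) p))
  have h7 := abs_nonneg (Real.log c)
  have h8 := abs_nonneg (Real.log C)
  constructor <;> linarith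

end bounds

end Crest.Agent.R141.Tree
private theorem rz_6b7b42eba3 : type_of% @_root_.Crest.Agent.R141.Tree.lowV.eq_def := @_root_.Crest.Agent.R141.Tree.lowV.eq_def -- L23
private theorem rz_414fa3b632 : type_of% @_root_.Crest.Agent.R141.Tree.lowV.eq_1 := @_root_.Crest.Agent.R141.Tree.lowV.eq_1 -- L23
end

-- ▼ part R141/TreeFive
section

set_option autoImplicit false
open MeasureTheory Filter Topology Set

namespace Crest.Agent.R141.Tree

variable {L : Type*} {r : ℕ} [Fintype L]

/-- one-level integral, for fixed lower structure `K'` -/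
noncomputable def FF (φ : ℝ → ℝ) (m : Fin (r + 1) → ℝ)
    (W : (L → Fin (r + 1 + 1) → unitInterval) → ℝ) (k : ℕ) (K' : Fin r → ℕ) : ℝ :=
  ∫ u0, ∫ ξ, φ (Zs (Zw r (Fin.tail m) K' (consW W u0)) (m 0) k ξ)
    ∂(noise (JL L r K') k) ∂(rootLaw L)

noncomputable def II (φ : ℝ → ℝ) (r : ℕ) (m : Fin r → ℝ) (K : Fin r → ℕ)
    (W : (L → Fin (r + 1) → unitInterval) → ℝ) : ℝ :=
  ∫ p, φ (Zw r m K W p) ∂(JL L r K)

lemma II_cons (m : Fin (r + 1) → ℝ) {k : ℕ} {K' : Fin r → ℕ}
    {W : (L → Fin (r + 1 + 1) → unitInterval) → ℝ} (hW : Measurable W) {φ : ℝ → ℝ}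
    (hφ : Measurable φ)
    (hint : Integrable (fun p => φ (Zw (r + 1) m (Fin.cons k K') W p)) (JL L (r + 1) (Fin.cons k K'))) :
    II φ (r + 1) m (Fin.cons k K') W = FF φ m W k K' := by
  unfold II
  rw [integral_JL_succ m _ hW hφ hint]
  change FF φ m W ((Fin.cons k K' : Fin (r + 1) → ℕ) 0)
    (Fin.tail (Fin.cons k K' : Fin (r + 1) → ℕ)) = _
  rw [Fin.cons_zero, Fin.tail_cons]

section

variable {c C : ℝ} {W : (L → Fin (r + 1 + 1) → unitInterval) → ℝ} {m : Fin (r + 1) → ℝ}
  {K' : Fin r → ℕ}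

omit [Fintype L] in
lemma measurable_Zs_joint (hW : Measurable W) (k : ℕ) :
    Measurable (fun x : (L → unitInterval) × (Fin k → unitInterval ×
      (NT r K' × (L → Leaf r K' → Fin (r + 1) → unitInterval))) =>
      Zs (Zw r (Fin.tail m) K' (consW W x.1)) (m 0) k x.2) := by
  unfold Zs
  refine Finset.measurable_sum _ (fun a _ => ?_)
  refine Measurable.mul ?_ ?_
  · exact (measurable_wgt _ _).comp (measurable_subtype_coe.comp
      (measurable_fst.comp ((measurable_pi_apply a).comp measurable_snd)))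
  · have h := measurable_Zw (Fin.tail m) K' (W := fun u0 : L → unitInterval => consW W u0)
      (measurable_consW hW)
    have h2 : Measurable (fun x : (L → unitInterval) × (Fin k → unitInterval ×
      (NT r K' × (L → Leaf r K' → Fin (r + 1) → unitInterval))) => (x.1, (x.2 a).2)) :=
      measurable_fst.prodMk (measurable_snd.comp ((measurable_pi_apply a).comp measurable_snd))
    exact h.comp h2

lemma Zs_mono {Ω : Type*} {S S' : Ω → ℝ} (h : ∀ ω, S ω ≤ S' ω) (m : ℝ) {k : ℕ} (hk : 0 < k)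
    (ξ : Fin k → unitInterval × Ω) : Zs S m k ξ ≤ Zs S' m k ξ := by
  unfold Zs
  exact Finset.sum_le_sum (fun a _ => mul_le_mul_of_nonneg_left (h _) (wgt_pos m hk _).le)

lemma Zs_smul {Ω : Type*} (S : Ω → ℝ) (b m : ℝ) (k : ℕ)
    (ξ : Fin k → unitInterval × Ω) : Zs (fun ω => b * S ω) m k ξ = b * Zs S m k ξ := by
  unfold Zs
  rw [Finset.mul_sum]
  exact Finset.sum_congr rfl (fun a _ => by ring)

omit [Fintype L] in
lemma Zs_Zw_le (hWC : ∀ u, W u ≤ C) (hK' : ∀ i, 0 < K' i) {k : ℕ} (hk : 0 < k)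
    (u0 : L → unitInterval) (ξ : Fin k → unitInterval ×
      (NT r K' × (L → Leaf r K' → Fin (r + 1) → unitInterval))) :
    Zs (Zw r (Fin.tail m) K' (consW W u0)) (m 0) k ξ
      ≤ C * Zs (Zw r (Fin.tail m) K' (fun _ => 1)) (m 0) k ξ := by
  rw [← Zs_smul]
  exact Zs_mono (fun ω => Zw_le (fun u => hWC _) _ K' hK' ω) _ hk ξ

omit [Fintype L] in
lemma le_Zs_Zw (hcW : ∀ u, c ≤ W u) (hK' : ∀ i, 0 < K' i) {k : ℕ} (hk : 0 < k)
    (u0 : L → unitInterval) (ξ : Fin k → unitInterval ×
      (NT r K' × (L → Leaf r K' → Fin (r + 1) → unitInterval))) :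
    c * Zs (Zw r (Fin.tail m) K' (fun _ => 1)) (m 0) k ξ
      ≤ Zs (Zw r (Fin.tail m) K' (consW W u0)) (m 0) k ξ := by
  rw [← Zs_smul]
  exact Zs_mono (fun ω => Zw_ge (fun u => hcW _) _ K' hK' ω) _ hk ξ

lemma tendsto_FF_rpow (hW : Measurable W) (hc : 0 < c) (hcW : ∀ u, c ≤ W u)
    (hWC : ∀ u, W u ≤ C) (hmono : StrictMono m) (hm : ∀ i, 0 < m i ∧ m i < 1)
    (hK' : ∀ i, 0 < K' i) {q : ℝ} (hq : 0 < q) (hqm : q < m 0) :
    Tendsto (fun k : ℕ => FF (fun x => x ^ q) m W k K') atTop
      (𝓝 (∫ u0, GA (m 0) q (II (fun x => x ^ (m 0)) r (Fin.tail m) K' (consW W u0))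
        ∂(rootLaw L))) := by
  have hC : 0 < C := hc.trans_le ((hcW (fun _ _ => 0)).trans (hWC _))
  have hmono' : StrictMono (Fin.tail m) := hmono.comp (Fin.strictMono_succ)
  have hm' : ∀ i, 0 < Fin.tail m i ∧ Fin.tail m i < 1 := fun i => hm i.succ
  have hlt : ∀ i, m 0 < Fin.tail m i := fun i => hmono (Fin.succ_pos i)
  have hlow := lowV_pos r (Fin.tail m) K' hK'
  have hone := integrable_Zw_one_rpow (L := L) r (Fin.tail m) hmono' hm' K' hK' (m 0) (hm 0).1 hlt
  have hSone := measurable_Zw' (L := L) (Fin.tail m) K' (W := fun _ => 1) measurable_const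
  have hTone := tendsto_Zs_rpow (JL L r K') hSone hlow (Zw_one_ge _ _ hK') (hm 0).1 (hm 0).2 hone hq hqm
  obtain ⟨M, hM⟩ := hTone.bddAbove_range
  have hM' : ∀ k, ∫ ξ, Zs (Zw r (Fin.tail m) K' (fun _ => 1)) (m 0) k ξ ^ q
      ∂(noise (JL L r K') k) ≤ M := fun k => hM ⟨k, rfl⟩
  unfold FF
  rw [← tendsto_add_atTop_iff_nat 1]
  refine tendsto_integral_of_dominated_convergence (fun _ => C ^ q * M) (fun k => ?_)
    (integrable_const _) (fun k => Filter.Eventually.of_forall (fun u0 => ?_))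
    (Filter.Eventually.of_forall (fun u0 => ?_))
  · have h := measurable_Zs_joint (K' := K') (m := m) hW (k + 1)
    have h2 : Measurable (Function.uncurry (fun (u0 : L → unitInterval) ξ =>
      Zs (Zw r (Fin.tail m) K' (consW W u0)) (m 0) (k + 1) ξ ^ q)) := h.pow_const q
    exact (h2.stronglyMeasurable.integral_prod_right' (ν := noise (JL L r K') (k + 1))).aestronglyMeasurable
  · have hk := Nat.succ_pos k
    have hpos : ∀ ξ, 0 ≤ Zs (Zw r (Fin.tail m) K' (consW W u0)) (m 0) (k + 1) ξ := fun ξ =>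
      (Zs_pos (mul_pos hc hlow) (Zw_lower hc (fun u => hcW _) _ K' hK') (m 0) hk ξ).le
    have hpos1 : ∀ ξ, 0 ≤ Zs (Zw (L := L) r (Fin.tail m) K' (fun _ => 1)) (m 0) (k + 1) ξ := fun ξ =>
      (Zs_pos hlow (Zw_one_ge _ _ hK') (m 0) hk ξ).le
    rw [Real.norm_of_nonneg (integral_nonneg (fun ξ => Real.rpow_nonneg (hpos ξ) _))]
    calc _ ≤ ∫ ξ, C ^ q * Zs (Zw r (Fin.tail m) K' (fun _ => 1)) (m 0) (k + 1) ξ ^ q
          ∂(noise (JL L r K') (k + 1)) := by
          refine integral_mono_of_nonneg (Filter.Eventually.of_forall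
            (fun ξ => Real.rpow_nonneg (hpos ξ) _)) ?_ (Filter.Eventually.of_forall (fun ξ => ?_))
          · exact (integrable_Zs_rpow (JL L r K') hSone hlow (Zw_one_ge _ _ hK') (hm 0).1 (hm 0).2
              hone hq hqm hk).const_mul _
          · simp only
            rw [← Real.mul_rpow hC.le (hpos1 ξ)]
            exact Real.rpow_le_rpow (hpos ξ) (Zs_Zw_le hWC hK' hk u0 ξ) hq.le
      _ ≤ C ^ q * M := by
          rw [integral_const_mul]
          exact mul_le_mul_of_nonneg_left (hM' _) (Real.rpow_nonneg hC.le _)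
  · have h := tendsto_Zs_rpow (JL L r K') (measurable_Zw' (Fin.tail m) K' (measurable_consW' hW u0))
      (mul_pos hc hlow) (Zw_lower hc (fun u => hcW _) _ K' hK') (hm 0).1 (hm 0).2
      (integrable_Zw_rpow (measurable_consW' hW u0) hc (fun u => hcW _) (fun u => hWC _) hmono' hm'
        hK' (hm 0).1 hlt) hq hqm
    exact h.comp (tendsto_add_atTop_nat 1)

lemma tendsto_FF_log (hW : Measurable W) (hc : 0 < c) (hcW : ∀ u, c ≤ W u)
    (hWC : ∀ u, W u ≤ C) (hmono : StrictMono m) (hm : ∀ i, 0 < m i ∧ m i < 1)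
    (hK' : ∀ i, 0 < K' i) :
    Tendsto (fun k : ℕ => FF Real.log m W k K') atTop
      (𝓝 (∫ u0, GB (m 0) (II (fun x => x ^ (m 0)) r (Fin.tail m) K' (consW W u0))
        ∂(rootLaw L))) := by
  have hC : 0 < C := hc.trans_le ((hcW (fun _ _ => 0)).trans (hWC _))
  have hmono' : StrictMono (Fin.tail m) := hmono.comp (Fin.strictMono_succ)
  have hm' : ∀ i, 0 < Fin.tail m i ∧ Fin.tail m i < 1 := fun i => hm i.succ
  have hlt : ∀ i, m 0 < Fin.tail m i := fun i => hmono (Fin.succ_pos i)
  have hlow := lowV_pos r (Fin.tail m) K' hK'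
  have hone := integrable_Zw_one_rpow (L := L) r (Fin.tail m) hmono' hm' K' hK' (m 0) (hm 0).1 hlt
  have hSone := measurable_Zw' (L := L) (Fin.tail m) K' (W := fun _ => 1) measurable_const
  have hTone := tendsto_log_Zs (JL L r K') hSone hlow (Zw_one_ge _ _ hK') (hm 0).1 (hm 0).2 hone
  obtain ⟨M, hM⟩ := hTone.bddAbove_range
  obtain ⟨M2, hM2⟩ := hTone.bddBelow_range
  have hM' : ∀ k, ∫ ξ, Real.log (Zs (Zw r (Fin.tail m) K' (fun _ => 1)) (m 0) k ξ)
      ∂(noise (JL L r K') k) ≤ M := fun k => hM ⟨k, rfl⟩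
  have hM2' : ∀ k, M2 ≤ ∫ ξ, Real.log (Zs (Zw r (Fin.tail m) K' (fun _ => 1)) (m 0) k ξ)
      ∂(noise (JL L r K') k) := fun k => hM2 ⟨k, rfl⟩
  unfold FF
  rw [← tendsto_add_atTop_iff_nat 1]
  refine tendsto_integral_of_dominated_convergence
    (fun _ => max (Real.log C + M) (-(Real.log c + M2))) (fun k => ?_)
    (integrable_const _) (fun k => Filter.Eventually.of_forall (fun u0 => ?_))
    (Filter.Eventually.of_forall (fun u0 => ?_))
  · have h := measurable_Zs_joint (K' := K') (m := m) hW (k + 1)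
    have h2 : Measurable (Function.uncurry (fun (u0 : L → unitInterval) ξ =>
      Real.log (Zs (Zw r (Fin.tail m) K' (consW W u0)) (m 0) (k + 1) ξ))) := h.log
    exact (h2.stronglyMeasurable.integral_prod_right' (ν := noise (JL L r K') (k + 1))).aestronglyMeasurable
  · have hk := Nat.succ_pos k
    have hpos : ∀ ξ, 0 < Zs (Zw r (Fin.tail m) K' (consW W u0)) (m 0) (k + 1) ξ := fun ξ =>
      (Zs_pos (mul_pos hc hlow) (Zw_lower hc (fun u => hcW _) _ K' hK') (m 0) hk ξ)
    have hpos1 : ∀ ξ, 0 < Zs (Zw (L := L) r (Fin.tail m) K' (fun _ => 1)) (m 0) (k + 1) ξ := fun ξ =>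
      (Zs_pos hlow (Zw_one_ge _ _ hK') (m 0) hk ξ)
    have hi1 := integrable_log_Zs (JL L r K') hSone hlow (Zw_one_ge _ _ hK') (hm 0).1 (hm 0).2 hone hk
    have hi := integrable_log_Zs (JL L r K')
      (measurable_Zw' (Fin.tail m) K' (measurable_consW' hW u0))
      (mul_pos hc hlow) (Zw_lower hc (fun u => hcW _) _ K' hK') (hm 0).1 (hm 0).2
      (integrable_Zw_rpow (measurable_consW' hW u0) hc (fun u => hcW _) (fun u => hWC _) hmono' hm'
        hK' (hm 0).1 hlt) hk
    have hup : ∫ ξ, Real.log (Zs (Zw r (Fin.tail m) K' (consW W u0)) (m 0) (k + 1) ξ)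
        ∂(noise (JL L r K') (k + 1)) ≤ Real.log C + M := by
      calc _ ≤ ∫ ξ, (Real.log C + Real.log (Zs (Zw r (Fin.tail m) K' (fun _ => 1)) (m 0) (k + 1) ξ))
            ∂(noise (JL L r K') (k + 1)) := by
            refine integral_mono hi ((integrable_const _).add hi1) (fun ξ => ?_)
            simp only
            rw [← Real.log_mul hC.ne' (hpos1 ξ).ne']
            exact Real.log_le_log (hpos ξ) (Zs_Zw_le hWC hK' hk u0 ξ)
        _ ≤ _ := by
            rw [integral_add (integrable_const _) hi1]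
            have := hM' (k + 1)
            simp only [integral_const, probReal_univ, one_smul]
            linarith
    have hdn : Real.log c + M2 ≤ ∫ ξ, Real.log (Zs (Zw r (Fin.tail m) K' (consW W u0)) (m 0) (k + 1) ξ)
        ∂(noise (JL L r K') (k + 1)) := by
      calc _ ≤ ∫ ξ, (Real.log c + Real.log (Zs (Zw r (Fin.tail m) K' (fun _ => 1)) (m 0) (k + 1) ξ))
            ∂(noise (JL L r K') (k + 1)) := by
            rw [integral_add (integrable_const _) hi1]
            have := hM2' (k + 1)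
            simp only [integral_const, probReal_univ, one_smul]
            linarith
        _ ≤ _ := by
            refine integral_mono ((integrable_const _).add hi1) hi (fun ξ => ?_)
            simp only
            rw [← Real.log_mul hc.ne' (hpos1 ξ).ne']
            exact Real.log_le_log (mul_pos hc (hpos1 ξ)) (le_Zs_Zw hcW hK' hk u0 ξ)
    rw [Real.norm_eq_abs, abs_le]
    have h1 := le_max_left (Real.log C + M) (-(Real.log c + M2))
    have h2 := le_max_right (Real.log C + M) (-(Real.log c + M2))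
    constructor <;> linarith
  · have h := tendsto_log_Zs (JL L r K') (measurable_Zw' (Fin.tail m) K' (measurable_consW' hW u0))
      (mul_pos hc hlow) (Zw_lower hc (fun u => hcW _) _ K' hK') (hm 0).1 (hm 0).2
      (integrable_Zw_rpow (measurable_consW' hW u0) hc (fun u => hcW _) (fun u => hWC _) hmono' hm'
        hK' (hm 0).1 hlt)
    exact h.comp (tendsto_add_atTop_nat 1)

end

/-! ## ratios -/

section ratio

variable {c C : ℝ} {W : (L → Fin (r + 1) → unitInterval) → ℝ} {m : Fin r → ℝ}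
  {K : Fin r → ℕ}

/-- normalised `q`-th moment -/
noncomputable def RR (q : ℝ) (r : ℕ) (m : Fin r → ℝ) (K : Fin r → ℕ)
    (W : (L → Fin (r + 1) → unitInterval) → ℝ) : ℝ :=
  II (fun x => x ^ q) r m K W / II (fun x => x ^ q) r m K (fun _ : L → Fin (r + 1) → unitInterval => 1)

/-- normalised log -/
noncomputable def DD (r : ℕ) (m : Fin r → ℝ) (K : Fin r → ℕ)
    (W : (L → Fin (r + 1) → unitInterval) → ℝ) : ℝ :=
  II Real.log r m K W - II Real.log r m K (fun _ : L → Fin (r + 1) → unitInterval => 1)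

lemma II_one_pos (hmono : StrictMono m) (hm : ∀ i, 0 < m i ∧ m i < 1)
    (hK : ∀ i, 0 < K i) {q : ℝ} (hq : 0 < q) (hqm : ∀ i, q < m i) :
    0 < II (fun x => x ^ q) r m K (fun _ : L → Fin (r + 1) → unitInterval => 1) := by
  unfold II
  have hi := integrable_Zw_one_rpow (L := L) r m hmono hm K hK q hq hqm
  have hlow := lowV_pos r m K hK
  calc 0 < lowV r m K ^ q := Real.rpow_pos_of_pos hlow _
    _ = ∫ _p, lowV r m K ^ q ∂(JL L r K) := by simp
    _ ≤ _ := by
      refine integral_mono (integrable_const _) hi (fun p => ?_)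
      exact Real.rpow_le_rpow hlow.le (Zw_one_ge m K hK p) hq.le

lemma le_RR (hW : Measurable W) (hc : 0 < c) (hcW : ∀ u, c ≤ W u)
    (hWC : ∀ u, W u ≤ C) (hmono : StrictMono m) (hm : ∀ i, 0 < m i ∧ m i < 1)
    (hK : ∀ i, 0 < K i) {q : ℝ} (hq : 0 < q) (hqm : ∀ i, q < m i) :
    c ^ q ≤ RR q r m K W := by
  unfold RR
  rw [le_div_iff₀ (II_one_pos hmono hm hK hq hqm)]
  unfold II
  rw [← integral_const_mul]
  refine integral_mono ((integrable_Zw_one_rpow (L := L) r m hmono hm K hK q hq hqm).const_mul _)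
    (integrable_Zw_rpow hW hc hcW hWC hmono hm hK hq hqm) (fun p => ?_)
  exact le_Zw_rpow hc hcW hK hq p

lemma RR_le (hW : Measurable W) (hc : 0 < c) (hcW : ∀ u, c ≤ W u)
    (hWC : ∀ u, W u ≤ C) (hmono : StrictMono m) (hm : ∀ i, 0 < m i ∧ m i < 1)
    (hK : ∀ i, 0 < K i) {q : ℝ} (hq : 0 < q) (hqm : ∀ i, q < m i) :
    RR q r m K W ≤ C ^ q := by
  have hC : 0 < C := hc.trans_le ((hcW (fun _ _ => 0)).trans (hWC _))
  unfold RR
  rw [div_le_iff₀ (II_one_pos hmono hm hK hq hqm)]
  unfold II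
  rw [← integral_const_mul]
  refine integral_mono (integrable_Zw_rpow hW hc hcW hWC hmono hm hK hq hqm)
    ((integrable_Zw_one_rpow (L := L) r m hmono hm K hK q hq hqm).const_mul _) (fun p => ?_)
  exact Zw_rpow_le hc hcW hWC hC.le hK hq p

lemma II_pos (hW : Measurable W) (hc : 0 < c) (hcW : ∀ u, c ≤ W u)
    (hWC : ∀ u, W u ≤ C) (hmono : StrictMono m) (hm : ∀ i, 0 < m i ∧ m i < 1)
    (hK : ∀ i, 0 < K i) {q : ℝ} (hq : 0 < q) (hqm : ∀ i, q < m i) :
    0 < II (fun x => x ^ q) r m K W := by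
  have h1 := le_RR hW hc hcW hWC hmono hm hK hq hqm
  have h2 := II_one_pos (L := L) hmono hm hK hq hqm
  unfold RR at h1
  rw [le_div_iff₀ h2] at h1
  exact lt_of_lt_of_le (mul_pos (Real.rpow_pos_of_pos hc _) h2) h1

end ratio

section step

variable {c C : ℝ} {W : (L → Fin (r + 1 + 1) → unitInterval) → ℝ} {m : Fin (r + 1) → ℝ}
  {K' : Fin r → ℕ}

lemma aesm_RR (hW : Measurable W) (q : ℝ) (m : Fin r → ℝ) :
    Measurable (fun u0 : L → unitInterval => RR q r m K' (consW W u0)) := by
  unfold RR II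
  refine Measurable.div_const ?_ _
  have h := measurable_Zw m K' (W := fun u0 : L → unitInterval => consW W u0)
      (measurable_consW hW)
  have h2 : Measurable (Function.uncurry (fun (u0 : L → unitInterval) p =>
    Zw r m K' (consW W u0) p ^ q)) := h.pow_const q
  exact (h2.stronglyMeasurable.integral_prod_right' (ν := JL L r K')).measurable

lemma tendsto_RR_succ (hW : Measurable W) (hc : 0 < c) (hcW : ∀ u, c ≤ W u)
    (hWC : ∀ u, W u ≤ C) (hmono : StrictMono m) (hm : ∀ i, 0 < m i ∧ m i < 1)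
    (hK' : ∀ i, 0 < K' i) {q : ℝ} (hq : 0 < q) (hqm : q < m 0) :
    Tendsto (fun k : ℕ => RR q (r + 1) m (Fin.cons k K') W) atTop
      (𝓝 (∫ u0, (RR (m 0) r (Fin.tail m) K' (consW W u0)) ^ (q / m 0) ∂(rootLaw L))) := by
  have hmono' : StrictMono (Fin.tail m) := hmono.comp (Fin.strictMono_succ)
  have hm' : ∀ i, 0 < Fin.tail m i ∧ Fin.tail m i < 1 := fun i => hm i.succ
  have hlt : ∀ i, m 0 < Fin.tail m i := fun i => hmono (Fin.succ_pos i)
  have hqm' : ∀ i, q < m i := fun i => by
    refine lt_of_lt_of_le hqm (hmono.monotone (Fin.zero_le i))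
  have h1 := tendsto_FF_rpow hW hc hcW hWC hmono hm hK' hq hqm
  have h2 := tendsto_FF_rpow (L := L) (W := fun _ => 1) measurable_const zero_lt_one
    (fun _ => le_rfl) (fun _ => le_rfl) hmono hm hK' hq hqm
  have hcons : ∀ u0 : L → unitInterval, consW (fun _ : L → Fin (r + 1 + 1) → unitInterval => (1:ℝ)) u0
      = fun _ => 1 := fun u0 => rfl
  simp_rw [hcons] at h2
  rw [integral_const, probReal_univ, one_smul] at h2
  set B1 := II (fun x => x ^ (m 0)) r (Fin.tail m) K' (fun _ : L → Fin (r + 1) → unitInterval => 1)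
    with hB1
  have hB1pos : 0 < B1 := II_one_pos hmono' hm' hK' (hm 0).1 hlt
  have hGA1 : 0 < GA (m 0) q B1 := by
    rw [GA_eq (hm 0).1 (hm 0).2 hq hqm hB1pos]
    exact mul_pos (Real.rpow_pos_of_pos hB1pos _) (GA_pos (hm 0).1 (hm 0).2 hq hqm)
  have h3 := h1.div h2 hGA1.ne'
  have hlim : (∫ u0, GA (m 0) q (II (fun x => x ^ (m 0)) r (Fin.tail m) K' (consW W u0))
        ∂(rootLaw L)) / GA (m 0) q B1
      = ∫ u0, (RR (m 0) r (Fin.tail m) K' (consW W u0)) ^ (q / m 0) ∂(rootLaw L) := by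
    rw [← integral_div]
    refine integral_congr_ae (Filter.Eventually.of_forall (fun u0 => ?_))
    simp only
    have hpos := II_pos (measurable_consW' hW u0) hc (fun u => hcW _) (fun u => hWC _) hmono' hm'
        hK' (hm 0).1 hlt
    rw [GA_eq (hm 0).1 (hm 0).2 hq hqm hB1pos, GA_eq (hm 0).1 (hm 0).2 hq hqm hpos]
    unfold RR
    rw [← hB1, Real.div_rpow hpos.le hB1pos.le]
    have := GA_pos (hm 0).1 (hm 0).2 hq hqm
    have h5 : 0 < B1 ^ (q / m 0) := Real.rpow_pos_of_pos hB1pos _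
    field_simp
  rw [hlim] at h3
  refine h3.congr' ?_
  filter_upwards [eventually_gt_atTop 0] with k hk
  have hK : ∀ i, 0 < (Fin.cons k K' : Fin (r + 1) → ℕ) i := by
    intro i
    refine Fin.cases ?_ (fun j => ?_) i
    · simpa using hk
    · simpa using hK' j
  have e1 := II_cons (φ := fun x => x ^ q) m (k := k) (K' := K') hW (by fun_prop)
    (integrable_Zw_rpow hW hc hcW hWC hmono hm hK hq hqm')
  have e2 := II_cons (φ := fun x => x ^ q) m (k := k) (K' := K')
    (W := fun _ : L → Fin (r + 1 + 1) → unitInterval => (1:ℝ)) measurable_const (by fun_prop)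
    (integrable_Zw_one_rpow (L := L) (r + 1) m hmono hm _ hK q hq hqm')
  unfold RR
  rw [e1, e2]
  rfl

lemma tendsto_DD_succ (hW : Measurable W) (hc : 0 < c) (hcW : ∀ u, c ≤ W u)
    (hWC : ∀ u, W u ≤ C) (hmono : StrictMono m) (hm : ∀ i, 0 < m i ∧ m i < 1)
    (hK' : ∀ i, 0 < K' i) :
    Tendsto (fun k : ℕ => DD (r + 1) m (Fin.cons k K') W) atTop
      (𝓝 (∫ u0, (1 / m 0) * Real.log (RR (m 0) r (Fin.tail m) K' (consW W u0)) ∂(rootLaw L))) := by
  have hmono' : StrictMono (Fin.tail m) := hmono.comp (Fin.strictMono_succ)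
  have hm' : ∀ i, 0 < Fin.tail m i ∧ Fin.tail m i < 1 := fun i => hm i.succ
  have hlt : ∀ i, m 0 < Fin.tail m i := fun i => hmono (Fin.succ_pos i)
  have h1 := tendsto_FF_log hW hc hcW hWC hmono hm hK'
  have h2 := tendsto_FF_log (L := L) (W := fun _ => 1) measurable_const zero_lt_one
    (fun _ => le_rfl) (fun _ => le_rfl) hmono hm hK'
  have hcons : ∀ u0 : L → unitInterval, consW (fun _ : L → Fin (r + 1 + 1) → unitInterval => (1:ℝ)) u0
      = fun _ => 1 := fun u0 => rfl
  simp_rw [hcons] at h2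
  rw [integral_const, probReal_univ, one_smul] at h2
  set B1 := II (fun x => x ^ (m 0)) r (Fin.tail m) K' (fun _ : L → Fin (r + 1) → unitInterval => 1)
    with hB1
  have hB1pos : 0 < B1 := II_one_pos hmono' hm' hK' (hm 0).1 hlt
  have hpos : ∀ u0, 0 < II (fun x => x ^ (m 0)) r (Fin.tail m) K' (consW W u0) := fun u0 =>
    II_pos (measurable_consW' hW u0) hc (fun u => hcW _) (fun u => hWC _) hmono' hm' hK' (hm 0).1 hlt
  have h3 := h1.sub h2
  have hGB : ∀ u0, GB (m 0) (II (fun x => x ^ (m 0)) r (Fin.tail m) K' (consW W u0))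
      = (1 / m 0) * Real.log (RR (m 0) r (Fin.tail m) K' (consW W u0)) + GB (m 0) B1 := by
    intro u0
    rw [GB_eq (hm 0).1 (hm 0).2 hB1pos, GB_eq (hm 0).1 (hm 0).2 (hpos u0)]
    unfold RR
    rw [← hB1, Real.log_div (hpos u0).ne' hB1pos.ne']
    ring
  have hRb : ∀ u0, c ^ (m 0) ≤ RR (m 0) r (Fin.tail m) K' (consW W u0) := fun u0 =>
    le_RR (measurable_consW' hW u0) hc (fun u => hcW _) (fun u => hWC _) hmono' hm' hK' (hm 0).1 hlt
  have hRb2 : ∀ u0, RR (m 0) r (Fin.tail m) K' (consW W u0) ≤ C ^ (m 0) := fun u0 =>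
    RR_le (measurable_consW' hW u0) hc (fun u => hcW _) (fun u => hWC _) hmono' hm' hK' (hm 0).1 hlt
  have hlogint : Integrable (fun u0 => (1 / m 0) *
      Real.log (RR (m 0) r (Fin.tail m) K' (consW W u0))) (rootLaw L) := by
    refine Integrable.const_mul ?_ _
    have hmeas := aesm_RR (K' := K') hW (m 0) (Fin.tail m)
    refine Integrable.mono' (g := fun _ => max (Real.log (C ^ (m 0))) (-Real.log (c ^ (m 0))))
      (integrable_const _) hmeas.log.aestronglyMeasurable (Filter.Eventually.of_forall (fun u0 => ?_))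
    have hcm : 0 < c ^ (m 0) := Real.rpow_pos_of_pos hc _
    have a1 := Real.log_le_log hcm (hRb u0)
    have a2 := Real.log_le_log (hcm.trans_le (hRb u0)) (hRb2 u0)
    rw [Real.norm_eq_abs, abs_le]
    have b1 := le_max_left (Real.log (C ^ (m 0))) (-Real.log (c ^ (m 0)))
    have b2 := le_max_right (Real.log (C ^ (m 0))) (-Real.log (c ^ (m 0)))
    constructor <;> linarith
  have hlim : (∫ u0, GB (m 0) (II (fun x => x ^ (m 0)) r (Fin.tail m) K' (consW W u0))
        ∂(rootLaw L)) - GB (m 0) B1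
      = ∫ u0, (1 / m 0) * Real.log (RR (m 0) r (Fin.tail m) K' (consW W u0)) ∂(rootLaw L) := by
    simp_rw [hGB]
    rw [integral_add hlogint (integrable_const _)]
    simp
  rw [hlim] at h3
  refine h3.congr' ?_
  filter_upwards [eventually_gt_atTop 0] with k hk
  have hK : ∀ i, 0 < (Fin.cons k K' : Fin (r + 1) → ℕ) i := by
    intro i
    refine Fin.cases ?_ (fun j => ?_) i
    · simpa using hk
    · simpa using hK' j
  have e1 := II_cons (φ := Real.log) m (k := k) (K' := K') hW Real.measurable_log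
    (integrable_Zw_log hW hc hcW hWC hmono hm hK)
  have e2 := II_cons (φ := Real.log) m (k := k) (K' := K')
    (W := fun _ : L → Fin (r + 1 + 1) → unitInterval => (1:ℝ)) measurable_const Real.measurable_log
    (integrable_Zw_one_log (L := L) (r + 1) m hmono hm _ hK)
  unfold DD
  rw [e1, e2]

end step

end Crest.Agent.R141.Tree
end

-- ▼ part R141/TreeSix
section

set_option autoImplicit false
open MeasureTheory Filter Topology Set

namespace Crest.Agent.R141

/-- composition of an iterated limit with a continuous function -/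
theorem IterTendsto.comp_continuous {r : ℕ} {f : (Fin r → ℕ) → ℝ} {ℓ : ℝ} {φ : ℝ → ℝ}
    (hφ : Continuous φ) (h : IterTendsto r f ℓ) :
    IterTendsto r (fun K => φ (f K)) (φ ℓ) := by
  induction r generalizing ℓ with
  | zero =>
    simp only [IterTendsto] at h ⊢
    rw [h]
  | succ r ih =>
    obtain ⟨g, hg, hgl⟩ := h
    exact ⟨fun K => φ (g K), fun K hK => (hφ.tendsto _).comp (hg K hK), ih hgl⟩

namespace Tree

variable {L : Type*} {r : ℕ} [Fintype L]

/-- nested power means, as a function of the level-0 uniforms -/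
noncomputable def PM : (r : ℕ) → (m : Fin r → ℝ) → (W : (L → Fin (r + 1) → unitInterval) → ℝ) →
    (L → unitInterval) → ℝ
  | 0, _, W, u0 => W (fun ω _ => u0 ω)
  | r + 1, m, W, u0 => (∫ u1, (PM r (Fin.tail m) (consW W u0) u1) ^ (m 0) ∂(rootLaw L)) ^ (1 / m 0)

lemma PM_succ (r : ℕ) (m : Fin (r + 1) → ℝ) (W : (L → Fin (r + 1 + 1) → unitInterval) → ℝ)
    (u0 : L → unitInterval) : PM (r + 1) m W u0
      = (∫ u1, (PM r (Fin.tail m) (consW W u0) u1) ^ (m 0) ∂(rootLaw L)) ^ (1 / m 0) := rfl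

lemma II_zero (φ : ℝ → ℝ) (hφ : Measurable φ) (m : Fin 0 → ℝ) (K : Fin 0 → ℕ)
    {W : (L → Fin (0 + 1) → unitInterval) → ℝ} (hW : Measurable W) :
    II φ 0 m K W = ∫ u0, φ (W (fun ω _ => u0 ω)) ∂(rootLaw L) := by
  have hZ : ∀ p : NT 0 K × (L → Leaf 0 K → Fin (0 + 1) → unitInterval),
      Zw 0 m K W p = W (fun ω => p.2 ω ()) := by
    intro p
    unfold Zw
    have : ∀ f : Leaf 0 K → ℝ, ∑ a, f a = f () := fun f =>
      Fintype.sum_unique (ι := Unit) f
    rw [this]
    simp [V]
  unfold II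
  simp_rw [hZ]
  have hm1 : Measurable (fun u : unitInterval => fun (_ : Leaf 0 K) (_ : Fin (0 + 1)) => u) :=
    measurable_pi_iff.mpr fun _ => measurable_pi_iff.mpr fun _ => measurable_id
  have hP : (Measure.pi fun _ : L => PLaw 0 K) = (rootLaw L).map
      (fun u0 ω => (fun (_ : Leaf 0 K) (_ : Fin (0 + 1)) => u0 ω)) := by
    have : ∀ i : L, SigmaFinite ((volume : Measure unitInterval).map
      (fun u : unitInterval => fun (_ : Leaf 0 K) (_ : Fin (0 + 1)) => u)) := fun _ => by
      have := PLaw.prob 0 K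
      change SigmaFinite (PLaw 0 K)
      infer_instance
    rw [rootLaw, Measure.pi_map_pi (μ := fun _ : L => (volume : Measure unitInterval))
      (f := fun _ u => fun (_ : Leaf 0 K) (_ : Fin (0 + 1)) => u) (fun _ => hm1.aemeasurable)]
    rfl
  have hmeas : Measurable (fun y : L → Leaf 0 K → Fin (0 + 1) → unitInterval =>
      φ (W (fun ω => y ω ()))) := by
    refine hφ.comp (hW.comp (measurable_pi_iff.mpr fun ω => ?_))
    exact (measurable_pi_apply (() : Unit)).comp (measurable_pi_apply ω)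
  unfold JL
  have h1 : ∫ p : NT 0 K × (L → Leaf 0 K → Fin (0 + 1) → unitInterval), φ (W (fun ω => p.2 ω ()))
      ∂((NLaw 0 K).prod (Measure.pi fun _ : L => PLaw 0 K))
      = ∫ y, φ (W (fun ω => y ω ())) ∂(Measure.pi fun _ : L => PLaw 0 K) := by
    have := integral_fun_snd (μ := NLaw 0 K) (ν := Measure.pi fun _ : L => PLaw 0 K)
      (fun y : L → Leaf 0 K → Fin (0 + 1) → unitInterval => φ (W (fun ω => y ω ())))
    rw [this]
    simp
  rw [h1, hP, integral_map _ hmeas.aestronglyMeasurable]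
  exact (measurable_pi_iff.mpr fun ω => hm1.comp (measurable_pi_apply ω)).aemeasurable

lemma PM_nonneg : (r : ℕ) → (m : Fin r → ℝ) → 
    (W : (L → Fin (r + 1) → unitInterval) → ℝ) → (∀ u, 0 ≤ W u) → ∀ u0, 0 ≤ PM r m W u0
  | 0, _, W, h, u0 => h _
  | r + 1, m, W, h, u0 => by
    unfold PM
    refine Real.rpow_nonneg (integral_nonneg (fun u1 => ?_)) _
    exact Real.rpow_nonneg (PM_nonneg r (Fin.tail m) (consW W u0) (fun u => h _) u1) _

theorem iter_RR : (r : ℕ) → (m : Fin r → ℝ) → StrictMono m → (∀ i, 0 < m i ∧ m i < 1) →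
    (W : (L → Fin (r + 1) → unitInterval) → ℝ) → Measurable W → (c C : ℝ) → 0 < c →
    (∀ u, c ≤ W u) → (∀ u, W u ≤ C) → (q : ℝ) → 0 < q → (∀ i, q < m i) →
    IterTendsto r (fun K => RR q r m K W) (∫ u0, PM r m W u0 ^ q ∂(rootLaw L))
  | 0, m, _, _, W, hW, c, C, hc, hcW, hWC, q, hq, _ => by
    simp only [IterTendsto]
    unfold RR
    rw [II_zero _ (by fun_prop) m _ hW, II_zero _ (by fun_prop) m _ measurable_const]
    simp [PM]
  | r + 1, m, hmono, hm, W, hW, c, C, hc, hcW, hWC, q, hq, hqm => by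
    have hmono' : StrictMono (Fin.tail m) := hmono.comp (Fin.strictMono_succ)
    have hm' : ∀ i, 0 < Fin.tail m i ∧ Fin.tail m i < 1 := fun i => hm i.succ
    have hlt : ∀ i, m 0 < Fin.tail m i := fun i => hmono (Fin.succ_pos i)
    have hC : 0 < C := hc.trans_le ((hcW (fun _ _ => 0)).trans (hWC _))
    refine ⟨fun K' => ∫ u0, (RR (m 0) r (Fin.tail m) K' (consW W u0)) ^ (q / m 0) ∂(rootLaw L),
      fun K' hK' => tendsto_RR_succ hW hc hcW hWC hmono hm hK' hq (hqm 0), ?_⟩
    have hval : ∀ u0 : L → unitInterval, PM (r + 1) m W u0 ^ q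
        = (∫ u1, (PM r (Fin.tail m) (consW W u0) u1) ^ (m 0) ∂(rootLaw L)) ^ (q / m 0) := by
      intro u0
      rw [PM_succ, ← Real.rpow_mul (integral_nonneg (fun u1 => Real.rpow_nonneg
        (PM_nonneg r (Fin.tail m) (consW W u0) (fun u => hc.le.trans (hcW _)) u1) _)),
        one_div_mul_eq_div]
    simp_rw [hval]
    refine IterTendsto.integral (B := fun _ => (C ^ (m 0)) ^ (q / m 0)) (fun K' hK' => ?_)
      (integrable_const _) (fun K' hK' => Filter.Eventually.of_forall (fun u0 => ?_))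
      (Filter.Eventually.of_forall (fun u0 => ?_))
    · exact ((aesm_RR (K' := K') hW (m 0) (Fin.tail m)).pow_const _).aestronglyMeasurable
    · have h1 := le_RR (K := K') (measurable_consW' hW u0) hc (fun u => hcW _) (fun u => hWC _)
        hmono' hm' hK' (hm 0).1 hlt
      have h2 := RR_le (K := K') (measurable_consW' hW u0) hc (fun u => hcW _) (fun u => hWC _)
        hmono' hm' hK' (hm 0).1 hlt
      have h0 : 0 ≤ RR (m 0) r (Fin.tail m) K' (consW W u0) := (Real.rpow_nonneg hc.le _).trans h1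
      rw [abs_of_nonneg (Real.rpow_nonneg h0 _)]
      exact Real.rpow_le_rpow h0 h2 (div_pos hq (hm 0).1).le
    · have ih := iter_RR r (Fin.tail m) hmono' hm' (consW W u0) (measurable_consW' hW u0) c C hc
        (fun u => hcW _) (fun u => hWC _) (m 0) (hm 0).1 hlt
      exact IterTendsto.comp_continuous
        (φ := fun x => x ^ (q / m 0)) (Real.continuous_rpow_const (div_pos hq (hm 0).1).le) ih

theorem iter_DD : (r : ℕ) → (m : Fin r → ℝ) → StrictMono m → (∀ i, 0 < m i ∧ m i < 1) →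
    (W : (L → Fin (r + 1) → unitInterval) → ℝ) → Measurable W → (c C : ℝ) → 0 < c →
    (∀ u, c ≤ W u) → (∀ u, W u ≤ C) →
    IterTendsto r (fun K => DD r m K W) (∫ u0, Real.log (PM r m W u0) ∂(rootLaw L))
  | 0, m, _, _, W, hW, c, C, hc, hcW, hWC => by
    simp only [IterTendsto]
    unfold DD
    rw [II_zero _ Real.measurable_log m _ hW, II_zero _ Real.measurable_log m _ measurable_const]
    simp [PM]
  | r + 1, m, hmono, hm, W, hW, c, C, hc, hcW, hWC => by
    have hmono' : StrictMono (Fin.tail m) := hmono.comp (Fin.strictMono_succ)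
    have hm' : ∀ i, 0 < Fin.tail m i ∧ Fin.tail m i < 1 := fun i => hm i.succ
    have hlt : ∀ i, m 0 < Fin.tail m i := fun i => hmono (Fin.succ_pos i)
    have hC : 0 < C := hc.trans_le ((hcW (fun _ _ => 0)).trans (hWC _))
    have hcm : 0 < c ^ (m 0) := Real.rpow_pos_of_pos hc _
    refine ⟨fun K' => ∫ u0, (1 / m 0) * Real.log (RR (m 0) r (Fin.tail m) K' (consW W u0))
      ∂(rootLaw L), fun K' hK' => tendsto_DD_succ hW hc hcW hWC hmono hm hK', ?_⟩
    have ih : ∀ u0 : L → unitInterval, IterTendsto r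
        (fun K' => RR (m 0) r (Fin.tail m) K' (consW W u0))
        (∫ u1, (PM r (Fin.tail m) (consW W u0) u1) ^ (m 0) ∂(rootLaw L)) := fun u0 =>
      iter_RR r (Fin.tail m) hmono' hm' (consW W u0) (measurable_consW' hW u0) c C hc
        (fun u => hcW _) (fun u => hWC _) (m 0) (hm 0).1 hlt
    have hRlow : ∀ (u0 : L → unitInterval) (K' : Fin r → ℕ), (∀ i, 0 < K' i) →
        c ^ (m 0) ≤ RR (m 0) r (Fin.tail m) K' (consW W u0) := fun u0 K' hK' =>
      le_RR (K := K') (measurable_consW' hW u0) hc (fun u => hcW _) (fun u => hWC _)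
        hmono' hm' hK' (hm 0).1 hlt
    have hRup : ∀ (u0 : L → unitInterval) (K' : Fin r → ℕ), (∀ i, 0 < K' i) →
        RR (m 0) r (Fin.tail m) K' (consW W u0) ≤ C ^ (m 0) := fun u0 K' hK' =>
      RR_le (K := K') (measurable_consW' hW u0) hc (fun u => hcW _) (fun u => hWC _)
        hmono' hm' hK' (hm 0).1 hlt
    have hllow : ∀ u0 : L → unitInterval,
        c ^ (m 0) ≤ ∫ u1, (PM r (Fin.tail m) (consW W u0) u1) ^ (m 0) ∂(rootLaw L) := fun u0 =>
      IterTendsto.le (IterTendsto.const r _) (ih u0) (fun K' hK' => hRlow u0 K' hK')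
    have hval : ∀ u0 : L → unitInterval, Real.log (PM (r + 1) m W u0)
        = (1 / m 0) * Real.log (∫ u1, (PM r (Fin.tail m) (consW W u0) u1) ^ (m 0) ∂(rootLaw L)) := by
      intro u0
      rw [PM_succ, Real.log_rpow (hcm.trans_le (hllow u0))]
    simp_rw [hval]
    refine IterTendsto.integral (B := fun _ => (1 / m 0) *
      max (Real.log (C ^ (m 0))) (-Real.log (c ^ (m 0)))) (fun K' hK' => ?_)
      (integrable_const _) (fun K' hK' => Filter.Eventually.of_forall (fun u0 => ?_))
      (Filter.Eventually.of_forall (fun u0 => ?_))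
    · exact ((aesm_RR (K' := K') hW (m 0) (Fin.tail m)).log.const_mul _).aestronglyMeasurable
    · have h0 : 0 < 1 / m 0 := one_div_pos.mpr (hm 0).1
      rw [abs_mul, abs_of_pos h0]
      refine mul_le_mul_of_nonneg_left ?_ h0.le
      have a1 := Real.log_le_log hcm (hRlow u0 K' hK')
      have a2 := Real.log_le_log (hcm.trans_le (hRlow u0 K' hK')) (hRup u0 K' hK')
      rw [abs_le]
      have b1 := le_max_left (Real.log (C ^ (m 0))) (-Real.log (c ^ (m 0)))
      have b2 := le_max_right (Real.log (C ^ (m 0))) (-Real.log (c ^ (m 0)))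
      constructor <;> linarith
    · have hφ : Continuous (fun x : ℝ => (1 / m 0) * Real.log (max (c ^ (m 0)) x)) := by
        refine continuous_const.mul (Continuous.log (by fun_prop) (fun x => ?_))
        exact (lt_of_lt_of_le hcm (le_max_left _ _)).ne'
      have h := IterTendsto.comp_continuous hφ (ih u0)
      rw [max_eq_right (hllow u0)] at h
      refine h.congr (fun K' hK' => ?_)
      rw [max_eq_right (hRlow u0 K' hK')]

end Tree

end Crest.Agent.R141
private theorem rz_9a1c1e63b4 : type_of% @_root_.Crest.Agent.R141.Tree.PM.eq_def := @_root_.Crest.Agent.R141.Tree.PM.eq_def -- L25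
private theorem rz_a8cacf3894 : type_of% @_root_.Crest.Agent.R141.Tree.PM.eq_1 := @_root_.Crest.Agent.R141.Tree.PM.eq_1 -- L25
end

-- ▼ part R141/TreeMain
section

set_option autoImplicit false
open MeasureTheory Filter Topology Set Crest.ProbabilityR.Diluted

/-!
R141, Part U, step U3 (tree limit), by helper92.

* `Tree.Leaf r K` : leaves of the tree with branching numbers `K : Fin r → ℕ`,
* `Tree.WLaw m K : Measure (Leaf r K → ℝ)` : law of the (Pareto) weights,
* `Tree.PathLaw K : Measure (Leaf r K → Fin (r+1) → unitInterval)` : law of the array of one label,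
* `tree_limit` : `treeF (WLaw m K) (PathLaw K) W` has iterated limit
  `∫ log (powerMeans m W u) d(uniformArrays L r)`.
-/

namespace Crest.Agent.R141

namespace Tree

universe u

/-! ## the nested power means -/

lemma measurable_PM {L : Type u} [Fintype L] : (r : ℕ) → (m : Fin r → ℝ) → (Ξ : Type u) →
    [MeasurableSpace Ξ] → (W : Ξ → (L → Fin (r + 1) → unitInterval) → ℝ) →
    Measurable (Function.uncurry W) →
    Measurable (fun x : Ξ × (L → unitInterval) => PM r m (W x.1) x.2)
  | 0, m, Ξ, _, W, hW => by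
    have h : Measurable (fun x : Ξ × (L → unitInterval) =>
        (x.1, fun (ω : L) (_ : Fin (0 + 1)) => x.2 ω)) :=
      measurable_fst.prodMk (measurable_pi_iff.mpr fun ω => measurable_pi_iff.mpr fun _ =>
        (measurable_pi_apply ω).comp measurable_snd)
    exact hW.comp h
  | r + 1, m, Ξ, _, W, hW => by
    have hW' : Measurable (Function.uncurry
        (fun (x : Ξ × (L → unitInterval)) => consW (W x.1) x.2)) := by
      have h : Measurable (fun (p : (Ξ × (L → unitInterval)) × (L → Fin (r + 1) → unitInterval))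
          (ω : L) => (Fin.cons (p.1.2 ω) (p.2 ω) : Fin (r + 1 + 1) → unitInterval)) := by
        refine measurable_pi_iff.mpr (fun ω => ?_)
        have h1 : Measurable (fun p : (Ξ × (L → unitInterval)) × (L → Fin (r + 1) → unitInterval) =>
            (p.1.2 ω, p.2 ω)) :=
          ((measurable_pi_apply ω).comp (measurable_snd.comp measurable_fst)).prodMk
            ((measurable_pi_apply ω).comp measurable_snd)
        exact measurable_cons.comp h1
      exact hW.comp ((measurable_fst.comp measurable_fst).prodMk h)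
    have ih := measurable_PM r (Fin.tail m) (Ξ × (L → unitInterval))
      (fun x => consW (W x.1) x.2) hW'
    have h2 : StronglyMeasurable (fun x : Ξ × (L → unitInterval) =>
        ∫ u1, (PM r (Fin.tail m) (consW (W x.1) x.2) u1) ^ (m 0) ∂(rootLaw L)) :=
      (ih.pow_const (m 0)).stronglyMeasurable.integral_prod_right' (ν := rootLaw L)
    exact h2.measurable.pow_const _

lemma measurable_PM' {L : Type u} [Fintype L] (r : ℕ) (m : Fin r → ℝ)
    {W : (L → Fin (r + 1) → unitInterval) → ℝ} (hW : Measurable W) :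
    Measurable (PM r m W) := by
  have h := measurable_PM r m PUnit.{u+1} (fun _ => W) (hW.comp measurable_snd)
  exact h.comp ((measurable_const (a := PUnit.unit)).prodMk measurable_id)

lemma pmStep_apply {L : Type*} [Fintype L] {r : ℕ} (m : ℝ) (lvl : Fin (r + 1))
    (W : (L → Fin (r + 1) → unitInterval) → ℝ) (u : L → Fin (r + 1) → unitInterval) :
    pmStep m lvl W u = (∫ v : L → unitInterval,
      (W (fun ω j => if j = lvl then v ω else u ω j)) ^ m
      ∂(Measure.pi fun _ : L => (volume : Measure unitInterval))) ^ (1 / m) := rfl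

lemma foldr_shift {L : Type*} [Fintype L] {r : ℕ} (m : Fin (r + 1) → ℝ) 
    (W : (L → Fin (r + 1 + 1) → unitInterval) → ℝ) (l : List (Fin r)) :
    ∀ u : L → Fin (r + 1 + 1) → unitInterval,
    (l.foldr (fun d acc => pmStep (m d.succ) d.succ.succ acc) W) u
      = (l.foldr (fun d acc => pmStep (Fin.tail m d) d.succ acc) (consW W (fun ω => u ω 0)))
        (fun ω => Fin.tail (u ω)) := by
  induction l with
  | nil =>
    intro u
    simp [consW, Fin.cons_self_tail]
  | cons d l ih =>
    intro u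
    rw [List.foldr_cons, List.foldr_cons, pmStep_apply, pmStep_apply]
    congr 1
    refine integral_congr_ae (Filter.Eventually.of_forall (fun v => ?_))
    simp only
    rw [ih]
    have h0 : ∀ ω, (if (0 : Fin (r + 1 + 1)) = d.succ.succ then v ω else u ω 0) = u ω 0 := by
      intro ω
      rw [if_neg (Fin.succ_ne_zero _).symm]
    simp only [h0]
    have h1 : (fun ω => Fin.tail (fun j => if j = d.succ.succ then v ω else u ω j))
        = (fun ω j => if j = d.succ then v ω else Fin.tail (u ω) j) := by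
      funext ω j
      unfold Fin.tail
      simp only [Fin.succ_inj]
    rw [h1]
    rfl

lemma powerMeans_eq_PM {L : Type*} [Fintype L] : (r : ℕ) → (m : Fin r → ℝ) →
    (W : (L → Fin (r + 1) → unitInterval) → ℝ) → (u : L → Fin (r + 1) → unitInterval) →
    powerMeans m W u = PM r m W (fun ω => u ω 0)
  | 0, m, W, u => by
    unfold powerMeans PM
    simp only [List.finRange_zero, List.foldr_nil]
    congr 1
    funext ω j
    have : j = 0 := Subsingleton.elim (α := Fin 1) j 0
    rw [this]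
  | r + 1, m, W, u => by
    unfold powerMeans
    rw [List.finRange_succ, List.foldr_cons, List.foldr_map, PM_succ, pmStep_apply]
    congr 1
    refine integral_congr_ae (Filter.Eventually.of_forall (fun v => ?_))
    simp only
    have h := foldr_shift m W (List.finRange r)
      (fun ω j => if j = Fin.succ 0 then v ω else u ω j)
    have ih := powerMeans_eq_PM r (Fin.tail m) (consW W (fun ω => u ω 0))
      (fun ω => Fin.tail (fun j => if j = Fin.succ 0 then v ω else u ω j))
    have h0 : ∀ ω, (if (0 : Fin (r + 1 + 1)) = Fin.succ 0 then v ω else u ω 0) = u ω 0 := by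
      intro ω
      rw [if_neg (Fin.succ_ne_zero _).symm]
    simp only [h0] at h
    rw [h]
    unfold powerMeans at ih
    rw [ih]
    congr 2

/-- projection of the uniform arrays to level 0 -/
lemma mp_root (L : Type*) [Fintype L] (r : ℕ) :
    MeasurePreserving (fun (u : L → Fin (r + 1) → unitInterval) ω => u ω 0)
      (uniformArrays L r) (rootLaw L) :=
  measurePreserving_pi (fun _ : L => Measure.pi fun _ : Fin (r + 1) => (volume : Measure unitInterval))
    (fun _ => (volume : Measure unitInterval)) (f := fun _ x => x 0)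
    (fun _ => measurePreserving_eval (fun _ : Fin (r + 1) => (volume : Measure unitInterval)) 0)

lemma integral_log_powerMeans' {L : Type u} [Fintype L] {r : ℕ} (m : Fin r → ℝ)
    {W : (L → Fin (r + 1) → unitInterval) → ℝ} (hW : Measurable W) :
    ∫ u, Real.log (powerMeans m W u) ∂(uniformArrays L r)
      = ∫ u0, Real.log (PM r m W u0) ∂(rootLaw L) := by
  simp_rw [powerMeans_eq_PM]
  rw [← (mp_root L r).map_eq, integral_map (mp_root L r).measurable.aemeasurable
    (measurable_PM' r m hW).log.aestronglyMeasurable]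

/-! ## the laws in the interface -/

/-- law of the weights -/
noncomputable def WLaw {r : ℕ} (m : Fin r → ℝ) (K : Fin r → ℕ) : Measure (Leaf r K → ℝ) :=
  (NLaw r K).map (V r m K)

/-- law of the array of paths of one label -/
noncomputable def PathLaw {r : ℕ} (K : Fin r → ℕ) :
    Measure (Leaf r K → Fin (r + 1) → unitInterval) := PLaw r K

lemma measurable_V' (r : ℕ) (m : Fin r → ℝ) (K : Fin r → ℕ) : Measurable (V r m K) :=
  measurable_pi_iff.mpr (fun a => measurable_V r m K a)

instance instProbWLaw {r : ℕ} (m : Fin r → ℝ) (K : Fin r → ℕ) : IsProbabilityMeasure (WLaw m K) :=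
  Measure.isProbabilityMeasure_map (measurable_V' r m K).aemeasurable

instance instProbPathLaw {r : ℕ} (K : Fin r → ℕ) : IsProbabilityMeasure (PathLaw K) :=
  inferInstanceAs (IsProbabilityMeasure (PLaw r K))

lemma nonempty_Leaf {r : ℕ} {K : Fin r → ℕ} (hK : ∀ i, 0 < K i) : Nonempty (Leaf r K) :=
  ⟨leaf0 r K hK⟩

lemma ae_WLaw_pos {r : ℕ} (m : Fin r → ℝ) {K : Fin r → ℕ} (hK : ∀ i, 0 < K i) :
    ∀ᵐ v ∂(WLaw m K), ∀ a, 0 < v a := by
  rw [WLaw, ae_map_iff (measurable_V' r m K).aemeasurable]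
  · exact Filter.Eventually.of_forall (fun ξ a => V_pos r m K hK ξ a)
  · rw [show {v : Leaf r K → ℝ | ∀ a, 0 < v a} = ⋂ a, {v | 0 < v a} by ext; simp]
    exact MeasurableSet.iInter (fun a => measurableSet_lt measurable_const (measurable_pi_apply a))

lemma treeF_eq {L : Type u} [Fintype L] {r : ℕ} (m : Fin r → ℝ) (hm : AdmissibleExponents m)
    {W : (L → Fin (r + 1) → unitInterval) → ℝ} (hW : Measurable W) {c C : ℝ} (hc : 0 < c)
    (hcW : ∀ u, c ≤ W u) (hWC : ∀ u, W u ≤ C) (K : Fin r → ℕ) (hK : ∀ i, 0 < K i) :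
    treeF (WLaw m K) (PathLaw K) W = DD r m K W := by
  have hi := integrable_Zw_log (m := m) hW hc hcW hWC hm.1 hm.2 hK
  have hi1 := integrable_Zw_one_log (L := L) r m hm.1 hm.2 K hK
  unfold treeF DD II JL
  unfold JL at hi hi1
  have hmeas : Measurable (fun x : (Leaf r K → ℝ) × (L → Leaf r K → Fin (r + 1) → unitInterval) =>
      Real.log (∑ a, x.1 a * W (fun ω => x.2 ω a))) := by
    refine (Finset.measurable_sum _ (fun a _ => Measurable.mul ?_ ?_)).log
    · exact (measurable_pi_apply a).comp measurable_fst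
    · exact hW.comp (measurable_pi_iff.mpr fun ω => (measurable_pi_apply a).comp
        ((measurable_pi_apply ω).comp measurable_snd))
  have hmeas2 : Measurable (fun v : Leaf r K → ℝ =>
      (∫ y, Real.log (∑ a, v a * W (fun ω => y ω a)) ∂(Measure.pi fun _ : L => PathLaw K)) -
        Real.log (∑ a, v a)) := by
    refine Measurable.sub ?_ ?_
    · exact (hmeas.stronglyMeasurable.integral_prod_right'
        (ν := Measure.pi fun _ : L => PathLaw K)).measurable
    · exact (Finset.measurable_sum _ (fun a _ => measurable_pi_apply a)).log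
  unfold WLaw
  rw [integral_map (measurable_V' r m K).aemeasurable hmeas2.aestronglyMeasurable]
  have e1 : ∀ ξ : NT r K, ∀ y : L → Leaf r K → Fin (r + 1) → unitInterval,
      Real.log (∑ a, V r m K ξ a * W (fun ω => y ω a)) = Real.log (Zw r m K W (ξ, y)) :=
    fun _ _ => rfl
  simp_rw [e1]
  have e2 : ∀ ξ : NT r K, Real.log (∑ a, V r m K ξ a)
      = ∫ y, Real.log (Zw (L := L) r m K (fun _ => 1) (ξ, y)) ∂(Measure.pi fun _ : L => PLaw r K) := by
    intro ξ
    simp_rw [Zw_one]
    simp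
  simp_rw [e2]
  simp only [PathLaw]
  rw [integral_sub hi.integral_prod_left hi1.integral_prod_left, integral_prod _ hi,
    integral_prod _ hi1]

end Tree

open Crest.Agent.R141.Tree in
/-- U3: the tree limit. -/
theorem tree_limit {r : ℕ} (m : Fin r → ℝ) (hm : AdmissibleExponents m) {L : Type} [Fintype L]
    (W : (L → Fin (r + 1) → unitInterval) → ℝ) (hW : Measurable W) (c C : ℝ) (hc : 0 < c)
    (h1 : ∀ u, c ≤ W u) (h2 : ∀ u, W u ≤ C) :
    IterTendsto r (fun K => treeF (WLaw m K) (PathLaw K) W)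
      (∫ u, Real.log (powerMeans m W u) ∂(uniformArrays L r)) := by
  rw [integral_log_powerMeans' m hW]
  refine (iter_DD r m hm.1 hm.2 W hW c C hc h1 h2).congr (fun K hK => ?_)
  rw [treeF_eq m hm hW hc h1 h2 K hK]

end Crest.Agent.R141
end

-- ▼ part R141/Upper

/-!
R141, Part U: the upper bound `pressure ≤ trialFunctional`.
-/

set_option autoImplicit false

namespace Crest.Agent.R141

open MeasureTheory Filter Topology Crest.ProbabilityR.Diluted

theorem treeLimit {r : ℕ} (m : Fin r → ℝ) (hm : AdmissibleExponents m) : U.TreeLimit m :=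
  ⟨fun K => Tree.Leaf r K, fun _ => inferInstance, fun K => Tree.WLaw m K,
    fun K => Tree.PathLaw K,
    fun K hK => ⟨Tree.nonempty_Leaf hK, inferInstance, inferInstance, Tree.ae_WLaw_pos m hK⟩,
    fun _ _ W hW c C hc h1 h2 => tree_limit m hm W hW c C hc h1 h2⟩

/-- Part U for an interaction law with the key inequality (no parity needed). -/
theorem pressure_le_trial_of_KI (p : ℕ) (hp : 1 ≤ p) (α : ℝ) (hα : 0 ≤ α)
    (μ : Measure (Inter p)) [IsProbabilityMeasure μ] (ν : Measure ℝ) [IsProbabilityMeasure ν]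
    (hμ : Integrable (fun θ => supNorm θ) μ) (hν : Integrable (fun x : ℝ => x) ν)
    (hKI : KIProp p μ) (N : ℕ) (hN : 1 ≤ N) (r : ℕ) (m : Fin r → ℝ)
    (X : (Fin (r + 1) → unitInterval) → ℝ) (hm : AdmissibleExponents m) (hX : Measurable X) :
    pressure p α μ ν N ≤ trialFunctional p α μ ν r m X :=
  U.pressure_le_of_tree hμ ν hν hX hp hN hKI hα (fun d => (hm.2 d).1) (treeLimit m hm)

/-- **Part U** (Franz–Leone upper bound). -/
theorem pressure_le_trial (p : ℕ) (hp : Even p) (hp2 : 2 ≤ p) (α : ℝ) (hα : 0 < α)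
    (μ : Measure (Inter p)) [IsProbabilityMeasure μ] (ν : Measure ℝ) [IsProbabilityMeasure ν]
    (hμ : Integrable (fun θ => supNorm θ) μ) (hν : Integrable (fun x : ℝ => x) ν)
    (hfac : HasFactorization p μ) (N : ℕ) (hN : 1 ≤ N) (r : ℕ) (m : Fin r → ℝ)
    (X : (Fin (r + 1) → unitInterval) → ℝ) (hm : AdmissibleExponents m) (hX : Measurable X) :
    pressure p α μ ν N ≤ trialFunctional p α μ ν r m X :=
  pressure_le_trial_of_KI p (by omega) α hα.le μ ν hμ hν
    (kiProp_of_factorization hp (by omega) μ hμ hfac) N hN r m X hm hX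

theorem partU (p : ℕ) (hp : Even p) (hp2 : 2 ≤ p) (α : ℝ) (hα : 0 < α)
    (μ : Measure (Inter p)) [IsProbabilityMeasure μ] (ν : Measure ℝ) [IsProbabilityMeasure ν]
    (hμ : Integrable (fun θ => supNorm θ) μ) (hν : Integrable (fun x : ℝ => x) ν)
    (hfac : HasFactorization p μ) : PartU p α μ ν :=
  fun N hN r m X hm hX => pressure_le_trial p hp hp2 α hα μ ν hμ hν hfac N hN r m X hm hX

theorem partU_of_KI (p : ℕ) (hp : 1 ≤ p) (α : ℝ) (hα : 0 ≤ α)
    (μ : Measure (Inter p)) [IsProbabilityMeasure μ] (ν : Measure ℝ) [IsProbabilityMeasure ν]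
    (hμ : Integrable (fun θ => supNorm θ) μ) (hν : Integrable (fun x : ℝ => x) ν)
    (hKI : KIProp p μ) : PartU p α μ ν :=
  fun N hN r m X hm hX => pressure_le_trial_of_KI p hp α hα μ ν hμ hν hKI N hN r m X hm hX

end Crest.Agent.R141
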